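import Mathlib

/-!
# P097F.N: the approach to an obstacle (the time along chains which avoid a wedge)

`W j x` is the time, in steps, of the `j`-th state of the chain with the parameter `x`.
-/

set_option linter.all false

noncomputable section

namespace Vale.Agent.P097F.N

open Set Metric Complex

/-- a gauge of the distance to the wedge `d ≤ 0` -/
structure Wd (d : ℂ → ℝ) (l : ℝ) : Prop where
  lip : ∀ w w', d w ≤ d w' + 2 * ‖w - w'‖
  mono : ∀ w, d (w + 1) + 1 / 10 ≤ d w
  low : ∀ w, 0 < d w → l + d w ≤ 2 * ‖w‖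

/-- the left half plane -/
def dL (l : ℝ) (w : ℂ) : ℝ := -w.re - l

/-- the half plane under (`ς = 1`) or over (`ς = -1`) the obstacle -/
def dB (ς l : ℝ) (w : ℂ) : ℝ := -(ς * w.im) - l - (w.re + l) / 10

/-- the union of the two half planes -/
def dW (ς l : ℝ) (w : ℂ) : ℝ := max (dL l w) (dB ς l w)

theorem wd_dW {ς l : ℝ} (hς : |ς| = 1) (hl : 0 ≤ l) : Wd (dW ς l) l := by
  have a : ∀ w : ℂ, |ς * w.im| ≤ ‖w‖ := fun w => by
    rw [abs_mul, hς, one_mul]; exact abs_im_le_norm w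
  refine ⟨fun w w' => ?_, fun w => ?_, fun w h => ?_⟩
  · have h1 := abs_le.1 (abs_re_le_norm (w - w'))
    have h2 := abs_le.1 (a (w - w'))
    have h3 := norm_nonneg (w - w')
    rw [sub_re] at h1
    rw [sub_im, mul_sub] at h2
    have m1 := le_max_left (dL l w') (dB ς l w')
    have m2 := le_max_right (dL l w') (dB ς l w')
    unfold dW
    refine max_le ?_ ?_
    · unfold dL at m1 ⊢; linarith
    · unfold dB at m2 ⊢; linarith
  · have m1 := le_max_left (dL l w) (dB ς l w)
    have m2 := le_max_right (dL l w) (dB ς l w)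
    unfold dW
    rw [← max_add_add_right]
    refine max_le ?_ ?_
    · unfold dL at m1 ⊢; rw [add_re, one_re]; linarith
    · unfold dB at m2 ⊢; rw [add_re, one_re, add_im, one_im, add_zero]; linarith
  · have h1 := abs_le.1 (abs_re_le_norm w)
    have h2 := abs_le.1 (a w)
    have h3 := norm_nonneg w
    unfold dW
    rw [← max_add_add_left]
    refine max_le ?_ ?_
    · unfold dL; linarith
    · unfold dB; linarith

variable {P : Type*} [NormedAddCommGroup P] [NormedSpace ℂ P]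

/-- the chain avoids the wedge up to the index `j` -/
def In (d : ℂ → ℝ) (W : ℕ → P → ℂ) (j : ℕ) (x : P) : Prop := ∀ i ≤ j, 0 < d (W i x)

/-- the loss at the distance of `k` steps -/
def trm (C β l R : ℝ) (k : ℕ) : ℝ := 2 * (80 * C / (40 * l + k) + β) * (320 / k + 1 / R)

/-- the data of an approach -/
structure Cf (d : ℂ → ℝ) (l : ℝ) (W : ℕ → P → ℂ) (lam : P →L[ℂ] ℂ) (B : Set P) (N : ℕ)
    (C β β₀ β₁ R : ℝ) : Prop where
  wd : Wd d l
  l0 : 0 < l
  C0 : 0 ≤ C
  b0 : 0 ≤ β
  R0 : 0 < R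
  sm : 2 * C / l + β ≤ 1 / 40
  la : ‖lam‖ ≤ 2
  b1 : β₁ ≤ 1 / 12
  sum : β₀ + ∑ k ∈ Finset.range N, trm C β l R (k + 1) ≤ β₁
  zero : ∀ x ∈ B, DifferentiableAt ℂ (W 0) x
  lin : ∀ x ∈ B, ∀ x' ∈ B, ‖W 0 x - W 0 x' - lam (x - x')‖ ≤ β₀ * ‖x - x'‖
  step : ∀ j < N, ∀ x ∈ B, In d W j x → DifferentiableAt ℂ (W (j + 1)) x ∧
    ‖W (j + 1) x - W j x - 1‖ ≤ 2 * C / (l + d (W j x)) + β

lemma Wd.div_le {d : ℂ → ℝ} {l C : ℝ} (h : Wd d l) (l0 : 0 < l) (C0 : 0 ≤ C) {w : ℂ}
    (hw : 0 < d w) : C / ‖w‖ ≤ 2 * C / (l + d w) := by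
  have h1 := h.low _ hw
  rw [div_le_div_iff₀ (by linarith) (by linarith)]
  nlinarith

theorem wd_dL {l : ℝ} : Wd (dL l) l := by
  refine ⟨fun w w' => ?_, fun w => ?_, fun w h => ?_⟩
  · have h1 := abs_le.1 (abs_re_le_norm (w - w'))
    have h3 := norm_nonneg (w - w')
    rw [sub_re] at h1
    unfold dL
    linarith
  · unfold dL
    rw [add_re, one_re]
    linarith
  · have h1 := abs_le.1 (abs_re_le_norm w)
    have h3 := norm_nonneg w
    unfold dL
    linarith

lemma In.mono {d : ℂ → ℝ} {W : ℕ → P → ℂ} {i j : ℕ} {x : P} (h : In d W j x) (e : i ≤ j) :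
    In d W i x := fun k hk => h k (hk.trans e)

namespace Cf

variable {d : ℂ → ℝ} {l : ℝ} {W : ℕ → P → ℂ} {lam : P →L[ℂ] ℂ} {B : Set P} {N : ℕ}
  {C β β₀ β₁ R : ℝ} (H : Cf d l W lam B N C β β₀ β₁ R)
include H

lemma trm_nn (k : ℕ) : 0 ≤ trm C β l R k := by
  have := H.l0; have := H.C0; have := H.b0; have := H.R0
  unfold trm
  positivity

lemma diff {j : ℕ} (hj : j ≤ N) {x : P} (hx : x ∈ B) (h : In d W j x) :
    DifferentiableAt ℂ (W j) x := by
  cases j with
  | zero => exact H.zero x hx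
  | succ i => exact (H.step i hj x hx (h.mono (Nat.le_succ i))).1

lemma err {j : ℕ} (hj : j < N) {x : P} (hx : x ∈ B) (h : In d W j x) {a : ℝ} (a0 : 0 ≤ a)
    (ha : a ≤ d (W j x)) : ‖W (j + 1) x - W j x - 1‖ ≤ 2 * C / (l + a) + β := by
  refine (H.step j hj x hx h).2.trans (add_le_add_left ?_ _)
  have := H.l0
  have := H.C0
  gcongr

lemma err0 {j : ℕ} (hj : j < N) {x : P} (hx : x ∈ B) (h : In d W j x) :
    ‖W (j + 1) x - W j x - 1‖ ≤ 2 * C / l + β := by
  simpa using H.err hj hx h le_rfl (h j le_rfl).le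

/-- the distance to the wedge grows backwards -/
lemma back {x : P} (hx : x ∈ B) (i k : ℕ) (hj : i + k ≤ N) (h : In d W (i + k) x) :
    d (W (i + k) x) + k / 20 ≤ d (W i x) := by
  induction k with
  | zero => simp
  | succ k ih =>
    have h1 := ih (by omega) (h.mono (by omega))
    have h2 := (H.err0 (j := i + k) (by omega) hx (h.mono (by omega))).trans H.sm
    have h3 := H.wd.lip (W (i + k + 1) x) (W (i + k) x + 1)
    have h4 := H.wd.mono (W (i + k) x)
    rw [← sub_sub] at h3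
    push_cast
    rw [← add_assoc]
    linarith

/-- the crude estimate -/
lemma crude {x : P} (hx : x ∈ B) (j : ℕ) (hj : j ≤ N) (h : ∀ i < j, In d W i x) :
    ‖W j x - W 0 x - j‖ ≤ (2 * C / l + β) * j := by
  induction j with
  | zero => simp
  | succ j ih =>
    have h1 := ih (by omega) fun i hi => h i (by omega)
    have h2 := H.err0 (j := j) hj hx (h j (by omega))
    have e : W (j + 1) x - W 0 x - ((j + 1 : ℕ) : ℂ) =
        (W (j + 1) x - W j x - 1) + (W j x - W 0 x - j) := by push_cast; ring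
    rw [e]
    refine (norm_add_le _ _).trans ?_
    push_cast
    linarith

/-- the crude estimate between two indices -/
lemma crude2 {x : P} (hx : x ∈ B) (i k : ℕ) (hj : i + k ≤ N) (h : In d W (i + k) x) :
    ‖W (i + k) x - W i x - k‖ ≤ (2 * C / l + β) * k := by
  induction k with
  | zero => simp
  | succ k ih =>
    have h1 := ih (by omega) (h.mono (by omega))
    have h2 := H.err0 (j := i + k) (by omega) hx (h.mono (by omega))
    have e : W (i + (k + 1)) x - W i x - ((k + 1 : ℕ) : ℂ) =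
        (W (i + k + 1) x - W (i + k) x - 1) + (W (i + k) x - W i x - k) := by
      rw [← add_assoc]; push_cast; ring
    rw [e]
    refine (norm_add_le _ _).trans ?_
    push_cast
    linarith

/-- **LOC**: a chain which avoids the wedge has a ball of such chains around it -/
theorem loc {x₀ : P} (hB : ball x₀ R ⊆ B) (j : ℕ) (hj : j ≤ N) (h₀ : In d W j x₀) :
    ∀ x ∈ ball x₀ (min (d (W j x₀) / 16) R), In d W j x ∧
      ‖W j x - W j x₀ - lam (x - x₀)‖ ≤ β₁ * ‖x - x₀‖ := by
  have x0 : x₀ ∈ B := hB (mem_ball_self H.R0)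
  have l0 := H.l0
  have R0 := H.R0
  have C0 := H.C0
  have b0 := H.b0
  have key : ∀ (i : ℕ) (x : P), x ∈ ball x₀ (min (d (W i x₀) / 16) R) →
      ‖W i x - W i x₀ - lam (x - x₀)‖ ≤ β₁ * ‖x - x₀‖ → d (W i x₀) / 2 ≤ d (W i x) := by
    intro i x hx h
    have h1 := H.wd.lip (W i x₀) (W i x)
    have h2 : ‖x - x₀‖ < d (W i x₀) / 16 := (mem_ball_iff_norm.1 hx).trans_le (min_le_left _ _)
    have h3 : ‖lam (x - x₀)‖ ≤ 2 * ‖x - x₀‖ :=
      (lam.le_opNorm _).trans (mul_le_mul_of_nonneg_right H.la (norm_nonneg _))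
    have h4 := norm_le_norm_sub_add (W i x - W i x₀) (lam (x - x₀))
    have h5 : β₁ * ‖x - x₀‖ ≤ 1 / 12 * ‖x - x₀‖ := mul_le_mul_of_nonneg_right H.b1 (norm_nonneg _)
    rw [norm_sub_rev] at h1
    have := norm_nonneg (x - x₀)
    linarith
  induction j using Nat.strong_induction_on with
  | _ j ih =>
    intro x hx
    have xR : x ∈ ball x₀ R := ball_subset_ball (min_le_right _ _) hx
    have dm : ∀ i < j, d (W j x₀) + ((j - i : ℕ) : ℝ) / 20 ≤ d (W i x₀) := by
      intro i hi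
      have := H.back x0 i (j - i) (by omega) (by rwa [Nat.add_sub_cancel' hi.le])
      rwa [Nat.add_sub_cancel' hi.le] at this
    have dj := h₀ j le_rfl
    have sub : ∀ i < j, x ∈ ball x₀ (min (d (W i x₀) / 16) R) := by
      intro i hi
      refine ball_subset_ball (min_le_min_right _ ?_) hx
      have := dm i hi
      have : (0 : ℝ) ≤ ((j - i : ℕ) : ℝ) / 20 := by positivity
      linarith
    have each : ∀ i < j, ‖(W (i + 1) x - W i x - 1) - (W (i + 1) x₀ - W i x₀ - 1)‖ ≤
        trm C β l R (j - i) * ‖x - x₀‖ := by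
      intro i hi
      have I := ih i hi (by omega) (h₀.mono hi.le)
      have k1 : (1 : ℝ) ≤ ((j - i : ℕ) : ℝ) := by exact_mod_cast (by omega : 1 ≤ j - i)
      obtain ⟨k, hk⟩ : ∃ k : ℝ, k = ((j - i : ℕ) : ℝ) := ⟨_, rfl⟩
      have dk : k / 20 ≤ d (W i x₀) := by have := dm i hi; rw [← hk] at this; linarith
      rw [← hk] at k1
      have bd : ∀ y ∈ ball x₀ (min (d (W i x₀) / 16) R),
          ‖W (i + 1) y - W i y - 1‖ ≤ 80 * C / (40 * l + k) + β := by
        intro y hy
        have h1 := H.err (j := i) (by omega) (hB (ball_subset_ball (min_le_right _ _) hy))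
          (I y hy).1 (a := k / 40) (by positivity) (by linarith [key i y hy (I y hy).2])
        refine h1.trans_eq ?_
        congr 1
        field_simp
        ring
      have r0 : 0 < min (d (W i x₀) / 16) R := lt_min (by linarith) R0
      have S := Complex.dist_le_div_mul_dist_of_mapsTo_ball
        (f := fun y => W (i + 1) y - W i y - 1) (c := x₀) (R₁ := min (d (W i x₀) / 16) R)
        (R₂ := 2 * (80 * C / (40 * l + k) + β))
        (fun y hy => by
          have yB := hB (ball_subset_ball (min_le_right _ _) hy)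
          exact (((H.step i (by omega) y yB (I y hy).1).1.sub
            (H.diff (by omega) yB (I y hy).1)).sub_const 1).differentiableWithinAt)
        (fun y hy => by
          rw [mem_closedBall, dist_eq_norm]
          refine (norm_sub_le _ _).trans ?_
          linarith [bd y hy, bd x₀ (mem_ball_self r0)])
        (sub i hi)
      rw [dist_eq_norm, dist_eq_norm] at S
      refine S.trans (mul_le_mul_of_nonneg_right ?_ (norm_nonneg _))
      unfold trm
      rw [← hk, div_eq_mul_one_div]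
      refine mul_le_mul_of_nonneg_left ?_ (by positivity)
      have e1 : 0 < 320 / k := by positivity
      have e2 : 0 < 1 / R := by positivity
      rcases min_choice (d (W i x₀) / 16) R with e | e
      · rw [e]
        have : 1 / (d (W i x₀) / 16) ≤ 320 / k := by
          rw [div_le_div_iff₀ (by linarith) (by linarith)]
          linarith
        linarith
      · rw [e]
        linarith
    have tel : W j x - W j x₀ - lam (x - x₀) = (W 0 x - W 0 x₀ - lam (x - x₀)) +
        ∑ i ∈ Finset.range j, ((W (i + 1) x - W i x - 1) - (W (i + 1) x₀ - W i x₀ - 1)) := by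
      have e : ∀ i, (W (i + 1) x - W i x - 1) - (W (i + 1) x₀ - W i x₀ - 1) =
          (W (i + 1) x - W (i + 1) x₀) - (W i x - W i x₀) := fun i => by ring
      simp only [e]
      rw [Finset.sum_range_sub (fun i => W i x - W i x₀)]
      ring
    have est : ‖W j x - W j x₀ - lam (x - x₀)‖ ≤ β₁ * ‖x - x₀‖ := by
      rw [tel]
      refine (norm_add_le _ _).trans ?_
      have s1 := (norm_sum_le _ _).trans (Finset.sum_le_sum fun i hi =>
        each i (Finset.mem_range.1 hi))
      rw [← Finset.sum_mul] at s1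
      have s2 : ∑ i ∈ Finset.range j, trm C β l R (j - i) ≤
          ∑ k ∈ Finset.range N, trm C β l R (k + 1) := by
        calc _ = ∑ i ∈ Finset.range j, trm C β l R (j - 1 - i + 1) :=
              Finset.sum_congr rfl fun i hi => by
                have := Finset.mem_range.1 hi
                congr 1
                omega
          _ = ∑ k ∈ Finset.range j, trm C β l R (k + 1) :=
              Finset.sum_range_reflect (fun k => trm C β l R (k + 1)) j
          _ ≤ _ := Finset.sum_le_sum_of_subset_of_nonneg (Finset.range_mono hj)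
              fun k _ _ => H.trm_nn _
      have s3 := H.lin x (hB xR) x₀ x0
      have s4 := mul_le_mul_of_nonneg_right s2 (norm_nonneg (x - x₀))
      have s5 := mul_le_mul_of_nonneg_right H.sum (norm_nonneg (x - x₀))
      rw [add_mul] at s5
      linarith
    refine ⟨fun i hi => ?_, est⟩
    rcases hi.lt_or_eq with hi | hi
    · exact (ih i hi (by omega) (h₀.mono hi.le) x (sub i hi)).1 i le_rfl
    · rw [hi]
      linarith [key j x hx est]

lemma b1nn : 0 ≤ β₁ ∨ ∀ x ∈ B, ∀ x' ∈ B, x = x' := by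
  by_contra hc
  rw [not_or, not_le] at hc
  refine hc.2 fun x hx x' hx' => ?_
  have h1 := (norm_nonneg _).trans (H.lin x hx x' hx')
  have h2 : 0 ≤ ∑ k ∈ Finset.range N, trm C β l R (k + 1) :=
    Finset.sum_nonneg fun k _ => H.trm_nn _
  have h3 := H.sum
  have h4 : ‖x - x'‖ ≤ 0 := by
    by_contra h5
    rw [not_le] at h5
    nlinarith
  exact sub_eq_zero.1 (norm_le_zero_iff.1 h4)

/-- **COVER**: from one chain to all chains along a segment whose predicted end avoids the
wedge -/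
theorem cover {x₁ e : P} {δ : ℝ} (hδ : 0 < δ) {j : ℕ} (hj : j ≤ N) (h₁ : In d W j x₁)
    (hB : ∀ s ∈ Icc (0 : ℝ) 1, ball (x₁ + s • e) R ⊆ B)
    (hd : ∀ s ∈ Icc (0 : ℝ) 1, δ + 2 * (β₁ * (s * ‖e‖)) ≤ d (W j x₁ + s * lam e)) :
    In d W j (x₁ + e) ∧ ‖W j (x₁ + e) - W j x₁ - lam e‖ ≤ β₁ * ‖e‖ := by
  have R0 := H.R0
  obtain ⟨h, hh⟩ : ∃ h : ℝ, h = min (δ / 16) R / (2 * (‖e‖ + 1)) := ⟨_, rfl⟩
  have m0 : 0 < min (δ / 16) R := lt_min (by linarith) R0
  have n0 := norm_nonneg e
  have h0 : 0 < h := by rw [hh]; positivity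
  have he : h * ‖e‖ < min (δ / 16) R := by
    rw [hh, div_mul_eq_mul_div, div_lt_iff₀ (by positivity)]
    nlinarith
  have main : ∀ n : ℕ, ∀ s ∈ Icc (0 : ℝ) 1, s ≤ n * h → In d W j (x₁ + s • e) ∧
      ‖W j (x₁ + s • e) - W j x₁ - s * lam e‖ ≤ β₁ * (s * ‖e‖) := by
    intro n
    induction n with
    | zero =>
      intro s hs h1
      have : s = 0 := le_antisymm (by simpa using h1) hs.1
      subst this
      simpa using h₁
    | succ n ih =>
      intro s hs h1
      obtain ⟨t, ht⟩ : ∃ t : ℝ, t = max 0 (s - h) := ⟨_, rfl⟩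
      have t0 : 0 ≤ t := ht ▸ le_max_left _ _
      have t1 : s - h ≤ t := ht ▸ le_max_right _ _
      have t2 : t ≤ s := ht ▸ max_le hs.1 (by linarith)
      have t3 : t ≤ n * h := by
        rw [ht]
        refine max_le (by positivity) ?_
        push_cast at h1
        linarith
      have tI : t ∈ Icc (0 : ℝ) 1 := ⟨t0, t2.trans hs.2⟩
      obtain ⟨a1, a2⟩ := ih t tI t3
      have a3 : δ ≤ d (W j (x₁ + t • e)) := by
        have b1 := H.wd.lip (W j x₁ + t * lam e) (W j (x₁ + t • e))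
        rw [norm_sub_rev, ← sub_sub] at b1
        linarith [hd t tI]
      have e1 : x₁ + s • e - (x₁ + t • e) = (s - t) • e := by rw [sub_smul]; abel
      have e2 : ‖(s - t) • e‖ = (s - t) * ‖e‖ := by
        rw [norm_smul, Real.norm_of_nonneg (by linarith)]
      obtain ⟨c1, c2⟩ := H.loc (hB t tI) j hj a1 (x₁ + s • e) (by
        rw [mem_ball_iff_norm, e1, e2]
        refine lt_of_le_of_lt ?_ (he.trans_le (min_le_min_right _ (by linarith)))
        exact mul_le_mul_of_nonneg_right (by linarith) n0)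
      refine ⟨c1, ?_⟩
      rw [e1, e2, lam.map_smul_of_tower, real_smul] at c2
      have e3 : W j (x₁ + s • e) - W j x₁ - s * lam e =
          (W j (x₁ + s • e) - W j (x₁ + t • e) - ((s - t : ℝ) : ℂ) * lam e) +
          (W j (x₁ + t • e) - W j x₁ - t * lam e) := by push_cast; ring
      rw [e3]
      refine (norm_add_le _ _).trans ?_
      linarith
  obtain ⟨n, hn⟩ := exists_nat_ge (1 / h)
  have := main n 1 ⟨zero_le_one, le_rfl⟩ (by rwa [div_le_iff₀ h0] at hn)
  simpa using this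

/-- a chain which is predicted to end far on the left avoids the wedge -/
theorem start {x : P} (hx : x ∈ B) (hL : ∀ w, dL l w ≤ d w) {j : ℕ} (hj : j ≤ N)
    (h : (W 0 x).re + j + (2 * C / l + β) * j < -l) : In d W j x := by
  have s0 : 0 ≤ 2 * C / l + β := by
    have := H.l0; have := H.C0; have := H.b0; positivity
  have main : ∀ n ≤ j, In d W n x := by
    intro n
    induction n using Nat.strong_induction_on with
    | _ n ih =>
      intro hn i hi
      have h1 := H.crude hx i (by omega) fun k hk => ih k (by omega) (by omega)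
      have h2 := (abs_le.1 ((abs_re_le_norm _).trans h1)).2
      rw [sub_re, sub_re, natCast_re] at h2
      have h3 : (i : ℝ) ≤ j := by exact_mod_cast hi.trans hn
      refine lt_of_lt_of_le ?_ (hL _)
      unfold dL
      nlinarith
  exact main j le_rfl

/-- **ANCHOR**: a chain which ends near a given point `a` on the left of the wedge -/
theorem anchor {x₀ e : P} {a : ℂ} {ρ : ℝ} (hL : ∀ w, dL l w ≤ d w) (he : lam e = 1)
    (he1 : ‖e‖ ≤ 1) (ha : 0 < dL l a) {j : ℕ} (hj : j ≤ N) (hρ : 0 < ρ) (h₀ : In d W j x₀)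
    (h₁ : ‖W j x₀ - (a - ρ)‖ ≤ ρ / 10)
    (hB : ∀ c : ℂ, ‖c‖ ≤ 2 * ρ → ball (x₀ + c • e) R ⊆ B) :
    ∃ c : ℂ, ‖c‖ ≤ 2 * ρ ∧ In d W j (x₀ + c • e) ∧ ‖W j (x₀ + c • e) - a‖ ≤ 1 := by
  have b0 : 0 ≤ β₁ ∨ ‖e‖ = 0 := by
    rcases H.b1nn with h | h
    · exact Or.inl h
    · right
      have R0 := H.R0
      have h1 := h _ (hB ρ (by rw [norm_real, Real.norm_of_nonneg hρ.le]; linarith)
        (mem_ball_self R0)) _ (hB 0 (by rw [norm_zero]; linarith) (mem_ball_self R0))
      rw [add_right_inj, zero_smul, smul_eq_zero] at h1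
      rcases h1 with h1 | h1
      · exact absurd (ofReal_eq_zero.1 h1) hρ.ne'
      · rw [h1, norm_zero]
  have b2 : ∀ t : ℝ, 0 ≤ t → β₁ * (t * ‖e‖) ≤ t / 12 := by
    intro t ht
    have := H.b1
    rcases b0 with h | h
    · have : t * ‖e‖ ≤ t := mul_le_of_le_one_right ht he1
      nlinarith [mul_nonneg ht (norm_nonneg e)]
    · rw [h]; simp; linarith
  have main : ∀ n : ℕ, ∃ c : ℂ, ‖c‖ ≤ 2 * (ρ - ρ / 2 ^ n) ∧ In d W j (x₀ + c • e) ∧
      ‖W j (x₀ + c • e) - (a - (ρ / 2 ^ n : ℝ))‖ ≤ ρ / 2 ^ n / 10 := by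
    intro n
    induction n with
    | zero => exact ⟨0, by simp, by simpa using h₀, by simpa using h₁⟩
    | succ n ih =>
      obtain ⟨c, c1, c2, c3⟩ := ih
      obtain ⟨r, hr⟩ : ∃ r : ℝ, r = ρ / 2 ^ n := ⟨_, rfl⟩
      have r0 : 0 < r := by rw [hr]; positivity
      have r1 : ρ / 2 ^ (n + 1) = r / 2 := by rw [hr, pow_succ]; field_simp
      rw [← hr] at c1 c3
      rw [r1]
      obtain ⟨u, hu⟩ : ∃ u : ℂ, u = a - (r / 2 : ℝ) - W j (x₀ + c • e) := ⟨_, rfl⟩
      obtain ⟨z, hz⟩ : ∃ z : ℂ, z = W j (x₀ + c • e) - (a - r) := ⟨_, rfl⟩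
      have uz : u = (r / 2 : ℝ) - z := by rw [hu, hz]; push_cast; ring
      rw [← hz] at c3
      have u1 : ‖u‖ ≤ 3 / 5 * r := by
        rw [uz]
        refine (norm_sub_le _ _).trans ?_
        rw [norm_real, Real.norm_of_nonneg (by linarith)]
        linarith
      have lu : lam (u • e) = u := by rw [map_smul, he, smul_eq_mul, mul_one]
      have nu : ‖u • e‖ = ‖u‖ * ‖e‖ := norm_smul _ _
      have un := norm_nonneg u
      obtain ⟨k1, k2⟩ := H.cover (x₁ := x₀ + c • e) (e := u • e) (δ := dL l a) ha hj c2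
        (fun s hs => by
          have e1 : x₀ + c • e + s • u • e = x₀ + (c + s * u) • e := by
            rw [add_smul, mul_smul, add_assoc, coe_smul]
          rw [e1]
          refine hB _ ((norm_add_le _ _).trans ?_)
          rw [norm_mul, norm_real, Real.norm_of_nonneg hs.1]
          have := mul_le_of_le_one_left un hs.2
          linarith)
        (fun s hs => by
          refine le_trans ?_ (hL _)
          have e1 : W j (x₀ + c • e) + s * lam (u • e) =
              a - r + s * (r / 2 : ℝ) + (1 - s : ℝ) * z := by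
            rw [lu, uz, hz]; push_cast; ring
          have e2 := (abs_le.1 ((abs_re_le_norm z).trans c3)).2
          have e3 := b2 (s * ‖u‖) (mul_nonneg hs.1 un)
          have e4 := mul_le_of_le_one_left un hs.2
          rw [nu, ← mul_assoc s, e1]
          unfold dL
          simp only [add_re, sub_re, ofReal_re, re_ofReal_mul]
          have e5 : (1 - s) * z.re ≤ r / 10 := by nlinarith [hs.1, hs.2]
          have e6 : s * (r / 2) ≤ r / 2 := mul_le_of_le_one_left (by linarith) hs.2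
          linarith)
      have e1 : x₀ + c • e + u • e = x₀ + (c + u) • e := by rw [add_smul, add_assoc]
      rw [e1] at k1 k2
      refine ⟨c + u, (norm_add_le _ _).trans (by linarith), k1, ?_⟩
      rw [lu, nu] at k2
      have e2 : W j (x₀ + (c + u) • e) - (a - (r / 2 : ℝ)) =
          W j (x₀ + (c + u) • e) - W j (x₀ + c • e) - u := by rw [hu]; ring
      rw [e2]
      linarith [b2 ‖u‖ un]
  obtain ⟨n, hn⟩ := pow_unbounded_of_one_lt (2 * ρ) (one_lt_two (α := ℝ))
  obtain ⟨c, c1, c2, c3⟩ := main n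
  have r0 : 0 < ρ / 2 ^ n := by positivity
  have r1 : ρ / 2 ^ n ≤ 1 / 2 := by rw [div_le_iff₀ (by positivity)]; linarith
  refine ⟨c, by linarith, c2, ?_⟩
  have e : W j (x₀ + c • e) - a =
      (W j (x₀ + c • e) - (a - (ρ / 2 ^ n : ℝ))) - (ρ / 2 ^ n : ℝ) := by ring
  rw [e]
  refine (norm_sub_le _ _).trans ?_
  rw [norm_real, Real.norm_of_nonneg r0.le]
  linarith

end Cf

/-- **WALK**: with vertical corrections only, a chain which ends near `-m` -/
theorem walk {l : ℝ} {W : ℕ → P → ℂ} {lam : P →L[ℂ] ℂ} {B : Set P} {N : ℕ} {C β β₀ β₁ R : ℝ}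
    (H : Cf (dL l) l W lam B N C β β₀ β₁ R) (b0 : 0 ≤ β₁) {x₀ e : P} {m y₀ : ℝ} (he : lam e = 1)
    (he1 : ‖e‖ ≤ 1) (hm : l + 3 ≤ m) (h1 : |(W 0 x₀).im| ≤ y₀) (h2 : (W 0 x₀).re ≤ -m - 3 * y₀)
    (h3 : -m < (W 0 x₀).re + N - y₀ - 2 * (2 * C / l + β) * N)
    (hB : ∀ y : ℝ, |y| ≤ 2 * y₀ + 2 * (2 * C / l + β) * N → ball (x₀ + (y * I) • e) R ⊆ B) :
    ∃ (j : ℕ) (y : ℝ), j ≤ N ∧ |y| ≤ 2 * y₀ + 2 * (2 * C / l + β) * N ∧
      In (dL l) W j (x₀ + (y * I) • e) ∧ ‖W j (x₀ + (y * I) • e) + m‖ ≤ 4 := by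
  obtain ⟨ρ, hρ⟩ : ∃ ρ, ρ = 2 * C / l + β := ⟨_, rfl⟩
  have ρ0 : 0 ≤ ρ := by
    have := H.l0; have := H.C0; have := H.b0; rw [hρ]; positivity
  have ρ1 : ρ ≤ 1 / 40 := hρ ▸ H.sm
  rw [← hρ] at h3 hB ⊢
  have y0 : 0 ≤ y₀ := (abs_nonneg _).trans h1
  let Q : ℕ → ℝ → Prop := fun j y => In (dL l) W j (x₀ + (y * I) • e) ∧
    |y| + 2 * |(W j (x₀ + (y * I) • e)).im| ≤ 2 * y₀ + 2 * ρ * j ∧
    |(W j (x₀ + (y * I) • e)).im| ≤ y₀ / (j + 1) + ρ ∧
    |(W j (x₀ + (y * I) • e)).re - (W 0 x₀).re - j| + |(W j (x₀ + (y * I) • e)).im| ≤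
      y₀ + 2 * ρ * j
  let V : ℕ → ℝ → ℝ := fun j y =>
    (W j (x₀ + (y * I) • e)).re + |(W j (x₀ + (y * I) • e)).im|
  have step : ∀ j < N, ∀ y, Q j y → V j y ≤ -m → ∃ y', Q (j + 1) y' ∧ V (j + 1) y' ≤ -m + 2 := by
    intro j hj y ⟨q1, q2, q3, q4⟩ hv
    have jN : (j : ℝ) + 1 ≤ N := by exact_mod_cast hj
    obtain ⟨x, hx⟩ : ∃ x, x = x₀ + (y * I) • e := ⟨_, rfl⟩
    have hv' : (W j x).re + |(W j x).im| ≤ -m := by rw [hx]; exact hv
    rw [← hx] at q1 q2 q3 q4
    have a0 := abs_nonneg (W j x).im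
    have xB : x ∈ B := hx ▸ hB y (by nlinarith) (mem_ball_self H.R0)
    have e1 := H.err0 hj xB q1
    rw [← hρ] at e1
    have e2 := abs_le.1 ((abs_re_le_norm _).trans e1)
    have e3 := (abs_im_le_norm _).trans e1
    simp only [sub_re, one_re, sub_im, one_im, sub_zero] at e2 e3
    obtain ⟨u, hu⟩ : ∃ u : ℝ, u = (W (j + 1) x).im := ⟨_, rfl⟩
    rw [← hu] at e3
    have u1 : |u| ≤ |(W j x).im| + ρ := by linarith [abs_sub_abs_le_abs_sub u (W j x).im]
    have u0 := abs_nonneg u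
    have i1 : In (dL l) W (j + 1) x := fun i hi => by
      rcases hi.lt_or_eq with h | h
      · exact q1 i (by omega)
      · rw [h]; unfold dL; linarith
    have nu : ‖((-u : ℝ) * I) • e‖ ≤ |u| := by
      rw [norm_smul, norm_mul, norm_I, mul_one, norm_real, Real.norm_eq_abs, abs_neg]
      exact mul_le_of_le_one_right u0 he1
    have n0 := norm_nonneg (((-u : ℝ) * I) • e)
    have lu : lam (((-u : ℝ) * I) • e) = (-u : ℝ) * I := by
      rw [map_smul, he, smul_eq_mul, mul_one]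
    have b1 := H.b1
    obtain ⟨k1, k2⟩ := H.cover (x₁ := x) (e := ((-u : ℝ) * I) • e) (δ := 1) one_pos hj i1
      (fun s hs => by
        have e4 : x + s • ((-u : ℝ) * I) • e = x₀ + (((y - s * u : ℝ) : ℂ) * I) • e := by
          rw [hx, add_assoc, ← coe_smul, smul_smul, ← add_smul]
          congr 2
          push_cast
          ring
        rw [e4]
        refine hB _ ((abs_sub _ _).trans ?_)
        rw [abs_mul, abs_of_nonneg hs.1]
        have := mul_le_of_le_one_left u0 hs.2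
        nlinarith)
      (fun s hs => by
        have e5 : s * ‖((-u : ℝ) * I) • e‖ ≤ |u| := (mul_le_of_le_one_left n0 hs.2).trans nu
        have e6 : β₁ * (s * ‖((-u : ℝ) * I) • e‖) ≤ 1 / 12 * |u| :=
          mul_le_mul b1 e5 (mul_nonneg hs.1 n0) (by norm_num)
        rw [lu]
        unfold dL
        simp only [add_re, mul_re, ofReal_re, ofReal_im, I_re, I_im, mul_im]
        linarith)
    have e4 : x + ((-u : ℝ) * I) • e = x₀ + (((y - u : ℝ) : ℂ) * I) • e := by
      rw [hx, add_assoc, ← add_smul]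
      congr 2
      push_cast
      ring
    rw [e4] at k1 k2
    rw [lu] at k2
    have k3 := k2.trans (mul_le_mul b1 nu n0 (by norm_num))
    have k4 := abs_le.1 ((abs_re_le_norm _).trans k3)
    have k5 := (abs_im_le_norm _).trans k3
    simp only [sub_re, mul_re, ofReal_re, ofReal_im, I_re, I_im, sub_im, mul_im, ← hu] at k4 k5
    obtain ⟨w, hw⟩ : ∃ w, w = W (j + 1) (x₀ + (((y - u : ℝ) : ℂ) * I) • e) := ⟨_, rfl⟩
    rw [← hw] at k4 k5
    have k6 : |w.im| ≤ 1 / 12 * |u| := by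
      refine le_trans (le_of_eq ?_) k5
      congr 1
      ring
    refine ⟨y - u, ⟨k1, ?_, ?_, ?_⟩, ?_⟩
    · rw [← hw]
      push_cast
      linarith [abs_sub y u]
    · rw [← hw]
      push_cast
      have j0 : (0 : ℝ) ≤ j := Nat.cast_nonneg j
      have : y₀ / (j + 1) ≤ 12 * (y₀ / (j + 1 + 1)) := by
        rw [← mul_div_assoc, div_le_div_iff₀ (by linarith) (by linarith)]
        nlinarith
      linarith
    · rw [← hw]
      push_cast
      have r1 := le_abs_self ((W j x).re - (W 0 x₀).re - j)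
      have r2 := neg_abs_le ((W j x).re - (W 0 x₀).re - j)
      have : |w.re - (W 0 x₀).re - (j + 1)| ≤ |(W j x).re - (W 0 x₀).re - j| + ρ + 1 / 12 * |u| :=
        abs_le.2 ⟨by linarith, by linarith⟩
      linarith
    · show (W (j + 1) _).re + |(W (j + 1) _).im| ≤ _
      rw [← hw]
      linarith
  have main : ∀ j ≤ N, (∃ j' ≤ N, ∃ y, Q j' y ∧ -m < V j' y ∧ V j' y ≤ -m + 2) ∨
      ∃ y, Q j y ∧ V j y ≤ -m := by
    intro j
    induction j with
    | zero =>
      intro _
      refine Or.inr ⟨0, ⟨fun i hi => ?_, ?_, ?_, ?_⟩, ?_⟩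
      · rw [Nat.le_zero.1 hi]; unfold dL; simp; linarith
      · simp; linarith
      · simp; linarith
      · simpa using h1
      · show (W 0 _).re + |(W 0 _).im| ≤ _
        simp; linarith
    | succ j ih =>
      intro hj
      rcases ih (by omega) with h | ⟨y, q, v⟩
      · exact Or.inl h
      · obtain ⟨y', q', v'⟩ := step j hj y q v
        by_cases c : V (j + 1) y' ≤ -m
        · exact Or.inr ⟨y', q', c⟩
        · exact Or.inl ⟨j + 1, hj, y', q', not_le.1 c, v'⟩
  rcases main N le_rfl with ⟨j, hj, y, ⟨q1, q2, q3, q4⟩, v1, v2⟩ | ⟨y, ⟨q1, q2, q3, q4⟩, v⟩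
  · obtain ⟨w, hw⟩ : ∃ w, w = W j (x₀ + (y * I) • e) := ⟨_, rfl⟩
    have v1' : -m < w.re + |w.im| := by rw [hw]; exact v1
    have v2' : w.re + |w.im| ≤ -m + 2 := by rw [hw]; exact v2
    rw [← hw] at q2 q3 q4
    have jN : (j : ℝ) ≤ N := by exact_mod_cast hj
    have j0 : (0 : ℝ) ≤ j := Nat.cast_nonneg j
    have a0 := abs_nonneg w.im
    have r1 := le_abs_self (w.re - (W 0 x₀).re - j)
    have j1 : y₀ ≤ j + 1 := by nlinarith
    have j2 : y₀ / (j + 1) ≤ 1 := (div_le_one (by linarith)).2 j1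
    refine ⟨j, y, hj, by nlinarith, q1, ?_⟩
    rw [← hw]
    refine (norm_le_abs_re_add_abs_im _).trans ?_
    rw [add_re, add_im, ofReal_re, ofReal_im, add_zero]
    have : |w.re + m| ≤ 2 := abs_le.2 ⟨by linarith, by linarith⟩
    linarith
  · exfalso
    have v' : (W N (x₀ + (y * I) • e)).re + |(W N (x₀ + (y * I) • e)).im| ≤ -m := v
    have r2 := neg_abs_le ((W N (x₀ + (y * I) • e)).re - (W 0 x₀).re - N)
    have a0 := abs_nonneg (W N (x₀ + (y * I) • e)).im
    linarith

/-! ### the sum of the losses -/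

lemma sum_inv (N : ℕ) : ∑ k ∈ Finset.range N, 1 / ((k + 1 : ℕ) : ℝ) ≤ 1 + Real.log N := by
  refine le_trans (le_of_eq ?_) (harmonic_le_one_add_log N)
  unfold harmonic
  push_cast
  simp

lemma sum_two {a : ℝ} (ha : 0 < a) (N : ℕ) :
    ∑ k ∈ Finset.range N, 1 / ((a + ((k + 1 : ℕ) : ℝ)) * ((k + 1 : ℕ) : ℝ)) ≤ 3 / √a := by
  have α0 : 0 < √a := Real.sqrt_pos.2 ha
  have main : ∑ k ∈ Finset.range N, 1 / ((a + ((k + 1 : ℕ) : ℝ)) * ((k + 1 : ℕ) : ℝ)) ≤
      3 / √a * (1 - 1 / √((N + 1 : ℕ) : ℝ)) := by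
    induction N with
    | zero => simp
    | succ n ih =>
      rw [Finset.sum_range_succ]
      obtain ⟨s, hs⟩ : ∃ s, s = √((n + 1 : ℕ) : ℝ) := ⟨_, rfl⟩
      obtain ⟨t, ht⟩ : ∃ t, t = √((n + 1 + 1 : ℕ) : ℝ) := ⟨_, rfl⟩
      obtain ⟨α, hα⟩ : ∃ α, α = √a := ⟨_, rfl⟩
      have s2 : s ^ 2 = ((n + 1 : ℕ) : ℝ) := by rw [hs, Real.sq_sqrt (by positivity)]
      have t2 : t ^ 2 = s ^ 2 + 1 := by rw [ht, Real.sq_sqrt (by positivity), s2]; push_cast; ring
      have α2 : α ^ 2 = a := by rw [hα, Real.sq_sqrt ha.le]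
      have s1 : 1 ≤ s := by rw [hs]; exact Real.one_le_sqrt.2 (by exact_mod_cast (by omega))
      have t1 : 1 ≤ t := by rw [ht]; exact Real.one_le_sqrt.2 (by exact_mod_cast (by omega))
      rw [← hs, ← hα] at ih
      rw [← hα] at α0
      rw [← ht, ← hα, ← s2, ← α2]
      have st : s ≤ t := by nlinarith
      have k : 1 / ((α ^ 2 + s ^ 2) * s ^ 2) ≤ 3 / α * (1 / s - 1 / t) := by
        have e : 1 / s - 1 / t = 1 / (s * t * (t + s)) := by
          field_simp
          linear_combination t2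
        rw [e, div_mul_div_comm, div_le_div_iff₀ (by positivity) (by positivity)]
        have k1 : t * (t + s) ≤ 4 * s ^ 2 := by nlinarith
        have k2 : 2 * α * s ≤ α ^ 2 + s ^ 2 := by nlinarith [sq_nonneg (α - s)]
        have k3 : α * s * (t * (t + s)) ≤ α * s * (4 * s ^ 2) := by gcongr
        have k4 : 2 * α * s * s ^ 2 ≤ (α ^ 2 + s ^ 2) * s ^ 2 := by gcongr
        have k5 : 0 ≤ α * s * s ^ 2 := by positivity
        nlinarith
      rw [← α2] at ih
      linarith
  refine main.trans (mul_le_of_le_one_right (by positivity) ?_)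
  have : 0 ≤ 1 / √((N + 1 : ℕ) : ℝ) := by positivity
  linarith

/-- a closed bound of the sum of the losses -/
theorem sum_trm {C β l R : ℝ} (hC : 0 ≤ C) (hβ : 0 ≤ β) (hl : 0 < l) (hR : 0 < R) (N : ℕ) :
    ∑ k ∈ Finset.range N, trm C β l R (k + 1) ≤
      30000 * C / √l + (160 * C / R + 640 * β) * (1 + Real.log N) + 2 * β * N / R := by
  have each : ∀ k ∈ Finset.range N, trm C β l R (k + 1) ≤
      51200 * C * (1 / ((40 * l + ((k + 1 : ℕ) : ℝ)) * ((k + 1 : ℕ) : ℝ))) +
        (160 * C / R + 640 * β) * (1 / ((k + 1 : ℕ) : ℝ)) + 2 * β / R := by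
    intro k _
    obtain ⟨x, hx⟩ : ∃ x : ℝ, x = ((k + 1 : ℕ) : ℝ) := ⟨_, rfl⟩
    have x0 : 0 < x := by rw [hx]; positivity
    unfold trm
    rw [← hx]
    have e : 2 * (80 * C / (40 * l + x) + β) * (320 / x + 1 / R) =
        51200 * C * (1 / ((40 * l + x) * x)) + 160 * C / R * (1 / (40 * l + x)) +
          640 * β * (1 / x) + 2 * β / R := by
      field_simp
      ring
    have h1 : 1 / (40 * l + x) ≤ 1 / x := one_div_le_one_div_of_le x0 (by linarith)
    have h2 := mul_le_mul_of_nonneg_left h1 (show 0 ≤ 160 * C / R by positivity)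
    rw [e, add_mul]
    linarith
  refine (Finset.sum_le_sum each).trans ?_
  rw [Finset.sum_add_distrib, Finset.sum_add_distrib, ← Finset.mul_sum, ← Finset.mul_sum,
    Finset.sum_const, Finset.card_range, nsmul_eq_mul]
  have h1 := mul_le_mul_of_nonneg_left (sum_two (a := 40 * l) (by linarith) N)
    (show 0 ≤ 51200 * C by positivity)
  have h2 := mul_le_mul_of_nonneg_left (sum_inv N) (show 0 ≤ 160 * C / R + 640 * β by positivity)
  have h3 : 51200 * C * (3 / √(40 * l)) ≤ 30000 * C / √l := by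
    have s0 : 0 < √l := Real.sqrt_pos.2 hl
    have s1 : 6 * √l ≤ √(40 * l) := by
      refine Real.le_sqrt_of_sq_le ?_
      rw [mul_pow, Real.sq_sqrt hl.le]
      linarith
    have s2 : 3 / √(40 * l) ≤ 3 / (6 * √l) := div_le_div_of_nonneg_left (by norm_num)
      (by positivity) s1
    calc _ ≤ 51200 * C * (3 / (6 * √l)) := by gcongr
      _ = 25600 * C / √l := by field_simp; ring
      _ ≤ _ := by gcongr; norm_num
  have e : (N : ℝ) * (2 * β / R) = 2 * β * N / R := by ring
  linarith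

end Vale.Agent.P097F.N
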