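import Vale.Agent.P097F.N.StepDefs
import Vale.Agent.P097N.K

/-!
# P097F.N: the expansion of the two kernels
-/

set_option linter.all false

noncomputable section

namespace Vale.Agent.P097F.N

open Filter Topology Set Metric Complex Vale.Agent.P097N

namespace Exp

theorem gron {e0 e1 e2 P R r : ℂ → ℂ} {K δ ε : ℝ} (hK : 1 ≤ K)
    (d : ∀ t : ℝ, t ∈ Icc (0 : ℝ) 1 → HasDerivAt e0 (e1 t) t ∧ HasDerivAt e1 (e2 t) t ∧
      HasDerivAt e2 (P t * e1 t + R t * e0 t + r t) t ∧ ‖P t‖ + ‖R t‖ ≤ K ∧ ‖r t‖ ≤ ε)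
    (h0 : ‖e0 0‖ ≤ δ) (h1 : ‖e1 0‖ ≤ δ) (h2 : ‖e2 0‖ ≤ δ) (t : ℝ) (ht : t ∈ Icc (0 : ℝ) 1) :
    ‖e0 t‖ ≤ (δ + ε) * Real.exp K ∧ ‖e1 t‖ ≤ (δ + ε) * Real.exp K := by
  have hd : ∀ x : ℝ, x ∈ Icc (0 : ℝ) 1 → HasDerivAt (fun x : ℝ => (e0 x, e1 x, e2 x))
      (e1 x, e2 x, P x * e1 x + R x * e0 x + r x) x := fun x hx =>
    (d x hx).1.comp_ofReal.prodMk ((d x hx).2.1.comp_ofReal.prodMk (d x hx).2.2.1.comp_ofReal)
  have ε0 : 0 ≤ ε := (norm_nonneg _).trans (d t ht).2.2.2.2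
  have δ0 : 0 ≤ δ := (norm_nonneg _).trans h0
  have key := norm_le_gronwallBound_of_norm_deriv_right_le (δ := δ) (K := K) (ε := ε)
    (fun x hx => (hd x hx).continuousAt.continuousWithinAt)
    (fun x hx => (hd x (Ico_subset_Icc_self hx)).hasDerivWithinAt)
    (by simp only [Prod.norm_def, ofReal_zero]; exact max_le h0 (max_le h1 h2))
    (fun x hx => by
      obtain ⟨-, -, -, b1, b2⟩ := d x (Ico_subset_Icc_self hx)
      set m := ‖(e0 x, e1 x, e2 x)‖ with hm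
      have m0 : 0 ≤ m := norm_nonneg _
      have a0 : ‖e0 x‖ ≤ m := norm_fst_le (e0 x, e1 x, e2 x)
      have a1 : ‖e1 x‖ ≤ m := (norm_fst_le (e1 x, e2 x)).trans (norm_snd_le (e0 x, e1 x, e2 x))
      have a2 : ‖e2 x‖ ≤ m := (norm_snd_le (e1 x, e2 x)).trans (norm_snd_le (e0 x, e1 x, e2 x))
      have a3 : m ≤ K * m := by nlinarith
      simp only [Prod.norm_def]
      refine max_le (by linarith) (max_le (by linarith) ?_)
      refine (norm_add₃_le).trans ?_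
      rw [norm_mul, norm_mul]
      nlinarith [mul_le_mul_of_nonneg_left a1 (norm_nonneg (P x)),
        mul_le_mul_of_nonneg_left a0 (norm_nonneg (R x)), mul_le_mul_of_nonneg_right b1 m0]) t ht
  have hb : gronwallBound δ K ε (t - 0) ≤ (δ + ε) * Real.exp K := by
    rw [gronwallBound_of_K_ne_0 (by linarith), sub_zero]
    have x1 : Real.exp (K * t) ≤ Real.exp K := Real.exp_le_exp.2 (by nlinarith [ht.2])
    have x2 : 1 ≤ Real.exp (K * t) := Real.one_le_exp (by nlinarith [ht.1])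
    have x3 : ε / K ≤ ε := div_le_self ε0 hK
    have x4 : 0 ≤ ε / K := by positivity
    nlinarith [mul_le_mul_of_nonneg_left x1 δ0, mul_le_mul_of_nonneg_left x1 ε0,
      mul_le_mul_of_nonneg_right x3 (sub_nonneg.2 x2)]
  exact ⟨((norm_fst_le (e0 t, e1 t, e2 t)).trans key).trans hb,
    (((norm_fst_le (e1 t, e2 t)).trans (norm_snd_le (e0 t, e1 t, e2 t))).trans key).trans hb⟩

theorem mv {f f' : ℂ → ℂ} {C : ℝ}
    (d : ∀ t : ℝ, t ∈ Icc (0 : ℝ) 1 → HasDerivAt f (f' t) t ∧ ‖f' t‖ ≤ C) (t : ℝ)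
    (ht : t ∈ Icc (0 : ℝ) 1) : ‖f t - f 1‖ ≤ C := by
  have h := (convex_Icc (0 : ℝ) 1).norm_image_sub_le_of_norm_hasDerivWithin_le
    (f := fun x : ℝ => f x) (f' := fun x : ℝ => f' x) (C := C)
    (fun x hx => (d x hx).1.comp_ofReal.hasDerivWithinAt) (fun x hx => (d x hx).2)
    (right_mem_Icc.2 zero_le_one) ht
  have c0 : 0 ≤ C := (norm_nonneg _).trans (d t ht).2
  have : ‖t - 1‖ ≤ 1 := by rw [Real.norm_eq_abs, abs_le]; constructor <;> linarith [ht.1, ht.2]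
  rw [ofReal_one] at h
  nlinarith

theorem snc_ne {z : ℂ} (h : z ≠ 0) : snc z = sin z / z := by
  rw [snc, dslope_of_ne _ h, slope_def_field]; simp

theorem snc_zero : snc 0 = 1 := by rw [snc, dslope_same]; simp

theorem model (Ω : ℂ) : ∃ w0 w1 w2 p0 p1 p2 : ℂ → ℂ,
    (∀ t, HasDerivAt w0 (w1 t) t ∧ HasDerivAt w1 (w2 t) t ∧ HasDerivAt w2 (-Ω ^ 2 * w1 t) t ∧
      HasDerivAt p0 (p1 t) t ∧ HasDerivAt p1 (p2 t) t ∧
      HasDerivAt p2 (-Ω ^ 2 * p1 t - 2 * Ω * (1 - t) * w1 t + 3 * Ω * w0 t) t) ∧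
    w0 0 = 0 ∧ w1 0 = 0 ∧ w2 0 = 1 ∧ p0 0 = 0 ∧ p1 0 = 0 ∧ p2 0 = 0 ∧
    w0 1 = snc (Ω / 2) ^ 2 / 2 ∧ w1 1 = snc Ω ∧ p0 1 = VV Ω ∧ p1 1 = -UU Ω := by
  rcases eq_or_ne Ω 0 with rfl | h
  · refine ⟨fun t => t ^ 2 / 2, fun t => t, fun _ => 1, fun _ => 0, fun _ => 0, fun _ => 0,
      fun t => ⟨(((hasDerivAt_id' t).pow 2).div_const 2).congr_deriv (by simp), hasDerivAt_id' t,
        (hasDerivAt_const t _).congr_deriv (by simp), hasDerivAt_const t _, hasDerivAt_const t _,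
        (hasDerivAt_const t _).congr_deriv (by simp)⟩, ?_⟩
    simp [snc_zero, VV, UU]
  refine ⟨fun t => (1 - cos (Ω * t)) / Ω ^ 2, fun t => sin (Ω * t) / Ω, fun t => cos (Ω * t),
    fun t => t * sin (Ω * t) / Ω ^ 2 - 2 * (1 - cos (Ω * t)) / Ω ^ 3 -
      t ^ 2 * sin (Ω * t) / (2 * Ω ^ 2) + 3 * t / Ω ^ 3 - 3 * sin (Ω * t) / Ω ^ 4,
    fun t => -sin (Ω * t) / Ω ^ 2 + t * cos (Ω * t) / Ω - t * sin (Ω * t) / Ω ^ 2 -
      t ^ 2 * cos (Ω * t) / (2 * Ω) + 3 * (1 - cos (Ω * t)) / Ω ^ 3,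
    fun t => -(t * sin (Ω * t)) + 2 * sin (Ω * t) / Ω ^ 2 - 2 * (t * cos (Ω * t)) / Ω +
      t ^ 2 * sin (Ω * t) / 2, fun t => ?_, by simp, by simp, by simp, by simp, by simp, by simp,
    ?_, ?_, ?_, ?_⟩
  · have i := hasDerivAt_id' t
    have s := (i.const_mul Ω).csin
    have c := (i.const_mul Ω).ccos
    have q := i.fun_pow 2
    refine ⟨((c.const_sub 1).div_const _).congr_deriv ?_, (s.div_const _).congr_deriv ?_,
      c.congr_deriv ?_,
      ((((((i.fun_mul s).div_const _).fun_sub (((c.const_sub 1).const_mul 2).div_const _)).fun_sub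
        ((q.fun_mul s).div_const _)).fun_add ((i.const_mul 3).div_const _)).fun_sub
        ((s.const_mul 3).div_const _)).congr_deriv ?_,
      (((((s.fun_neg.div_const _).fun_add ((i.fun_mul c).div_const _)).fun_sub
        ((i.fun_mul s).div_const _)).fun_sub ((q.fun_mul c).div_const _)).fun_add
        (((c.const_sub 1).const_mul 3).div_const _)).congr_deriv ?_,
      ((((i.fun_mul s).fun_neg.fun_add ((s.const_mul 2).div_const _)).fun_sub
        (((i.fun_mul c).const_mul 2).div_const _)).fun_add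
        ((q.fun_mul s).div_const _)).congr_deriv ?_⟩ <;>
    (try simp only [Nat.cast_ofNat, Nat.add_one_sub_one, pow_one]) <;> field_simp <;> ring
  · have h2 : Ω / 2 ≠ 0 := div_ne_zero h two_ne_zero
    have e : cos Ω = 1 - 2 * sin (Ω / 2) ^ 2 := by
      have := Complex.cos_two_mul (Ω / 2)
      rw [show 2 * (Ω / 2) = Ω by ring] at this
      rw [this, Complex.cos_sq']; ring
    simp only [mul_one]
    rw [snc_ne h2, e]; field_simp; ring
  · simp only [mul_one]; rw [snc_ne h]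
  · simp only [mul_one, VV]; field_simp; ring
  · simp only [mul_one, UU]; field_simp; ring

theorem ker {θ h Q : ℂ → ℂ} {c b : ℂ} {U : Set ℂ} (C : Cv θ h Q c U) (hb : b ∈ U) :
    ∃ v2 : ℂ → ℂ, v2 b = 1 ∧ ∀ z ∈ U,
      HasDerivAt (fun z => kk θ h z b / c) (k1 θ h z b / c) z ∧
      HasDerivAt (fun z => k1 θ h z b / c) (v2 z) z ∧
      HasDerivAt v2 ((Q z - deriv θ z ^ 2) * (k1 θ h z b / c) -
        3 * deriv θ z * deriv (deriv θ) z * (kk θ h z b / c)) z := by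
  have c0 := C.c0
  refine ⟨fun z => (deriv θ b * deriv (deriv h) z + deriv θ b * h b *
      (deriv (deriv θ) z * sin (θ z - θ b) + deriv θ z ^ 2 * cos (θ z - θ b)) - deriv h b *
      (deriv (deriv θ) z * cos (θ z - θ b) - deriv θ z ^ 2 * sin (θ z - θ b))) / c, by
    show _ / c = 1
    rw [div_eq_one_iff_eq c0, ← C.ode b hb]; simp; ring, fun z hz => ?_⟩
  have t0 := (K.aθ C hz).differentiableAt.hasDerivAt
  have t1 := (K.aθ C hz).deriv.differentiableAt.hasDerivAt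
  have t2 := (K.aθ C hz).deriv.deriv.differentiableAt.hasDerivAt
  have co := (t0.sub_const (θ b)).ccos
  have si := (t0.sub_const (θ b)).csin
  refine ⟨(((((K.ah C hz).differentiableAt.hasDerivAt.const_mul (deriv θ b)).sub
      (co.const_mul (deriv θ b * h b))).sub (si.const_mul (deriv h b))).div_const
        c).congr_deriv (by rw [k1]; ring),
    (((((K.ah C hz).deriv.differentiableAt.hasDerivAt.const_mul (deriv θ b)).add
      ((t1.const_mul (deriv θ b * h b)).mul si)).sub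
        ((t1.const_mul (deriv h b)).mul co)).div_const c).congr_deriv (by ring), ?_⟩
  refine (((((K.ah C hz).deriv.deriv.differentiableAt.hasDerivAt.const_mul (deriv θ b)).add
    (((t2.mul si).add ((t1.pow 2).mul co)).const_mul (deriv θ b * h b))).sub
      (((t2.mul co).sub ((t1.pow 2).mul si)).const_mul (deriv h b))).div_const c).congr_deriv ?_
  rw [K.third C hz, C.hq z hz, kk, k1]
  simp only [Pi.pow_apply, Nat.cast_ofNat, Nat.add_one_sub_one]
  ring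

theorem core (L : ℝ) (hL : 2 ≤ L) : ∃ C : ℝ, 1 ≤ C ∧ ∀ (κ : ℝ) (W0 W1 W2 G H q : ℂ → ℂ),
    ‖G 1‖ ≤ L - 2 → κ ≤ 1 →
    (∀ t : ℝ, t ∈ Icc (0 : ℝ) 1 → HasDerivAt W0 (W1 t) t ∧ HasDerivAt W1 (W2 t) t ∧
      HasDerivAt W2 ((q t - G t ^ 2) * W1 t + 3 * G t * H t * W0 t) t ∧ HasDerivAt G (-H t) t ∧
      HasDerivAt H (-(q t * G t)) t ∧ ‖H t‖ ≤ κ ∧ ‖q t‖ ≤ κ ^ 2) →
    W0 0 = 0 → W1 0 = 0 → W2 0 = 1 →
    ‖VV (G 1)‖ ≤ C ∧ ‖UU (G 1)‖ ≤ C ∧
      ‖W0 1 - (snc (G 1 / 2) ^ 2 / 2 + H 1 * VV (G 1))‖ ≤ C * κ ^ 2 ∧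
      ‖W1 1 - (snc (G 1) - H 1 * UU (G 1))‖ ≤ C * κ ^ 2 := by
  set K := 1 + L ^ 2 + 3 * L with hK
  have K1 : 1 ≤ K := by nlinarith
  set E := Real.exp K with hE
  have E1 : 1 ≤ E := Real.one_le_exp (by linarith)
  set M := 5 * L * E * E with hM
  have M1 : E ≤ M := by nlinarith [mul_nonneg (sub_nonneg.2 E1) (sub_nonneg.2 E1)]
  set A := M * (7 + 5 * L + 5 * L ^ 2) with hA
  have A0 : 0 ≤ A := by have : 0 ≤ M := by linarith
                        positivity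
  have AE : 0 ≤ A * E := by positivity
  refine ⟨A * E + M, by linarith, fun κ W0 W1 W2 G H q hΩ hκ d i0 i1 i2 => ?_⟩
  set Ω := G 1 with hO
  set μ := H 1 with hμ
  have one : (1 : ℝ) ∈ Icc (0 : ℝ) 1 := right_mem_Icc.2 zero_le_one
  have bμ : ‖μ‖ ≤ κ := by simpa using (d 1 one).2.2.2.2.2.1
  have κ0 : 0 ≤ κ := (norm_nonneg _).trans bμ
  have bΩ : ‖Ω‖ ≤ L := by linarith
  have nΩ := norm_nonneg Ω
  obtain ⟨w0, w1, w2, p0, p1, p2, dm, j0, j1, j2, l0, l1, l2, f0, f1, g0, g1⟩ := model Ω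
  have bx : ∀ t : ℝ, t ∈ Icc (0 : ℝ) 1 → ‖(1 : ℂ) - t‖ ≤ 1 := fun t ht => by
    rw [← ofReal_one, ← ofReal_sub, norm_real, Real.norm_eq_abs, abs_le]
    constructor <;> linarith [ht.1, ht.2]
  have bO : ‖-Ω ^ 2‖ + ‖(0 : ℂ)‖ ≤ K := by
    rw [norm_neg, norm_pow, norm_zero]; nlinarith
  have bw : ∀ t : ℝ, t ∈ Icc (0 : ℝ) 1 → ‖w0 t‖ ≤ E ∧ ‖w1 t‖ ≤ E := fun t ht => by
    have := gron (P := fun _ => -Ω ^ 2) (R := fun _ => 0) (r := fun _ => 0) (δ := 1) (ε := 0) K1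
      (fun t _ => ⟨(dm t).1, (dm t).2.1, (dm t).2.2.1.congr_deriv (by ring), bO, by simp⟩)
      (by simp [j0]) (by simp [j1]) (by simp [j2]) t ht
    simpa using this
  have bp : ∀ t : ℝ, t ∈ Icc (0 : ℝ) 1 → ‖p0 t‖ ≤ M ∧ ‖p1 t‖ ≤ M := fun t ht => by
    have := gron (P := fun _ => -Ω ^ 2) (R := fun _ => 0)
      (r := fun t => -(2 * Ω * (1 - t) * w1 t) + 3 * Ω * w0 t) (δ := 0) (ε := 5 * L * E) K1
      (fun t ht => ⟨(dm t).2.2.2.1, (dm t).2.2.2.2.1, (dm t).2.2.2.2.2.congr_deriv (by ring), bO, by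
        refine (norm_add_le _ _).trans ?_
        simp only [norm_neg, norm_mul, Complex.norm_ofNat]
        have a := bw t ht
        have b := bx t ht
        have e1 : 2 * ‖Ω‖ * ‖(1 : ℂ) - t‖ * ‖w1 t‖ ≤ 2 * L * 1 * E := by gcongr; exact a.2
        have e2 : 3 * ‖Ω‖ * ‖w0 t‖ ≤ 3 * L * E := by gcongr; exact a.1
        linarith⟩)
      (by simp [l0]) (by simp [l1]) (by simp [l2]) t ht
    simpa using this
  have bD := mv (f := G) (f' := fun t => -H t) (C := κ) fun t ht => ⟨(d t ht).2.2.2.1, by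
    rw [norm_neg]; exact (d t ht).2.2.2.2.2.1⟩
  have bG : ∀ t : ℝ, t ∈ Icc (0 : ℝ) 1 → ‖G t‖ ≤ L := fun t ht => by
    have := norm_sub_norm_le (G t) (G 1)
    linarith [bD t ht]
  have bH := mv (f := H) (f' := fun t => -(q t * G t)) (C := κ ^ 2 * L) fun t ht => ⟨(d t ht).2.2.2.2.1, by
    rw [norm_neg, norm_mul]
    exact mul_le_mul (d t ht).2.2.2.2.2.2 (bG t ht) (norm_nonneg _) (sq_nonneg _)⟩
  have bF := mv (f := fun t => G t - Ω - μ * (1 - t)) (f' := fun t => -(H t - H 1))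
    (C := κ ^ 2 * L) fun t ht => ⟨(((d t ht).2.2.2.1.sub_const Ω).fun_sub
      (((hasDerivAt_id' (t : ℂ)).const_sub 1).const_mul μ)).congr_deriv (by ring), by
      rw [norm_neg]; exact bH t ht⟩
  have fin := gron (e0 := fun t => W0 t - (w0 t + μ * p0 t))
    (e1 := fun t => W1 t - (w1 t + μ * p1 t)) (e2 := fun t => W2 t - (w2 t + μ * p2 t))
    (P := fun t => q t - G t ^ 2) (R := fun t => 3 * G t * H t)
    (r := fun t => (q t - 2 * Ω * (G t - Ω - μ * (1 - t)) - (G t - Ω) ^ 2) * w1 t +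
      3 * ((G t - Ω) * H t + Ω * (H t - μ)) * w0 t +
      μ * (q t - 2 * Ω * (G t - Ω) - (G t - Ω) ^ 2) * p1 t + μ * (3 * G t * H t) * p0 t)
    (δ := 0) (ε := A * κ ^ 2) K1 (fun t ht => by
      obtain ⟨d0, d1, d2, -, -, hH, hq⟩ := d t ht
      obtain ⟨m0, m1, m2, n0, n1, n2⟩ := dm t
      have a1 := bG t ht
      have a2 := bD t ht
      have a3 := bH t ht
      have a4 := bF t ht
      simp only [sub_self, mul_zero, sub_zero, ← hO, ← hμ] at a2 a3 a4
      have L0 : 0 ≤ L := by linarith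
      have M0 : 0 ≤ M := by linarith
      have k2 : κ ^ 2 ≤ κ := by nlinarith
      have bR : ‖3 * G t * H t‖ ≤ 3 * L * κ := by
        simp only [norm_mul, Complex.norm_ofNat]; gcongr
      refine ⟨d0.fun_sub (m0.fun_add (n0.const_mul μ)), d1.fun_sub (m1.fun_add (n1.const_mul μ)),
        (d2.fun_sub (m2.fun_add (n2.const_mul μ))).congr_deriv (by ring), ?_, ?_⟩
      · have e1 : ‖q t - G t ^ 2‖ ≤ κ ^ 2 + L ^ 2 := (norm_sub_le _ _).trans (by
          rw [norm_pow]; gcongr)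
        nlinarith
      · have e1 : ‖q t - 2 * Ω * (G t - Ω - μ * (1 - t)) - (G t - Ω) ^ 2‖ ≤
            κ ^ 2 + 2 * L * (κ ^ 2 * L) + κ ^ 2 :=
          (norm_sub_le _ _).trans (add_le_add ((norm_sub_le _ _).trans (by
            simp only [norm_mul, Complex.norm_ofNat]; gcongr)) (by rw [norm_pow]; gcongr))
        have e2 : ‖(G t - Ω) * H t + Ω * (H t - μ)‖ ≤ κ * κ + L * (κ ^ 2 * L) :=
          (norm_add_le _ _).trans (by simp only [norm_mul]; gcongr)
        have e3 : ‖q t - 2 * Ω * (G t - Ω) - (G t - Ω) ^ 2‖ ≤ κ + 2 * L * κ + κ :=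
          (norm_sub_le _ _).trans (add_le_add ((norm_sub_le _ _).trans (by
            simp only [norm_mul, Complex.norm_ofNat]; gcongr; linarith))
            (by rw [norm_pow]; exact le_trans (by gcongr) k2))
        have u0 := (bw t ht).1.trans M1
        have u1 := (bw t ht).2.trans M1
        have u2 := (bp t ht).1
        have u3 := (bp t ht).2
        refine ((norm_add_le _ _).trans (add_le_add (norm_add₃_le) le_rfl)).trans ?_
        rw [norm_mul, norm_mul, norm_mul, norm_mul, norm_mul, norm_mul _ (p0 t), norm_mul μ,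
          Complex.norm_ofNat]
        calc _ ≤ (κ ^ 2 + 2 * L * (κ ^ 2 * L) + κ ^ 2) * M + 3 * (κ * κ + L * (κ ^ 2 * L)) * M +
              κ * (κ + 2 * L * κ + κ) * M + κ * (3 * L * κ) * M := by gcongr
          _ = A * κ ^ 2 := by rw [hA]; ring)
    (by simp [i0, j0, l0]) (by simp [i1, j1, l1]) (by simp [i2, j2, l2]) 1 one
  have b1 := bp 1 one
  simp only [ofReal_one, f0, f1, g0, g1, norm_neg, zero_add, mul_neg, ← sub_eq_add_neg] at fin b1
  have x : A * κ ^ 2 * E ≤ (A * E + M) * κ ^ 2 := by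
    nlinarith [mul_nonneg (le_trans (by linarith) M1 : 0 ≤ M) (sq_nonneg κ)]
  exact ⟨by linarith [b1.1], by linarith [b1.2], fin.1.trans x, fin.2.trans x⟩

end Exp

open Exp

theorem sexp : S_EXP := by
  intro Λ
  obtain ⟨C, C1, H⟩ := core (|Λ| + 2) (by linarith [abs_nonneg Λ])
  refine ⟨C, C1, fun θ h Q c U y s a κ hC hS hs => ?_⟩
  rcases eq_or_ne s 0 with rfl | s0
  · simp [VV, UU, kk, k1, mul_comm]; linarith
  have mem : ∀ t : ℝ, t ∈ Icc (0 : ℝ) 1 → y + s - s * t ∈ closedBall y a := fun t ht => by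
    rw [mem_closedBall, dist_eq_norm, show y + s - s * t - y = s * ((1 - t : ℝ) : ℂ) by
      push_cast; ring, norm_mul, norm_real, Real.norm_eq_abs, abs_of_nonneg (by linarith [ht.2])]
    nlinarith [ht.1, norm_nonneg s]
  have hb : y + s ∈ U := hS.sub (by simpa using mem 0 (left_mem_Icc.2 zero_le_one))
  obtain ⟨v2, e2, dv⟩ := ker hC hb
  have sq : ‖s‖ ^ 2 ≤ a ^ 2 := by gcongr
  have e1 : y + s - s * 1 = y := by ring
  have := H κ (fun t => kk θ h (y + s - s * t) (y + s) / c / s ^ 2)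
    (fun t => -(k1 θ h (y + s - s * t) (y + s) / c / s)) (fun t => v2 (y + s - s * t))
    (fun t => s * deriv θ (y + s - s * t)) (fun t => s ^ 2 * deriv (deriv θ) (y + s - s * t))
    (fun t => s ^ 2 * Q (y + s - s * t)) (by
      simp only [e1, norm_mul, add_sub_cancel_right]
      exact ((mul_le_mul_of_nonneg_right hs (norm_nonneg _)).trans hS.g0).trans (le_abs_self _))
    hS.k1 (fun t ht => by
      have m := mem t ht
      have u := hS.sub m
      have z : HasDerivAt (fun t : ℂ => y + s - s * t) (-s) t :=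
        (((hasDerivAt_id' (t : ℂ)).const_mul s).const_sub (y + s)).congr_deriv (by ring)
      obtain ⟨d0, d1, d2⟩ := dv _ u
      have d3 := ((K.aθ hC u).deriv.differentiableAt.hasDerivAt.comp (t : ℂ) z).const_mul s
      have d4 := ((K.aθ hC u).deriv.deriv.differentiableAt.hasDerivAt.comp (t : ℂ) z).const_mul
        (s ^ 2)
      refine ⟨((d0.comp (t : ℂ) z).div_const _).congr_deriv (by field_simp),
        ((d1.comp (t : ℂ) z).div_const _).fun_neg.congr_deriv (by field_simp),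
        (d2.comp (t : ℂ) z).congr_deriv (by field_simp; ring),
        d3.congr_deriv (by ring), d4.congr_deriv (by rw [hC.hq _ u]; ring), ?_, ?_⟩
      · rw [norm_mul, norm_pow]
        exact (mul_le_mul_of_nonneg_right sq (norm_nonneg _)).trans (hS.g1 _ m)
      · rw [norm_mul, norm_pow]
        exact (mul_le_mul_of_nonneg_right sq (norm_nonneg _)).trans (hS.q _ m))
    (by simp [kk]) (by simp [k1, mul_comm]) (by simp [e2])
  simp only [e1] at this
  obtain ⟨b0, b1, b2, b3⟩ := this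
  refine ⟨b0, b1, ?_, ?_⟩
  · rw [show ∀ x w : ℂ, x - s ^ 2 * w = (x / s ^ 2 - w) * s ^ 2 from fun x w => by field_simp,
      norm_mul, norm_pow]
    exact mul_le_mul_of_nonneg_right b2 (sq_nonneg _)
  · rw [show ∀ x w u : ℂ, x - s * (-w + u) = -((-(x / s) - (w - u)) * s) from fun x w u => by
      field_simp; ring, norm_neg, norm_mul]
    exact mul_le_mul_of_nonneg_right b3 (norm_nonneg _)

end Vale.Agent.P097F.N
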