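import Vale.Agent.P097F.N.FoA

/-!
# P097F.N: the first order lemma
-/

set_option linter.all false

noncomputable section

namespace Vale.Agent.P097F.N

open Filter Topology Set Metric Complex Vale.Agent.P097N

namespace FoA

/-- the next velocity -/
def nw (θ h : ℂ → ℂ) (ε : ℂ) (p : ℂ × ℂ) : ℂ := nx θ h p.1 (ε * p.2) / ε

theorem TT_eq (θ h : ℂ → ℂ) {ε : ℂ} (e0 : ε ≠ 0) (p : ℂ × ℂ) :
    TT θ h ε p = (p.1 + ε * nw θ h ε p, nw θ h ε p) := by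
  rw [TT, nw, mul_div_cancel₀ _ e0]

theorem TB_eq (θ h : ℂ → ℂ) {ε : ℂ} (e0 : ε ≠ 0) (p : ℂ × ℂ) :
    TB θ h ε p = (p.1 - ε * p.2, -nw θ h ε (p.1 - ε * p.2, -p.2)) := by
  rw [TB, TT_eq θ h e0]
  simp [RR]

/-- one step -/
structure One (θ h : ℂ → ℂ) (ε : ℂ) (c C σ : ℝ) (p : ℂ × ℂ) : Prop where
  law : EE θ h (p.1 - ε * p.2) p.1 (p.1 + ε * nw θ h ε p) = 0
  un : ∀ w, EE θ h (p.1 - ε * p.2) p.1 (p.1 + ε * w) = 0 → ‖w - p.2‖ < c * σ * ‖p.2‖ →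
    w = nw θ h ε p
  an : AnalyticAt ℂ (nw θ h ε) p
  e1 : ‖nw θ h ε p - p.2‖ ≤ C * ‖ε‖ / σ ^ 4 * ‖p.2‖
  e2 : ‖nw θ h ε p - p.2 - ε * (VF (gg θ ε) p).2‖ ≤ C * ‖ε‖ ^ 2 / σ ^ 10

theorem dgg (θ : ℂ → ℂ) (ε z : ℂ) : deriv (gg θ ε) z = ε * deriv (deriv θ) z :=
  deriv_const_mul_field ε

theorem one (S : S_STEP) (K : ℝ) (hK : 1 ≤ K) : ∃ c C : ℝ, 0 < c ∧ c ≤ 1 / 4 ∧ 1 ≤ C ∧
    ∀ (θ h Q : ℂ → ℂ) (c₀ : ℂ) (U : Set ℂ) (ε : ℂ) (ρ σ : ℝ) (p : ℂ × ℂ), Cv θ h Q c₀ U → ε ≠ 0 →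
    0 < σ → σ ≤ 1 → Rg (gg θ ε) Q U ρ K σ p → ‖ε‖ ≤ c * σ ^ 5 → ‖ε‖ ≤ c * σ * ρ →
    One θ h ε c C σ p := by
  obtain ⟨c, C, c0, c1, C1, H⟩ := S (2 * K)
  have k0 : c ^ 2 / (4 * K) ≤ c := by
    rw [div_le_iff₀ (by positivity)]
    nlinarith
  refine ⟨c ^ 2 / (4 * K), 16 * C * K ^ 2, by positivity, by linarith, by nlinarith,
    fun θ h Q c₀ U ε ρ σ p V e0 σ0 σ1 R h1 h2 => ?_⟩
  have n0 : 0 < ‖ε‖ := norm_pos_iff.2 e0
  have v0 : 0 < ‖p.2‖ := σ0.trans_le R.v0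
  have v1 : ‖p.2‖ * σ ≤ 1 := (le_div_iff₀ σ0).1 R.v1
  have v2 : ‖p.2‖ ^ 2 ≤ 1 / σ ^ 2 := by
    rw [← one_div_pow]
    exact pow_le_pow_left₀ v0.le R.v1 2
  have r0 : 0 < ρ := by
    by_contra k
    have : c ^ 2 / (4 * K) * σ * ρ ≤ 0 :=
      mul_nonpos_of_nonneg_of_nonpos (by positivity) (not_lt.1 k)
    linarith
  set κ : ℝ := 4 * K * ‖ε‖ / σ ^ 2 with hκ
  have κ1 : κ ≤ c ^ 2 * σ ^ 3 := by
    rw [hκ, div_le_iff₀ (by positivity)]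
    calc 4 * K * ‖ε‖ ≤ 4 * K * (c ^ 2 / (4 * K) * σ ^ 5) :=
          mul_le_mul_of_nonneg_left h1 (by positivity)
      _ = _ := by field_simp
  have κ2 : κ ≤ 1 := κ1.trans (mul_le_one₀ (pow_le_one₀ c0.le (by linarith)) (by positivity)
    (pow_le_one₀ σ0.le σ1))
  have ar : 2 * ‖ε * p.2‖ ≤ ρ := by
    rw [norm_mul]
    have a : ‖ε‖ ≤ 1 / 4 * σ * ρ := h2.trans (mul_le_mul_of_nonneg_right
      (mul_le_mul_of_nonneg_right (by linarith) σ0.le) r0.le)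
    have b := mul_le_mul_of_nonneg_right a v0.le
    nlinarith
  have sub : closedBall p.1 (2 * ‖ε * p.2‖) ⊆ closedBall p.1 ρ := closedBall_subset_closedBall ar
  have eδ : ε * p.2 * deriv θ p.1 = p.2 * gg θ ε p.1 := by rw [gg]; ring
  have sc : Sc θ Q U p.1 (2 * ‖ε * p.2‖) (2 * K) κ := by
    refine ⟨sub.trans R.sub, ?_, fun z hz => ?_, fun z hz => ?_, κ2⟩
    · rw [mul_assoc, ← norm_mul, eδ]
      linarith [R.vg]
    · have a := (R.bd z (sub hz)).2.1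
      rw [dgg, norm_mul] at a
      calc _ = 4 * ‖ε‖ * (‖p.2‖ ^ 2 * (‖ε‖ * ‖deriv (deriv θ) z‖)) := by rw [norm_mul]; ring
        _ ≤ 4 * ‖ε‖ * (1 / σ ^ 2 * K) := by gcongr
        _ = κ := by rw [hκ]; field_simp
    · have a := (R.bd z (sub hz)).2.2
      have b : σ ^ 2 ≤ 1 := pow_le_one₀ σ0.le σ1
      calc _ = 4 * ‖ε‖ ^ 2 * (‖p.2‖ ^ 2 * ‖Q z‖) := by rw [norm_mul]; ring
        _ ≤ 4 * ‖ε‖ ^ 2 * (1 / σ ^ 2 * K) := by gcongr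
        _ = 4 * ‖ε‖ ^ 2 * K / σ ^ 4 * σ ^ 2 := by field_simp
        _ ≤ 4 * ‖ε‖ ^ 2 * K / σ ^ 4 * (4 * K) := by gcongr; linarith
        _ = κ ^ 2 := by rw [hκ]; field_simp
  obtain ⟨a1, a2, a3, a4, -, a6⟩ := H θ h Q c₀ U p.1 (ε * p.2) κ σ V
    (mul_ne_zero e0 (norm_pos_iff.1 v0)) sc σ0 σ1 (by rw [eδ]; exact R.sn) κ1
  have ew : ε * nw θ h ε p = nx θ h p.1 (ε * p.2) := by rw [nw, mul_div_cancel₀ _ e0]
  refine ⟨by rwa [ew], fun w w1 w2 => ?_, ?_, ?_, ?_⟩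
  · refine mul_left_cancel₀ e0 ((a2 _ w1 ?_).trans ew.symm)
    rw [← mul_sub, norm_mul, norm_mul]
    have : ‖w - p.2‖ < c * σ * ‖p.2‖ := w2.trans_le (by gcongr)
    calc _ < ‖ε‖ * (c * σ * ‖p.2‖) := mul_lt_mul_of_pos_left this n0
      _ = _ := by ring
  · exact (AnalyticAt.comp (g := fun p : ℂ × ℂ => nx θ h p.1 p.2)
      (f := fun p : ℂ × ℂ => (p.1, ε * p.2)) a3
      (analyticAt_fst.prod (analyticAt_const.mul analyticAt_snd))).div_const (c := ε)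
  · rw [← ew, ← mul_sub, norm_mul, norm_mul] at a4
    refine le_of_mul_le_mul_left (a4.trans ?_) n0
    calc _ = ‖ε‖ * (4 * C * K * ‖ε‖ / σ ^ 4 * ‖p.2‖) := by rw [hκ]; field_simp
      _ ≤ _ := by
        have : K ≤ K ^ 2 := by nlinarith
        gcongr
        norm_num
  · have e : nx θ h p.1 (ε * p.2) - ε * p.2 - ε * p.2 * ((ε * p.2) ^ 2 * deriv (deriv θ) p.1 *
        ps (ε * p.2 * deriv θ p.1 / 2)) = ε * (nw θ h ε p - p.2 - ε * (VF (gg θ ε) p).2) := by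
      rw [← ew, eδ, VF, dgg]
      ring
    rw [e, norm_mul, norm_mul] at a6
    refine le_of_mul_le_mul_left (a6.trans ?_) n0
    calc _ = ‖ε‖ * (16 * C * K ^ 2 * ‖ε‖ ^ 2 / σ ^ 10 * (‖p.2‖ * σ)) := by rw [hκ]; field_simp; ring
      _ ≤ ‖ε‖ * (16 * C * K ^ 2 * ‖ε‖ ^ 2 / σ ^ 10 * 1) := by gcongr
      _ = _ := by ring

/-- size and Lipschitz bound of `ps` -/
theorem psl (R : ℝ) : ∃ L : ℝ, 1 ≤ L ∧ ∀ (x y : ℂ) (σ : ℝ), ‖x‖ ≤ R → ‖y‖ ≤ R → 0 < σ →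
    σ ≤ ‖snc x‖ → σ ≤ ‖snc y‖ → ‖ps x‖ ≤ L / σ ∧ ‖ps x - ps y‖ ≤ L / σ ^ 2 * ‖x - y‖ := by
  obtain ⟨A, A1, hA⟩ := lipE pn_d R
  obtain ⟨B, B1, hB⟩ := lipE snc_d R
  refine ⟨2 * A * B, by nlinarith, fun x y σ hx hy σ0 sx sy => ?_⟩
  have x0 : snc x ≠ 0 := norm_pos_iff.1 (σ0.trans_le sx)
  have y0 : snc y ≠ 0 := norm_pos_iff.1 (σ0.trans_le sy)
  obtain ⟨a1, a2⟩ := hA x y hx hy
  obtain ⟨b1, b2⟩ := hB x y hx hy
  constructor
  · rw [ps_eq, norm_div]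
    exact div_le_div₀ (by positivity) (by nlinarith) σ0 sx
  · have e : ps x - ps y =
        ((pn x - pn y) * snc x - pn x * (snc x - snc y)) / (snc x * snc y) := by
      rw [ps_eq, ps_eq]
      field_simp
      ring
    rw [e, norm_div, norm_mul (snc x), div_mul_eq_mul_div]
    refine div_le_div₀ (by positivity) ((norm_sub_le _ _).trans ?_) (by positivity)
      (by rw [sq]; gcongr)
    rw [norm_mul, norm_mul]
    have c1 := mul_le_mul a2 b1 (norm_nonneg _) (by positivity)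
    have c2 := mul_le_mul a1 b2 (norm_nonneg _) (by positivity)
    linarith

theorem dV {θ h Q : ℂ → ℂ} {c₀ ε y : ℂ} {U : Set ℂ} {ρ K σ L : ℝ} {p : ℂ × ℂ}
    (V : Cv θ h Q c₀ U) (R : Rg (gg θ ε) Q U ρ K σ p) (hK : 1 ≤ K) (σ0 : 0 < σ) (σ1 : σ ≤ 1)
    (L1 : 1 ≤ L) (mq : y ∈ closedBall p.1 ρ) (yy : ‖p.1 - y‖ ≤ ‖ε‖ / σ)
    (l1 : ‖ps (p.2 * gg θ ε p.1 / 2)‖ ≤ L / (σ / 2))
    (l2 : ‖ps (p.2 * gg θ ε p.1 / 2) - ps (p.2 * gg θ ε y / 2)‖ ≤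
      L / (σ / 2) ^ 2 * ‖p.2 * gg θ ε p.1 / 2 - p.2 * gg θ ε y / 2‖) :
    ‖(deriv (gg θ ε) p.1 - deriv (gg θ ε) y) * ps (p.2 * gg θ ε p.1 / 2) +
      deriv (gg θ ε) y * (ps (p.2 * gg θ ε p.1 / 2) - ps (p.2 * gg θ ε y / 2))‖ ≤
      4 * K ^ 2 * L * ‖ε‖ / σ ^ 4 := by
  have aθ : AnalyticOnNhd ℂ θ U := V.dθ.analyticOnNhd V.op
  have dg : DifferentiableOn ℂ (gg θ ε) U := aθ.deriv.differentiableOn.const_mul ε
  have mp : p.1 ∈ closedBall p.1 ρ := mem_closedBall_self (dist_nonneg.trans mq)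
  have n0 := norm_nonneg ε
  set g := gg θ ε with hg
  have g1 := (lip R V.op dg mp mq).trans (mul_le_mul_of_nonneg_left yy (by linarith))
  have g2 : ‖deriv g p.1 - deriv g y‖ ≤ K ^ 2 * ‖p.1 - y‖ := by
    have ee : deriv g = fun z => ε * deriv (deriv θ) z := funext (dgg θ ε)
    refine (convex_closedBall p.1 ρ).norm_image_sub_le_of_norm_deriv_le (fun x hx => ?_)
      (fun x hx => ?_) mq mp
    · rw [ee]
      exact ((aθ.deriv.deriv x (R.sub hx)).differentiableAt).const_mul ε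
    · obtain ⟨t1, -, t3⟩ := R.bd x hx
      have e3 : deriv (deriv g) x = Q x * g x := by
        rw [ee, deriv_const_mul_field, V.hq x (R.sub hx), hg, gg]
        ring
      rw [e3, norm_mul, sq]
      exact mul_le_mul t3 t1 (norm_nonneg _) (by linarith)
  have g3 := g2.trans (mul_le_mul_of_nonneg_left yy (by positivity))
  have g4 : ‖p.2 * g p.1 / 2 - p.2 * g y / 2‖ ≤ 1 / σ * (K * (‖ε‖ / σ)) / 2 := by
    rw [← sub_div, ← mul_sub, norm_div, norm_mul, Complex.norm_two]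
    gcongr
    exact R.v1
  have g5 := l2.trans (mul_le_mul_of_nonneg_left g4 (by positivity))
  refine (norm_add_le _ _).trans ?_
  rw [norm_mul, norm_mul]
  have t1 := mul_le_mul g3 l1 (norm_nonneg _) (by positivity)
  have t2 := mul_le_mul (R.bd y mq).2.1 g5 (norm_nonneg _) (by linarith)
  have t3 : K ^ 2 * (‖ε‖ / σ) * (L / (σ / 2)) ≤ 2 * K ^ 2 * L * ‖ε‖ / σ ^ 4 :=
    calc _ = 2 * K ^ 2 * L * ‖ε‖ / σ ^ 2 := by field_simp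
      _ ≤ _ := div_le_div_of_nonneg_left (by positivity) (by positivity) (pow_le_pow_of_le_one σ0.le σ1 (by norm_num))
  have t4 : K * (L / (σ / 2) ^ 2 * (1 / σ * (K * (‖ε‖ / σ)) / 2)) =
      2 * K ^ 2 * L * ‖ε‖ / σ ^ 4 := by field_simp
  have t5 : 4 * K ^ 2 * L * ‖ε‖ / σ ^ 4 = 2 * (2 * K ^ 2 * L * ‖ε‖ / σ ^ 4) := by ring
  linarith

/-- the four steps which are used -/
structure Pre (θ h : ℂ → ℂ) (ε : ℂ) (b c C L ρ σ : ℝ) (p : ℂ × ℂ) (w u : ℂ) : Prop where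
  O1 : One θ h ε c C (σ / 2) p
  O2 : One θ h ε c C (σ / 2) (p.1 - ε * p.2, -p.2)
  O3 : One θ h ε c C (σ / 2) (p.1, -w)
  O4 : One θ h ε c C (σ / 2) (p.1 - ε * p.2, -u)
  w3 : ‖w - p.2‖ < c * (σ / 2) * ‖w‖
  w4 : ‖w - p.2‖ ≤ 16 * C * ‖ε‖ / σ ^ 5
  w5 : ‖w‖ ≤ 2 * ‖p.2‖
  u3 : ‖-u - p.2‖ < c * (σ / 2) * ‖-u‖
  u4 : ‖-u - p.2‖ ≤ 16 * C * ‖ε‖ / σ ^ 5
  ev : ‖ε * p.2‖ ≤ ‖ε‖ / σ
  mq : p.1 - ε * p.2 ∈ closedBall p.1 ρ
  bc : b * σ ^ 2 ≤ c * (σ / 2) * ‖p.2‖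
  l1 : ‖ps (p.2 * gg θ ε p.1 / 2)‖ ≤ L / (σ / 2)
  l2 : ‖ps (p.2 * gg θ ε p.1 / 2) - ps (p.2 * gg θ ε (p.1 - ε * p.2) / 2)‖ ≤
    L / (σ / 2) ^ 2 * ‖p.2 * gg θ ε p.1 / 2 - p.2 * gg θ ε (p.1 - ε * p.2) / 2‖

theorem pre (S : S_STEP) (K : ℝ) (hK : 1 ≤ K) : ∃ b c C L : ℝ, 0 < b ∧ b ≤ 1 ∧ 1 ≤ C ∧ 1 ≤ L ∧
    ∀ (θ h Q : ℂ → ℂ) (c₀ : ℂ) (U : Set ℂ) (ε : ℂ) (ρ σ : ℝ) (p : ℂ × ℂ), Cv θ h Q c₀ U → ε ≠ 0 →
    0 < σ → σ ≤ 1 → Rg (gg θ ε) Q U ρ K σ p → ‖ε‖ ≤ b * σ ^ 5 → ‖ε‖ ≤ b * σ * ρ →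
    Pre θ h ε b c C L ρ σ p (nw θ h ε p) (nw θ h ε (p.1 - ε * p.2, -p.2)) := by
  obtain ⟨a, a0, a1, hR⟩ := rel K hK
  obtain ⟨c, C, c0, c1, C1, H⟩ := one S (K + 1) (by linarith)
  obtain ⟨L, L1, hL⟩ := psl (K + 1)
  set b : ℝ := min a c / (128 * C) with hb
  have m0 : 0 < min a c := lt_min a0 c0
  have b0 : 0 < b := by positivity
  have b1 : 128 * C * b ≤ a := by rw [hb, mul_div_cancel₀ _ (by positivity)]; exact min_le_left _ _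
  have b2 : 128 * C * b ≤ c := by rw [hb, mul_div_cancel₀ _ (by positivity)]; exact min_le_right _ _
  have b3 : 128 * b ≤ a := by nlinarith
  have b4 : 128 * b ≤ c := by nlinarith
  refine ⟨b, c, C, L, b0, by linarith, C1, L1,
    fun θ h Q c₀ U ε ρ σ p V e0 σ0 σ1 R h1 h2 => ?_⟩
  have n0 : 0 < ‖ε‖ := norm_pos_iff.2 e0
  have v0 : 0 < ‖p.2‖ := σ0.trans_le R.v0
  have v1 : ‖p.2‖ * σ ≤ 1 := (le_div_iff₀ σ0).1 R.v1
  have r0 : 0 < ρ := by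
    by_contra k
    have : b * σ * ρ ≤ 0 := mul_nonpos_of_nonneg_of_nonpos (by positivity) (not_lt.1 k)
    linarith
  have aθ : AnalyticOnNhd ℂ θ U := V.dθ.analyticOnNhd V.op
  have dg : DifferentiableOn ℂ (gg θ ε) U := aθ.deriv.differentiableOn.const_mul ε
  have pw : ∀ {i j : ℕ}, i ≤ j → σ ^ j ≤ σ ^ i := fun k => pow_le_pow_of_le_one σ0.le σ1 k
  have ev : ‖ε * p.2‖ ≤ ‖ε‖ / σ := by
    rw [norm_mul, le_div_iff₀ σ0, mul_assoc]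
    exact mul_le_of_le_one_right n0.le v1
  have ev1 : ‖ε * p.2‖ ≤ a * σ ^ 2 := ev.trans (by
    rw [div_le_iff₀ σ0]
    have := mul_le_mul (by linarith : b ≤ a) (pw (by norm_num : 3 ≤ 5)) (by positivity) a0.le
    linarith)
  have ev2 : ‖ε * p.2‖ ≤ ρ / 2 := ev.trans (by
    rw [div_le_iff₀ σ0]
    have : b * σ * ρ ≤ 1 / 2 * σ * ρ := by gcongr; linarith
    linarith)
  have O : ∀ q : ℂ × ℂ, Rg (gg θ ε) Q U (ρ / 2) (K + 1) (σ / 2) q → One θ h ε c C (σ / 2) q :=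
    fun q r => H θ h Q c₀ U ε (ρ / 2) (σ / 2) q V e0 (by positivity) (by linarith) r
      (h1.trans (by
        have : b * σ ^ 5 ≤ c / 32 * σ ^ 5 := by gcongr; linarith
        linarith))
      (h2.trans (by
        have : b * σ * ρ ≤ c / 4 * σ * ρ := by gcongr; linarith
        linarith))
  have sm : C * ‖ε‖ / (σ / 2) ^ 4 ≤ 16 * C * b * σ := by
    rw [div_le_iff₀ (by positivity)]
    calc C * ‖ε‖ ≤ C * (b * σ ^ 5) := by gcongr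
      _ = _ := by ring
  have sa : C * ‖ε‖ / (σ / 2) ^ 4 ≤ a * σ := sm.trans (by gcongr; nlinarith)
  have sc : C * ‖ε‖ / (σ / 2) ^ 4 ≤ c / 8 * σ := sm.trans (by gcongr; linarith)
  have z0 : ‖(0 : ℂ)‖ ≤ a * σ ^ 2 ∧ ‖(0 : ℂ)‖ ≤ ρ / 2 ∧ ‖(0 : ℂ)‖ ≤ a * σ * ‖p.2‖ := by
    rw [norm_zero]
    exact ⟨by positivity, by positivity, by positivity⟩
  have R1 := hR _ Q U ρ σ p p V.op dg σ0 σ1 R (by simpa using z0.1) (by simpa using z0.2.1)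
    (by simpa using z0.2.2)
  have R2 := hR _ Q U ρ σ (p.1, -p.2) (p.1 - ε * p.2, -p.2) V.op dg σ0 σ1 (neg R)
    (by simpa using ev1) (by simpa using ev2) (by simpa using z0.2.2)
  have O1 := O _ R1
  have O2 := O _ R2
  set w : ℂ := nw θ h ε p with hw
  set u : ℂ := nw θ h ε (p.1 - ε * p.2, -p.2) with hu
  have w1 : ‖w - p.2‖ ≤ C * ‖ε‖ / (σ / 2) ^ 4 * ‖p.2‖ := O1.e1
  have u1 : ‖-u - p.2‖ ≤ C * ‖ε‖ / (σ / 2) ^ 4 * ‖p.2‖ := by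
    have := O2.e1
    simp only [norm_neg] at this
    rwa [← norm_neg, show -(u - -p.2) = -u - p.2 by ring] at this
  have cl : ∀ x : ℂ, ‖x - p.2‖ ≤ C * ‖ε‖ / (σ / 2) ^ 4 * ‖p.2‖ → ‖x - p.2‖ ≤ a * σ * ‖p.2‖ ∧
      ‖x - p.2‖ < c * (σ / 2) * ‖x‖ ∧ ‖x - p.2‖ ≤ 16 * C * ‖ε‖ / σ ^ 5 ∧ ‖x‖ ≤ 2 * ‖p.2‖ := by
    intro x hx
    have k1 := hx.trans (mul_le_mul_of_nonneg_right sa v0.le)
    have k2 := hx.trans (mul_le_mul_of_nonneg_right sc v0.le)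
    have k3 : a * σ * ‖p.2‖ ≤ 1 / 2 * 1 * ‖p.2‖ := by gcongr
    have k4 := abs_le.1 ((abs_norm_sub_norm_le x p.2).trans k1)
    have k5 : c * (σ / 2) * (‖p.2‖ / 2) ≤ c * (σ / 2) * ‖x‖ := by gcongr; linarith
    have k6 : 0 < c * σ * ‖p.2‖ := by positivity
    refine ⟨k1, by linarith, hx.trans ?_, by linarith⟩
    calc _ ≤ C * ‖ε‖ / (σ / 2) ^ 4 * (1 / σ) := by gcongr; exact R.v1
      _ = _ := by field_simp; ring
  obtain ⟨w2, w3, w4, w5⟩ := cl w w1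
  obtain ⟨u2, u3, u4, u5⟩ := cl (-u) u1
  have O3 := O _ (hR _ Q U ρ σ (p.1, -p.2) (p.1, -w) V.op dg σ0 σ1 (neg R)
    (by simpa using z0.1) (by simpa using z0.2.1)
    (by simpa [show -w + p.2 = -(w - p.2) by ring, -neg_sub] using w2))
  have O4 := O _ (hR _ Q U ρ σ p (p.1 - ε * p.2, -u) V.op dg σ0 σ1 R
    (by simpa using ev1) (by simpa using ev2) u2)
  have mp := mem_closedBall_self (x := p.1) r0.le
  have mq : p.1 - ε * p.2 ∈ closedBall p.1 ρ := by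
    rw [mem_closedBall, dist_eq_norm, sub_sub_cancel_left, norm_neg]
    linarith
  have es : (p.1 - ε * p.2, -p.2).2 * gg θ ε (p.1 - ε * p.2, -p.2).1 / 2 =
      -(p.2 * gg θ ε (p.1 - ε * p.2) / 2) := by simp only; ring
  have d1 : ‖p.2 * gg θ ε p.1 / 2‖ ≤ K + 1 := by
    rw [norm_div, Complex.norm_two]; linarith [R.vg]
  have d2 : ‖p.2 * gg θ ε (p.1 - ε * p.2) / 2‖ ≤ K + 1 := by
    have := R2.vg
    simp only [neg_mul, norm_neg] at this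
    rw [norm_div, Complex.norm_two]; linarith
  have s2 := R2.sn
  rw [es, snc_neg] at s2
  obtain ⟨l1, l2⟩ := hL _ _ (σ / 2) d1 d2 (by positivity) R1.sn s2
  refine ⟨O1, O2, O3, O4, w3, w4, w5, u3, u4, ev, mq, ?_, l1, l2⟩
  have k := mul_le_mul (by linarith : b ≤ c / 2) R.v0 σ0.le (by positivity)
  calc b * σ ^ 2 = b * σ * σ := by ring
    _ ≤ c / 2 * ‖p.2‖ * σ := mul_le_mul_of_nonneg_right k σ0.le
    _ = _ := by ring

end FoA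

open FoA in
theorem fo (S : S_STEP) : S_FO := by
  intro K hK
  obtain ⟨b, c, C, L, b0, b1, C1, L1, H⟩ := pre S K hK
  refine ⟨b, 1024 * C + 8 * K ^ 2 * L, b0, b1, by nlinarith [sq_nonneg K],
    fun θ h Q c₀ U ε ρ σ p V e0 σ0 σ1 R h1 h2 => ?_⟩
  obtain ⟨O1, O2, O3, O4, w3, w4, w5, u3, u4, ev, mq, bc, l1, l2⟩ :=
    H θ h Q c₀ U ε ρ σ p V e0 σ0 σ1 R h1 h2
  clear H
  set D : ℝ := 1024 * C + 8 * K ^ 2 * L with hD
  have KL : K ≤ K ^ 2 * L := by nlinarith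
  have n0 : 0 < ‖ε‖ := norm_pos_iff.2 e0
  have pw : ∀ {i j : ℕ}, i ≤ j → σ ^ j ≤ σ ^ i := fun k => pow_le_pow_of_le_one σ0.le σ1 k
  set w : ℂ := nw θ h ε p with hw
  set u : ℂ := nw θ h ε (p.1 - ε * p.2, -p.2) with hu
  have mp : p.1 ∈ closedBall p.1 ρ := mem_closedBall_self (dist_nonneg.trans mq)
  have es : (p.1 - ε * p.2, -p.2).2 * gg θ ε (p.1 - ε * p.2, -p.2).1 / 2 =
      -(p.2 * gg θ ε (p.1 - ε * p.2) / 2) := by simp only; ring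
  have eT := TT_eq θ h e0 p
  have eB := TB_eq θ h e0 p
  rw [← hw] at eT
  rw [← hu] at eB
  have v3 : ‖p.2‖ ^ 3 ≤ 1 / σ ^ 3 := by
    rw [← one_div_pow]
    exact pow_le_pow_left₀ (norm_nonneg _) R.v1 3
  have D1 : 1 ≤ D := by nlinarith
  have up : ∀ {x : ℝ} {i j : ℕ} {A : ℝ}, 0 ≤ x → 0 ≤ A → A ≤ D → i ≤ j →
      A * x / σ ^ i ≤ D * x / σ ^ j := fun hx hA hAD k =>
    div_le_div₀ (by positivity) (mul_le_mul_of_nonneg_right hAD hx) (by positivity) (pw k)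
  have KL0 : 0 ≤ K ^ 2 * L := by positivity
  have anT : ∀ q, AnalyticAt ℂ (nw θ h ε) q → AnalyticAt ℂ (TT θ h ε) q := fun q k => by
    have e : TT θ h ε = fun p => (p.1 + ε * nw θ h ε p, nw θ h ε p) := funext (TT_eq θ h e0)
    rw [e]
    exact (analyticAt_fst.add (analyticAt_const.mul k)).prod k
  have anR : ∀ q, AnalyticAt ℂ (RR ε) q := fun q =>
    (analyticAt_fst.sub (analyticAt_const.mul analyticAt_snd)).prod analyticAt_snd.neg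
  have ev3 : ‖ε * p.2‖ ≤ 1 * ‖ε‖ / σ ^ 1 := by simpa using ev
  refine ⟨anT p O1.an, AnalyticAt.comp (g := RR ε) (anR _)
    (AnalyticAt.comp (g := TT θ h ε) (f := RR ε) (anT _ O2.an) (anR p)),
    ?_, ?_, ?_, ?_, ?_, ?_, ?_, ⟨by rw [eT], by rw [eB]⟩, by rw [eT]; exact O1.law,
    fun x x1 x2 => ?_, fun x x1 x2 => ?_⟩
  · rw [eT]
    refine norm_prod_le_iff.2 ⟨?_, ?_⟩
    · have e : ((p.1 + ε * w, w) - p - ε • VF (gg θ ε) p).1 = ε * (w - p.2) := by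
        simp [VF]; ring
      rw [e, norm_mul]
      calc _ ≤ ‖ε‖ * (16 * C * ‖ε‖ / σ ^ 5) := by gcongr
        _ = 16 * C * ‖ε‖ ^ 2 / σ ^ 5 := by ring
        _ ≤ _ := up (by positivity) (by positivity) (by linarith) (by norm_num)
    · refine O1.e2.trans ?_
      calc _ = 1024 * C * ‖ε‖ ^ 2 / σ ^ 10 := by field_simp; ring
        _ ≤ _ := up (by positivity) (by positivity) (by linarith) le_rfl
  · rw [eB]
    refine norm_prod_le_iff.2 ⟨?_, ?_⟩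
    · have e : ((p.1 - ε * p.2, -u) - p + ε • VF (gg θ ε) p).1 = 0 := by simp [VF]
      rw [e, norm_zero]
      positivity
    · have k := O2.e2
      rw [VF, es, ps_neg] at k
      set g := gg θ ε with hg
      set y := p.1 - ε * p.2 with hy
      have e : ((y, -u) - p + ε • VF g p).2 =
          -(u - -p.2 - ε * ((-p.2) ^ 3 * deriv g y * -ps (p.2 * g y / 2))) + ε * p.2 ^ 3 *
          ((deriv g p.1 - deriv g y) * ps (p.2 * g p.1 / 2) +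
            deriv g y * (ps (p.2 * g p.1 / 2) - ps (p.2 * g y / 2))) := by
        simp [VF]; ring
      have g6 := dV V R hK σ0 σ1 L1 mq (by rw [hy, sub_sub_cancel]; exact ev) l1 l2
      rw [e]
      refine (norm_add_le _ _).trans ?_
      rw [norm_neg, norm_mul, norm_mul, norm_pow]
      have t1 : ‖ε‖ * ‖p.2‖ ^ 3 * ‖(deriv g p.1 - deriv g y) * ps (p.2 * g p.1 / 2) +
          deriv g y * (ps (p.2 * g p.1 / 2) - ps (p.2 * g y / 2))‖ ≤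
          8 * K ^ 2 * L * ‖ε‖ ^ 2 / σ ^ 10 :=
        calc _ ≤ ‖ε‖ * (1 / σ ^ 3) * (4 * K ^ 2 * L * ‖ε‖ / σ ^ 4) := by gcongr
          _ = 4 * K ^ 2 * L * ‖ε‖ ^ 2 / σ ^ 7 := by field_simp
          _ ≤ _ := div_le_div₀ (by positivity) (by gcongr; norm_num) (by positivity)
            (pw (by norm_num))
      have t2 : C * ‖ε‖ ^ 2 / (σ / 2) ^ 10 = 1024 * C * ‖ε‖ ^ 2 / σ ^ 10 := by field_simp; ring
      have t3 : D * ‖ε‖ ^ 2 / σ ^ 10 =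
          1024 * C * ‖ε‖ ^ 2 / σ ^ 10 + 8 * K ^ 2 * L * ‖ε‖ ^ 2 / σ ^ 10 := by rw [hD]; ring
      linarith
  · refine norm_prod_le_iff.2 ⟨R.v1.trans ?_, ?_⟩
    · simpa using up (x := 1) (i := 1) (j := 4) zero_le_one zero_le_one D1 (by norm_num)
    · simp only [VF, norm_mul, norm_pow]
      calc _ ≤ 1 / σ ^ 3 * K * (L / (σ / 2)) := by gcongr; exact (R.bd _ mp).2.1
        _ = 2 * K * L / σ ^ 4 := by field_simp
        _ ≤ _ := by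
          have := mul_le_mul_of_nonneg_right (by nlinarith : K ≤ K ^ 2) (by linarith : 0 ≤ L)
          exact div_le_div_of_nonneg_right (by linarith) (by positivity)
  · rw [eT]
    refine norm_prod_le_iff.2 ⟨?_, w4.trans (up n0.le (by positivity) (by linarith) le_rfl)⟩
    have e : ((p.1 + ε * w, w) - p).1 = ε * w := by simp
    rw [e, norm_mul]
    calc _ ≤ ‖ε‖ * (2 * (1 / σ)) := by gcongr; linarith [R.v1]
      _ = 2 * ‖ε‖ / σ ^ 1 := by field_simp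
      _ ≤ _ := up n0.le (by positivity) (by linarith) (by norm_num)
  · rw [eB]
    refine norm_prod_le_iff.2 ⟨?_, u4.trans (up n0.le (by positivity) (by linarith) le_rfl)⟩
    have e : ((p.1 - ε * p.2, -u) - p).1 = -(ε * p.2) := by simp
    rw [e, norm_neg]
    exact ev3.trans (up n0.le zero_le_one D1 (by norm_num))
  · rw [eT, TB_eq θ h e0]
    have k := O3.un (-p.2) (by
      have := O1.law
      rw [EE_symm] at this
      simpa [sub_eq_add_neg] using this) (by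
      simpa [show -p.2 + w = w - p.2 by ring] using w3)
    simp only [add_sub_cancel_right]
    rw [← k, neg_neg]
  · rw [eB, TT_eq θ h e0]
    have k := O4.un p.2 (by
      have := O2.law
      rw [EE_symm, ← hu] at this
      simpa [sub_eq_add_neg] using this) (by rw [norm_sub_rev]; exact u3)
    rw [← k]
    simp
  · rw [eT, hw, ← O1.un x x1 (x2.trans_le bc)]
  · have k := O2.un (-x) (by
      rw [EE_symm] at x1
      simpa [sub_eq_add_neg] using x1) (by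
      simpa [show -x + p.2 = -(x - p.2) by ring, -neg_sub] using x2.trans_le bc)
    rw [eB, hu, ← k, neg_neg]

end Vale.Agent.P097F.N
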