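import Vale.Agent.P097F.N.FoDefs
import Vale.Agent.P097F.D.Sg

/-!
# P097F.N: tools for the first order lemma, stability of the clearance
-/

set_option linter.all false

noncomputable section

namespace Vale.Agent.P097F.N

open Filter Topology Set Metric Complex Vale.Agent.P097N

namespace FoA

theorem lipE {f : ℂ → ℂ} (hf : Differentiable ℂ f) (R : ℝ) : ∃ L : ℝ, 1 ≤ L ∧
    ∀ x y : ℂ, ‖x‖ ≤ R → ‖y‖ ≤ R → ‖f x‖ ≤ L ∧ ‖f x - f y‖ ≤ L * ‖x - y‖ := by
  obtain ⟨A, hA⟩ := (isCompact_closedBall (0 : ℂ) R).exists_bound_of_continuousOn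
    hf.continuous.continuousOn
  have cd : Continuous (deriv f) :=
    (show Differentiable ℂ (deriv f) from fun z => (hf.analyticAt z).deriv.differentiableAt).continuous
  obtain ⟨B, hB⟩ := (isCompact_closedBall (0 : ℂ) R).exists_bound_of_continuousOn cd.continuousOn
  refine ⟨max 1 (max A B), le_max_left _ _, fun x y hx hy => ⟨?_, ?_⟩⟩
  · exact (hA x (by simpa using hx)).trans ((le_max_left _ _).trans (le_max_right _ _))
  · exact (convex_closedBall (0 : ℂ) R).norm_image_sub_le_of_norm_deriv_le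
      (fun z _ => hf z) (fun z hz => (hB z hz).trans ((le_max_right _ _).trans (le_max_right _ _)))
      (by simpa using hy) (by simpa using hx)

theorem snc_ne {z : ℂ} (h : z ≠ 0) : snc z = sin z / z := by
  rw [snc, dslope_of_ne _ h, slope_def_field]
  simp

theorem snc_zero : snc 0 = 1 := by rw [snc, dslope_same]; simp

theorem snc_d : Differentiable ℂ snc := differentiableOn_univ.1
  ((Complex.differentiableOn_dslope univ_mem).2 Complex.differentiable_sin.differentiableOn)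

theorem snc_neg (z : ℂ) : snc (-z) = snc z := by
  by_cases h : z = 0
  · simp [h]
  · rw [snc_ne h, snc_ne (neg_ne_zero.2 h), Complex.sin_neg, neg_div_neg_eq]

theorem ps_neg (z : ℂ) : ps (-z) = -ps z := by
  have e : 2 * (-z) ^ 3 * -sin z = 2 * z ^ 3 * sin z := by ring
  rw [ps, ps, Complex.sin_neg, Complex.cos_neg, e, ← neg_div]
  congr 1
  ring

/-- the entire numerator of `ps` -/
def pn (z : ℂ) : ℂ := dslope (fun w => D.sg w - snc w) 0 z / 2

theorem pn_d : Differentiable ℂ pn := by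
  have a : Differentiable ℂ fun w => D.sg w - snc w :=
    fun w => (D.Sg.an w).differentiableAt.sub (snc_d w)
  exact (differentiableOn_univ.1
    ((Complex.differentiableOn_dslope univ_mem).2 a.differentiableOn)).div_const 2

theorem ps_eq (z : ℂ) : ps z = pn z / snc z := by
  by_cases h : z = 0
  · subst h
    have a : HasDerivAt (fun w => D.sg w - snc w) (deriv (fun w => D.sg w - snc w) 0) 0 :=
      ((D.Sg.an 0).differentiableAt.sub (snc_d 0)).hasDerivAt
    have a' : HasDerivAt (fun w => D.sg w - snc w) (deriv (fun w => D.sg w - snc w) 0) (-0) := by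
      rwa [neg_zero]
    have b := a'.comp (0 : ℂ) (hasDerivAt_neg (0 : ℂ))
    have e : ((fun w => D.sg w - snc w) ∘ Neg.neg) = fun w : ℂ => D.sg w - snc w := by
      funext w
      have k : D.sg (-w) = D.sg w := by
        by_cases h : w = 0
        · simp [h]
        · have e1 := D.Sg.mul w
          have e2 := D.Sg.mul (-w)
          simp only [P097D.SS, Complex.sin_neg, Complex.cos_neg] at e1 e2
          exact mul_left_cancel₀ (pow_ne_zero 3 h) (by linear_combination -e2 - e1)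
      simp only [Function.comp, k, snc_neg]
    rw [e] at b
    have c : deriv (fun w => D.sg w - snc w) 0 = 0 := by linear_combination (a.unique b) / 2
    simp [ps, pn, dslope_same, c]
  · have e1 := D.Sg.mul z
    have s0 : D.sg 0 = 1 := by simp [D.sg]
    rw [pn, dslope_of_ne _ h, slope_def_field, snc_ne h, snc_zero, s0, ps]
    by_cases k : sin z = 0
    · simp [k]
    · simp only [P097D.SS] at e1
      rw [← e1]
      field_simp
      ring

theorem EE_symm (θ h : ℂ → ℂ) (a b c : ℂ) : EE θ h a b c = EE θ h c b a := by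
  rw [EE, EE, add_comm]

variable {g Q : ℂ → ℂ} {U : Set ℂ} {ρ K σ : ℝ} {p : ℂ × ℂ}

theorem lip (R : Rg g Q U ρ K σ p) (oU : IsOpen U) (dg : DifferentiableOn ℂ g U) {z w : ℂ}
    (hz : z ∈ closedBall p.1 ρ) (hw : w ∈ closedBall p.1 ρ) : ‖g z - g w‖ ≤ K * ‖z - w‖ :=
  (convex_closedBall p.1 ρ).norm_image_sub_le_of_norm_deriv_le
    (fun x hx => dg.differentiableAt (oU.mem_nhds (R.sub hx))) (fun x hx => (R.bd x hx).2.1) hw hz

theorem neg (R : Rg g Q U ρ K σ p) : Rg g Q U ρ K σ (p.1, -p.2) :=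
  ⟨R.sub, R.bd, by simpa using R.v0, by simpa using R.v1, by simpa using R.vg, by
    have e : -p.2 * g p.1 / 2 = -(p.2 * g p.1 / 2) := by ring
    simp only [e, snc_neg]
    exact R.sn⟩

/-- stability, relative form -/
theorem rel (K : ℝ) (hK : 1 ≤ K) : ∃ c : ℝ, 0 < c ∧ c ≤ 1 / 2 ∧ ∀ (g Q : ℂ → ℂ) (U : Set ℂ)
    (ρ σ : ℝ) (p q : ℂ × ℂ), IsOpen U → DifferentiableOn ℂ g U → 0 < σ → σ ≤ 1 →
    Rg g Q U ρ K σ p → ‖q.1 - p.1‖ ≤ c * σ ^ 2 → ‖q.1 - p.1‖ ≤ ρ / 2 →
    ‖q.2 - p.2‖ ≤ c * σ * ‖p.2‖ → Rg g Q U (ρ / 2) (K + 1) (σ / 2) q := by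
  obtain ⟨L, L1, hL⟩ := lipE snc_d (K + 1)
  refine ⟨1 / (3 * K * L), by positivity, ?_, fun g Q U ρ σ p q oU dg σ0 σ1 R h1 h2 h3 => ?_⟩
  · exact one_div_le_one_div_of_le two_pos (by nlinarith)
  set c : ℝ := 1 / (3 * K * L) with hc
  have c0 : 0 < c := by positivity
  have c1 : c * (3 * K * L) = 1 := by rw [hc]; field_simp
  have c2 : c ≤ 1 / 2 := one_div_le_one_div_of_le two_pos (by nlinarith)
  have c3 : 3 * c * K ≤ 1 := by nlinarith [mul_pos c0 (by linarith : 0 < K)]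
  have r0 : 0 ≤ ρ := by linarith [norm_nonneg (q.1 - p.1)]
  have sub : closedBall q.1 (ρ / 2) ⊆ closedBall p.1 ρ :=
    closedBall_subset_closedBall' (by rw [dist_eq_norm]; linarith)
  have n0 := norm_nonneg p.2
  have h4 : ‖q.2 - p.2‖ ≤ ‖p.2‖ / 2 := h3.trans (by
    have : c * σ ≤ 1 / 2 := by nlinarith
    nlinarith)
  have h5 := abs_le.1 ((abs_norm_sub_norm_le q.2 p.2).trans h4)
  have e0 : 1 / (σ / 2) = 2 * (1 / σ) := by field_simp
  have h6 : ‖q.2‖ ≤ 2 * (1 / σ) := by linarith [R.v1]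
  have h7 := lip R oU dg (sub (mem_closedBall_self (by linarith))) (mem_closedBall_self r0)
  have h8 : ‖q.2 * g q.1 - p.2 * g p.1‖ ≤ 3 * c * K * σ := by
    have e : q.2 * g q.1 - p.2 * g p.1 = q.2 * (g q.1 - g p.1) + (q.2 - p.2) * g p.1 := by ring
    have a1 : ‖q.2 * (g q.1 - g p.1)‖ ≤ 2 * (1 / σ) * (K * (c * σ ^ 2)) := by
      rw [norm_mul]
      exact mul_le_mul h6 (h7.trans (mul_le_mul_of_nonneg_left h1 (by linarith))) (norm_nonneg _)
        (by positivity)
    have a2 : ‖(q.2 - p.2) * g p.1‖ ≤ c * σ * K := by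
      have := R.vg
      rw [norm_mul] at this ⊢
      calc _ ≤ c * σ * ‖p.2‖ * ‖g p.1‖ := mul_le_mul_of_nonneg_right h3 (norm_nonneg _)
        _ = c * σ * (‖p.2‖ * ‖g p.1‖) := by ring
        _ ≤ _ := mul_le_mul_of_nonneg_left this (by positivity)
    have e1 : 2 * (1 / σ) * (K * (c * σ ^ 2)) = 2 * c * K * σ := by field_simp
    rw [e]
    linarith [norm_add_le (q.2 * (g q.1 - g p.1)) ((q.2 - p.2) * g p.1)]
  have h9 : ‖q.2 * g q.1‖ ≤ K + 1 := by
    have := norm_sub_norm_le (q.2 * g q.1) (p.2 * g p.1)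
    have a : 3 * c * K * σ ≤ 1 := by nlinarith [mul_pos c0 (by linarith : 0 < K)]
    linarith [R.vg]
  refine ⟨sub.trans R.sub, fun z hz => ?_, by linarith [R.v0], by rw [e0]; exact h6, h9, ?_⟩
  · obtain ⟨a, b, d⟩ := R.bd z (sub hz)
    exact ⟨by linarith, by linarith, by linarith⟩
  · have k := (hL (p.2 * g p.1 / 2) (q.2 * g q.1 / 2)
      (by rw [norm_div, Complex.norm_two]; linarith [R.vg])
      (by rw [norm_div, Complex.norm_two]; linarith)).2
    rw [← sub_div, norm_div, Complex.norm_two, norm_sub_rev (p.2 * g p.1)] at k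
    have k2 := norm_sub_norm_le (snc (p.2 * g p.1 / 2)) (snc (q.2 * g q.1 / 2))
    have k3 : L * (‖q.2 * g q.1 - p.2 * g p.1‖ / 2) ≤ L * (3 * c * K * σ / 2) :=
      mul_le_mul_of_nonneg_left (by linarith) (by linarith)
    have k4 : L * (3 * c * K * σ / 2) = σ / 2 := by linear_combination σ / 2 * c1
    linarith [R.sn]

end FoA

theorem rg : S_RG := by
  intro K hK
  obtain ⟨c, c0, c1, H⟩ := FoA.rel K hK
  refine ⟨c, c0, by linarith, fun g Q U ρ σ p q oU dg σ0 σ1 R h1 h2 => ?_⟩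
  have a1 : ‖q.1 - p.1‖ ≤ ‖q - p‖ := norm_fst_le (q - p)
  have a2 : ‖q.2 - p.2‖ ≤ ‖q - p‖ := norm_snd_le (q - p)
  refine H g Q U ρ σ p q oU dg σ0 σ1 R (a1.trans h1) (a1.trans h2) (a2.trans (h1.trans ?_))
  rw [sq, ← mul_assoc]
  exact mul_le_mul_of_nonneg_left R.v0 (by positivity)

end Vale.Agent.P097F.N
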