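import Vale.Agent.P097F.N.Step
import Vale.Agent.P097F.N.Exp

/-!
# P097F.N: the step lemma
-/

namespace Vale.Agent.P097F.N

theorem sstep : S_STEP := step sexp

end Vale.Agent.P097F.N
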