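import Vale.Agent.P097F.N.Rel

/-!
# P097F/N: the local system of the last layer at an obstacle, both types at once
-/

set_option linter.all false

noncomputable section

namespace Vale.Agent.P097F.N

open Filter Topology Set Metric Complex Vale.Agent.P097D
open Vale.Agent.P097EE (acZ acF LocB S_LOCZ S_LOCF)
open Vale.Agent.P097Mo (Seq)

/-- the outer coordinates `ac` against the coordinates of the patch -/
structure RelG (θ : ℂ → ℂ) (ε : ℂ) (Ξ : ℂ × ℂ → ℂ × ℂ) (Jc : ℂ) (r C : ℝ)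
    (ac : ℂ × ℂ → ℂ × ℂ) : Prop where
  rel : ∀ (σ : ℝ) (p q : ℂ × ℂ), σ ≤ r → ‖q.1‖ ≤ σ → ‖q.2 - Jc‖ ≤ σ → yd (gg θ ε) p = Ξ q →
    ‖ε * (ac (prs ε p)).1 ^ 2 - clk (fq (gg θ ε) Ξ) q‖ ≤ C * σ ^ 3 ∧
      ‖(ac (prs ε p)).2‖ ≤ C * σ
  lo : ∀ p p', ‖yd (gg θ ε) p - yd (gg θ ε) p'‖ ≤ ‖ac (prs ε p) - ac (prs ε p')‖
  up : ∀ p p', ‖ε‖ * ‖ac (prs ε p) - ac (prs ε p')‖ ≤ ‖yd (gg θ ε) p - yd (gg θ ε) p'‖
  an : ∀ p, AnalyticAt ℂ (gg θ ε) p.1 → AnalyticAt ℂ (fun p => ac (prs ε p)) p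

theorem two_sd {a b x w : ℂ} {e : ℝ} (e0 : 0 ≤ e) (a1 : 1 ≤ ‖a‖) (a2 : e * ‖a‖ ≤ 1)
    (b1 : 1 ≤ ‖b‖) (b2 : e * ‖b‖ ≤ 1) : max ‖x‖ ‖w‖ ≤ max ‖a * x‖ ‖b * w‖ ∧
      e * max ‖a * x‖ ‖b * w‖ ≤ max ‖x‖ ‖w‖ := by
  rw [mul_max_of_nonneg _ _ e0, norm_mul, norm_mul, ← mul_assoc, ← mul_assoc]
  exact ⟨max_le_max (le_mul_of_one_le_left (norm_nonneg _) a1)
    (le_mul_of_one_le_left (norm_nonneg _) b1), max_le_max
    (mul_le_of_le_one_left (norm_nonneg _) a2) (mul_le_of_le_one_left (norm_nonneg _) b2)⟩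

theorem ev_eq {f : ℂ → ℂ} {f' x : ℂ} {l : Filter ℕ} {u : ℕ → ℂ} (h : HasDerivAt f f' x)
    (h0 : f' ≠ 0) (hu : Tendsto u l (𝓝 x)) (hz : ∀ᶠ n in l, f (u n) = 0) : ∀ᶠ n in l, u n = x := by
  filter_upwards [hu.eventually (eventually_nhdsWithin_iff.1 (h.eventually_ne (c := 0) h0)), hz]
    with n a b
  by_contra c
  exact a c b

/-- the singular points converge -/
theorem cen_lim {l : Filter ℕ} {g : ℕ → ℂ → ℂ} {g₀ : ℂ → ℂ} {Ξ : ℕ → ℂ × ℂ → ℂ × ℂ} {P₀ : ℂ × ℂ}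
    {J₀ κ : ℂ} {r s B : ℝ} {J : ℕ → ℂ} (S : Sp g₀ P₀ J₀)
    (L : ∀ᶠ n in l, Lev (g n) (Ξ n) P₀ J₀ κ r s B) (r0 : 0 < r) (hJ : Tendsto J l (𝓝 J₀))
    (hg : Tendsto (fun n => g n P₀.1) l (𝓝 (g₀ P₀.1))) :
    (∀ᶠ n in l, ‖J n - J₀‖ < r) ∧ Tendsto (fun n => Ξ n (0, J n)) l (𝓝 P₀) := by
  have h1 : ∀ᶠ n in l, ‖J n - J₀‖ < r :=
    (hJ.eventually (ball_mem_nhds J₀ r0)).mono fun n h => mem_ball_iff_norm.1 h
  refine ⟨h1, tendsto_iff_norm_sub_tendsto_zero.2 ?_⟩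
  have t : Tendsto (fun n => B * ‖(((0, 0), J n) : (ℂ × ℂ) × ℂ) - Fm (g n) (P₀, J n)‖) l
      (𝓝 (B * ‖(((0, 0), J₀) : (ℂ × ℂ) × ℂ) - Fm g₀ (P₀, J₀)‖)) := by
    refine Tendsto.const_mul _ (Tendsto.norm ((tendsto_const_nhds.prodMk_nhds hJ).sub ?_))
    exact ((hg.mul_const _).prodMk_nhds ((hJ.mul (hg.pow 3)).sub_const _)).prodMk_nhds hJ
  have e : Fm g₀ (P₀, J₀) = ((0, 0), J₀) := by
    simp only [Fm, S.lev, sub_self, mul_eq_zero.2 S.ty]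
  rw [e, sub_self, norm_zero, mul_zero] at t
  refine squeeze_zero' (Eventually.of_forall fun _ => norm_nonneg _) ?_ t
  filter_upwards [L, h1] with n L h1
  have k := L.inj _ (L.mem' (L.m0 h1)).2.2.2.2.2 (P₀, J n) (mem_ball_prod.2
    ⟨mem_ball_self L.s0, mem_ball_iff_norm.2 (by linarith [L.rs, L.r0])⟩)
  rw [(L.mem _ (L.m0 h1)).2] at k
  exact (norm_fst_le ((Ξ n (0, J n), J n) - (P₀, J n))).trans k

/-- **the local system at an obstacle** -/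
theorem locB (hZ : S_LOCZ) (hF : S_LOCF) {𝒰 : Ultrafilter ℕ} {ε : ℕ → ℂ} {θ h Q : ℕ → ℂ → ℂ}
    {c : ℕ → ℂ} {U : ℕ → Set ℂ} {g₀ : ℂ → ℂ} {Lw : Set ℂ} (H : Seq 𝒰 ε θ h Q c U g₀ Lw)
    {P₀ : ℂ × ℂ} {J₀ κ : ℂ} {r s B : ℝ} (hy : P₀.1 ∈ Lw) (S : Sp g₀ P₀ J₀)
    {Ξ : ℕ → ℂ × ℂ → ℂ × ℂ}
    (L : ∀ᶠ n in (𝒰 : Filter ℕ), Lev (gg (θ n) (ε n)) (Ξ n) P₀ J₀ κ r s B) {J : ℕ → ℂ}
    (hJ : Tendsto J 𝒰 (𝓝 J₀)) {Ls : ℕ → ℝ} (h1 : Tendsto (fun n => ‖ε n‖ * Ls n) 𝒰 (𝓝 0))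
    (h2 : Tendsto Ls 𝒰 atTop) : ∃ ac, LocB 𝒰 ε θ h U ac Ls ∧ ∀ᶠ n in (𝒰 : Filter ℕ),
      ‖J n - J₀‖ < r ∧ RelG (θ n) (ε n) (Ξ n) (J n) r (22 * B ^ 8 / s ^ 2) (ac n) := by
  obtain ⟨n₀, L₀⟩ := L.exists
  have B1 := L₀.B1
  have s0 := L₀.s0
  have s1 := L₀.s1
  obtain ⟨m, t⟩ := cen_lim S L L₀.r0 hJ (H.cc _ hy _ tendsto_const_nhds)
  have t1 : Tendsto (fun n => (Ξ n (0, J n)).1) 𝒰 (𝓝 P₀.1) := (continuous_fst.tendsto _).comp t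
  have t2 : Tendsto (fun n => (Ξ n (0, J n)).2) 𝒰 (𝓝 P₀.2) := (continuous_snd.tendsto _).comp t
  have tg : Tendsto (fun n => gg (θ n) (ε n) (Ξ n (0, J n)).1) 𝒰 (𝓝 (g₀ P₀.1)) := H.cc _ hy _ t1
  have sm : ∀ a : ℝ, 0 < a → ∀ᶠ n in (𝒰 : Filter ℕ), ‖ε n‖ ≤ a := fun a ha =>
    (H.el.eventually (closedBall_mem_nhds 0 ha)).mono fun n h => by simpa using h
  have cB : 2 * B ≤ 22 * B ^ 8 / s ^ 2 := by
    rw [le_div_iff₀ (by positivity)]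
    have := le_self_pow₀ B1 (show 8 ≠ 0 by norm_num)
    have : s ^ 2 ≤ 1 := pow_le_one₀ s0.le s1
    nlinarith
  by_cases hz : g₀ P₀.1 = 0
  · have a0 : SS P₀.2 = 0 := by simpa [hz] using S.lev
    have a1 : sin P₀.2 ≠ 0 := fun e => by
      have c := sin_sq_add_cos_sq P₀.2
      have : cos P₀.2 = 0 := by simpa [SS, e, S.d0] using a0
      simp [e, this] at c
    have z1 : ∀ᶠ n in (𝒰 : Filter ℕ), gg (θ n) (ε n) (Ξ n (0, J n)).1 = 0 := by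
      filter_upwards [L, m, ((continuous_sin.tendsto _).comp t2).eventually_ne a1] with n L m a
      exact (mul_eq_zero.1 (L.mem' (L.m0 m)).2.2.2.1).resolve_right a
    have z2 := ev_eq (SS_der P₀.2) (mul_ne_zero S.d0 a1) t2 (by
      filter_upwards [L, m, z1] with n L m a
      simpa [a] using (L.mem' (L.m0 m)).2.2.2.2.1)
    choose k hk using fun n => IsAlgClosed.exists_pow_nat_eq
      (deriv (deriv (θ n)) (Ξ n (0, J n)).1 / (4 * P₀.2)) two_pos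
    have hk' : ∀ n, 4 * P₀.2 * k n ^ 2 = deriv (deriv (θ n)) (Ξ n (0, J n)).1 := fun n => by
      rw [hk]; field_simp [S.d0]
    refine ⟨_, hZ 𝒰 ε θ h Q c U g₀ Lw P₀.1 P₀.2 _ k Ls H hy hz S.g1 S.d0 a0 t1
      (z1.mono fun n a => ⟨(mul_eq_zero.1 a).resolve_left (H.e0 n), hk' n⟩) h1 h2, ?_⟩
    filter_upwards [L, m, z1, z2, sm (1 / (18 * B ^ 5)) (by positivity)] with n L m z1 z2 e1
    have hc : Ξ n (0, J n) = ((Ξ n (0, J n)).1, P₀.2) := Prod.ext rfl z2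
    obtain ⟨c0, c1, c2, -⟩ := L.mem' (L.m0 m)
    have b1 := (L.bg _ c1).2
    obtain ⟨b2, b3, b4⟩ := L.bd _ c2
    have b5 := L.φ_bd c0
    have b6 := L.ne c0
    rw [z2] at b2 b3 b4 b5 b6
    have d : Dn P₀.2 = 2 * P₀.2 * sin P₀.2 ^ 2 := by simp [Dn, a0]
    rw [gg_der, ← hk'] at b1 b5 b6
    rw [norm_inv, inv_le_iff_one_le_mul₀ (norm_pos_iff.2 b6), d] at b5
    simp only [norm_mul, norm_pow, Complex.norm_ofNat] at b1 b5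
    have e0 := norm_nonneg (ε n)
    have B5 : 1 ≤ B ^ 5 := one_le_pow₀ B1
    rw [le_div_iff₀ (by positivity)] at e1
    have k1 : 1 ≤ ‖k n‖ := by
      by_contra c
      have c1 : ‖k n‖ ^ 2 ≤ 1 := pow_le_one₀ (norm_nonneg _) (not_le.1 c).le
      have c2 : ‖k n‖ ^ 2 < 1 := pow_lt_one₀ (norm_nonneg _) (not_le.1 c) two_ne_zero
      have : 9 / 4 * B * (‖ε n‖ * (4 * ‖P₀.2‖ * ‖k n‖ ^ 2) * (2 * ‖P₀.2‖ * ‖sin P₀.2‖ ^ 2)) ≤
          9 / 4 * B * (‖ε n‖ * (4 * B * ‖k n‖ ^ 2) * (2 * B * B ^ 2)) := by gcongr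
      nlinarith [sq_nonneg ‖k n‖]
    have k2 : ‖ε n‖ * ‖k n‖ ≤ 1 := by
      refine (pow_le_one_iff_of_nonneg (by positivity) two_ne_zero).1 ?_
      have p1 : ‖ε n‖ * ‖k n‖ ^ 2 * 1 ≤ ‖ε n‖ * ‖k n‖ ^ 2 * (B * ‖P₀.2‖) := by gcongr
      have p2 : B * (‖ε n‖ * (4 * ‖P₀.2‖ * ‖k n‖ ^ 2)) ≤ B * B := by gcongr
      have p3 : ‖ε n‖ * ‖k n‖ ^ 2 ≤ B ^ 5 := by
        nlinarith [pow_le_pow_right₀ B1 (show 2 ≤ 5 by norm_num)]
      nlinarith [mul_le_mul_of_nonneg_left p3 e0]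
    have tw := fun x w : ℂ => two_sd (a := k n) (b := 2) (x := x) (w := w) e0 k1 k2 (by simp)
      (by rw [Complex.norm_ofNat]; nlinarith)
    have df : ∀ p p', acZ (θ n) (k n) (Ξ n (0, J n)).1 P₀.2 (prs (ε n) p) -
        acZ (θ n) (k n) (Ξ n (0, J n)).1 P₀.2 (prs (ε n) p') =
        (k n * (yd (gg (θ n) (ε n)) p - yd (gg (θ n) (ε n)) p').1,
          2 * (yd (gg (θ n) (ε n)) p - yd (gg (θ n) (ε n)) p').2) := fun p p' => by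
      simp only [acZ_prs, Prod.mk_sub_mk, Prod.fst_sub, Prod.snd_sub]
      congr 1 <;> ring
    refine ⟨m, fun σ p q σr q1 q2 hp => ?_, fun p p' => ?_, fun p p' => ?_, fun p a => ?_⟩
    · obtain ⟨u, v⟩ := relZ L m hc z1 (hk' n) σr q1 q2 hp
      exact ⟨u, v.trans (by gcongr; exact (norm_nonneg _).trans q1)⟩
    · rw [df]; exact (tw _ _).1
    · rw [df]; exact (tw _ _).2
    · simp only [acZ_prs]
      exact (analyticAt_const.mul ((analyticAt_fst.comp (yd_an a)).sub analyticAt_const)).prod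
        (analyticAt_const.mul ((analyticAt_snd.comp (yd_an a)).sub analyticAt_const))
  · have a1 := S.ty.resolve_left hz
    obtain ⟨j, hj⟩ := Complex.sin_eq_zero_iff.1 a1
    have j0 : j ≠ 0 := by rintro rfl; exact S.d0 (by simpa using hj)
    have g0 := norm_pos_iff.2 hz
    have z1 : ∀ᶠ n in (𝒰 : Filter ℕ), ‖g₀ P₀.1‖ / 2 < ‖gg (θ n) (ε n) (Ξ n (0, J n)).1‖ :=
      tg.norm.eventually (lt_mem_nhds (by linarith))
    have z2 := ev_eq (hasDerivAt_sin P₀.2) (fun e => by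
      simpa [e, a1] using sin_sq_add_cos_sq P₀.2) t2 (by
      filter_upwards [L, m, z1] with n L m a
      exact (mul_eq_zero.1 (L.mem' (L.m0 m)).2.2.2.1).resolve_left
        (norm_pos_iff.1 (by linarith)))
    choose ρ hρ using fun n => IsAlgClosed.exists_pow_nat_eq (-48 * P₀.2 *
      deriv (deriv (θ n)) (Ξ n (0, J n)).1 / deriv (θ n) (Ξ n (0, J n)).1 ^ 2) two_pos
    have hρ' : ∀ᶠ n in (𝒰 : Filter ℕ), ρ n ^ 2 * deriv (θ n) (Ξ n (0, J n)).1 ^ 2 =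
        -48 * P₀.2 * deriv (deriv (θ n)) (Ξ n (0, J n)).1 := z1.mono fun n a => by
      rw [hρ, div_mul_cancel₀ _ (pow_ne_zero 2 (mul_ne_zero_iff.1
        (norm_pos_iff.1 (lt_trans (by linarith) a))).2)]
    have κ0 := norm_pos_iff.2 L₀.κ0
    refine ⟨_, hF 𝒰 ε θ h Q c U g₀ Lw P₀.1 j _ ρ Ls H hy hz S.g1 j0 t1 (hj ▸ hρ') h1 h2, ?_⟩
    rw [← hj]
    filter_upwards [L, m, z1, z2, hρ', sm (1 / (2 * B ^ 3)) (by positivity),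
      sm (‖g₀ P₀.1‖ ^ 2 * ‖κ‖ / 8) (by positivity)] with n L m z1 z2 hρ' e1 e2
    have hc : Ξ n (0, J n) = ((Ξ n (0, J n)).1, P₀.2) := Prod.ext rfl z2
    obtain ⟨c0, c1, c2, -⟩ := L.mem' (L.m0 m)
    have b1 := (L.bg _ c1).1
    have b5 := L.φ_bd c0
    have b6 := L.ne c0
    have b7 := L.lin _ c0
    rw [z2] at b5 b6 b7
    have d : Dn P₀.2 = -6 * P₀.2 := by
      have c := sin_sq_add_cos_sq P₀.2
      simp only [Dn, SS, a1] at c ⊢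
      linear_combination (-6 * P₀.2) * c
    have e : ρ n ^ 2 * gg (θ n) (ε n) (Ξ n (0, J n)).1 ^ 2 *
        (deriv (gg (θ n) (ε n)) (Ξ n (0, J n)).1 * Dn P₀.2)⁻¹ = 8 * ε n := by
      rw [mul_inv_eq_iff_eq_mul₀ b6, gg_der, d, gg]
      linear_combination (ε n ^ 2) * hρ'
    have b8 := norm_sub_norm_le (2 * κ) (deriv (gg (θ n) (ε n)) (Ξ n (0, J n)).1 * Dn P₀.2)⁻¹
    rw [norm_sub_rev, norm_mul, Complex.norm_ofNat] at b8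
    have e' := congrArg norm e
    generalize (deriv (gg (θ n) (ε n)) (Ξ n (0, J n)).1 * Dn P₀.2)⁻¹ = φ at *
    simp only [norm_mul, norm_pow, Complex.norm_ofNat] at e'
    have e0 := norm_pos_iff.2 (H.e0 n)
    have B3 : 1 ≤ B ^ 3 := one_le_pow₀ B1
    rw [le_div_iff₀ (by positivity)] at e1
    have ρ0 : 0 < ‖ρ n‖ := by
      refine (norm_nonneg _).lt_of_ne fun c => ?_
      rw [← c] at e'
      linarith
    have k1 : ‖ρ n‖ ≤ 2 := by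
      refine (pow_le_pow_iff_left₀ ρ0.le (by norm_num) two_ne_zero).1 ?_
      have p : ‖ρ n‖ ^ 2 * (‖g₀ P₀.1‖ / 2) ^ 2 * ‖κ‖ ≤
          ‖ρ n‖ ^ 2 * ‖gg (θ n) (ε n) (Ξ n (0, J n)).1‖ ^ 2 * ‖φ‖ := by gcongr; linarith
      refine le_of_mul_le_mul_right ?_ (show 0 < ‖g₀ P₀.1‖ ^ 2 * ‖κ‖ by positivity)
      nlinarith
    have k2 : 2 * ‖ε n‖ ≤ ‖ρ n‖ := by
      refine (pow_le_pow_iff_left₀ (by positivity) ρ0.le two_ne_zero).1 ?_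
      have p : ‖ρ n‖ ^ 2 * ‖gg (θ n) (ε n) (Ξ n (0, J n)).1‖ ^ 2 * ‖φ‖ ≤
          ‖ρ n‖ ^ 2 * B ^ 2 * (9 / 4 * B) := by gcongr
      refine le_of_mul_le_mul_right ?_ (show 0 < B ^ 3 by positivity)
      nlinarith [mul_le_mul_of_nonneg_left e1 e0.le]
    have tw := fun x w : ℂ => two_sd (a := 2 / ρ n) (b := 1) (x := x) (w := w) e0.le
      (by rw [norm_div, Complex.norm_ofNat, one_le_div ρ0]; exact k1)
      (by rw [norm_div, Complex.norm_ofNat, ← mul_div_assoc, div_le_one ρ0]; linarith)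
      (by simp) (by rw [norm_one]; nlinarith)
    have df : ∀ p p', acF (θ n) (ρ n) (Ξ n (0, J n)).1 P₀.2 (prs (ε n) p) -
        acF (θ n) (ρ n) (Ξ n (0, J n)).1 P₀.2 (prs (ε n) p') =
        (2 / ρ n * (yd (gg (θ n) (ε n)) p - yd (gg (θ n) (ε n)) p').2,
          1 * (yd (gg (θ n) (ε n)) p - yd (gg (θ n) (ε n)) p').1) := fun p p' => by
      simp only [acF_prs, Prod.mk_sub_mk, Prod.fst_sub, Prod.snd_sub]
      congr 1 <;> ring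
    refine ⟨m, fun σ p q σr q1 q2 hp => ?_, fun p p' => ?_, fun p p' => ?_, fun p a => ?_⟩
    · obtain ⟨u, v⟩ := relF L m hc a1 hρ' σr q1 q2 hp
      exact ⟨u, v.trans (by gcongr; exact (norm_nonneg _).trans q1)⟩
    · rw [df, Prod.norm_def, max_comm]; exact (tw _ _).1
    · rw [df, Prod.norm_def (yd _ _ - _), max_comm]; exact (tw _ _).2
    · simp only [acF_prs]
      exact ((analyticAt_const.mul ((analyticAt_snd.comp (yd_an a)).sub analyticAt_const)).div_const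
        (c := ρ n)).prod ((analyticAt_fst.comp (yd_an a)).sub analyticAt_const)

end Vale.Agent.P097F.N
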