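import Vale.Agent.P097F.N.StepDefs

/-!
# P097F.N: the step map and its inverse to first order (definitions and statements)

The state is `p = (y, v)`, the previous vertex is `y - ε v`, and `g = ε θ'`.
-/

set_option linter.all false

noncomputable section

namespace Vale.Agent.P097F.N

open Filter Topology Set Metric Complex Vale.Agent.P097N

/-- the reversal -/
def RR (ε : ℂ) (p : ℂ × ℂ) : ℂ × ℂ := (p.1 - ε * p.2, -p.2)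

/-- the backward step -/
def TB (θ h : ℂ → ℂ) (ε : ℂ) (p : ℂ × ℂ) : ℂ × ℂ := RR ε (TT θ h ε (RR ε p))

/-- the curve in window units -/
def gg (θ : ℂ → ℂ) (ε : ℂ) (y : ℂ) : ℂ := ε * deriv θ y

/-- the model vector field -/
def VF (g : ℂ → ℂ) (p : ℂ × ℂ) : ℂ × ℂ := (p.2, p.2 ^ 3 * deriv g p.1 * ps (p.2 * g p.1 / 2))

/-- a state with clearance `σ` -/
structure Rg (g Q : ℂ → ℂ) (U : Set ℂ) (ρ K σ : ℝ) (p : ℂ × ℂ) : Prop where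
  sub : closedBall p.1 ρ ⊆ U
  bd : ∀ z ∈ closedBall p.1 ρ, ‖g z‖ ≤ K ∧ ‖deriv g z‖ ≤ K ∧ ‖Q z‖ ≤ K
  v0 : σ ≤ ‖p.2‖
  v1 : ‖p.2‖ ≤ 1 / σ
  vg : ‖p.2 * g p.1‖ ≤ K
  sn : σ ≤ ‖snc (p.2 * g p.1 / 2)‖

/-- the clearance is stable -/
def S_RG : Prop := ∀ K : ℝ, 1 ≤ K → ∃ c : ℝ, 0 < c ∧ c ≤ 1 ∧ ∀ (g Q : ℂ → ℂ) (U : Set ℂ)
  (ρ σ : ℝ) (p q : ℂ × ℂ), IsOpen U → DifferentiableOn ℂ g U → 0 < σ → σ ≤ 1 →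
  Rg g Q U ρ K σ p → ‖q - p‖ ≤ c * σ ^ 2 → ‖q - p‖ ≤ ρ / 2 → Rg g Q U (ρ / 2) (K + 1) (σ / 2) q

/-- what the first order lemma gives at the state `p` -/
structure Fo (θ h : ℂ → ℂ) (ε : ℂ) (c C σ : ℝ) (p : ℂ × ℂ) : Prop where
  anT : AnalyticAt ℂ (TT θ h ε) p
  anB : AnalyticAt ℂ (TB θ h ε) p
  exT : ‖TT θ h ε p - p - ε • VF (gg θ ε) p‖ ≤ C * ‖ε‖ ^ 2 / σ ^ 10
  exB : ‖TB θ h ε p - p + ε • VF (gg θ ε) p‖ ≤ C * ‖ε‖ ^ 2 / σ ^ 10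
  bdV : ‖VF (gg θ ε) p‖ ≤ C / σ ^ 4
  bdT : ‖TT θ h ε p - p‖ ≤ C * ‖ε‖ / σ ^ 5
  bdB : ‖TB θ h ε p - p‖ ≤ C * ‖ε‖ / σ ^ 5
  BT : TB θ h ε (TT θ h ε p) = p
  TB' : TT θ h ε (TB θ h ε p) = p
  fst : (TT θ h ε p).1 = p.1 + ε * (TT θ h ε p).2 ∧ (TB θ h ε p).1 = p.1 - ε * p.2
  law : EE θ h (p.1 - ε * p.2) p.1 (TT θ h ε p).1 = 0
  unT : ∀ w, EE θ h (p.1 - ε * p.2) p.1 (p.1 + ε * w) = 0 → ‖w - p.2‖ < c * σ ^ 2 →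
    TT θ h ε p = (p.1 + ε * w, w)
  unB : ∀ w, EE θ h (p.1 - ε * p.2 - ε * w) (p.1 - ε * p.2) p.1 = 0 → ‖w - p.2‖ < c * σ ^ 2 →
    TB θ h ε p = (p.1 - ε * p.2, w)

/-- **first order lemma** -/
def S_FO : Prop := ∀ K : ℝ, 1 ≤ K → ∃ c C : ℝ, 0 < c ∧ c ≤ 1 ∧ 1 ≤ C ∧
  ∀ (θ h Q : ℂ → ℂ) (c₀ : ℂ) (U : Set ℂ) (ε : ℂ) (ρ σ : ℝ) (p : ℂ × ℂ), Cv θ h Q c₀ U → ε ≠ 0 →
  0 < σ → σ ≤ 1 → Rg (gg θ ε) Q U ρ K σ p → ‖ε‖ ≤ c * σ ^ 5 → ‖ε‖ ≤ c * σ * ρ →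
  Fo θ h ε c C σ p

end Vale.Agent.P097F.N
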