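import Vale.Agent.P097F.N.Defs

/-!
# P097F/N: the level of an obstacle is linear on the window (row 17005)
-/

set_option linter.all false

noncomputable section

namespace Vale.Agent.P097F.N

open Filter Topology Set Metric Complex

theorem Lin.cau {f : ℂ → ℂ} {ρ B a : ℝ} (hρ : 0 < ρ) (hd : DifferentiableOn ℂ f (ball 0 (a + 2 * ρ)))
    (hB : ∀ z ∈ closedBall (0 : ℂ) (a + ρ), ‖f z‖ ≤ B) :
    ∀ z ∈ closedBall (0 : ℂ) a, ‖deriv f z‖ ≤ B / ρ := by
  intro z hz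
  have s1 : closedBall z ρ ⊆ closedBall (0 : ℂ) (a + ρ) :=
    closedBall_subset_closedBall' (by rw [mem_closedBall] at hz; linarith)
  have s2 : closedBall z ρ ⊆ ball (0 : ℂ) (a + 2 * ρ) :=
    s1.trans (closedBall_subset_ball (by linarith))
  exact Complex.norm_deriv_le_of_forall_mem_sphere_norm_le hρ (hd.diffContOnCl_ball s2)
    fun w hw => hB w (s1 (sphere_subset_closedBall hw))

theorem Lin.main {f : ℂ → ℂ} {ρ B δ : ℝ} (hρ : 0 < ρ) (hδ : δ ≤ ρ)
    (hd : DifferentiableOn ℂ f (ball 0 (4 * ρ))) (hB : ∀ z ∈ ball (0 : ℂ) (4 * ρ), ‖f z‖ ≤ B) :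
    ‖deriv f 0‖ ≤ B / ρ ∧ ∀ ζ : ℂ, ‖ζ‖ ≤ δ →
      |(f ζ).im - (f ζ.re).im - (deriv f 0).re * ζ.im| ≤ B / ρ / ρ * δ * δ := by
  have an := hd.analyticOnNhd isOpen_ball
  have h1 : ∀ z ∈ closedBall (0 : ℂ) (2 * ρ), ‖deriv f z‖ ≤ B / ρ :=
    Lin.cau hρ (hd.mono (ball_subset_ball (by linarith)))
      fun z hz => hB z (closedBall_subset_ball (by linarith) hz)
  have h2 : ∀ z ∈ closedBall (0 : ℂ) ρ, ‖deriv (deriv f) z‖ ≤ B / ρ / ρ :=
    Lin.cau hρ (an.deriv.differentiableOn.mono (ball_subset_ball (by linarith)))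
      fun z hz => h1 z (closedBall_subset_closedBall (by linarith) hz)
  refine ⟨h1 0 (mem_closedBall_self (by linarith)), fun ζ hζ => ?_⟩
  have d0 : 0 ≤ δ := (norm_nonneg _).trans hζ
  have B0 : 0 ≤ B / ρ / ρ := (norm_nonneg _).trans (h2 0 (mem_closedBall_self hρ.le))
  have s1 : closedBall (0 : ℂ) ρ ⊆ ball 0 (4 * ρ) := closedBall_subset_ball (by linarith)
  have s2 : closedBall (0 : ℂ) δ ⊆ closedBall 0 ρ := closedBall_subset_closedBall hδ
  have h3 : ∀ z ∈ closedBall (0 : ℂ) δ, ‖deriv f z - deriv f 0‖ ≤ B / ρ / ρ * δ := by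
    intro z hz
    have := (convex_closedBall (0 : ℂ) ρ).norm_image_sub_le_of_norm_deriv_le
      (fun x hx => (an.deriv x (s1 hx)).differentiableAt) h2 (mem_closedBall_self hρ.le) (s2 hz)
    refine this.trans (mul_le_mul_of_nonneg_left ?_ B0)
    rw [sub_zero]
    exact mem_closedBall_zero_iff.1 hz
  have m1 : ζ ∈ closedBall (0 : ℂ) δ := mem_closedBall_zero_iff.2 hζ
  have m2 : (ζ.re : ℂ) ∈ closedBall (0 : ℂ) δ := by
    rw [mem_closedBall_zero_iff, Complex.norm_real]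
    exact (Complex.abs_re_le_norm ζ).trans hζ
  have h4 := (convex_closedBall (0 : ℂ) δ).norm_image_sub_le_of_norm_hasDerivWithin_le
    (f := fun z => f z - deriv f 0 * z) (f' := fun z => deriv f z - deriv f 0)
    (fun x hx => by
      have a := (an x (s1 (s2 hx))).differentiableAt.hasDerivAt
      have b : HasDerivAt (fun z : ℂ => deriv f 0 * z) (deriv f 0) x := by
        simpa using (hasDerivAt_id x).const_mul (deriv f 0)
      exact (a.sub b).hasDerivWithinAt) h3 m2 m1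
  have e : (f ζ).im - (f ζ.re).im - (deriv f 0).re * ζ.im =
      (f ζ - deriv f 0 * ζ - (f ζ.re - deriv f 0 * ζ.re)).im := by
    simp only [sub_im, mul_im, ofReal_re, ofReal_im]
    ring
  rw [e]
  refine (Complex.abs_im_le_norm _).trans (h4.trans (mul_le_mul_of_nonneg_left ?_ (by positivity)))
  have e2 : ζ - ζ.re = ζ.im * I := by
    apply Complex.ext <;> simp
  rw [e2, norm_mul, Complex.norm_I, mul_one, Complex.norm_real]
  exact (Complex.abs_im_le_norm ζ).trans hζ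

theorem Lin.hor {K ς ε : ℝ} {D : Md} (N : Num K ς ε D) {c : ℕ} (hc : c ≤ D.M) :
    D.lo 0 ≤ D.hi c ∧ D.hi c ≤ D.hi D.M := by
  have st : ∀ j, j < D.M → D.hi j ≤ D.hi (j + 1) := fun j hj =>
    (N.hl j hj).le.trans (N.lh (j + 1) hj)
  have mono : ∀ a b : ℕ, a ≤ b → b ≤ D.M → D.hi a ≤ D.hi b := by
    intro a b hab
    induction hab with
    | refl => exact fun _ => le_rfl
    | step h ih => exact fun k => (ih (Nat.le_of_succ_le k)).trans (st _ k)
  exact ⟨(N.lh 0 (Nat.zero_le _)).trans (mono 0 c (Nat.zero_le _) hc), mono c D.M hc le_rfl⟩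

theorem Lin.dif {K ς ε : ℝ} {D : Md} (A : Mach K ς ε D) {c : ℕ} (hc : c < D.M) {ζ : ℂ}
    (hζ : ‖ζ‖ < D.R) : DifferentiableAt ℂ (D.τ₀ c) ζ := by
  have N := A.num
  obtain ⟨k1, k2⟩ := Lin.hor N hc.le
  have n0 : (0 : ℝ) ≤ D.n := Nat.cast_nonneg _
  have hor : D.Hor (D.hi c) := by
    have a : ((D.lo 0 : ℤ) : ℝ) ≤ (D.hi c : ℤ) := by exact_mod_cast k1
    have b : ((D.hi c : ℤ) : ℝ) ≤ (D.hi D.M : ℤ) := by exact_mod_cast k2
    constructor <;> rw [Complex.intCast_re] <;> linarith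
  have hZ := (A.deep (D.hi c) ζ hor (Or.inl ⟨hζ, by rw [Complex.intCast_im, abs_zero]; linarith⟩)).1
  have r0 : 0 < D.r := by
    by_contra h
    push Not at h
    nlinarith [N.r0, N.K1]
  have ck := (A.ck c hc ζ hζ).1
  have cl := (A.pat c hc).1.clk
  have hΛ := ck.an _ (mem_ball_self r0)
  obtain ⟨-, m1, m2⟩ := ck.mem _ (mem_ball_self r0)
  have hτ : DifferentiableAt ℂ (D.τ c) (D.Λ c (D.Z (D.hi c, ζ))) :=
    cl.an.differentiableAt (isOpen_ball.mem_nhds (mem_bd.2 ⟨by linarith [cl.r0], by linarith [cl.r0]⟩))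
  have h1 : DifferentiableAt ℂ (fun z : ℂ => D.Z (D.hi c, z)) ζ :=
    DifferentiableAt.comp (g := D.Z) (f := fun z : ℂ => (((D.hi c : ℤ) : ℂ), z)) ζ
      hZ.differentiableAt ((differentiableAt_const _).prodMk differentiableAt_id)
  exact DifferentiableAt.comp (g := D.τ c) ζ hτ
    (DifferentiableAt.comp (g := D.Λ c) ζ hΛ.differentiableAt h1)

theorem lin : S_LIN := by
  intro K
  have K2 : 1 ≤ max K 1 := le_max_right _ _
  refine ⟨1 / (9 * max K 1 ^ 3), by positivity, fun ς ε D hς A c hc => ?_⟩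
  have N := A.num
  have K1 := N.K1
  rw [max_eq_left K1] at hς
  have ς0 := N.ς0
  have ε0 : 0 < ε := by rw [N.eq]; positivity
  have K0 : 0 < K := by linarith
  have s1 : 9 * K ^ 3 * ς < 1 := by
    rw [lt_div_iff₀ (by positivity)] at hς
    linarith
  have K3 : K ≤ K ^ 3 := le_self_pow₀ K1 (by norm_num)
  have s2 : 9 * K * ς < 1 := by nlinarith
  have s3 : ς ≤ 1 := by nlinarith
  have s4 : ς ^ 10 ≤ ς := pow_le_of_le_one ς0.le s3 (by norm_num)
  have hR : 4 * (1 / (K * ε)) ≤ D.R := by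
    have : 1 / (K * ε) ≤ D.H := by
      rw [div_le_iff₀ (by positivity)]
      linarith [N.H0]
    linarith [N.HR]
  have hin : ∀ z ∈ ball (0 : ℂ) (4 * (1 / (K * ε))), ‖z‖ < D.R := fun z hz =>
    (mem_ball_zero_iff.1 hz).trans_le hR
  obtain ⟨h1, h2⟩ := Lin.main (f := D.ν ε c) (ρ := 1 / (K * ε)) (B := K / (2 * ε))
    (δ := 3 * ς ^ 10 / ε) (by positivity)
    (by
      rw [div_le_div_iff₀ ε0 (by positivity)]
      have : 3 * ς ^ 10 * K ≤ 1 := by nlinarith
      nlinarith)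
    (fun z hz => ((Lin.dif A hc (hin z hz)).neg.div_const _).differentiableWithinAt)
    (fun z hz => by
      obtain ⟨-, -, -, g, -⟩ := A.geo c hc z (hin z hz)
      obtain ⟨-, k2, k3, k4⟩ := N.κ c hc
      have p0 : 0 < D.ϱ c := (A.pat c hc).1.clk.r0
      have p1 : D.ϱ c ^ 2 ≤ 1 := pow_le_one₀ p0.le k4
      have p2 : ‖D.κ c‖ * D.ϱ c ^ 2 ≤ K := (mul_le_of_le_one_right (norm_nonneg _) p1).trans k2
      have p3 : 0 ≤ ε * D.m := by positivity
      show ‖-D.τ₀ c z / ε‖ ≤ _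
      rw [norm_div, norm_neg, Complex.norm_real, Real.norm_of_nonneg ε0.le,
        div_le_div_iff₀ ε0 (by positivity)]
      have : ‖D.τ₀ c z‖ * 2 ≤ K := by linarith
      nlinarith)
  refine ⟨?_, fun ζ hζ => ?_⟩
  · refine (Complex.abs_re_le_norm _).trans (h1.trans ?_)
    have : K / (2 * ε) / (1 / (K * ε)) = K ^ 2 / 2 := by field_simp
    rw [this]
    nlinarith [sq_nonneg K]
  · refine (h2 ζ (by rw [le_div_iff₀ ε0]; linarith)).trans ?_
    have : K / (2 * ε) / (1 / (K * ε)) / (1 / (K * ε)) * (3 * ς ^ 10 / ε) * (3 * ς ^ 10 / ε) =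
        9 * K ^ 3 * ς / 2 * (ς ^ 19 / ε) := by
      field_simp
      ring
    rw [this]
    exact mul_le_of_le_one_left (by positivity) (by linarith)

end Vale.Agent.P097F.N
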