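import Vale.Agent.P097F.N.Defs

/-!
# P097F/N: the true state follows the chart
-/

set_option linter.all false

noncomputable section

namespace Vale.Agent.P097F.N

open Filter Topology Set Metric Complex

namespace Tb

variable {K ς ε : ℝ} {D : Md}

theorem lo_le (h : Num K ς ε D) : ∀ j ≤ D.M, D.lo 0 ≤ D.lo j := by
  intro j
  induction j with
  | zero => exact fun _ => le_rfl
  | succ j ih =>
    intro hj
    have a := ih (by omega)
    have b := h.lh j (by omega)
    have c := h.hl j (by omega)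
    omega

theorem le_hi (h : Num K ς ε D) : ∀ k j, j + k = D.M → D.hi j ≤ D.hi D.M := by
  intro k
  induction k with
  | zero =>
    intro j hj
    rw [← hj]
    exact le_rfl
  | succ k ih =>
    intro j hj
    have a := ih (j + 1) (by omega)
    have b := h.lh (j + 1) (by omega)
    have c := h.hl j (by omega)
    omega

theorem gap_mem (h : Num K ς ε D) {i : ℤ} (hi : D.Gap i) : D.lo 0 ≤ i ∧ i ≤ D.hi D.M := by
  obtain ⟨j, hj, a, b⟩ := hi
  exact ⟨(lo_le h j hj).trans a, b.trans (le_hi h (D.M - j) j (by omega))⟩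

theorem hor (h : Num K ς ε D) {i : ℤ} (hi : D.Gap i) {z : ℂ} (hz : ‖z‖ ≤ 7 * D.n) :
    D.Hor (i + z) ∧ |((i : ℂ) + z).im| ≤ 8 * D.n := by
  obtain ⟨a, b⟩ := gap_mem h hi
  have a' : (D.lo 0 : ℝ) ≤ i := by exact_mod_cast a
  have b' : (i : ℝ) ≤ D.hi D.M := by exact_mod_cast b
  have n0 : (0 : ℝ) ≤ D.n := by positivity
  have h1 := abs_le.1 ((abs_re_le_norm z).trans hz)
  have h2 := (abs_im_le_norm z).trans hz
  refine ⟨⟨?_, ?_⟩, ?_⟩
  · rw [add_re, intCast_re]
    linarith [h1.1]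
  · rw [add_re, intCast_re]
    linarith [h1.2]
  · rw [add_im, intCast_im, zero_add]
    linarith

theorem dZ {Z : ℂ × ℂ → ℂ × ℂ} {i ζ t : ℂ} (h : AnalyticAt ℂ Z (i + t, ζ)) :
    DifferentiableAt ℂ (fun t => Z (i + t, ζ)) t :=
  h.differentiableAt.comp t (f := fun t => (i + t, ζ))
    (((differentiableAt_const i).add differentiableAt_id).prodMk (differentiableAt_const ζ))

/-- the comparison on the real line -/
theorem bot (h : Mach K ς ε D) (n1 : 1 ≤ D.n) {i : ℤ} (hi : D.Gap i) {ζ : ℂ} (hζ : ‖ζ‖ < D.R)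
    {t : ℂ} (ht : ‖t‖ ≤ 2 * D.n) :
    ‖D.Z (i + t, ζ) - D.Ct i ζ t‖ ≤ (1 + 2 * K) * (1 / 2) ^ D.n := by
  have hN := h.num
  have r0 : 0 < D.r := by
    by_contra e
    nlinarith [hN.r0, hN.K1, not_lt.1 e]
  have dp := fun z (hz : ‖z‖ ≤ 7 * D.n) =>
    h.deep (i + z) ζ (hor hN hi hz).1 (Or.inl ⟨hζ, (hor hN hi hz).2⟩)
  have n0 : (0 : ℝ) ≤ D.n := by positivity
  have h0 := dp 0 (by rw [norm_zero]; positivity)
  rw [add_zero] at h0
  have key := (h.gap i hi ζ hζ).1.cmp hN.am n1 (by have := hN.nm; omega)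
    (mem_ball_self (by linarith)) (Z := fun t => D.Z (i + t, ζ)) (B := 2 * K)
    (fun z hz => (dZ (dp z (by simpa using hz)).1).differentiableWithinAt)
    (fun z hz => (norm_sub_le _ _).trans (by linarith [(dp z (by simpa using hz)).2.1, h0.2.1]))
    (by
      intro j hj
      induction j with
      | zero => simp
      | succ j ih =>
        have jn : (j : ℝ) ≤ D.n := by exact_mod_cast (by omega : j ≤ D.n)
        have e := (dp j (by rw [Complex.norm_natCast]; linarith)).2.2.1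
        rw [Function.iterate_succ_apply', ← ih (by omega), e, Nat.cast_succ, add_assoc]) ht
  rw [norm_sub_rev]
  refine key.trans (mul_le_mul_of_nonneg_right ?_ (by positivity))
  linarith [hN.r1]

end Tb

open Tb

theorem tub (hE : Vale.Agent.P097Q.S_EDGE) : S_TUB := by
  have s0 : 0 < Real.sinh (Real.pi * 11 / 2) := Real.sinh_pos_iff.2 (by positivity)
  have l0 : 0 < Real.log 2 := Real.log_pos one_lt_two
  refine ⟨min (Real.log 2 / Real.sinh (Real.pi * 11 / 2)) 1, lt_min (by positivity) one_pos,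
    min_le_right _ _, fun K => ⟨1 / max K 1, by positivity, ?_⟩⟩
  have c0 : 0 < min (Real.log 2 / Real.sinh (Real.pi * 11 / 2)) 1 := lt_min (by positivity) one_pos
  have c1 : min (Real.log 2 / Real.sinh (Real.pi * 11 / 2)) 1 * Real.sinh (Real.pi * 11 / 2) ≤
      Real.log 2 := (le_div_iff₀ s0).1 (min_le_left _ _)
  generalize min (Real.log 2 / Real.sinh (Real.pi * 11 / 2)) 1 = c at c0 c1
  intro ς ε D hς h i hi ζ t y B hζ hB y0 y1 hZ ht t0 t1
  have hN := h.num
  have K1 := hN.K1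
  have ς0 := hN.ς0
  rw [max_eq_left K1, lt_div_iff₀ (by linarith)] at hς
  have ς1 : ς ≤ 1 := by nlinarith
  have ε0 : 0 < ε := by
    rw [hN.eq]
    positivity
  have H0 : 0 < D.H := by
    by_contra e
    have : ε * D.H ≤ 0 := mul_nonpos_of_nonneg_of_nonpos ε0.le (not_lt.1 e)
    nlinarith [hN.H0]
  have n0 : (0 : ℝ) < D.n := by linarith [hN.HR, hN.Rn]
  have n1 : 1 ≤ D.n := by exact_mod_cast n0
  have r0 : 0 < D.r := by
    by_contra e
    nlinarith [hN.r0, not_lt.1 e]
  have hR : ‖ζ‖ < D.R := by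
    have a : ς ^ 10 ≤ ς := pow_le_of_le_one ς0.le ς1 (by norm_num)
    have b : K * (ε * ‖ζ‖) ≤ K * (3 * ς) := mul_le_mul_of_nonneg_left (by linarith) (by linarith)
    have d : K * (ε * (4 * D.H)) ≤ K * (ε * D.R) :=
      mul_le_mul_of_nonneg_left (mul_le_mul_of_nonneg_left hN.HR ε0.le) (by linarith)
    have e : K * (ε * ‖ζ‖) < K * (ε * D.R) := by nlinarith [hN.H0]
    exact lt_of_mul_lt_mul_left (lt_of_mul_lt_mul_left e (by linarith)) ε0.le
  have hBK : 4 * B * K ≤ 4 * B / ς := by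
    rw [le_div_iff₀ ς0]
    nlinarith
  have nm : (40 : ℝ) * D.n ≤ D.m := by exact_mod_cast hN.nm
  have hnear := (h.gap i hi ζ hR).1
  have hp : D.Z (i, ζ) ∈ ball (D.Z (i, ζ)) (D.r / 2) := mem_ball_self (by linarith)
  have all : ∀ z : ℂ, |z.re| ≤ D.n → 0 ≤ z.im → z.im ≤ y →
      DifferentiableAt ℂ (fun t => D.Z (i + t, ζ) - D.Ct i ζ t) z ∧
        ‖D.Z (i + z, ζ) - D.Ct i ζ z‖ ≤ 4 * B / ς := by
    intro z a b d
    refine ⟨(dZ (hZ z a b d).1).sub (hnear.an_t hN.am hp z).differentiableAt, ?_⟩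
    have z1 : ‖z‖ ≤ 8 * D.m := by
      have := norm_le_abs_re_add_abs_im z
      rw [abs_of_nonneg b] at this
      linarith
    have e1 : ‖D.Ct i ζ z - D.Z (i, ζ)‖ ≤ 54 * D.a * D.m := hnear.bd_Ch hN.am hp z1
    have e2 := (hZ 0 (by simp) (by simp) (by simpa using y0)).2
    rw [add_zero] at e2
    have e3 := (hZ z a b d).2
    have e4 := norm_sub_le (D.Z (i + z, ζ)) (D.Ct i ζ z)
    have e5 := norm_add_le (D.Ct i ζ z - D.Z (i, ζ)) (D.Z (i, ζ))
    rw [sub_add_cancel] at e5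
    have e6 : 4 * B ≤ 4 * B * K := by nlinarith
    linarith [hN.am, hN.r1]
  rcases y0.eq_or_lt with rfl | y0'
  · have : t.im = 0 := le_antisymm t1 t0
    rw [this, sub_zero, mul_zero, neg_zero, Real.exp_zero, mul_one]
    exact (all t (ht.trans (by linarith)) t0 t1).2
  · refine hE (fun t => D.Z (i + t, ζ) - D.Ct i ζ t) D.n y y (11 * D.n) (4 * B / ς) c n0 y0' y1 c0.le
      (by positivity) (fun z a b => all z a (by linarith [b.1]) b.2) ?_ t ht
      ⟨by linarith, t1⟩
    intro z a b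
    have z1 : ‖z‖ ≤ 2 * D.n := by
      have := norm_le_abs_re_add_abs_im z
      rw [b, sub_self, abs_zero] at this
      linarith
    refine (bot h n1 hi hR z1).trans (mul_le_mul (by nlinarith) ?_ (by positivity) (by positivity))
    have e : Real.pi * (11 * (D.n : ℝ)) / (2 * D.n) = Real.pi * 11 / 2 := by field_simp
    have e' : ((1 : ℝ) / 2) ^ D.n = Real.exp (-(D.n * Real.log 2)) := by
      rw [Real.exp_neg, Real.exp_nat_mul, Real.exp_log two_pos, one_div, inv_pow]
    rw [e, e']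
    refine Real.exp_le_exp.2 (neg_le_neg ?_)
    nlinarith [mul_le_mul_of_nonneg_left c1 n0.le]

end Vale.Agent.P097F.N
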