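import Vale.Agent.P097F.N.Ob1

/-!
# P097F/N: the clock of the family near an obstacle, its limit and its slope
-/

set_option linter.all false

noncomputable section

namespace Vale.Agent.P097F.N

open Filter Topology Set Metric Complex Vale.Agent.P097D Vale.Agent.P097N Vale.Agent.P097Mo

/-- the state of the limit family `f` at `q = (w, x)` is in the patch, its clock is explicit -/
structure Obl (g : ℂ → ℂ) (Ξ : ℂ × ℂ → ℂ × ℂ) (P₀ : ℂ × ℂ) (J₀ : ℂ) (r s : ℝ) (f : ℂ × ℂ → ℂ)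
    (X : ℂ → ℂ) (q : ℂ × ℂ) : Prop where
  g0 : g (Z0 f q).1 ≠ 0
  yd : yd g (Z0 f q) ∈ ball P₀ s
  la : La g (Z0 f q) ∈ ball ((0, J₀) : ℂ × ℂ) r
  lv : (La g (Z0 f q)).2 = q.1 ^ 3
  tm : clk (fq g Ξ) (La g (Z0 f q)) = (q.2 - X q.1) / q.1
  w0 : q.1 ≠ 0
  an : AnalyticAt ℂ X q.1

theorem Clm.obl {g Ξ P₀ J₀ κ r r₀ s B f X q}
    (C : Clm g Ξ P₀ J₀ r₀ s (Z0 f q) q.1 ((q.2 - X q.1) / q.1)) (Lv : Lev g Ξ P₀ J₀ κ r₀ s B)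
    (r0 : 0 < r) (h1 : ‖κ‖ * r ^ 2 / 32 ≤ ‖(q.2 - X q.1) / q.1‖)
    (h2 : ‖(q.2 - X q.1) / q.1‖ ≤ ‖κ‖ * r ^ 2 / 2) (h3 : ‖q.1 ^ 3 - J₀‖ < r / 2) (w0 : q.1 ≠ 0)
    (an : AnalyticAt ℂ X q.1) : Obl g Ξ P₀ J₀ r s f X q :=
  ⟨C.g0, C.yd, Ins.mem (C.ins Lv r0 h1 h2 h3), C.J, C.clk, w0, an⟩

/-- the clock of the true state at `q = (w, x)` -/
def tzc (g : ℂ → ℂ) (Ξ : ℂ × ℂ → ℂ × ℂ) (ε : ℂ) (F : ℂ × ℂ → ℂ) (q : ℂ × ℂ) : ℂ :=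
  clk (fq g Ξ) (La g (Zt ε F q))

variable {𝒰 : Ultrafilter ℕ} {g : ℕ → ℂ → ℂ} {Ξ : ℕ → ℂ × ℂ → ℂ × ℂ} {g₀ X : ℂ → ℂ}
  {Ξ₀ : ℂ × ℂ → ℂ × ℂ} {P₀ : ℂ × ℂ} {J₀ κ : ℂ} {r s B : ℝ} {ε : ℕ → ℂ} {θ h : ℕ → ℂ → ℂ}
  {On : ℕ → Set (ℂ × ℂ)} {O : Set (ℂ × ℂ)} {F : ℕ → ℂ × ℂ → ℂ} {F₀ : ℂ × ℂ → ℂ}

/-- continuous convergence of the clocks and of the levels -/
theorem tauZ (S : LevS 𝒰 g Ξ g₀ Ξ₀ P₀ J₀ κ r s B) (T : Tf 𝒰 ε θ h On O F F₀) (e0 : ∀ n, ε n ≠ 0)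
    (el : Tendsto ε 𝒰 (𝓝 0)) {q : ℂ × ℂ} (hq : q ∈ O) (ob : Obl g₀ Ξ₀ P₀ J₀ r s F₀ X q)
    {v : ℕ → ℂ × ℂ} (hv : Tendsto v 𝒰 (𝓝 q)) :
    Tendsto (fun n => tzc (g n) (Ξ n) (ε n) (F n) (v n)) 𝒰 (𝓝 ((q.2 - X q.1) / q.1)) ∧
    Tendsto (fun n => (La (g n) (Zt (ε n) (F n) (v n))).2) 𝒰 (𝓝 (q.1 ^ 3)) ∧
    ∀ᶠ n in (𝒰 : Filter ℕ), AnalyticAt ℂ (Zt (ε n) (F n)) (v n) →
      DifferentiableAt ℂ (tzc (g n) (Ξ n) (ε n) (F n)) (v n) := by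
  have z := T.zc e0 el hq hv
  have c := S.cc _ (S.lim.y_mem ob.yd) _ ((continuous_fst.tendsto _).comp z)
  obtain ⟨a, b⟩ := la_lim z c ob.g0
  refine ⟨ob.tm ▸ S.tauLa ob.g0 ob.yd ob.la z, ob.lv ▸ (continuous_snd.tendsto _).comp b, ?_⟩
  filter_upwards [S.ev, c.eventually_ne ob.g0, a.eventually (isOpen_ball.mem_nhds ob.yd),
    b.eventually (isOpen_ball.mem_nhds ob.la)] with n L k1 k2 k3 k4
  exact DifferentiableAt.comp (g := clk (fq (g n) (Ξ n))) _ (L.clk.an.differentiableAt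
    (isOpen_ball.mem_nhds (ball_subset_ball (by linarith [L.r0]) k3)))
    ((La_an (L.ag _ (L.y_mem k2)) k1).comp k4).differentiableAt

/-- uniform convergence on compact sets -/
theorem tauK (S : LevS 𝒰 g Ξ g₀ Ξ₀ P₀ J₀ κ r s B) (T : Tf 𝒰 ε θ h On O F F₀) (e0 : ∀ n, ε n ≠ 0)
    (el : Tendsto ε 𝒰 (𝓝 0)) {K : Set (ℂ × ℂ)} (hK : IsCompact K) (sub : K ⊆ O)
    (ob : ∀ q ∈ K, Obl g₀ Ξ₀ P₀ J₀ r s F₀ X q) {η : ℝ} (η0 : 0 < η) :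
    ∀ᶠ n in (𝒰 : Filter ℕ), ∀ q ∈ K, DifferentiableAt ℂ (tzc (g n) (Ξ n) (ε n) (F n)) q ∧
      ‖tzc (g n) (Ξ n) (ε n) (F n) q - (q.2 - X q.1) / q.1‖ < η ∧
      ‖(La (g n) (Zt (ε n) (F n) q)).2 - q.1 ^ 3‖ < η := by
  have u := ev_cpt 𝒰 hK (P := fun n q => (AnalyticAt ℂ (Zt (ε n) (F n)) q →
      DifferentiableAt ℂ (tzc (g n) (Ξ n) (ε n) (F n)) q) ∧
      ‖tzc (g n) (Ξ n) (ε n) (F n) q - (q.2 - X q.1) / q.1‖ < η ∧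
      ‖(La (g n) (Zt (ε n) (F n) q)).2 - q.1 ^ 3‖ < η) fun q hq v _ hv => by
    obtain ⟨a, b, c⟩ := tauZ S T e0 el (sub hq) (ob q hq) hv
    have v1 := (continuous_fst.tendsto q).comp hv
    have a' := (a.sub ((((continuous_snd.tendsto q).comp hv).sub
      ((ob q hq).an.continuousAt.tendsto.comp v1)).div v1 (ob q hq).w0)).norm
    have b' := (b.sub (v1.pow 3)).norm
    rw [sub_self, norm_zero] at a' b'
    exact c.and ((a'.eventually_lt_const η0).and (b'.eventually_lt_const η0))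
  filter_upwards [u, T.zu e0 el hK sub one_pos] with n k1 k2 q hq
  exact ⟨(k1 q hq).1 (k2 q hq).1, (k1 q hq).2⟩

/-- **the slope of an obstacle converges** -/
theorem slp (S : LevS 𝒰 g Ξ g₀ Ξ₀ P₀ J₀ κ r s B) (T : Tf 𝒰 ε θ h On O F F₀) (e0 : ∀ n, ε n ≠ 0)
    (el : Tendsto ε 𝒰 (𝓝 0)) {W x₀ t c₀ : ℂ} {δ : ℝ} {v x i α : ℕ → ℂ} {ν : ℕ → ℂ → ℂ}
    (δ0 : 0 < δ) (sub : closedBall ((W, x₀ + W * t) : ℂ × ℂ) δ ⊆ O)
    (ob : ∀ q ∈ closedBall ((W, x₀ + W * t) : ℂ × ℂ) δ, Obl g₀ Ξ₀ P₀ J₀ r s F₀ X q)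
    (hv : Tendsto v 𝒰 (𝓝 W)) (hx : Tendsto x 𝒰 (𝓝 x₀))
    (hi : Tendsto (fun n => ε n * i n) 𝒰 (𝓝 t)) (hα : Tendsto (fun n => α n / ε n) 𝒰 (𝓝 c₀))
    (hν : ∀ᶠ n in (𝒰 : Filter ℕ), ∀ ζ, ν n ζ = -tzc (g n) (Ξ n) (ε n) (F n)
      (v n + α n * ζ, x n + ε n * (v n + α n * ζ) * i n) / ε n) :
    Tendsto (fun n => deriv (ν n) 0) 𝒰 (𝓝 (c₀ * deriv (fun w => (X w - x₀) / w) W)) := by
  set q₀ : ℂ × ℂ := (W, x₀ + W * t)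
  have c : Continuous fun z : ℂ × ℂ × ℂ => ((z.1, z.2.1 + z.1 * z.2.2) : ℂ × ℂ) := by fun_prop
  obtain ⟨δ', δ1, hδ⟩ := Metric.eventually_nhds_iff_ball.1
    ((c.tendsto (W, x₀, t)).eventually (closedBall_mem_nhds q₀ δ0))
  have mb : ∀ w ∈ ball W δ', ∀ y ∈ ball ((x₀, t) : ℂ × ℂ) δ',
      ((w, y.1 + w * y.2) : ℂ × ℂ) ∈ closedBall q₀ δ := fun w hw y hy =>
    hδ (w, y) (by rw [← ball_prod_same]; exact ⟨hw, hy⟩)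
  have m0 : ∀ w ∈ ball W δ', ((w, x₀ + w * t) : ℂ × ℂ) ∈ closedBall q₀ δ := fun w hw =>
    mb w hw (x₀, t) (mem_ball_self δ1)
  obtain ⟨G, hG⟩ : ∃ G : ℕ → ℂ → ℂ, G = fun n w =>
    tzc (g n) (Ξ n) (ε n) (F n) (w, x n + w * (ε n * i n)) := ⟨_, rfl⟩
  have dG : ∀ᶠ n in (𝒰 : Filter ℕ), DifferentiableOn ℂ (G n) (ball W δ') := by
    filter_upwards [tauK S T e0 el (isCompact_closedBall q₀ δ) sub ob one_pos,
      (hx.prodMk_nhds hi).eventually (ball_mem_nhds _ δ1)] with n k1 k2 w hw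
    rw [hG]
    exact (DifferentiableAt.comp (g := tzc (g n) (Ξ n) (ε n) (F n)) w (k1 _ (mb w hw _ k2)).1
      (by fun_prop)).differentiableWithinAt
  have d0 : ∀ w ∈ ball W δ', DifferentiableAt ℂ (fun w => (X w - x₀) / w) w := fun w hw =>
    ((ob _ (m0 w hw)).an.differentiableAt.sub_const x₀).div differentiableAt_id
      (ob _ (m0 w hw)).w0
  have cv := cc_deriv 𝒰 (F := G) (f := fun w => t - (X w - x₀) / w) (U := ball W δ') isOpen_ball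
    (fun w hw => by
      obtain ⟨ρ, ρ0, k⟩ := Metric.isOpen_iff.1 isOpen_ball w hw
      exact ⟨ρ, ρ0, dG.mono fun n d => d.mono k⟩)
    (fun w hw => ((d0 w hw).const_sub t).differentiableWithinAt)
    (fun w hw u hu => by
      have a := (tauZ S T e0 el (sub (m0 w hw)) (ob _ (m0 w hw))
        (hu.prodMk_nhds (hx.add (hu.mul hi)))).1
      have w0 : w ≠ 0 := (ob _ (m0 w hw)).w0
      have e : (x₀ + w * t - X w) / w = t - (X w - x₀) / w := by field_simp; ring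
      rw [hG]
      dsimp only at a ⊢
      rw [← e]
      exact a) W (mem_ball_self δ1) v hv
  rw [deriv_const_sub] at cv
  have r := (hα.mul cv).neg
  rw [mul_neg, neg_neg] at r
  refine r.congr' ?_
  filter_upwards [dG, hν, hv.eventually (ball_mem_nhds W δ1)] with n d k m
  have l : HasDerivAt (fun ζ : ℂ => v n + α n * ζ) (α n) 0 := by
    simpa using ((hasDerivAt_id (0 : ℂ)).const_mul (α n)).const_add (v n)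
  have d1 := HasDerivAt.comp_of_eq (hh₂ := (d.differentiableAt
    (isOpen_ball.mem_nhds m)).hasDerivAt) (hh := l) (hy := by simp)
  have e : ν n = fun ζ => -(G n ∘ fun ζ : ℂ => v n + α n * ζ) ζ / ε n := by
    funext ζ
    rw [k, hG]
    simp only [Function.comp]
    congr 5
    ring
  rw [e]
  refine Eq.trans ?_ (d1.neg.div_const (ε n)).deriv.symm
  ring

end Vale.Agent.P097F.N
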