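import Vale.Agent.P097F.N.Cht

/-!
# P097F/N: the inverse of the chart of a family which is close to a nondegenerate family
-/

set_option linter.all false

noncomputable section

namespace Vale.Agent.P097F.N

open Filter Topology Set Metric Complex

theorem det_pert {u v u' v' : ℂ × ℂ} {α β e₁ e₂ : ℝ} (hu : ‖u‖ ≤ α) (hv : ‖v‖ ≤ β)
    (h1 : ‖u' - u‖ ≤ e₁) (h2 : ‖v' - v‖ ≤ e₂) :
    ‖(u'.1 * v'.2 - v'.1 * u'.2) - (u.1 * v.2 - v.1 * u.2)‖ ≤ 2 * (e₁ * β + α * e₂ + e₁ * e₂) := by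
  let L : ℂ × ℂ →L[ℂ] ℂ × ℂ := (ContinuousLinearMap.fst ℂ ℂ ℂ).smulRight u' +
    (ContinuousLinearMap.snd ℂ ℂ ℂ).smulRight v'
  have a : L (1, 0) = u' := by simp [L]
  have b : L (0, 1) = v' := by simp [L]
  have := (det_cols (e₁ := e₁) (e₂ := e₂) L hu hv (by rw [a]; exact h1) (by rw [b]; exact h2)).2
  rwa [det2, a, b] at this

theorem tay2 {D : ℂ × ℂ → ℂ × ℂ} {x y : ℂ × ℂ} {ρ M : ℝ} (hD : AnalyticOnNhd ℂ D (ball x ρ))
    (hM : ∀ u ∈ ball x ρ, ‖D u - D x‖ ≤ M) (hy : ‖y - x‖ < ρ / 2) :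
    ‖D y - D x - fderiv ℂ D x (y - x)‖ ≤ 16 * M / ρ ^ 2 * ‖y - x‖ * ‖y - x‖ := by
  have ρ0 : 0 < ρ := by linarith [norm_nonneg (y - x)]
  have M0 : 0 ≤ M := by simpa using hM x (mem_ball_self ρ0)
  have s : closedBall x ‖y - x‖ ⊆ ball x (ρ / 2) := closedBall_subset_ball hy
  refine (convex_closedBall x ‖y - x‖).norm_image_sub_le_of_norm_hasFDerivWithin_le'
    (f' := fderiv ℂ D) (fun z hz => (hD z (ball_subset_ball (by linarith) (s hz))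
      ).differentiableAt.hasFDerivAt.hasFDerivWithinAt) (fun z hz => ?_)
    (mem_closedBall_self (norm_nonneg _)) (by rw [mem_closedBall, dist_eq_norm])
  refine (fd_bd hD hM (s hz)).2.trans ?_
  gcongr; rwa [← dist_eq_norm]

theorem dirs_r {ε β κ A e P D X : ℝ} (A1 : 1 ≤ A) (β0 : 0 ≤ β) (e0 : 0 ≤ e) (e1 : e ≤ 1)
    (h3 : 4 * (e * (2 * β * A ^ 2 + 1)) * A ^ 2 ≤ κ) (hP : 1 ≤ A ^ 2 * P) (hD : κ ≤ D)
    (p2 : ε ^ 2 * P * D - X ≤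
      2 * (e * ε * (β * A ^ 2 * ε) + β * A ^ 2 * ε * (e * ε) + e * ε * (e * ε))) :
    κ / (2 * A ^ 2) * ε ^ 2 ≤ X := by
  have κ0 : 0 ≤ κ := le_trans (by positivity) h3
  have A2 : 0 < A ^ 2 := by positivity
  have g1 : κ / A ^ 2 ≤ P * D := by
    rw [div_le_iff₀ A2]; nlinarith [mul_le_mul_of_nonneg_right hP (κ0.trans hD)]
  have g2 : 2 * (e * (2 * β * A ^ 2 + 1)) ≤ κ / (2 * A ^ 2) := by
    rw [le_div_iff₀ (by positivity)]; linarith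
  have g3 : κ / A ^ 2 = κ / (2 * A ^ 2) + κ / (2 * A ^ 2) := by field_simp; ring
  have g4 : e * e ≤ e := by nlinarith
  have s := sq_nonneg ε
  rw [g3] at g1
  linarith [mul_le_mul_of_nonneg_right g1 s, mul_le_mul_of_nonneg_right g2 s,
    mul_le_mul_of_nonneg_right g4 s]

/-- the two directions at the base point -/
theorem dirs {Z Z₀ : ℂ × ℂ → ℂ × ℂ} {v x c μ : ℂ} {δ η M ε β κ A : ℝ} (A1 : 1 ≤ A) (ε0 : 0 < ε)
    (hZ : ∀ q ∈ ball ((v, x) : ℂ × ℂ) δ, AnalyticAt ℂ Z q ∧ AnalyticAt ℂ Z₀ q ∧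
      ‖Z q - Z₀ q‖ ≤ η ∧ ‖Z q - Z (v, x)‖ ≤ M)
    (hβ : ‖fderiv ℂ Z₀ (v, x)‖ ≤ β) (hκ : κ ≤ ‖det2 (fderiv ℂ Z₀ (v, x))‖)
    (hv : ‖v‖ ≤ A) (hc : ‖c‖ ≤ A) (hμ : ‖μ‖ ≤ A) (hvc : 1 ≤ A ^ 2 * (‖v‖ * ‖c‖))
    (hε : ε * A < δ / 2) {e : ℝ} (e1 : e ≤ 1) (h1 : 2 * η / δ * A ^ 2 ≤ e / 2)
    (h2 : 16 * M / δ ^ 2 * (ε * A) * A ≤ e / 2) (h3 : 4 * (e * (2 * β * A ^ 2 + 1)) * A ^ 2 ≤ κ) :
    ‖deriv (fun ζ => Z (v + ε * c * ζ, x + ε * μ * c * ζ)) 0‖ ≤ (β * A ^ 2 + 1) * ε ∧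
    κ / (2 * A ^ 2) * ε ^ 2 ≤
      ‖(Z (v, x + ε * v) - Z (v, x)).1 * (deriv (fun ζ => Z (v + ε * c * ζ, x + ε * μ * c * ζ)) 0).2 -
        (deriv (fun ζ => Z (v + ε * c * ζ, x + ε * μ * c * ζ)) 0).1 *
          (Z (v, x + ε * v) - Z (v, x)).2‖ := by
  have δ0 : 0 < δ := by nlinarith
  have q0 : ((v, x) : ℂ × ℂ) ∈ ball ((v, x) : ℂ × ℂ) δ := mem_ball_self δ0
  have η0 : 0 ≤ η := (norm_nonneg _).trans (hZ _ q0).2.2.1
  have M0 : 0 ≤ M := (norm_nonneg _).trans (hZ _ q0).2.2.2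
  have β0 : 0 ≤ β := (norm_nonneg _).trans hβ
  have ne : ‖(ε : ℂ)‖ = ε := by simp [abs_of_pos ε0]
  have e0 : 0 ≤ e := by have : 0 ≤ 2 * η / δ * A ^ 2 := by positivity
                        linarith
  set L := fderiv ℂ Z₀ (v, x) with hL
  set L' := fderiv ℂ Z (v, x) with hL'
  have AA : A ≤ A ^ 2 := by nlinarith
  have dL : ‖L' - L‖ ≤ 2 * η / δ := by
    rw [hL, hL', ← fderiv_fun_sub (hZ _ q0).1.differentiableAt (hZ _ q0).2.1.differentiableAt]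
    refine norm_fderiv_le_div_of_mapsTo_ball (fun q hq =>
      ((hZ q hq).1.sub (hZ q hq).2.1).differentiableAt.differentiableWithinAt) (fun q hq => ?_) δ0
    rw [mem_closedBall, dist_eq_norm]
    exact (norm_sub_le _ _).trans (by linarith [(hZ q hq).2.2.1, (hZ _ q0).2.2.1])
  have d1 : HasDerivAt (fun ζ : ℂ => ((v + ε * c * ζ, x + ε * μ * c * ζ) : ℂ × ℂ))
      (ε * c, ε * μ * c) 0 := by
    simpa using (((hasDerivAt_id (0 : ℂ)).const_mul (ε * c)).const_add v).prodMk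
      (((hasDerivAt_id (0 : ℂ)).const_mul (ε * μ * c)).const_add x)
  have d2 : deriv (fun ζ => Z (v + ε * c * ζ, x + ε * μ * c * ζ)) 0 = L' (ε * c, ε * μ * c) :=
    ((hZ _ q0).1.differentiableAt.hasFDerivAt.comp_hasDerivAt_of_eq 0 d1 (by simp)).deriv
  rw [d2]
  have n1 : ‖((ε * c, ε * μ * c) : ℂ × ℂ)‖ ≤ A ^ 2 * ε := by
    rw [Prod.norm_def]
    simp only [norm_mul, ne]
    have : ε * ‖μ‖ * ‖c‖ ≤ ε * A * A := by gcongr
    exact max_le (by linarith [mul_le_mul_of_nonneg_left (hc.trans AA) ε0.le]) (by linarith)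
  have n2 : ‖((0, ε * v) : ℂ × ℂ)‖ ≤ ε * A := by
    rw [Prod.norm_def]
    simp only [norm_mul, ne, norm_zero]
    exact max_le (by positivity) (by gcongr)
  have b1 : ‖L (ε * c, ε * μ * c)‖ ≤ β * A ^ 2 * ε :=
    (L.le_opNorm _).trans ((mul_le_mul hβ n1 (norm_nonneg _) β0).trans_eq (by ring))
  have b2 : ‖L' (ε * c, ε * μ * c) - L (ε * c, ε * μ * c)‖ ≤ e * ε := by
    rw [← ContinuousLinearMap.sub_apply]
    refine ((L' - L).le_opNorm _).trans ?_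
    calc _ ≤ 2 * η / δ * (A ^ 2 * ε) := by gcongr
      _ ≤ _ := by linarith [mul_le_mul_of_nonneg_right h1 ε0.le, mul_nonneg e0 ε0.le]
  have b3 : ‖L (0, ε * v)‖ ≤ β * A ^ 2 * ε := (L.le_opNorm _).trans (by
    calc _ ≤ β * (ε * A) := by gcongr
      _ ≤ β * (ε * A ^ 2) := by gcongr
      _ = _ := by ring)
  have b4 : ‖(Z (v, x + ε * v) - Z (v, x)) - L (0, ε * v)‖ ≤ e * ε := by
    have e5 : ((v, x + ε * v) : ℂ × ℂ) - (v, x) = (0, ε * v) := by simp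
    have t := tay2 (D := Z) (x := (v, x)) (y := (v, x + ε * v)) (fun q hq => (hZ q hq).1)
      (fun q hq => (hZ q hq).2.2.2) (by rw [e5]; linarith)
    rw [e5] at t
    have t2 : ‖L' (0, ε * v) - L (0, ε * v)‖ ≤ 2 * η / δ * (ε * A ^ 2) := by
      rw [← ContinuousLinearMap.sub_apply]
      exact ((L' - L).le_opNorm _).trans (by gcongr; exact n2.trans (by gcongr))
    have t3 := norm_add_le (Z (v, x + ε * v) - Z (v, x) - L' (0, ε * v))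
      (L' (0, ε * v) - L (0, ε * v))
    rw [sub_add_sub_cancel] at t3
    have t4 : 16 * M / δ ^ 2 * ‖((0, ε * v) : ℂ × ℂ)‖ * ‖((0, ε * v) : ℂ × ℂ)‖ ≤
      16 * M / δ ^ 2 * (ε * A) * (ε * A) := by gcongr
    linarith [mul_le_mul_of_nonneg_right h1 ε0.le, mul_le_mul_of_nonneg_right h2 ε0.le]
  refine ⟨?_, ?_⟩
  · have := norm_add_le (L' (ε * c, ε * μ * c) - L (ε * c, ε * μ * c)) (L (ε * c, ε * μ * c))
    rw [sub_add_cancel] at this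
    linarith [mul_le_mul_of_nonneg_right e1 ε0.le]
  · have p := det_pert b3 b1 b4 b2
    have e3 : (L (0, ε * v)).1 * (L (ε * c, ε * μ * c)).2 - (L (ε * c, ε * μ * c)).1 *
        (L (0, ε * v)).2 = -(ε ^ 2 * (v * c) * det2 L) := by
      rw [ap2 L (0, ε * v), ap2 L (ε * c, ε * μ * c), det2]; simp; ring
    rw [e3, norm_sub_rev] at p
    have p2 := (norm_sub_norm_le _ _).trans p
    rw [norm_neg, norm_mul, norm_mul, norm_mul, norm_pow, ne] at p2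
    exact dirs_r A1 β0 e0 e1 h3 hvc hκ p2

theorem mem_vx {v x c μ : ℂ} {ε R A δ : ℝ} (ε0 : 0 < ε) (A1 : 1 ≤ A) (hR : ε * R * A ^ 2 ≤ δ)
    (hc : ‖c‖ ≤ A) (hμ : ‖μ‖ ≤ A) (ζ : ℂ) (h : ‖ζ‖ < R) :
    ((v + ε * c * ζ, x + ε * μ * c * ζ) : ℂ × ℂ) ∈ ball ((v, x) : ℂ × ℂ) δ := by
  have ne : ‖(ε : ℂ)‖ = ε := by simp [abs_of_pos ε0]
  rw [mem_ball, dist_eq_norm, Prod.norm_def]
  simp only [Prod.fst_sub, Prod.snd_sub, add_sub_cancel_left, norm_mul, ne]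
  have z := norm_nonneg ζ
  have h1 : ε * A ^ 2 * ‖ζ‖ < ε * A ^ 2 * R := by gcongr
  have h2 : ε * ‖c‖ * ‖ζ‖ ≤ ε * A ^ 2 * ‖ζ‖ := by gcongr; nlinarith
  have h3 : ε * ‖μ‖ * ‖c‖ * ‖ζ‖ ≤ ε * A * A * ‖ζ‖ := by gcongr
  exact max_lt (by linarith) (by linarith)

theorem tilt_r {α β t κ a r m n : ℝ} (α0 : 0 < α) (β1 : 1 ≤ β) (t0 : 0 < t) (t1 : t ≤ 1)
    (t2 : t * (4 * (β + α + 1)) ≤ κ) (a0 : 0 < a) (m0 : 0 ≤ m) (n0 : 0 ≤ n)
    (hm : 216 * a * m ≤ r) (h : (n + 2) * (14 * α + β) ≤ t * m) :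
    14 * α * (n + 2) ≤ t * m ∧ 28 * a * n * β ≤ t * r ∧ 4 * (t * β + α * t + t * t) ≤ κ := by
  have h1 : n * β ≤ t * m := by nlinarith
  refine ⟨by nlinarith, ?_, by nlinarith⟩
  linarith [mul_le_mul_of_nonneg_left h1 a0.le, mul_le_mul_of_nonneg_left hm t0.le,
    mul_nonneg (mul_nonneg a0.le t0.le) m0]

/-- **the inverse of the chart**: order of the constants -/
theorem inv_C (κ β α r A : ℝ) (κ0 : 0 < κ) (β0 : 0 ≤ β) (α0 : 0 < α) (r0 : 0 < r) (A1 : 1 ≤ A) :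
    ∃ ϑ > 0, ∀ δ w M : ℝ, 0 < δ → 0 < w → 0 ≤ M → ∃ η₀ > 0, ∃ ε₀ > 0, ∃ h₁ > 0, ∃ K₀ : ℝ,
    ∀ (T Z Z₀ C : ℂ × ℂ → ℂ × ℂ) (b : ℂ → ℂ × ℂ) (v x c μ : ℂ) (m : ℕ) (a R H m₀ m₁ ε K : ℝ),
      0 < ε → ε ≤ ε₀ → K₀ ≤ K → ε * H ≤ h₁ → w ≤ ε * R → ε * R * A ^ 2 ≤ δ → 216 * a * m ≤ r →
      a ≤ α * ε → |m₀| + 2 ≤ ϑ * m → (|m₁| + 1) * R ≤ 7 * m → |m₁| ≤ A → ‖v‖ ≤ A → ‖c‖ ≤ A →
      ‖μ‖ ≤ A → 1 ≤ A ^ 2 * (‖v‖ * ‖c‖) →
      (∀ q ∈ ball ((v, x) : ℂ × ℂ) δ, AnalyticAt ℂ Z q ∧ AnalyticAt ℂ Z₀ q ∧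
        ‖Z q - Z₀ q‖ ≤ η₀ ∧ ‖Z q - Z (v, x)‖ ≤ M) →
      ‖fderiv ℂ Z₀ (v, x)‖ ≤ β → κ ≤ ‖det2 (fderiv ℂ Z₀ (v, x))‖ →
      (∀ ζ, b ζ = Z (v + ε * c * ζ, x + ε * μ * c * ζ)) → T (Z (v, x)) = Z (v, x + ε * v) →
      (∀ ζ : ℂ, ‖ζ‖ < R → Near T (b ζ) r a) →
      (∀ p, C p = Ch T m (p.1 + I * (m₀ + m₁ * p.2)) (b p.2)) →
      ∃ G : ℂ × ℂ → ℂ × ℂ, (∀ p : ℂ × ℂ, ‖p‖ ≤ 2 * H → AnalyticAt ℂ C p ∧
        ∀ q ∈ ball (C p) (1 / K), AnalyticAt ℂ G q ∧ C (G q) = q ∧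
          ‖G q - p‖ ≤ K / ε * ‖q - C p‖) ∧
        ∀ p p' : ℂ × ℂ, ‖p‖ ≤ 2 * H → ‖p'‖ ≤ 2 * H → ‖p - p'‖ ≤ K / ε * ‖C p - C p'‖ := by
  have A0 : 0 < A := by linarith
  set β' := β * A ^ 2 + 1 with hβ'
  set κ' := κ / (2 * A ^ 2) with hκ'
  have β1 : 1 ≤ β' := by rw [hβ']; nlinarith [sq_nonneg A]
  have κ1 : 0 < κ' := by positivity
  set t := min 1 (κ' / (4 * (β' + α + 1))) with ht
  have t0 : 0 < t := lt_min one_pos (by positivity)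
  have t1 : t ≤ 1 := min_le_left _ _
  have t2 : t * (4 * (β' + α + 1)) ≤ κ' := (le_div_iff₀ (by positivity)).1 (min_le_right _ _)
  set e := min 1 (κ / (4 * (2 * β * A ^ 2 + 1) * A ^ 2)) with he
  have e0 : 0 < e := lt_min one_pos (by positivity)
  have e2 : e * (4 * (2 * β * A ^ 2 + 1) * A ^ 2) ≤ κ :=
    (le_div_iff₀ (by positivity)).1 (min_le_right _ _)
  have e1 : e ≤ 1 := min_le_left _ _
  clear_value e t
  set B := (α + β' + 2 * t) * (A + 1) with hB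
  have B0 : 0 < B := by positivity
  refine ⟨t / (14 * α + β'), by positivity, fun δ w M δ0 w0 M0 => ?_⟩
  set s := min (w / 2) (κ' / 2 * w ^ 2 / (64 * B * (M + r))) with hs
  have s0 : 0 < s := lt_min (by positivity) (by positivity)
  have s2 : s * (64 * B * (M + r)) ≤ κ' / 2 * w ^ 2 :=
    (le_div_iff₀ (by positivity)).1 (min_le_right _ _)
  refine ⟨e * δ / (4 * A ^ 2), by positivity, min (δ / (4 * A)) (e * δ ^ 2 / (32 * (M + 1) * A ^ 2)),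
    lt_min (by positivity) (by positivity), min (s / 4) (κ' / 2 * s * w / (16 * B * (M + r))),
    lt_min (by positivity) (by positivity), max (8 * B / (κ' / 2 * s)) (4 * B / (κ' / 2)), ?_⟩
  intro T Z Z₀ C b v x c μ m a R H m₀ m₁ ε K ε0 ε1 hK hH hw hR hm ha hm₀ hm₁ hA hv hc hμ hvc hZ
    hβ hκ hb hT hN hC
  have R0 : 0 < R := (pos_iff_pos_of_mul_pos (w0.trans_le hw)).1 ε0
  have ε2 : ε * (4 * A) ≤ δ := (le_div_iff₀ (by positivity)).1 (ε1.trans (min_le_left _ _))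
  have ε3 : ε * (32 * (M + 1) * A ^ 2) ≤ e * δ ^ 2 :=
    (le_div_iff₀ (by positivity)).1 (ε1.trans (min_le_right _ _))
  have a0 := (hN 0 (by simpa using R0)).a0
  have ϑ1 : t / (14 * α + β') ≤ 1 := by rw [div_le_one (by positivity)]; linarith
  have m0 : (0 : ℝ) ≤ m := by positivity
  have mm : |m₀| + 2 ≤ m := hm₀.trans (mul_le_of_le_one_left m0 ϑ1)
  have m1 : 1 ≤ m := by
    have : (1 : ℝ) ≤ m := by linarith [abs_nonneg m₀]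
    exact_mod_cast this
  have hm' : (|m₀| + 2) * (14 * α + β') ≤ t * m := by
    rwa [div_mul_eq_mul_div, le_div_iff₀ (by positivity)] at hm₀
  obtain rfl : b = fun ζ => Z (v + ε * c * ζ, x + ε * μ * c * ζ) := funext hb
  obtain ⟨d1, d2⟩ := dirs A1 ε0 hZ hβ hκ hv hc hμ hvc (by linarith) (e := e) e1
    (le_of_eq (by field_simp; ring))
    (by
      rw [show 16 * M / δ ^ 2 * (ε * A) * A = 16 * M * ε * A ^ 2 / δ ^ 2 by ring,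
        div_le_iff₀ (by positivity)]
      linarith [mul_pos ε0 (pow_pos A0 2)])
    (by linarith)
  have mem := mem_vx (v := v) (x := x) ε0 A1 hR hc hμ
  obtain ⟨u1, u2, u3⟩ := tilt_r α0 β1 t0 t1 t2 a0 m0 (abs_nonneg m₀) hm hm'
  obtain ⟨c1, c2, c3⟩ := tilt_Ch (M₀ := M) (α := α) (β := β') (ϑ := t) (κ := κ')
    (fun ζ h => ⟨hN ζ h, (hZ _ (mem ζ h)).1.comp
      (f := fun ζ : ℂ => ((v + ε * c * ζ, x + ε * μ * c * ζ) : ℂ × ℂ))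
      ((analyticAt_const.add (analyticAt_const.mul analyticAt_id)).prod
        (analyticAt_const.add (analyticAt_const.mul analyticAt_id))),
      by simpa using (hZ _ (mem ζ h)).2.2.2⟩) hm m1 R0 ε0 (by linarith) hm₁ ha d1
    (by simpa only [mul_zero, add_zero, hT] using d2)
    u1 u2 u3 C (funext hC)
  have H1 : ε * H ≤ s / 4 := hH.trans (min_le_left _ _)
  have H2 : ε * H * (16 * B * (M + r)) ≤ κ' / 2 * s * w :=
    (le_div_iff₀ (by positivity)).1 (hH.trans (min_le_right _ _))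
  have sm : ∀ p : ℂ × ℂ, ‖p‖ ≤ 2 * H → ε * ‖p‖ ≤ 2 * (ε * H) := fun p h => by
    linarith [mul_le_mul_of_nonneg_left h ε0.le]
  obtain ⟨G, g1, -, g3⟩ := inv_on {p | ‖p‖ ≤ 2 * H} C (w := w) (M := M + r) (B := B)
    (κ := κ' / 2) (s := s) ε0 (by positivity) s0 B0 (min_le_left _ _) (by linarith)
    (fun p hp => c1 p (ball_subset_ball (by rw [div_le_iff₀ ε0]; linarith) hp))
    (c2.trans (by rw [hB]; gcongr)) c3 (fun p hp => ⟨by linarith [sm p hp], by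
      have : 8 * B * (M + r) * (ε * ‖p‖) ≤ 8 * B * (M + r) * (2 * (ε * H)) :=
        mul_le_mul_of_nonneg_left (sm p hp) (by positivity)
      linarith⟩)
  have K1 : 8 * B / (κ' / 2 * s) ≤ K := (le_max_left _ _).trans hK
  have K2 : 4 * B / (κ' / 2 * ε) ≤ K / ε := by
    rw [← div_div]; gcongr; exact (le_max_right _ _).trans hK
  have K3 : 1 / K ≤ κ' / 2 * s / (8 * B) := by
    rw [← one_div_div (8 * B)]; exact one_div_le_one_div_of_le (by positivity) K1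
  refine ⟨G, fun p hp => ⟨(g1 p hp).1, fun q hq => ?_⟩, fun p p' h h' =>
    (g3 p p' (by linarith [sm p h]) (by linarith [sm p' h'])).trans (by gcongr)⟩
  obtain ⟨x1, x2, x3⟩ := (g1 p hp).2 q (ball_subset_ball K3 hq)
  exact ⟨x1, x2, x3.trans (by gcongr)⟩

end Vale.Agent.P097F.N
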