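import Vale.Agent.P097F.N.Clk0

/-!
# P097F/N: the clock of the true state near one obstacle of the model
-/

set_option linter.all false

noncomputable section

namespace Vale.Agent.P097F.N

open Filter Topology Set Metric Complex Vale.Agent.P097D Vale.Agent.P097N Vale.Agent.P097Mo

variable {E : D.Dat} {Y Φ Δ : ℂ × ℂ → ℂ} {W₀ x₀ κ : ℂ} {σ ρ r s B : ℝ} {X : ℂ → ℂ}
  {Ξ₀ : ℂ × ℂ → ℂ × ℂ}

/-- the model state near an obstacle, in the coordinates of the patch -/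
structure Clm (g : ℂ → ℂ) (Ξ : ℂ × ℂ → ℂ × ℂ) (P₀ : ℂ × ℂ) (J₀ : ℂ) (r s : ℝ) (p : ℂ × ℂ)
    (W t : ℂ) : Prop where
  g0 : g p.1 ≠ 0
  yd : yd g p ∈ ball P₀ s
  la : La g p ∈ ball ((0, J₀) : ℂ × ℂ) (2 * r)
  J : (La g p).2 = W ^ 3
  clk : clk (fq g Ξ) (La g p) = t

theorem one_clk (O : D.One E Y W₀ x₀ σ ρ X Φ Δ) (σ0 : 0 < σ) (ρ0 : 0 < ρ) (W0 : W₀ ≠ 0)
    (Lv : Lev E.g Ξ₀ (Φ (W₀, 0), Δ (W₀, 0)) (W₀ ^ 3) κ r s B) :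
    ∃ δ > 0, δ ≤ σ ∧ δ ≤ ρ / 2 ∧ ∀ W x : ℂ, ‖W - W₀‖ < δ → ‖x - X W‖ < δ → ¬ D.Sl (X W) x →
      W ≠ 0 ∧ Clm E.g Ξ₀ (Φ (W₀, 0), Δ (W₀, 0)) (W₀ ^ 3) r s (Z0 Y (W, x)) W ((x - X W) / W) := by
  have R0 : 0 < 2 * √ρ := by positivity
  have m0 : ((W₀, 0) : ℂ × ℂ) ∈ ball W₀ σ ×ˢ ball (0 : ℂ) (2 * √ρ) :=
    ⟨mem_ball_self σ0, mem_ball_self R0⟩
  have c1 := (O.ch.anΦ _ m0).continuousAt
  have c2 := (O.ch.anΔ _ m0).continuousAt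
  have c3 : ContinuousAt (fun q => E.g (Φ q)) (W₀, 0) := ContinuousAt.comp (g := E.g)
    (Lv.ag _ (mem_ball_self (by linarith [Lv.s0]))).continuousAt c1
  have c4 : ContinuousAt (fun q : ℂ × ℂ => (E.g (Φ q) * sin (Δ q), q.1 ^ 3)) (W₀, 0) :=
    (c3.mul (continuous_sin.continuousAt.comp c2)).prodMk (continuousAt_fst.pow 3)
  have z : E.g (Φ (W₀, 0)) * sin (Δ (W₀, 0)) = 0 := mul_eq_zero.2
    (O.ch.ty.imp (fun k => k _ (mem_ball_self σ0)) fun k => k _ (mem_ball_self σ0))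
  obtain ⟨d, d0, hd⟩ := Metric.eventually_nhds_iff_ball.1
    (((c1.prodMk c2).eventually_mem (ball_mem_nhds _ Lv.s0)).and (c4.eventually_mem
      (s := ball ((0, W₀ ^ 3) : ℂ × ℂ) (2 * r)) (by
        rw [z]
        exact ball_mem_nhds _ (by linarith [Lv.r0]))))
  obtain ⟨a, a0, a1, a2⟩ : ∃ a > 0, a ≤ d ∧ a ≤ 2 * √ρ :=
    ⟨min d _, lt_min d0 R0, min_le_left _ _, min_le_right _ _⟩
  have n0 := norm_pos_iff.2 W0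
  refine ⟨min (min σ (ρ / 2)) (min (min a (a ^ 2)) ‖W₀‖), by positivity,
    (min_le_left _ _).trans (min_le_left _ _), (min_le_left _ _).trans (min_le_right _ _),
    fun W x h1 h2 h3 => ?_⟩
  simp only [lt_min_iff] at h1 h2
  have W1 : W ≠ 0 := fun e => by simpa [e] using h1.2.2
  have mW : W ∈ ball W₀ σ := mem_ball_iff_norm.2 h1.1.1
  have x0 : x - X W ≠ 0 := fun e => h3 (by rw [sub_eq_zero.1 e]; exact ⟨rfl, le_rfl⟩)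
  have H : ∀ ζ ∈ ball (0 : ℂ) a, (Φ (W, ζ), Δ (W, ζ)) ∈ ball (Φ (W₀, 0), Δ (W₀, 0)) s ∧
      (E.g (Φ (W, ζ)) * sin (Δ (W, ζ)), W ^ 3) ∈ ball ((0, W₀ ^ 3) : ℂ × ℂ) (2 * r) :=
    fun ζ hζ => hd (W, ζ) (mem_ball_prod.2 ⟨mem_ball_iff_norm.2 (h1.2.1.1.trans_le a1),
      ball_subset_ball a1 hζ⟩)
  have mζ : D.sq (x - X W) ∈ ball (0 : ℂ) a := by
    rw [mem_ball_zero_iff, D.sqS.2.2.1 _ x0]
    exact (Real.sqrt_lt' a0).2 h2.2.1.2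
  have k := clk0 O.ch Lv mW W1 a2 H _ mζ
  rw [D.sqS.1 _ x0] at k
  have nr : ‖x - x₀‖ < ρ := by
    linarith [norm_sub_le_norm_sub_add_norm_sub x (X W) x₀, O.near W mW, h2.1.2]
  have b1 := abs_lt.1 ((abs_re_le_norm (x - x₀)).trans_lt nr)
  have b2 := abs_lt.1 ((abs_im_le_norm (x - x₀)).trans_lt nr)
  rw [sub_re] at b1
  rw [sub_im] at b2
  obtain ⟨l1, l2⟩ := O.loc W mW x ⟨by linarith, by linarith, by linarith, by linarith⟩ h3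
  obtain ⟨H1, H2⟩ := H _ mζ
  have iv := (O.ch.inv (W, D.sq (x - X W)) ⟨mW, ball_subset_ball a2 mζ⟩ :)
  rw [← l1, ← l2] at k H1 H2
  simp only [← l1, ← l2] at iv
  have g0 : E.g (Y (W, x)) ≠ 0 := fun e => by
    have u := Lv.clk.up H2
    rw [k, e] at u
    simp only [zero_mul, norm_zero, ne_eq, OfNat.ofNat_ne_zero, not_false_eq_true, zero_pow,
      mul_zero, norm_le_zero_iff] at u
    exact div_ne_zero x0 W1 u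
  have e : La E.g (Z0 Y (W, x)) = (E.g (Y (W, x)) * sin (D.de E.g Y (W, x)), W ^ 3) :=
    Prod.ext rfl ((div_eq_iff (pow_ne_zero _ g0)).2 (by rw [← mul_pow]; exact iv.symm))
  exact ⟨W1, g0, H1, e ▸ H2, by rw [e], e ▸ k⟩

theorem Clm.ins {g : ℂ → ℂ} {P₀ p : ℂ × ℂ} {J₀ W t : ℂ} {r' : ℝ} (C : Clm g Ξ₀ P₀ J₀ r s p W t)
    (Lv : Lev g Ξ₀ P₀ J₀ κ r s B) (r0 : 0 < r') (h1 : ‖κ‖ * r' ^ 2 / 32 ≤ ‖t‖)
    (h2 : ‖t‖ ≤ ‖κ‖ * r' ^ 2 / 2) (h3 : ‖W ^ 3 - J₀‖ < r' / 2) : p ∈ Ins g P₀ J₀ r' s := by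
  have k0 := norm_pos_iff.2 Lv.κ0
  have u := Lv.clk.up C.la
  have l := Lv.clk.lo C.la
  rw [C.clk] at u l
  have p0 : 0 < ‖κ‖ * r' ^ 2 := by positivity
  refine ⟨C.g0, C.yd, lt_of_pow_lt_pow_left₀ 2 (norm_nonneg _) (lt_of_mul_lt_mul_left ?_ k0.le),
    lt_of_pow_lt_pow_left₀ 2 r0.le (lt_of_mul_lt_mul_left ?_ k0.le), C.J ▸ h3⟩
  · rw [div_pow, ← mul_div_assoc]
    linarith
  · linarith

variable {𝒰 : Ultrafilter ℕ} {ε : ℕ → ℂ} {θ h : ℕ → ℂ → ℂ} {On : ℕ → Set (ℂ × ℂ)}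
  {O : Set (ℂ × ℂ)} {F : ℕ → ℂ × ℂ → ℂ} {F₀ : ℂ × ℂ → ℂ}

theorem z0_congr (op : IsOpen O) (e : EqOn Y F₀ O) {q : ℂ × ℂ} (hq : q ∈ O) :
    Z0 Y q = Z0 F₀ q := by
  have c : ContinuousAt (fun x : ℂ => (q.1, x)) q.2 := by fun_prop
  have k : (fun x => Y (q.1, x)) =ᶠ[𝓝 q.2] fun x => F₀ (q.1, x) :=
    (c.eventually_mem (op.mem_nhds hq)).mono fun x hx => e hx
  simp only [Z0, D.vv, D.dx, k.deriv_eq, e hq]

/-- **one obstacle**: checkpoints and clocks of the true states over a compact set -/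
theorem LevS.tru {g : ℕ → ℂ → ℂ} {g₀ : ℂ → ℂ} {Ξ : ℕ → ℂ × ℂ → ℂ × ℂ} {P₀ : ℂ × ℂ} {J₀ : ℂ}
    {r₀ : ℝ} (S : LevS 𝒰 g Ξ g₀ Ξ₀ P₀ J₀ κ r₀ s B) (r0 : 0 < r) (r1 : r ≤ r₀)
    (T : Tf 𝒰 ε θ h On O F F₀) (e0 : ∀ n, ε n ≠ 0) (el : Tendsto ε 𝒰 (𝓝 0)) {K : Set (ℂ × ℂ)}
    (hK : IsCompact K) (sub : K ⊆ O) {t : ℂ × ℂ → ℂ}
    (H : ∀ q ∈ K, Clm g₀ Ξ₀ P₀ J₀ r₀ s (Z0 F₀ q) q.1 (t q) ∧ ‖κ‖ * r ^ 2 / 32 ≤ ‖t q‖ ∧
      ‖t q‖ ≤ ‖κ‖ * r ^ 2 / 2 ∧ ‖q.1 ^ 3 - J₀‖ < r / 2) :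
    (∃ a > 0, ∀ᶠ n in (𝒰 : Filter ℕ), ∀ q ∈ K, ∀ a' ≤ a,
      Ck (La (g n)) (Xv (g n) (Ξ n)) J₀ r a' (Zt (ε n) (F n) q)) ∧
    ∀ e > 0, ∀ᶠ n in (𝒰 : Filter ℕ), ∀ q ∈ K,
      ‖clk (fq (g n) (Ξ n)) (La (g n) (Zt (ε n) (F n) q)) - t q‖ < e ∧
      ‖(La (g n) (Zt (ε n) (F n) q)).2 - q.1 ^ 3‖ < e := by
  have S' := S.mono r0 r1
  have az := z0_an T.an₀ T.op
  have ins : ∀ q ∈ K, Z0 F₀ q ∈ Ins g₀ P₀ J₀ r s := fun q hq =>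
    (H q hq).1.ins S.lim r0 (H q hq).2.1 (H q hq).2.2.1 (H q hq).2.2.2
  constructor
  · obtain ⟨a, a0, k⟩ := S'.ck (hK.image_of_continuousOn (az.continuousOn.mono sub))
      (image_subset_iff.2 ins)
    refine ⟨a, a0, ?_⟩
    filter_upwards [k, T.zu e0 el hK sub a0] with n k1 k2 q hq a' h'
    exact k1 _ (mem_image_of_mem _ hq) _ (k2 q hq).2.le a' h'
  intro e e1
  refine ev_cpt 𝒰 hK fun q hq v hv tv => ?_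
  have i := ins q hq
  have t1 := T.zc e0 el (sub hq) tv
  have t2 := (az q (sub hq)).continuousAt.tendsto.comp tv
  have my := S.lim.y_mem i.2.1
  have l1 := (la_lim t1 (S.cc _ my _ ((continuous_fst.tendsto _).comp t1)) i.1).2
  have l2 := (la_lim (g := fun _ => g₀) t2 ((S.lim.ag _ my).continuousAt.tendsto.comp
    ((continuous_fst.tendsto _).comp t2)) i.1).2
  have c1 := (S'.tau (Ins.mem i) l1).sub ((S.lim.clk.an.continuousOn.continuousAt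
    (isOpen_ball.mem_nhds (H q hq).1.la)).tendsto.comp l2)
  have c2 := (continuous_snd.tendsto _).comp (l1.sub l2)
  rw [sub_self] at c1 c2
  filter_upwards [Metric.tendsto_nhds.1 c1 e e1, Metric.tendsto_nhds.1 c2 e e1] with n k1 k2
  rw [← (H _ (hv n)).1.clk, ← (H _ (hv n)).1.J]
  exact ⟨by simpa using k1, by simpa using k2⟩

end Vale.Agent.P097F.N
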