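import Vale.Agent.P097F.N.Wb

/-!
# P097F.N: the obstacles lie outside the cone, so their slopes are bounded
-/

set_option linter.all false

noncomputable section

namespace Vale.Agent.P097F.N

open Filter Topology Set Metric Complex

/-- first order condition for a function above a cone -/
theorem cone_der {f : ℝ → ℝ} {d C K : ℝ} (hf : HasDerivAt f d 0)
    (h : ∀ᶠ t in 𝓝 (0 : ℝ), f 0 - C * |t| - K * t ^ 2 ≤ f t) : |d| ≤ C := by
  have t1 := hf.tendsto_slope_zero_right
  have t2 := hf.tendsto_slope_zero_left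
  have i1 : Tendsto (fun t : ℝ => -C - K * t) (𝓝[>] 0) (𝓝 (-C - K * 0)) :=
    ((by fun_prop : Continuous fun t : ℝ => -C - K * t).tendsto 0).mono_left nhdsWithin_le_nhds
  have i2 : Tendsto (fun t : ℝ => C - K * t) (𝓝[<] 0) (𝓝 (C - K * 0)) :=
    ((by fun_prop : Continuous fun t : ℝ => C - K * t).tendsto 0).mono_left nhdsWithin_le_nhds
  have a1 := le_of_tendsto_of_tendsto i1 t1 (by
    filter_upwards [self_mem_nhdsWithin, mem_nhdsWithin_of_mem_nhds h] with t (t0 : 0 < t) k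
    rw [zero_add, smul_eq_mul, ← div_eq_inv_mul, le_div_iff₀ t0]
    rw [abs_of_pos t0] at k
    linarith)
  have a2 := le_of_tendsto_of_tendsto t2 i2 (by
    filter_upwards [self_mem_nhdsWithin, mem_nhdsWithin_of_mem_nhds h] with t (t0 : t < 0) k
    rw [zero_add, smul_eq_mul, ← div_eq_inv_mul, div_le_iff_of_neg t0]
    rw [abs_of_neg t0] at k
    linarith)
  exact abs_le.2 ⟨by linarith, by linarith⟩

/-- an analytic curve above the cone which touches the vertex -/
theorem slope_of {X : ℂ → ℂ} {K C W H b : ℝ} (hX : AnalyticAt ℂ X W) (h0 : (X W).im = H)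
    (h : ∀ᶠ w in 𝓝 (W : ℂ), tw K C W H b w ≤ (X w).im) :
    (deriv X W).im = -b ∧ |(deriv X W).re| ≤ C := by
  have key : ∀ u : ℂ, HasDerivAt (fun t : ℝ => (X (W + t * u)).im) (deriv X W * u).im 0 ∧
      ∀ᶠ t : ℝ in 𝓝 0, tw K C W H b (W + t * u) ≤ (X (W + t * u)).im := fun u => by
    have l : HasDerivAt (fun z : ℂ => (W : ℂ) + z * u) u ((0 : ℝ) : ℂ) := by
      simpa using ((hasDerivAt_id ((0 : ℝ) : ℂ)).mul_const u).const_add (W : ℂ)
    have d := (HasDerivAt.comp_of_eq (hh₂ := hX.differentiableAt.hasDerivAt) (hh := l)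
      (hy := by simp)).comp_ofReal
    have c : Tendsto (fun t : ℝ => (W : ℂ) + t * u) (𝓝 0) (𝓝 W) := by
      simpa using (by fun_prop : Continuous fun t : ℝ => (W : ℂ) + t * u).tendsto 0
    exact ⟨imCLM.hasFDerivAt.comp_hasDerivAt (0 : ℝ) d, c.eventually h⟩
  constructor
  · have k := cone_der (f := fun t : ℝ => (X (W + t * 1)).im + b * t) (C := 0) (K := K)
      ((key 1).1.add ((hasDerivAt_id (0 : ℝ)).const_mul b)) ((key 1).2.mono fun t k => by
        simp [tw, h0] at k ⊢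
        linarith)
    have := abs_nonpos_iff.1 k
    simp only [mul_one] at this
    linarith
  · have k := cone_der (C := C) (K := 0) (key I).1 ((key I).2.mono fun t k => by
      simp [tw, h0] at k ⊢
      linarith)
    simpa using k

/-- **the slopes of the obstacles** -/
theorem slope {E : D.Dat} {Y : ℂ × ℂ → ℂ} {a L ρ K C W H b a₁ a₂ σ ρ' : ℝ} {n : ℕ}
    {X : Fin n → ℂ → ℂ} {Φ Δ : Fin n → ℂ × ℂ → ℂ} (ρ0 : 0 < ρ) (hα : E.α = a - L)
    (hβ : E.β = a + L) (hb : E.b₀ < E.b₁) (O : D.Obs E Y W H a₁ a₂ σ ρ' n X Φ Δ)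
    (w : ∀ p ∈ Wd a L (-E.b₀) ρ K C W H b, p ∈ E.Om) (c : Fin n) :
    (∀ u ∈ ball (W : ℂ) (min σ ρ), tw K C W H b u ≤ (X c u).im) ∧
      (deriv (X c) W).im = -b ∧ |(deriv (X c) W).re| ≤ C := by
  have o := O.one c
  have ρ1 := O.ρ0
  have k : ∀ u ∈ ball (W : ℂ) (min σ ρ), tw K C W H b u ≤ (X c u).im := fun u hu => by
    have u1 := ball_subset_ball (min_le_left _ _) hu
    have u2 := ball_subset_ball (min_le_right _ _) hu
    have n1 := abs_lt.1 ((abs_re_le_norm _).trans_lt (o.near u u1))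
    have n2 := abs_lt.1 ((abs_im_le_norm _).trans_lt (o.near u u1))
    simp only [sub_re, sub_im] at n1 n2
    obtain ⟨t1, t2, t3⟩ := O.top c
    obtain ⟨l1, l2, l3⟩ := O.lim
    by_contra hn
    have m := w (u, X c u) (mem_wd.2 ⟨mem_ball_iff_norm.1 u2, abs_lt.2 ⟨by simp only; linarith,
      by simp only; linarith⟩, by simp only; linarith, not_le.1 hn⟩)
    exact (o.om u u1 (X c u) ⟨by linarith, by linarith, by linarith, by linarith⟩).1 m ⟨rfl, le_rfl⟩
  exact ⟨k, slope_of (o.an _ (mem_ball_self O.σ0)) (O.top c).1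
    (eventually_of_mem (ball_mem_nhds _ (lt_min O.σ0 ρ0)) k)⟩

end Vale.Agent.P097F.N
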