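import Mathlib

/-!
# P097F/N: the interpolation chart of a near identity map

`Ch T m t p` is the interpolation polynomial of the orbit `j ↦ T^[j] p`, `j ≤ m`.
-/

set_option linter.all false

noncomputable section

namespace Vale.Agent.P097F.N

open Filter Topology Set Metric Complex Finset

variable {E : Type} [NormedAddCommGroup E] [NormedSpace ℂ E] [CompleteSpace E]

/-- the differences of the orbit -/
def Dk (T : E → E) : ℕ → E → E
  | 0 => fun p => p
  | k + 1 => fun p => Dk T k (T p) - Dk T k p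

/-- the binomial coefficient -/
def bin (t : ℂ) (k : ℕ) : ℂ := (∏ i ∈ range k, (t - i)) / (k.factorial : ℂ)

/-- the chart -/
def Ch (T : E → E) (m : ℕ) (t : ℂ) (p : E) : E := ∑ k ∈ range (m + 1), bin t k • Dk T k p

/-- a holomorphic function with zeros at `0, …, n - 1` -/
theorem zer0 (R N : ℝ) (hN : N < R) (hN0 : 0 ≤ N) (n : ℕ) : ∀ (F : ℂ → E) (M : ℝ), (n : ℝ) ≤ N →
    DifferentiableOn ℂ F (closedBall 0 R) → (∀ t ∈ sphere (0 : ℂ) R, ‖F t‖ ≤ M) →
    (∀ j < n, F j = 0) → ∀ t ∈ closedBall (0 : ℂ) R, ‖F t‖ ≤ M * ((‖t‖ + N) / (R - N)) ^ n := by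
  have R0 : 0 < R := hN0.trans_lt hN
  induction n with
  | zero =>
    intro F M _ hd hb _ t ht
    simp only [pow_zero, mul_one]
    refine norm_le_of_forall_mem_frontier_norm_le (U := ball 0 R) isBounded_ball ?_ ?_ ?_
    · exact DifferentiableOn.diffContOnCl (by rwa [closure_ball _ R0.ne'])
    · rwa [frontier_ball _ R0.ne']
    · rwa [closure_ball _ R0.ne']
  | succ n ih =>
    intro F M hn hd hb hz t ht
    have hn' : (n : ℝ) ≤ N := by push_cast at hn; linarith
    have nn : ‖(n : ℂ)‖ = n := by simp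
    have hc : closedBall (0 : ℂ) R ∈ 𝓝 (n : ℂ) :=
      mem_of_superset (isOpen_ball.mem_nhds (by simp; linarith)) ball_subset_closedBall
    have e : ∀ z, F z = (z - n) • dslope F n z := fun z => by
      rw [sub_smul_dslope, hz n (by omega), sub_zero]
    have RN : 0 < R - N := by linarith
    have M0 : 0 ≤ M := (norm_nonneg _).trans (hb (R : ℂ) (by simp [abs_of_pos R0]))
    have h := ih (dslope F n) (M / (R - N)) hn' ((differentiableOn_dslope hc).2 hd) ?_ ?_ t ht
    · rw [e t, norm_smul]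
      have : ‖t - n‖ ≤ ‖t‖ + N := (norm_sub_le _ _).trans (by rw [nn]; linarith)
      calc _ ≤ (‖t‖ + N) * (M / (R - N) * ((‖t‖ + N) / (R - N)) ^ n) := by gcongr
        _ = _ := by rw [pow_succ]; field_simp
    · intro z hz
      have h1 := hb z hz
      rw [e z, norm_smul] at h1
      have : R - N ≤ ‖z - n‖ := by
        have := norm_sub_norm_le z n
        rw [nn, mem_sphere_zero_iff_norm.1 hz] at this; linarith
      rw [le_div_iff₀ RN]
      calc _ ≤ ‖dslope F n z‖ * ‖z - n‖ := by gcongr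
        _ ≤ M := by linarith
    · intro j hj
      have h1 := e j
      rw [hz j (by omega)] at h1
      have : (j : ℂ) - n ≠ 0 := sub_ne_zero.2 (by exact_mod_cast hj.ne)
      exact (smul_eq_zero.1 h1.symm).resolve_left this

theorem zer {F : ℂ → E} {R M : ℝ} {n : ℕ} (hn : (n : ℝ) < R)
    (hd : DifferentiableOn ℂ F (closedBall 0 R)) (hb : ∀ t ∈ closedBall (0 : ℂ) R, ‖F t‖ ≤ M)
    (hz : ∀ j < n, F j = 0) {t : ℂ} (ht : ‖t‖ ≤ R) :
    ‖F t‖ ≤ M * ((‖t‖ + n) / (R - n)) ^ n :=
  zer0 R n hn (by positivity) n F M le_rfl hd (fun t h => hb t (sphere_subset_closedBall h)) hz t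
    (by simpa using ht)

theorem Dk_eq (T : E → E) (p : E) (k : ℕ) : ∀ j : ℕ,
    (fwdDiff (1 : ℕ))^[k] (fun j => T^[j] p) j = Dk T k (T^[j] p) := by
  induction k with
  | zero => intro j; rfl
  | succ k ih =>
    intro j
    rw [Function.iterate_succ_apply', fwdDiff, ih, ih, Function.iterate_succ_apply']
    rfl

theorem bin_nat (j k : ℕ) : bin j k = (j.choose k : ℂ) := by
  unfold bin
  have f : (k.factorial : ℂ) ≠ 0 := by exact_mod_cast k.factorial_ne_zero
  rw [div_eq_iff f]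
  have : ((j.descFactorial k : ℕ) : ℂ) = ∏ i ∈ range k, ((j : ℂ) - i) := by
    induction k with
    | zero => simp
    | succ k ih =>
      rw [prod_range_succ, ← ih (by exact_mod_cast k.factorial_ne_zero), Nat.descFactorial_succ]
      rcases le_or_gt k j with h | h
      · push_cast [h]; ring
      · rw [Nat.descFactorial_of_lt h]; simp
  rw [← this, Nat.descFactorial_eq_factorial_mul_choose]; push_cast; ring

/-- the chart interpolates the orbit -/
theorem Ch_nat (T : E → E) {m j : ℕ} (h : j ≤ m) (p : E) : Ch T m j p = T^[j] p := by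
  have e := shift_eq_sum_fwdDiff_iter (1 : ℕ) (fun j => T^[j] p) j 0
  simp only [zero_add, smul_eq_mul, mul_one, Dk_eq, Function.iterate_zero, id] at e
  rw [e, Ch]
  symm
  refine (sum_subset (range_subset_range.2 (Nat.succ_le_succ h)) ?_).trans ?_
  · intro k _ hk
    rw [Nat.choose_eq_zero_of_lt (by simpa using hk), zero_smul]
  · refine sum_congr rfl fun k _ => ?_
    rw [bin_nat, Nat.cast_smul_eq_nsmul]

theorem bin_le {t : ℂ} {R : ℝ} {k : ℕ} (ht : ‖t‖ + k ≤ R) : ‖bin t k‖ ≤ R ^ k / k.factorial := by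
  unfold bin
  rw [norm_div, norm_prod, Complex.norm_natCast]
  gcongr
  calc _ ≤ ∏ i ∈ range k, R := by
        refine prod_le_prod (fun _ _ => norm_nonneg _) fun i hi => (norm_sub_le _ _).trans ?_
        have : (i : ℝ) ≤ k := by exact_mod_cast (mem_range.1 hi).le
        rw [Complex.norm_natCast]; linarith
    _ = _ := by simp

/-- a near identity map on a ball -/
structure Near (T : E → E) (p₀ : E) (r a : ℝ) : Prop where
  a0 : 0 < a
  an : AnalyticOnNhd ℂ T (ball p₀ r)
  bd : ∀ p ∈ ball p₀ r, ‖T p - p‖ ≤ a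

variable {T : E → E} {p₀ : E} {r a : ℝ}

theorem Near.dk (h : Near T p₀ r a) {ρ : ℝ} (hρ : a < ρ) (k : ℕ) :
    AnalyticOnNhd ℂ (Dk T (k + 1)) (ball p₀ (r - k * ρ)) ∧
      ∀ p ∈ ball p₀ (r - k * ρ), ‖Dk T (k + 1) p‖ ≤ a * (2 * a / ρ) ^ k := by
  have a0 := h.a0
  have ρ0 : 0 < ρ := a0.trans hρ
  induction k with
  | zero =>
    simp only [Nat.cast_zero, zero_mul, sub_zero, pow_zero, mul_one]
    exact ⟨h.an.sub analyticOnNhd_id, h.bd⟩
  | succ k ih =>
    obtain ⟨i1, i2⟩ := ih
    have k0 : (0 : ℝ) ≤ k * ρ := by positivity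
    have s : ∀ p ∈ ball p₀ (r - (k + 1 : ℕ) * ρ), ball p ρ ⊆ ball p₀ (r - k * ρ) := fun p hp =>
      ball_subset_ball' (by rw [mem_ball] at hp; push_cast at hp; linarith)
    have s0 : ∀ p ∈ ball p₀ (r - (k + 1 : ℕ) * ρ), p ∈ ball p₀ r := fun p hp =>
      ball_subset_ball (by linarith) (s p hp (mem_ball_self ρ0))
    have m : ∀ p ∈ ball p₀ (r - (k + 1 : ℕ) * ρ), T p ∈ ball p ρ := fun p hp => by
      rw [mem_ball, dist_eq_norm]; exact (h.bd p (s0 p hp)).trans_lt hρ
    refine ⟨fun p hp => ?_, fun p hp => ?_⟩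
    · exact ((i1 _ (s p hp (m p hp))).comp (h.an p (s0 p hp))).sub (i1 p (s p hp (mem_ball_self ρ0)))
    · have := dist_le_div_mul_dist_of_mapsTo_ball (f := Dk T (k + 1)) (c := p) (R₁ := ρ)
        (R₂ := 2 * (a * (2 * a / ρ) ^ k)) (i1.differentiableOn.mono (s p hp)) (fun z hz => by
          rw [mem_closedBall, dist_eq_norm]
          have := i2 z (s p hp hz)
          have := i2 p (s p hp (mem_ball_self ρ0))
          have := norm_sub_le (Dk T (k + 1) z) (Dk T (k + 1) p)
          linarith) (m p hp)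
      rw [dist_eq_norm, dist_eq_norm] at this
      have b := h.bd p (s0 p hp)
      calc _ ≤ 2 * (a * (2 * a / ρ) ^ k) / ρ * ‖T p - p‖ := this
        _ ≤ 2 * (a * (2 * a / ρ) ^ k) / ρ * a := by gcongr
        _ = _ := by rw [pow_succ]; ring

theorem Near.dk' (h : Near T p₀ r a) {m k : ℕ} (hm : 216 * a * m ≤ r) (hk : k < m) :
    AnalyticOnNhd ℂ (Dk T (k + 1)) (ball p₀ (r / 2)) ∧
      ∀ p ∈ ball p₀ (r / 2), ‖Dk T (k + 1) p‖ ≤ a * (4 * a * (k + 1) / r) ^ k := by
  have a0 := h.a0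
  have k1 : (k + 1 : ℝ) ≤ m := by exact_mod_cast hk
  have k0 : (0 : ℝ) ≤ k := by positivity
  have r0 : 0 < r := by nlinarith
  have hρ : a < r / (2 * (k + 1)) := by rw [lt_div_iff₀ (by positivity)]; nlinarith
  obtain ⟨i1, i2⟩ := h.dk hρ k
  have s : ball p₀ (r / 2) ⊆ ball p₀ (r - k * (r / (2 * (k + 1)))) := ball_subset_ball (by
    have : k * (r / (2 * (k + 1))) ≤ r / 2 := by
      rw [← mul_div_assoc, div_le_div_iff₀ (by positivity) (by positivity)]; nlinarith
    linarith)
  refine ⟨i1.mono s, fun p hp => (i2 p (s hp)).trans_eq ?_⟩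
  congr 2; field_simp; ring

theorem an_bin (k : ℕ) (t : ℂ) : AnalyticAt ℂ (fun t => bin t k) t := by
  unfold bin
  exact (Finset.analyticAt_fun_prod _ fun i _ => analyticAt_id.sub analyticAt_const).div_const

/-- the chart is analytic in both variables -/
theorem Near.an_Ch (h : Near T p₀ r a) {m : ℕ} (hm : 216 * a * m ≤ r) {q : ℂ × E}
    (hq : q.2 ∈ ball p₀ (r / 2)) : AnalyticAt ℂ (fun q : ℂ × E => Ch T m q.1 q.2) q := by
  unfold Ch
  refine Finset.analyticAt_fun_sum _ fun k hk => ?_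
  refine ((an_bin k q.1).comp analyticAt_fst).smul ?_
  rcases k with _ | k
  · exact analyticAt_snd
  · exact ((h.dk' hm (by simpa using hk)).1 _ hq).comp analyticAt_snd

/-- the size of the chart -/
theorem Near.bd_Ch (h : Near T p₀ r a) {m : ℕ} (hm : 216 * a * m ≤ r) {p : E}
    (hp : p ∈ ball p₀ (r / 2)) {t : ℂ} (ht : ‖t‖ ≤ 8 * m) : ‖Ch T m t p - p‖ ≤ 54 * a * m := by
  have a0 := h.a0
  have r0 : 0 < r := by have := nonempty_ball.1 ⟨_, hp⟩; linarith
  have e : Ch T m t p - p = ∑ k ∈ range m, bin t (k + 1) • Dk T (k + 1) p := by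
    rw [Ch, sum_range_succ']; simp [bin, Dk]
  rw [e]
  have b : ∀ k ∈ range m, ‖bin t (k + 1) • Dk T (k + 1) p‖ ≤ 27 * a * m * (1 / 2) ^ k := by
    intro k hk
    have hk := mem_range.1 hk
    have k1 : ((k + 1 : ℕ) : ℝ) ≤ m := by exact_mod_cast hk
    have b1 := bin_le (t := t) (R := 9 * m) (k := k + 1) (by linarith)
    have b2 := (h.dk' hm hk).2 p hp
    have b3 : ((k + 1 : ℝ)) ^ (k + 1) / (k + 1).factorial ≤ 3 ^ (k + 1) := by
      have := Real.pow_div_factorial_le_exp (x := (k + 1 : ℝ)) (by positivity) (k + 1)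
      refine this.trans ?_
      have e : Real.exp (k + 1) = Real.exp 1 ^ (k + 1) := by rw [← Real.exp_nat_mul]; simp
      rw [e]; gcongr; linarith [Real.exp_one_lt_d9]
    have b4 : ((k + 1 : ℝ)) ^ k / (k + 1).factorial ≤ 3 ^ (k + 1) := by
      refine le_trans ?_ b3
      gcongr
      · have : (0 : ℝ) ≤ k := by positivity
        linarith
      · omega
    have b5 : 108 * a * m / r ≤ 1 / 2 := by rw [div_le_iff₀ r0]; linarith
    rw [norm_smul]
    calc _ ≤ (9 * m) ^ (k + 1) / (k + 1).factorial * (a * (4 * a * (k + 1) / r) ^ k) := by gcongr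
      _ = 9 * a * m * (36 * a * m / r) ^ k * ((k + 1 : ℝ) ^ k / (k + 1).factorial) := by
        rw [show 36 * a * m / r = 9 * m * (4 * a / r) by ring,
          show 4 * a * (k + 1) / r = (4 * a / r) * (k + 1) by ring]
        simp only [mul_pow, pow_succ]; ring
      _ ≤ 9 * a * m * (36 * a * m / r) ^ k * 3 ^ (k + 1) := by gcongr
      _ = 27 * a * m * (108 * a * m / r) ^ k := by
        rw [show 108 * a * m / r = 36 * a * m / r * 3 by ring, mul_pow _ 3, pow_succ]; ring
      _ ≤ _ := by gcongr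
  calc _ ≤ ∑ k ∈ range m, 27 * a * m * (1 / 2 : ℝ) ^ k := norm_sum_le_of_le _ b
    _ = 27 * a * m * ∑ k ∈ range m, (1 / 2 : ℝ) ^ k := by rw [mul_sum]
    _ ≤ 27 * a * m * 2 := by
      gcongr
      exact (summable_geometric_two.sum_le_tsum _ fun _ _ => by positivity).trans_eq
        tsum_geometric_two
    _ = _ := by ring

theorem Near.mem_Ch (h : Near T p₀ r a) {m : ℕ} (hm : 216 * a * m ≤ r) {p : E}
    (hp : p ∈ ball p₀ (r / 2)) {t : ℂ} (ht : ‖t‖ ≤ 8 * m) : Ch T m t p ∈ ball p₀ (3 * r / 4) := by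
  have := h.bd_Ch hm hp ht
  rw [mem_ball, dist_eq_norm] at hp ⊢
  have := norm_add_le (Ch T m t p - p) (p - p₀)
  rw [sub_add_sub_cancel] at this
  linarith

theorem Near.an_t (h : Near T p₀ r a) {m : ℕ} (hm : 216 * a * m ≤ r) {p : E}
    (hp : p ∈ ball p₀ (r / 2)) (t : ℂ) : AnalyticAt ℂ (fun t => Ch T m t p) t :=
  (h.an_Ch hm (q := (t, p)) hp).comp₂ (f := fun t => t) (g := fun _ => p) analyticAt_id
    analyticAt_const

/-- the defect of the chart -/
theorem Near.defect (h : Near T p₀ r a) {m : ℕ} (hm : 216 * a * m ≤ r) (m1 : 1 ≤ m) {p : E}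
    (hp : p ∈ ball p₀ (r / 2)) {t : ℂ} (ht : ‖t‖ ≤ 2 * m) :
    ‖T (Ch T m t p) - Ch T m (t + 1) p‖ ≤ r * (1 / 2) ^ m := by
  have a0 := h.a0
  have m1' : (1 : ℝ) ≤ m := by exact_mod_cast m1
  have r0 : 0 < r := by have := nonempty_ball.1 ⟨_, hp⟩; linarith
  have mm : ∀ z ∈ closedBall (0 : ℂ) (7 * m), Ch T m z p ∈ ball p₀ r := fun z hz =>
    ball_subset_ball (by linarith) (h.mem_Ch hm hp (by
      have : ‖z‖ ≤ 7 * m := by simpa using hz
      linarith))
  have := zer (F := fun t => T (Ch T m t p) - Ch T m (t + 1) p) (R := 7 * m) (M := r) (n := m)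
    (by linarith) (fun z hz => (((h.an _ (mm z hz)).comp (f := fun t => Ch T m t p) (h.an_t hm hp z)).sub
      ((h.an_t hm hp (z + 1)).comp (f := fun t => t + 1)
        (analyticAt_id.add analyticAt_const))).differentiableAt.differentiableWithinAt)
    (fun z hz => by
      have z1 : ‖z‖ ≤ 7 * m := by simpa using hz
      have b1 := h.bd _ (mm z hz)
      have b2 := h.bd_Ch hm hp (t := z) (by linarith)
      have b3 := h.bd_Ch hm hp (t := z + 1) ((norm_add_le _ _).trans (by simp; linarith))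
      have e : T (Ch T m z p) - Ch T m (z + 1) p =
        (T (Ch T m z p) - Ch T m z p) + (Ch T m z p - p) - (Ch T m (z + 1) p - p) := by abel
      have := norm_sub_le ((T (Ch T m z p) - Ch T m z p) + (Ch T m z p - p))
        (Ch T m (z + 1) p - p)
      have := norm_add_le (T (Ch T m z p) - Ch T m z p) (Ch T m z p - p)
      rw [e]; nlinarith)
    (fun j hj => by
      have : ((j : ℂ) + 1) = ((j + 1 : ℕ) : ℂ) := by push_cast; rfl
      simp only [this]
      rw [Ch_nat T hj.le, Ch_nat T hj, Function.iterate_succ_apply', sub_self])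
    (t := t) (by linarith)
  refine this.trans (mul_le_mul_of_nonneg_left (pow_le_pow_left₀
    (div_nonneg (by positivity) (by linarith)) ?_ _) (by positivity))
  rw [div_le_iff₀ (by linarith)]; linarith

/-- comparison with a holomorphic curve through the orbit -/
theorem Near.cmp (h : Near T p₀ r a) {m n : ℕ} (hm : 216 * a * m ≤ r) (n1 : 1 ≤ n) (hn : n ≤ m)
    {p : E} (hp : p ∈ ball p₀ (r / 2)) {Z : ℂ → E} {B : ℝ}
    (hZ : DifferentiableOn ℂ Z (closedBall 0 (7 * n)))
    (hB : ∀ t ∈ closedBall (0 : ℂ) (7 * n), ‖Z t - p‖ ≤ B)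
    (hj' : ∀ j < n, Z j = T^[j] p) {t : ℂ} (ht : ‖t‖ ≤ 2 * n) :
    ‖Ch T m t p - Z t‖ ≤ (r + B) * (1 / 2) ^ n := by
  have a0 := h.a0
  have n1' : (1 : ℝ) ≤ n := by exact_mod_cast n1
  have nm : (n : ℝ) ≤ m := by exact_mod_cast hn
  have r0 : 0 < r := by have := nonempty_ball.1 ⟨_, hp⟩; linarith
  have B0 : 0 ≤ B := (norm_nonneg _).trans (hB 0 (mem_closedBall_self (by positivity)))
  have := zer (F := fun t => Ch T m t p - Z t) (R := 7 * n) (M := r + B) (n := n)
    (by linarith) (fun z hz => (h.an_t hm hp z).differentiableAt.differentiableWithinAt.sub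
      (hZ z hz))
    (fun z hz => by
      have z1 : ‖z‖ ≤ 7 * n := by simpa using hz
      have b2 := h.bd_Ch hm hp (t := z) (by linarith)
      have b3 := hB z hz
      have := norm_sub_le (Ch T m z p - p) (Z z - p)
      rw [sub_sub_sub_cancel_right] at this
      linarith)
    (fun j hj => by rw [Ch_nat T (by omega), hj' j hj, sub_self])
    (t := t) (by linarith)
  refine this.trans (mul_le_mul_of_nonneg_left (pow_le_pow_left₀
    (div_nonneg (by positivity) (by linarith)) ?_ _) (by positivity))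
  rw [div_le_iff₀ (by linarith)]; linarith

end Vale.Agent.P097F.N
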