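import Vale.Agent.P097N.Root
import Vale.Agent.P097A.Step

/-!
# P097F.N: the root of a perturbed linear equation depends analytically on parameters
-/

set_option linter.all false

noncomputable section

namespace Vale.Agent.P097F.N

open Filter Topology Set Metric

/-- parametric root: `F (x, ·)` is close to `c - m x` on the disc of radius `τ x` -/
theorem proot {P : Type} [NormedAddCommGroup P] [NormedSpace ℂ P] [CompleteSpace P]
    {F : P × ℂ → ℂ} {m : P → ℂ} {τ : P → ℝ} {X : Set P} (hX : IsOpen X)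
    (hm : ContinuousOn m X) (hτ : ContinuousOn τ X) (τ0 : ∀ x ∈ X, 0 < τ x)
    (hF : ∀ x ∈ X, ∀ c ∈ ball (m x) (τ x),
      AnalyticAt ℂ F (x, c) ∧ ‖F (x, c) - (c - m x)‖ ≤ τ x / 8) :
    ∃ c : P → ℂ, AnalyticOnNhd ℂ c X ∧ ∀ x ∈ X, F (x, c x) = 0 ∧ ‖c x - m x‖ ≤ τ x / 8 ∧
      ‖c x - m x‖ ≤ 2 * ‖F (x, m x)‖ ∧
      (∀ c', ‖c' - m x‖ < τ x / 2 → F (x, c') = 0 → c' = c x) ∧
      ‖deriv (fun y => F (x, y)) (c x) - 1‖ ≤ 1 / 4 := by
  have dF : ∀ x ∈ X, ∀ c ∈ ball (m x) (τ x), DifferentiableAt ℂ (fun y => F (x, y)) c := by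
    intro x hx c hc
    exact (AnalyticAt.comp (g := F) (f := fun c : ℂ => (x, c)) (hF x hx c hc).1
        (analyticAt_const.prod analyticAt_id)).differentiableAt
  have dψ : ∀ x ∈ X, DifferentiableOn ℂ (fun c => F (x, c) - (c - m x)) (ball (m x) (τ x)) :=
    fun x hx c hc =>
      ((dF x hx c hc).sub (differentiableAt_id.sub_const _)).differentiableWithinAt
  have H : ∀ x, ∃ c, x ∈ X → F (x, c) = 0 ∧ ‖c - m x‖ ≤ τ x / 8 ∧
      ‖c - m x‖ ≤ 2 * ‖F (x, m x)‖ ∧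
      ∀ c', ‖c' - m x‖ < τ x / 2 → F (x, c') = 0 → c' = c := by
    intro x
    by_cases hx : x ∈ X
    · obtain ⟨c, e1, e2, e3, e4⟩ :=
        P097N.Root.fix (τ0 x hx) (dψ x hx) (fun c hc => (hF x hx c hc).2)
      refine ⟨c, fun _ => ⟨by simpa using e1, e2, by simpa using e3, fun c' k1 k2 => ?_⟩⟩
      exact e4 c' k1 (by simpa using k2)
    · exact ⟨0, fun h => absurd h hx⟩
  choose c hc using H
  have key : ∀ x ∈ X, c x ∈ ball (m x) (τ x) ∧
      ‖deriv (fun y => F (x, y)) (c x) - 1‖ ≤ 1 / 4 := by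
    intro x hx
    obtain ⟨e1, e2, -, -⟩ := hc x hx
    have t0 := τ0 x hx
    have m1 : c x ∈ ball (m x) (τ x / 2) := by
      rw [mem_ball, dist_eq_norm]; linarith
    have m2 : c x ∈ ball (m x) (τ x) := ball_subset_ball (by linarith) m1
    have k3 := P097N.Root.der t0 (dψ x hx) (fun c hc => (hF x hx c hc).2) m1
    have k2 := ((dF x hx _ m2).hasDerivAt.sub ((hasDerivAt_id (c x)).sub_const (m x))).deriv
    have k4 : deriv (fun c => F (x, c) - (c - m x)) (c x) =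
      deriv (fun y => F (x, y)) (c x) - 1 := k2
    rw [k4] at k3
    exact ⟨m2, k3⟩
  refine ⟨c, fun x hx => ?_, fun x hx => ⟨(hc x hx).1, (hc x hx).2.1, (hc x hx).2.2.1,
    (hc x hx).2.2.2, (key x hx).2⟩⟩
  obtain ⟨e1, e2, -, -⟩ := hc x hx
  obtain ⟨m2, k3⟩ := key x hx
  have t0 := τ0 x hx
  have af := (hF x hx _ m2).1
  have hne : fderiv ℂ F (x, c x) (0, 1) ≠ 0 := by
    intro h0
    have k1 : HasDerivAt (fun y => F (x, y)) 0 (c x) := by
      have := af.differentiableAt.hasFDerivAt.comp_hasDerivAt (c x)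
        ((hasDerivAt_const (c x) x).prodMk (hasDerivAt_id (c x)))
      rw [h0] at this
      exact this
    rw [k1.deriv] at k3
    norm_num at k3
  obtain ⟨ψ, aψ, ψ0, hψ⟩ := P097A.Step.imp af hne
  have t1 : Tendsto (fun y => (y, ψ y)) (𝓝 x) (𝓝 (x, c x)) := by
    have := (analyticAt_id.prod aψ).continuousAt.tendsto
    simpa [ψ0] using this
  have cm := hm.continuousAt (hX.mem_nhds hx)
  have ct := hτ.continuousAt (hX.mem_nhds hx)
  have t2 : ∀ᶠ y in 𝓝 x, ‖ψ y - m y‖ < τ y / 2 := by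
    have c1 : ContinuousAt (fun y => ‖ψ y - m y‖) x := (aψ.continuousAt.sub cm).norm
    have c2 : ContinuousAt (fun y => τ y / 2) x := ct.div_const 2
    exact c1.eventually_lt c2 (by rw [ψ0]; linarith)
  refine aψ.congr ?_
  filter_upwards [t1.eventually hψ, t2, hX.mem_nhds hx] with y h1 h2 h3
  exact (hc y h3).2.2.2 _ h2 (by rw [h1.2 rfl, e1])

end Vale.Agent.P097F.N
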