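import Vale.Agent.P097F.N.StepDefs
import Vale.Agent.P097F.N.PRoot

/-!
# P097F.N: tools for the step lemma
-/

set_option linter.all false

noncomputable section

namespace Vale.Agent.P097F.N

open Filter Topology Set Metric Complex Vale.Agent.P097N

namespace StepA

theorem sch {f : ℂ → ℂ} {c z : ℂ} {M : ℝ} (hd : DifferentiableOn ℂ f (ball c 1))
    (hb : ∀ x ∈ ball c 1, ‖f x‖ ≤ M) (hz : z ∈ ball c 1) : ‖f z - f c‖ ≤ 2 * M * ‖z - c‖ := by
  have := Complex.dist_le_div_mul_dist_of_mapsTo_ball (R₂ := 2 * M) hd (fun x hx => by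
    rw [mem_closedBall, dist_eq_norm]
    have := hb c (mem_ball_self one_pos)
    linarith [norm_sub_le (f x) (f c), hb x hx]) hz
  simpa [dist_eq_norm] using this

theorem snc_d : Differentiable ℂ snc := differentiableOn_univ.1
  ((Complex.differentiableOn_dslope univ_mem).2 Complex.differentiable_sin.differentiableOn)

theorem snc_zero : snc 0 = 1 := by simp [snc]

theorem snc_ne {z : ℂ} (h : z ≠ 0) : snc z = sin z / z := by
  rw [snc, dslope_of_ne _ h, slope_def_field]; simp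

theorem mul_snc (z : ℂ) : z * snc z = sin z := by
  rcases eq_or_ne z 0 with rfl | h
  · simp
  · rw [snc_ne h]; field_simp

theorem snc_neg (z : ℂ) : snc (-z) = snc z := by
  rcases eq_or_ne z 0 with rfl | h
  · simp
  · rw [snc_ne h, snc_ne (neg_ne_zero.2 h), Complex.sin_neg, neg_div_neg_eq]

theorem snc_two (z : ℂ) : snc (2 * z) = snc z * cos z := by
  rcases eq_or_ne z 0 with rfl | h
  · simp [snc_zero]
  · rw [snc_ne h, snc_ne (mul_ne_zero two_ne_zero h), Complex.sin_two_mul]; field_simp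

theorem snc_sub (δ τ : ℂ) :
    τ * snc (δ * τ) * cos δ - snc δ * cos (δ * τ) = (τ - 1) * snc (δ * (τ - 1)) := by
  rcases eq_or_ne δ 0 with rfl | h
  · simp [snc_zero]
  · refine mul_left_cancel₀ h ?_
    have e1 := mul_snc (δ * τ)
    have e2 := mul_snc δ
    have e3 := mul_snc (δ * (τ - 1))
    have e4 := Complex.sin_sub (δ * τ) δ
    rw [show δ * τ - δ = δ * (τ - 1) by ring] at e4
    linear_combination cos δ * e1 - cos (δ * τ) * e2 - e3 - e4

theorem snc_bd (R : ℝ) : ∃ M : ℝ, 1 ≤ M ∧ ∀ z : ℂ, ‖z‖ ≤ R → ‖snc z‖ ≤ M := by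
  obtain ⟨M, hM⟩ := (isCompact_closedBall (0 : ℂ) R).exists_bound_of_continuousOn
    snc_d.continuous.continuousOn
  exact ⟨max M 1, le_max_right _ _, fun z hz =>
    (hM z (by simpa using hz)).trans (le_max_left _ _)⟩

theorem VV_neg (z : ℂ) : VV (-z) = -VV z := by
  simp only [VV, Complex.sin_neg, Complex.cos_neg]; ring

theorem UU_neg (z : ℂ) : UU (-z) = -UU z := by
  simp only [UU, Complex.sin_neg, Complex.cos_neg]; ring

theorem ps_eq {δ : ℂ} (h : snc δ ≠ 0) :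
    snc δ ^ 2 * UU (2 * δ) + 2 * snc (2 * δ) * VV (2 * δ) = -(snc δ ^ 2 / 2 * ps δ) := by
  rcases eq_or_ne δ 0 with rfl | h0
  · simp [UU, VV, ps]
  have h1 : sin δ ≠ 0 := by rw [← mul_snc]; exact mul_ne_zero h0 h
  rw [snc_two, snc_ne h0, UU, VV, ps, Complex.sin_two_mul, Complex.cos_two_mul]
  have e := Complex.sin_sq_add_cos_sq δ
  field_simp
  grind

/-- the root of `S (τ - 1) H τ / 2 + D τ` near `1` -/
theorem rt {H D E : ℂ → ℂ} {M η σ ρ : ℝ} (dH : DifferentiableOn ℂ H (ball 1 1))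
    (dD : DifferentiableOn ℂ D (ball 1 1)) (bH : ∀ x ∈ ball (1 : ℂ) 1, ‖H x‖ ≤ M)
    (bD : ∀ x ∈ ball (1 : ℂ) 1, ‖D x‖ ≤ η) (hE : ∀ x, E x = H 1 * (x - 1) * H x / 2 + D x)
    (σ0 : 0 < σ) (σ1 : σ ≤ 1) (hσ : σ ≤ ‖H 1‖) (ρ0 : 0 < ρ) (ρ1 : ρ ≤ 1) (h1 : 32 * M * ρ ≤ σ)
    (h2 : 32 * η ≤ ρ * σ ^ 2) :
    ∃ t, E t = 0 ∧ ‖t - 1‖ ≤ ρ / 8 ∧ ‖t - 1‖ ≤ 4 * η / σ ^ 2 ∧
      (∀ t', ‖t' - 1‖ < ρ / 2 → E t' = 0 → t' = t) ∧ ¬ HasDerivAt E 0 t ∧
      ‖t - 1 + 2 * D 1 / H 1 ^ 2‖ ≤ (32 * M + 16) * η ^ 2 / σ ^ 5 := by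
  have S0 : 0 < ‖H 1‖ := σ0.trans_le hσ
  have S1 : H 1 ≠ 0 := norm_pos_iff.1 S0
  have M0 : 0 ≤ M := (norm_nonneg _).trans (bH 1 (mem_ball_self one_pos))
  have η0 : 0 ≤ η := (norm_nonneg _).trans (bD 1 (mem_ball_self one_pos))
  have sb : ball (1 : ℂ) ρ ⊆ ball 1 1 := ball_subset_ball ρ1
  have q1 : ∀ x ∈ ball (1 : ℂ) 1, ‖(x - 1) * (H x - H 1) / H 1‖ ≤ 2 * M * ‖x - 1‖ ^ 2 / σ :=
    fun x hx => by
      rw [norm_div, norm_mul]
      refine div_le_div₀ (by positivity) ?_ σ0 hσ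
      nlinarith [mul_le_mul_of_nonneg_left (sch dH bH hx) (norm_nonneg (x - 1))]
  have q2 : ∀ (u : ℂ) (b : ℝ), ‖u‖ ≤ b → ‖2 * u / H 1 ^ 2‖ ≤ 2 * b / σ ^ 2 := fun u b hb => by
    rw [norm_div, norm_mul, norm_pow, Complex.norm_two]
    exact div_le_div₀ (by linarith [norm_nonneg u]) (by linarith) (by positivity)
      (pow_le_pow_left₀ σ0.le hσ 2)
  set ψ : ℂ → ℂ := fun x => (x - 1) * (H x - H 1) / H 1 + 2 * D x / H 1 ^ 2 with hψ
  have dψ : DifferentiableOn ℂ ψ (ball 1 ρ) :=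
    ((((differentiableOn_id.sub_const 1).mul (dH.sub_const _)).div_const _).add
      ((dD.const_mul 2).div_const _)).mono sb
  have bψ : ∀ x ∈ ball (1 : ℂ) ρ, ‖ψ x‖ ≤ ρ / 8 := fun x hx => by
    have a1 := q1 x (sb hx)
    have a2 := q2 _ _ (bD x (sb hx))
    have a3 : ‖x - 1‖ ^ 2 ≤ ρ ^ 2 :=
      pow_le_pow_left₀ (norm_nonneg _) (by simpa [dist_eq_norm] using (mem_ball.1 hx).le) 2
    have a4 : 2 * M * ‖x - 1‖ ^ 2 / σ ≤ ρ / 16 := by
      rw [div_le_iff₀ σ0]; nlinarith [mul_le_mul_of_nonneg_left a3 M0]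
    have a5 : 2 * η / σ ^ 2 ≤ ρ / 16 := by
      rw [div_le_iff₀ (by positivity)]; linarith
    exact (norm_add_le _ _).trans (by linarith)
  have eψ : ∀ x, ψ x + (x - 1) = 2 * E x / H 1 ^ 2 := fun x => by
    rw [hE, hψ]; field_simp; ring
  obtain ⟨t, e1, e2, e3, e4⟩ := P097N.Root.fix ρ0 dψ bψ
  have e5 : ‖t - 1‖ ≤ 4 * η / σ ^ 2 := by
    have a2 := q2 _ _ (bD 1 (mem_ball_self one_pos))
    have : ψ 1 = 2 * D 1 / H 1 ^ 2 := by simp [hψ]
    rw [this] at e3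
    have : 4 * η / σ ^ 2 = 2 * (2 * η / σ ^ 2) := by ring
    linarith
  have tm : t ∈ ball (1 : ℂ) (ρ / 2) := by rw [mem_ball, dist_eq_norm]; linarith
  have tm1 : t ∈ ball (1 : ℂ) 1 := ball_subset_ball (by linarith) tm
  refine ⟨t, ?_, e2, e5, fun t' a1 a2 => e4 t' a1 (by rw [eψ, a2]; simp), fun hd => ?_, ?_⟩
  · rw [eψ] at e1
    simpa [S1] using e1
  · have k := P097N.Root.der ρ0 dψ bψ tm
    have k1 : HasDerivAt ψ (-1) t := by
      have : ψ = fun x => 2 * E x / H 1 ^ 2 - (x - 1) := funext fun x => by rw [← eψ]; ring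
      rw [this]
      exact (((hd.const_mul 2).div_const _).sub ((hasDerivAt_id' t).sub_const 1)).congr_deriv
        (by simp)
    rw [k1.deriv] at k
    norm_num at k
  · have : t - 1 + 2 * D 1 / H 1 ^ 2 =
        -((t - 1) * (H t - H 1) / H 1 + 2 * (D t - D 1) / H 1 ^ 2) := by
      simp only [hψ] at e1
      linear_combination e1
    rw [this, norm_neg]
    have a1 := q1 t tm1
    have a2 := q2 _ _ ((sch dD bD tm1).trans (mul_le_mul_of_nonneg_left e5 (by positivity)))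
    have a3 : 2 * M * ‖t - 1‖ ^ 2 / σ ≤ 2 * M * (4 * η / σ ^ 2) ^ 2 / σ := by gcongr
    have a4 : 2 * (2 * η * (4 * η / σ ^ 2)) / σ ^ 2 ≤ 16 * η ^ 2 / σ ^ 5 := by
      rw [show 2 * (2 * η * (4 * η / σ ^ 2)) / σ ^ 2 = 16 * η ^ 2 / σ ^ 5 * σ by field_simp; ring]
      exact mul_le_of_le_one_right (by positivity) σ1
    have a5 : (32 * M + 16) * η ^ 2 / σ ^ 5 =
        2 * M * (4 * η / σ ^ 2) ^ 2 / σ + 16 * η ^ 2 / σ ^ 5 := by field_simp; ring
    exact (norm_add_le _ _).trans (by linarith)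

/-- the nearest root is analytic near an isolated simple root -/
theorem ana {P : Type} [NormedAddCommGroup P] [NormedSpace ℂ P] [CompleteSpace P]
    {F : P × ℂ → ℂ} {m n : P → ℂ} {p : P} {t : ℂ} {ρ : ℝ} (hm : ContinuousAt m p) (ρ0 : 0 < ρ)
    (hF : ∀ x ∈ ball (m p) ρ, AnalyticAt ℂ F (p, x)) (h0 : F (p, t) = 0)
    (h1 : ‖t - m p‖ ≤ ρ / 2) (un : ∀ x, F (p, x) = 0 → ‖x - m p‖ < ρ → x = t)
    (hd : ¬ HasDerivAt (fun x => F (p, x)) 0 t)
    (hn : ∀ q x, F (q, x) = 0 → (∀ x', F (q, x') = 0 → ‖x' - m q‖ ≤ ‖x - m q‖ → x' = x) →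
      n q = x) : AnalyticAt ℂ n p := by
  have af := hF t (by rw [mem_ball, dist_eq_norm]; linarith)
  have hne : fderiv ℂ F (p, t) (0, 1) ≠ 0 := fun e => hd (by
    have := af.differentiableAt.hasFDerivAt.comp_hasDerivAt t
      ((hasDerivAt_const t p).prodMk (hasDerivAt_id t))
    rw [e] at this
    exact this)
  obtain ⟨ψ, aψ, ψ0, hψ⟩ := P097A.Step.imp af hne
  rw [h0] at hψ
  have t1 : Tendsto (fun y => (y, ψ y)) (𝓝 p) (𝓝 (p, t)) := by
    have := (analyticAt_id.prod aψ).continuousAt.tendsto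
    simpa [ψ0] using this
  have t2 := (isCompact_closedBall (m p) (3 / 4 * ρ)).eventually_forall_of_forall_eventually
    (x₀ := p) (P := fun q x => F (q, x) = 0 → ψ q = x) fun x hx => by
      rcases eq_or_ne x t with rfl | ne
      · exact hψ.mono fun v hv => hv.1
      have hx1 : ‖x - m p‖ < ρ := by
        have := mem_closedBall.1 hx
        rw [dist_eq_norm] at this
        linarith
      exact ((hF x (by rwa [mem_ball, dist_eq_norm])).continuousAt.eventually_ne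
        fun e => ne (un x e hx1)).mono fun v hv e => absurd e hv
  have t3 : ∀ᶠ q in 𝓝 p, ‖ψ q - m q‖ + ‖m q - m p‖ < 3 / 4 * ρ :=
    ((aψ.continuousAt.sub hm).norm.add (hm.sub continuousAt_const).norm).eventually_lt
      continuousAt_const (by
        show ‖ψ p - m p‖ + ‖m p - m p‖ < 3 / 4 * ρ
        rw [ψ0, sub_self, norm_zero]; linarith)
  refine aψ.congr ?_
  filter_upwards [t1.eventually hψ, t2, t3] with q a1 a2 a3
  refine (hn q _ (a1.2 rfl) fun x' b1 b2 => (a2 x' ?_ b1).symm).symm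
  rw [mem_closedBall, dist_eq_norm]
  linarith [norm_sub_le_norm_sub_add_norm_sub x' (m q) (m p)]

theorem nx_eq {θ h : ℂ → ℂ} {y s t : ℂ} (H : Nr θ h y s t) : nx θ h y s = t := by
  have H1 : ∃ t, Nr θ h y s t := ⟨t, H⟩
  rw [nx, dif_pos H1]
  rcases le_total ‖H1.choose - s‖ ‖t - s‖ with e | e
  · exact H.2 _ H1.choose_spec.1 e
  · exact (H1.choose_spec.2 _ H.1 e).symm

end StepA

end Vale.Agent.P097F.N
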