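import Vale.Agent.P097F.N.FoDefs
import Vale.Agent.P097F.N.StepA
import Vale.Agent.P097F.N.Newt
import Vale.Agent.P097Mo.Bridge
import Vale.Agent.P097F.D.Reg
import Vale.Agent.P097F.D.Sg

/-!
# P097F.N: regular states of the limit are regular for the true curves; the true leaf follows the
step map; the Jacobian of the limit family
-/

set_option linter.all false

noncomputable section

namespace Vale.Agent.P097F.N

open Filter Topology Set Metric Complex Vale.Agent.P097N Vale.Agent.P097Mo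

/-- the regular states of the limit curve -/
def RS (g : ℂ → ℂ) (L : Set ℂ) : Set (ℂ × ℂ) :=
  {p | p.1 ∈ L ∧ p.2 ≠ 0 ∧ snc (p.2 * g p.1 / 2) ≠ 0}

theorem isOpen_RS {g : ℂ → ℂ} {L : Set ℂ} (op : IsOpen L) (dg : DifferentiableOn ℂ g L) :
    IsOpen (RS g L) := isOpen_iff_mem_nhds.2 fun p hp => by
  have c1 : ContinuousAt (fun q : ℂ × ℂ => g q.1) p :=
    (dg.differentiableAt (op.mem_nhds hp.1)).continuousAt.comp continuousAt_fst
  have c2 : ContinuousAt (fun q : ℂ × ℂ => snc (q.2 * g q.1 / 2)) p :=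
    StepA.snc_d.continuous.continuousAt.comp ((continuousAt_snd.mul c1).div_const 2)
  filter_upwards [continuousAt_fst.eventually_mem (op.mem_nhds hp.1),
    continuousAt_snd.eventually_ne hp.2.1, c2.eventually_ne hp.2.2] with q a b c using ⟨a, b, c⟩

theorem Rg.mono {g Q : ℂ → ℂ} {U : Set ℂ} {ρ K σ ρ' K' σ' : ℝ} {p : ℂ × ℂ}
    (R : Rg g Q U ρ K σ p) (h1 : ρ' ≤ ρ) (h2 : K ≤ K') (h3 : σ' ≤ σ) (h4 : 0 < σ') :
    Rg g Q U ρ' K' σ' p :=
  have s := closedBall_subset_closedBall (x := p.1) h1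
  ⟨s.trans R.sub, fun z hz => ⟨(R.bd z (s hz)).1.trans h2, (R.bd z (s hz)).2.1.trans h2,
    (R.bd z (s hz)).2.2.trans h2⟩, h3.trans R.v0, R.v1.trans (one_div_le_one_div_of_le h4 h3),
    R.vg.trans h2, h3.trans R.sn⟩

variable {𝒰 : Ultrafilter ℕ} {ε : ℕ → ℂ} {θ h Q : ℕ → ℂ → ℂ} {c : ℕ → ℂ} {U : ℕ → Set ℂ}
  {g : ℂ → ℂ} {L : Set ℂ}

theorem reg1 (s : Seq 𝒰 ε θ h Q c U g L) (z : NZ g L) {p : ℂ × ℂ} (hp : p ∈ RS g L) :
    ∃ V ∈ 𝓝 p, ∃ ρ K σ : ℝ, 0 < ρ ∧ 1 ≤ K ∧ 0 < σ ∧ σ ≤ 1 ∧ ∀ᶠ j in (𝒰 : Filter ℕ), ∀ q ∈ V,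
      Rg (gg (θ j) (ε j)) (Q j) (U j) ρ K σ q := by
  obtain ⟨ρ, ρ0, B, -, hB⟩ := s.qb z p.1 hp.1
  obtain ⟨ρ', ρ1, sub⟩ := Metric.isOpen_iff.1 s.op p.1 hp.1
  obtain ⟨t, t0, t1, t2⟩ : ∃ t : ℝ, 0 < t ∧ 3 * t ≤ ρ ∧ 3 * t ≤ ρ' :=
    ⟨min ρ ρ' / 3, by positivity, by linarith [min_le_left ρ ρ'], by linarith [min_le_right ρ ρ']⟩
  have kc := isCompact_closedBall p.1 (2 * t)
  have kL : closedBall p.1 (2 * t) ⊆ L := (closedBall_subset_ball (by linarith)).trans sub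
  have g0 := s.dg.continuousOn.mono kL
  have g1 := (s.dg.deriv s.op).continuousOn.mono kL
  obtain ⟨A, hA⟩ := kc.exists_bound_of_continuousOn g0
  obtain ⟨A', hA'⟩ := kc.exists_bound_of_continuousOn g1
  have c2 : ContinuousAt (fun q : ℂ × ℂ => ‖snc (q.1 * q.2 / 2)‖) (p.2, g p.1) :=
    (StepA.snc_d.continuous.comp (by fun_prop)).norm.continuousAt
  have n0 := norm_pos_iff.2 hp.2.2
  have v0 := norm_pos_iff.2 hp.2.1
  obtain ⟨δ, δ0, hδ⟩ := Metric.eventually_nhds_iff_ball.1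
    (continuousAt_const.eventually_lt c2 (half_lt_self n0))
  have c1 : ContinuousAt (fun q : ℂ × ℂ => g q.1) p :=
    (s.dg.differentiableAt (s.op.mem_nhds hp.1)).continuousAt.comp continuousAt_fst
  obtain ⟨σ, σ0, σ1, σ2, σ3, σ4⟩ : ∃ σ : ℝ, 0 < σ ∧ σ ≤ 1 ∧ σ ≤ ‖p.2‖ / 2 ∧
      σ ≤ ‖snc (p.2 * g p.1 / 2)‖ / 2 ∧ σ ≤ 1 / (2 * ‖p.2‖) :=
    ⟨min (min 1 (‖p.2‖ / 2)) (min _ _), by positivity, (min_le_left _ _).trans (min_le_left _ _),
      (min_le_left _ _).trans (min_le_right _ _), (min_le_right _ _).trans (min_le_left _ _),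
      (min_le_right _ _).trans (min_le_right _ _)⟩
  have A0 : 0 ≤ A := (norm_nonneg _).trans (hA _ (mem_closedBall_self (by linarith)))
  have A1 : 0 ≤ A' := (norm_nonneg _).trans (hA' _ (mem_closedBall_self (by linarith)))
  refine ⟨{q | q.1 ∈ ball p.1 t ∧ q.2 ∈ ball p.2 (min δ (‖p.2‖ / 2)) ∧
    g q.1 ∈ ball (g p.1) (δ / 2)}, ?_, t, (A + 1) * (1 + 2 * ‖p.2‖) + A' + |B|, σ, t0,
    by nlinarith [abs_nonneg B], σ0, σ1, ?_⟩
  · filter_upwards [continuousAt_fst.eventually_mem (ball_mem_nhds p.1 t0),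
      continuousAt_snd.eventually_mem (ball_mem_nhds p.2 (lt_min δ0 (half_pos v0))),
      c1.eventually_mem (ball_mem_nhds _ (half_pos δ0))] with q a b c using ⟨a, b, c⟩
  filter_upwards [hB, cc_unif 𝒰 s.cc kc kL g0 (lt_min one_pos (half_pos δ0)),
    cc_unif 𝒰 s.cc1 kc kL g1 one_pos] with j b1 b2 b3 q ⟨q1, q2, q3⟩
  have sb : closedBall q.1 t ⊆ closedBall p.1 (2 * t) :=
    closedBall_subset_closedBall' (by linarith [mem_ball.1 q1])
  have sb' : closedBall p.1 (2 * t) ⊆ ball p.1 ρ := closedBall_subset_ball (by linarith)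
  have e0 : ∀ x ∈ closedBall q.1 t, ‖gg (θ j) (ε j) x‖ ≤ A + 1 := fun x hx => by
    have := (b2 x (sb hx)).trans (min_le_left _ _)
    linarith [norm_le_norm_sub_add (gg (θ j) (ε j) x) (g x), hA x (sb hx), show
      ‖gg (θ j) (ε j) x - g x‖ ≤ 1 from this]
  have q4 : ‖q.2 - p.2‖ < ‖p.2‖ / 2 := (mem_ball_iff_norm.1 q2).trans_le (min_le_right _ _)
  have q5 : ‖q.2‖ ≤ 2 * ‖p.2‖ := by linarith [norm_le_norm_sub_add q.2 p.2]
  have q6 : ‖p.2‖ / 2 ≤ ‖q.2‖ := by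
    linarith [norm_le_norm_sub_add p.2 q.2, norm_sub_rev p.2 q.2]
  have m0 := mem_closedBall_self (x := q.1) t0.le
  refine ⟨sb.trans (sb'.trans b1.1), fun x hx => ⟨?_, ?_, ?_⟩, σ2.trans q6, ?_, ?_, σ3.trans ?_⟩
  · nlinarith [e0 x hx, abs_nonneg B]
  · have e : deriv (gg (θ j) (ε j)) x = ε j * deriv (deriv (θ j)) x := deriv_const_mul_field _
    rw [e]
    nlinarith [norm_le_norm_sub_add (ε j * deriv (deriv (θ j)) x) (deriv g x), hA' x (sb hx),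
      b3 x (sb hx), abs_nonneg B]
  · nlinarith [b1.2 x (sb' (sb hx)), le_abs_self B]
  · rw [le_div_iff₀ σ0]
    rw [le_div_iff₀ (by positivity)] at σ4
    nlinarith
  · nlinarith [norm_mul_le_of_le q5 (e0 _ m0), abs_nonneg B]
  · refine (hδ (q.2, gg (θ j) (ε j) q.1) ?_).le
    rw [mem_ball, Prod.dist_eq, max_lt_iff]
    refine ⟨(mem_ball.1 q2).trans_le (min_le_left _ _), ?_⟩
    have := (b2 _ (sb m0)).trans (min_le_right _ _)
    rw [← dist_eq_norm] at this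
    linarith [dist_triangle (gg (θ j) (ε j) q.1) (g q.1) (g p.1), mem_ball.1 q3, show
      dist (gg (θ j) (ε j) q.1) (g q.1) ≤ δ / 2 from this]

/-- a compact set of regular states of the limit is uniformly regular for the true curves -/
theorem regn (s : Seq 𝒰 ε θ h Q c U g L) (z : NZ g L) {S : Set (ℂ × ℂ)} (hS : IsCompact S)
    (sub : S ⊆ RS g L) : ∃ ρ K σ : ℝ, 0 < ρ ∧ 1 ≤ K ∧ 0 < σ ∧ σ ≤ 1 ∧
      ∀ᶠ j in (𝒰 : Filter ℕ), ∀ q ∈ S, Rg (gg (θ j) (ε j)) (Q j) (U j) ρ K σ q := by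
  refine hS.induction_on (p := fun S => ∃ ρ K σ : ℝ, 0 < ρ ∧ 1 ≤ K ∧ 0 < σ ∧ σ ≤ 1 ∧
      ∀ᶠ j in (𝒰 : Filter ℕ), ∀ q ∈ S, Rg (gg (θ j) (ε j)) (Q j) (U j) ρ K σ q)
    ⟨1, 1, 1, one_pos, le_rfl, one_pos, le_rfl, Eventually.of_forall fun _ _ e => e.elim⟩
    (fun s t st ⟨ρ, K, σ, a, b, c, d, e⟩ => ⟨ρ, K, σ, a, b, c, d,
      e.mono fun j hj q hq => hj q (st hq)⟩)
    (fun s t ⟨ρ, K, σ, a, b, c, d, e⟩ ⟨ρ', K', σ', a', b', c', d', e'⟩ => ?_) fun p hp => ?_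
  · refine ⟨min ρ ρ', max K K', min σ σ', lt_min a a', b.trans (le_max_left _ _), lt_min c c',
      (min_le_left _ _).trans d, ?_⟩
    filter_upwards [e, e'] with j h1 h2 q hq
    rcases hq with hq | hq
    · exact (h1 q hq).mono (min_le_left _ _) (le_max_left _ _) (min_le_left _ _) (lt_min c c')
    · exact (h2 q hq).mono (min_le_right _ _) (le_max_right _ _) (min_le_right _ _) (lt_min c c')
  · obtain ⟨V, hV, H⟩ := reg1 s z (sub hp)
    exact ⟨V, mem_nhdsWithin_of_mem_nhds hV, H⟩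

/-- the first order lemma holds on a uniform neighbourhood of a compact set of regular states -/
theorem fon (hF : S_FO) (s : Seq 𝒰 ε θ h Q c U g L) (z : NZ g L) {S : Set (ℂ × ℂ)}
    (hS : IsCompact S) (sub : S ⊆ RS g L) : ∃ r ρ K c' C σ : ℝ, 0 < r ∧ 0 < ρ ∧ 1 ≤ K ∧ 0 < c' ∧
      1 ≤ C ∧ 0 < σ ∧ σ ≤ 1 ∧ cthickening r S ⊆ RS g L ∧
      ∀ᶠ j in (𝒰 : Filter ℕ), ∀ q ∈ cthickening r S,
        Rg (gg (θ j) (ε j)) (Q j) (U j) ρ K σ q ∧ Fo (θ j) (h j) (ε j) c' C σ q := by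
  obtain ⟨r, r0, hr⟩ := hS.exists_cthickening_subset_open (isOpen_RS s.op s.dg) sub
  obtain ⟨ρ, K, σ, ρ0, K1, σ0, σ1, H⟩ := regn s z (hS.cthickening (r := r)) hr
  obtain ⟨c', C, c0, c1, C1, hc⟩ := hF K K1
  have e0 : Tendsto (fun j => ‖ε j‖) 𝒰 (𝓝 0) := by simpa using s.el.norm
  refine ⟨r, ρ, K, c', C, σ, r0, ρ0, K1, c0, C1, σ0, σ1, hr, ?_⟩
  filter_upwards [H, e0.eventually (gt_mem_nhds (show 0 < c' * σ ^ 5 by positivity)),
    e0.eventually (gt_mem_nhds (show 0 < c' * σ * ρ by positivity))] with j a1 a2 a3 q hq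
  exact ⟨a1 q hq, hc _ _ _ _ _ _ ρ σ q (s.cv j) (s.e0 j) σ0 σ1 (a1 q hq) a2.le a3.le⟩

/-- the step maps are near the identity on a ball where the first order lemma holds -/
theorem near_of {θ h : ℂ → ℂ} {ε : ℂ} {c C σ r : ℝ} {p : ℂ × ℂ} (e0 : ε ≠ 0) (C0 : 0 < C)
    (σ0 : 0 < σ) (H : ∀ q ∈ ball p r, Fo θ h ε c C σ q) :
    Near (TT θ h ε) p r (C * ‖ε‖ / σ ^ 5) ∧ Near (TB θ h ε) p r (C * ‖ε‖ / σ ^ 5) :=
  have := norm_pos_iff.2 e0
  ⟨⟨by positivity, fun q hq => (H q hq).anT, fun q hq => (H q hq).bdT⟩,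
    ⟨by positivity, fun q hq => (H q hq).anB, fun q hq => (H q hq).bdB⟩⟩

theorem ball_cth {S : Set (ℂ × ℂ)} {p q : ℂ × ℂ} {r r₁ r₂ : ℝ} (hq : q ∈ S) (h1 : ‖p - q‖ ≤ r₁)
    (h2 : r₁ + r₂ ≤ r) : ball p r₂ ⊆ cthickening r S := fun x hx =>
  mem_cthickening_of_dist_le x q r S hq (by
    linarith [dist_triangle x p q, mem_ball.1 hx, dist_eq_norm p q])

/-- the state of a chain `a, b` -/
def stt (ε a b : ℂ) : ℂ × ℂ := (b, (b - a) / ε)

/-- three vertices with the law and nearly equal steps are a step of the map -/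
theorem dynT {θ h : ℂ → ℂ} {ε a b d : ℂ} {c C σ : ℝ} (e0 : ε ≠ 0)
    (F : Fo θ h ε c C σ (stt ε a b)) (law : EE θ h a b d = 0)
    (sm : ‖(stt ε b d).2 - (stt ε a b).2‖ < c * σ ^ 2) : TT θ h ε (stt ε a b) = stt ε b d := by
  have e1 : b - ε * ((b - a) / ε) = a := by field_simp; ring
  have e2 : b + ε * ((d - b) / ε) = d := by field_simp; ring
  have := F.unT ((d - b) / ε) (by simpa only [stt, e1, e2] using law) sm
  simpa only [stt, e2] using this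

theorem dynB {θ h : ℂ → ℂ} {ε a b d : ℂ} {c C σ : ℝ} (e0 : ε ≠ 0)
    (F : Fo θ h ε c C σ (stt ε b d)) (law : EE θ h a b d = 0)
    (sm : ‖(stt ε b d).2 - (stt ε a b).2‖ < c * σ ^ 2) : TB θ h ε (stt ε b d) = stt ε a b := by
  have e1 : b - ε * ((b - a) / ε) = a := by field_simp; ring
  have e2 : d - ε * ((d - b) / ε) = b := by field_simp; ring
  have := F.unB ((b - a) / ε) (by simpa only [stt, e1, e2] using law) (by rwa [norm_sub_rev])
  simpa only [stt, e2] using this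

/-- the state of the limit family, points `(W, x)` -/
def Z0 (f : ℂ × ℂ → ℂ) (p : ℂ × ℂ) : ℂ × ℂ := (f p, D.vv f p)

/-- the states of a limit family are regular and the family is an immersion -/
theorem jac {g : ℂ → ℂ} {f : ℂ × ℂ → ℂ} {O : Set (ℂ × ℂ)} (dg : DifferentiableOn ℂ g (P097D.Lo 0))
    (op : IsOpen O) (F : D.Fam g f O) {p : ℂ × ℂ} (hp : p ∈ O) (p0 : p.1 ≠ 0) :
    AnalyticAt ℂ (Z0 f) p ∧ Z0 f p ∈ RS g (P097D.Lo 0) ∧
      Function.Injective (fderiv ℂ (Z0 f) p) := by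
  obtain ⟨v0, rg, av, -, -⟩ := D.reg D.sgS g f O dg op F p hp p0
  have af := F.an p hp
  have aZ : AnalyticAt ℂ (Z0 f) p := af.prod av
  have oL : IsOpen (P097D.Lo 0) := isOpen_lt continuous_im continuous_const
  refine ⟨aZ, ⟨F.lo p hp, v0, fun e => ?_⟩, (injective_iff_map_eq_zero _).2 fun u hu => ?_⟩
  · rcases rg.2.2.2 with e1 | e1
    · simp [Z0, e1, StepA.snc_zero] at e
    · exact e1 (by rw [← StepA.mul_snc]; exact mul_eq_zero_of_right _ e)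
  have ag : AnalyticAt ℂ g (f p) := dg.analyticAt (oL.mem_nhds (F.lo p hp))
  have a1 : AnalyticAt ℂ (fun q : ℂ × ℂ => g q.1) (Z0 f p) :=
    AnalyticAt.comp (g := g) (f := Prod.fst) ag analyticAt_fst
  have a2 : AnalyticAt ℂ (fun q : ℂ × ℂ => q.2 ^ 3 * D.sg (q.2 * g q.1 / 2)) (Z0 f p) :=
    (analyticAt_snd.fun_pow 3).fun_mul (AnalyticAt.comp (g := D.sg) (D.sgS.1 _ (mem_univ _))
      (analyticAt_snd.fun_mul a1).div_const)
  have l : HasDerivAt (fun t : ℂ => p + t • u) u 0 := by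
    simpa using ((hasDerivAt_id (0 : ℂ)).smul_const u).const_add p
  have d0 := HasFDerivAt.comp_hasDerivAt_of_eq (hl := aZ.differentiableAt.hasFDerivAt) (hf := l)
    (hy := by simp)
  rw [hu] at d0
  have d1 := HasFDerivAt.comp_hasDerivAt_of_eq (hl := a2.differentiableAt.hasFDerivAt) (hf := d0)
    (hy := by simp)
  rw [map_zero] at d1
  have l1 : HasDerivAt (fun t : ℂ => (p.1 + t * u.1) ^ 3) (3 * p.1 ^ 2 * u.1) 0 := by
    simpa using (((hasDerivAt_id (0 : ℂ)).mul_const u.1).const_add p.1).fun_pow 3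
  have ev : ∀ᶠ t in 𝓝 (0 : ℂ), p + t • u ∈ O :=
    l.continuousAt.eventually_mem (op.mem_nhds (by simpa using hp))
  have u1 : u.1 = 0 := by
    have := (d1.congr_of_eventuallyEq (f₁ := fun t : ℂ => (p.1 + t * u.1) ^ 3)
      (ev.mono fun t ht => (F.law _ ht).symm)).unique l1
    simpa [p0] using this
  have d2 : HasDerivAt (fun t : ℂ => f (p.1, p.2 + t * u.2)) 0 0 := by
    refine (HasFDerivAt.comp_hasDerivAt 0 (hasFDerivAt_fst (𝕜 := ℂ)) d0).congr_of_eventuallyEq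
      (Eventually.of_forall fun t => ?_)
    simp only [Function.comp, Z0]
    congr 1
    ext <;> simp [u1]
  have d3 : HasDerivAt (fun x => f (p.1, x)) (D.dx f p) (p.2 + 0 * u.2) := by
    rw [zero_mul, add_zero]
    exact (AnalyticAt.comp (g := f) (f := fun x : ℂ => (p.1, x)) af
      (analyticAt_const.prod analyticAt_id)).differentiableAt.hasDerivAt
  have d4 := (d3.comp (0 : ℂ) (h := fun t : ℂ => p.2 + t * u.2)
    (((hasDerivAt_id' (0 : ℂ)).mul_const u.2).const_add p.2)).unique d2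
  have u2 : u.2 = 0 := by
    simpa [right_ne_zero_of_mul v0] using d4
  exact Prod.ext u1 u2

end Vale.Agent.P097F.N
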