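import Mathlib

/-!
# P097F, block N: the clock at an obstacle, the passage and the choice of the branch

Coordinates `q = (η, J)`: `J` is the first integral, the obstacle is `η = 0`.
-/

set_option linter.all false

noncomputable section

namespace Vale.Agent.P097F.N

open Set Metric Filter Topology

/-- the time function `τ` of the model near an obstacle, `τ ≈ κ η ^ 2` -/
structure Clk (τ f : ℂ × ℂ → ℂ) (κ J₀ : ℂ) (r : ℝ) : Prop where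
  r0 : 0 < r
  an : DifferentiableOn ℂ τ (ball (0, J₀) (2 * r))
  fd : DifferentiableOn ℂ f (ball (0, J₀) (2 * r))
  der : ∀ q ∈ ball ((0, J₀) : ℂ × ℂ) (2 * r), HasDerivAt (fun η => τ (η, q.2)) (f q) q.1
  z : ∀ J ∈ ball J₀ (2 * r), τ (0, J) = 0
  lin : ∀ q ∈ ball ((0, J₀) : ℂ × ℂ) (2 * r), ‖f q - 2 * κ * q.1‖ ≤ ‖κ‖ * ‖q.1‖ / 4

theorem mem_bd {q : ℂ × ℂ} {J₀ : ℂ} {r : ℝ} :
    q ∈ ball ((0, J₀) : ℂ × ℂ) r ↔ ‖q.1‖ < r ∧ ‖q.2 - J₀‖ < r := by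
  rw [mem_ball, Prod.dist_eq, max_lt_iff, dist_eq_norm, dist_eq_norm, sub_zero]

/-- the time function -/
def clk (f : ℂ × ℂ → ℂ) (q : ℂ × ℂ) : ℂ := ∫ s in (0 : ℝ)..1, q.1 * f (s * q.1, q.2)

theorem ray_mem {q : ℂ × ℂ} {J₀ : ℂ} {R s : ℝ} (hq : q ∈ closedBall ((0, J₀) : ℂ × ℂ) R)
    (hs : s ∈ Icc (0 : ℝ) 1) : (((s : ℂ) * q.1, q.2) : ℂ × ℂ) ∈ closedBall ((0, J₀) : ℂ × ℂ) R := by
  rw [mem_closedBall, Prod.dist_eq, max_le_iff, dist_zero_right] at hq ⊢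
  refine ⟨le_trans ?_ hq.1, hq.2⟩
  rw [norm_mul, Complex.norm_real, Real.norm_of_nonneg hs.1]
  exact mul_le_of_le_one_left (norm_nonneg _) hs.2

theorem clk_diff {f : ℂ × ℂ → ℂ} {J₀ : ℂ} {R : ℝ} (hf : AnalyticOnNhd ℂ f (ball (0, J₀) R)) :
    DifferentiableOn ℂ (clk f) (ball (0, J₀) R) := by
  intro p hp
  obtain ⟨R', h1, h2⟩ := exists_between (mem_ball.1 hp)
  have hK : closedBall ((0, J₀) : ℂ × ℂ) R' ⊆ ball (0, J₀) R := closedBall_subset_ball h2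
  have hn : closedBall ((0, J₀) : ℂ × ℂ) R' ∈ 𝓝 p := closedBall_mem_nhds_of_mem (mem_ball.2 h1)
  obtain ⟨B, hB⟩ := (isCompact_closedBall ((0, J₀) : ℂ × ℂ) R').exists_bound_of_continuousOn
    (hf.continuousOn.mono hK)
  obtain ⟨B', hB'⟩ := (isCompact_closedBall ((0, J₀) : ℂ × ℂ) R').exists_bound_of_continuousOn
    (hf.fderiv.continuousOn.mono hK)
  let L : ℝ → (ℂ × ℂ →L[ℂ] ℂ × ℂ) := fun s =>
    ((s : ℂ) • ContinuousLinearMap.fst ℂ ℂ ℂ).prod (ContinuousLinearMap.snd ℂ ℂ ℂ)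
  have hL : ∀ s q, L s q = ((s : ℂ) * q.1, q.2) := fun s q => rfl
  have hLc : Continuous L := by
    have e : L = fun s : ℝ => (s : ℂ) • (ContinuousLinearMap.fst ℂ ℂ ℂ).prod (0 : ℂ × ℂ →L[ℂ] ℂ) +
        (0 : ℂ × ℂ →L[ℂ] ℂ).prod (ContinuousLinearMap.snd ℂ ℂ ℂ) := by
      funext s
      refine ContinuousLinearMap.ext fun q => ?_
      rw [hL]
      simp
    rw [e]
    fun_prop
  have hLn : ∀ s ∈ Icc (0 : ℝ) 1, ‖L s‖ ≤ 1 := fun s hs =>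
    ContinuousLinearMap.opNorm_le_bound _ zero_le_one fun q => by
      rw [hL, one_mul, Prod.norm_def, Prod.norm_def]
      refine max_le_max ?_ le_rfl
      rw [norm_mul, Complex.norm_real, Real.norm_of_nonneg hs.1]
      exact mul_le_of_le_one_left (norm_nonneg _) hs.2
  have hI : ∀ s ∈ uIoc (0 : ℝ) 1, s ∈ Icc (0 : ℝ) 1 := fun s hs => by
    rw [uIoc_of_le zero_le_one] at hs
    exact Ioc_subset_Icc_self hs
  have hc : ∀ q ∈ closedBall ((0, J₀) : ℂ × ℂ) R',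
      ContinuousOn (fun s : ℝ => f ((s : ℂ) * q.1, q.2)) (Icc 0 1) := fun q hq =>
    hf.continuousOn.comp (by fun_prop) fun s hs => hK (ray_mem hq hs)
  have hp' := mem_of_mem_nhds hn
  have key := intervalIntegral.hasFDerivAt_integral_of_dominated_of_fderiv_le (𝕜 := ℂ)
    (μ := MeasureTheory.volume) (a := 0) (b := 1) (F := fun (q : ℂ × ℂ) (s : ℝ) =>
      q.1 * f (s * q.1, q.2))
    (F' := fun q s => q.1 • (fderiv ℂ f (s * q.1, q.2)).comp (L s) +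
      f (s * q.1, q.2) • ContinuousLinearMap.fst ℂ ℂ ℂ) (bound := fun _ => R' * B' + B) hn
    (by
      filter_upwards [hn] with q hq
      exact (((hc q hq).const_mul q.1).mono hI).aestronglyMeasurable measurableSet_uIoc)
    (ContinuousOn.intervalIntegrable_of_Icc zero_le_one ((hc p hp').const_mul p.1))
    (by
      refine ContinuousOn.aestronglyMeasurable (ContinuousOn.mono ?_ hI) measurableSet_uIoc
      have h3 : ContinuousOn (fun s : ℝ => fderiv ℂ f ((s : ℂ) * p.1, p.2)) (Icc 0 1) :=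
        hf.fderiv.continuousOn.comp (by fun_prop) fun s hs => hK (ray_mem hp' hs)
      exact ((h3.clm_comp hLc.continuousOn).const_smul p.1).add ((hc p hp').smul continuousOn_const))
    (by
      refine Eventually.of_forall fun s hs q hq => ?_
      have m := ray_mem hq (hI s hs)
      have b1 : ‖q.1‖ ≤ R' := by
        rw [mem_closedBall, Prod.dist_eq, max_le_iff, dist_zero_right] at hq
        exact hq.1
      have b2 : ‖(fderiv ℂ f (s * q.1, q.2)).comp (L s)‖ ≤ B' :=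
        (ContinuousLinearMap.opNorm_comp_le _ _).trans
          ((mul_le_of_le_one_right (norm_nonneg _) (hLn s (hI s hs))).trans (hB' _ m))
      refine (norm_add_le _ _).trans (add_le_add ?_ ?_)
      · rw [norm_smul]
        exact mul_le_mul b1 b2 (norm_nonneg _) ((norm_nonneg _).trans b1)
      · rw [norm_smul]
        exact (mul_le_of_le_one_right (norm_nonneg _) (ContinuousLinearMap.norm_fst_le ..)).trans
          (hB _ m))
    intervalIntegrable_const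
    (by
      refine Eventually.of_forall fun s hs q hq => ?_
      have d1 := (hf _ (hK (ray_mem hq (hI s hs)))).differentiableAt.hasFDerivAt.comp q
        (L s).hasFDerivAt
      exact hasFDerivAt_fst.mul d1)
  exact key.differentiableAt.differentiableWithinAt

theorem clk_der {f : ℂ × ℂ → ℂ} {J₀ : ℂ} {R : ℝ} (hf : DifferentiableOn ℂ f (ball (0, J₀) R))
    {q : ℂ × ℂ} (hq : q ∈ ball ((0, J₀) : ℂ × ℂ) R) :
    HasDerivAt (fun η => clk f (η, q.2)) (f q) q.1 := by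
  have h1 : DifferentiableOn ℂ (fun η => f (η, q.2)) (ball 0 R) :=
    hf.comp (by fun_prop) fun η hη => mem_bd.2 ⟨by simpa using hη, (mem_bd.1 hq).2⟩
  obtain ⟨F, hF⟩ := h1.isExactOn_ball
  have hq1 : q.1 ∈ ball (0 : ℂ) R := by simpa using (mem_bd.1 hq).1
  refine ((hF q.1 hq1).sub_const (F 0)).congr_of_eventuallyEq ?_
  filter_upwards [isOpen_ball.mem_nhds hq1] with η hη
  have m : ∀ s ∈ uIcc (0 : ℝ) 1, (s : ℂ) * η ∈ ball (0 : ℂ) R := fun s hs => by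
    rw [uIcc_of_le zero_le_one] at hs
    rw [mem_ball_zero_iff] at hη ⊢
    rw [norm_mul, Complex.norm_real, Real.norm_of_nonneg hs.1]
    exact (mul_le_of_le_one_left (norm_nonneg _) hs.2).trans_lt hη
  have := intervalIntegral.integral_eq_sub_of_hasDerivAt (a := 0) (b := 1)
    (f := fun s : ℝ => F (s * η)) (f' := fun s : ℝ => η * f (s * η, q.2)) (fun s hs => by
      have d := (hF _ (m s hs)).comp (s : ℂ) ((hasDerivAt_id (s : ℂ)).mul_const η)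
      have d2 := d.comp_ofReal
      refine d2.congr_deriv ?_
      ring)
    (ContinuousOn.intervalIntegrable ((h1.continuousOn.comp
      (f := fun s : ℝ => (s : ℂ) * η) (by fun_prop) m).const_mul η))
  simpa [clk] using this

/-- **CLOCK** -/
theorem clk_spec {f : ℂ × ℂ → ℂ} {κ J₀ : ℂ} {r : ℝ} (hr : 0 < r)
    (hf : AnalyticOnNhd ℂ f (ball (0, J₀) (2 * r)))
    (hl : ∀ q ∈ ball ((0, J₀) : ℂ × ℂ) (2 * r), ‖f q - 2 * κ * q.1‖ ≤ ‖κ‖ * ‖q.1‖ / 4) :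
    Clk (clk f) f κ J₀ r :=
  ⟨hr, clk_diff hf, hf.differentiableOn, fun _ hq => clk_der hf.differentiableOn hq,
    fun _ _ => by simp [clk], hl⟩

namespace Clk

variable {τ f : ℂ × ℂ → ℂ} {κ J₀ : ℂ} {r : ℝ} (C : Clk τ f κ J₀ r)
include C

theorem seg {a b J : ℂ} {m : ℝ} (hm : m < 2 * r) (ha : ‖a‖ ≤ m) (hb : ‖b‖ ≤ m)
    (hJ : ‖J - J₀‖ < 2 * r) :
    ‖τ (b, J) - τ (a, J) - κ * (b ^ 2 - a ^ 2)‖ ≤ ‖κ‖ * m / 4 * ‖b - a‖ := by
  have m1 : ∀ x ∈ closedBall (0 : ℂ) m, ((x, J) : ℂ × ℂ) ∈ ball ((0, J₀) : ℂ × ℂ) (2 * r) :=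
    fun x hx => mem_bd.2 ⟨(mem_closedBall_zero_iff.1 hx).trans_lt hm, hJ⟩
  have := (convex_closedBall (0 : ℂ) m).norm_image_sub_le_of_norm_hasDerivWithin_le
    (f := fun x => τ (x, J) - κ * x ^ 2) (f' := fun x => f (x, J) - 2 * κ * x) (C := ‖κ‖ * m / 4)
    (fun x hx => by
      have d := (C.der _ (m1 x hx)).sub (((hasDerivAt_id x).pow 2).const_mul κ)
      refine (d.congr_deriv ?_).hasDerivWithinAt
      simp
      ring)
    (fun x hx => (C.lin _ (m1 x hx)).trans (by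
      have := mem_closedBall_zero_iff.1 hx
      gcongr)) (mem_closedBall_zero_iff.2 ha) (mem_closedBall_zero_iff.2 hb)
  rwa [show τ (b, J) - κ * b ^ 2 - (τ (a, J) - κ * a ^ 2) =
    τ (b, J) - τ (a, J) - κ * (b ^ 2 - a ^ 2) by ring] at this

theorem sq {q : ℂ × ℂ} (hq : q ∈ ball ((0, J₀) : ℂ × ℂ) (2 * r)) :
    ‖τ q - κ * q.1 ^ 2‖ ≤ ‖κ‖ * ‖q.1‖ ^ 2 / 4 := by
  obtain ⟨h1, h2⟩ := mem_bd.1 hq
  have := C.seg (a := 0) h1 (by simp) le_rfl h2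
  rw [C.z _ (mem_ball_iff_norm.2 h2)] at this
  simp only [sub_zero, ne_eq, OfNat.ofNat_ne_zero, not_false_eq_true, zero_pow] at this
  exact this.trans_eq (by ring)

theorem lo {q : ℂ × ℂ} (hq : q ∈ ball ((0, J₀) : ℂ × ℂ) (2 * r)) :
    3 / 4 * (‖κ‖ * ‖q.1‖ ^ 2) ≤ ‖τ q‖ := by
  have h1 := C.sq hq
  have h2 := norm_sub_norm_le (κ * q.1 ^ 2) (τ q)
  rw [norm_sub_rev, norm_mul, norm_pow] at h2
  linarith

theorem up {q : ℂ × ℂ} (hq : q ∈ ball ((0, J₀) : ℂ × ℂ) (2 * r)) :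
    ‖τ q‖ ≤ 5 / 4 * (‖κ‖ * ‖q.1‖ ^ 2) := by
  have h1 := C.sq hq
  have h2 := norm_sub_norm_le (τ q) (κ * q.1 ^ 2)
  rw [norm_mul, norm_pow] at h2
  linarith

theorem f_lo {q : ℂ × ℂ} (hq : q ∈ ball ((0, J₀) : ℂ × ℂ) (2 * r)) : ‖κ‖ * ‖q.1‖ ≤ ‖f q‖ := by
  have h1 := C.lin q hq
  have h2 := norm_sub_norm_le (2 * κ * q.1) (f q)
  rw [norm_sub_rev, norm_mul, norm_mul, Complex.norm_ofNat] at h2
  have := mul_nonneg (norm_nonneg κ) (norm_nonneg q.1)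
  linarith

theorem lipJ {η J J' : ℂ} (hη : ‖η‖ < 2 * r) (hJ : ‖J - J₀‖ < r) (h : ‖J' - J‖ < r) :
    ‖τ (η, J') - τ (η, J)‖ ≤ 2 * ‖κ‖ * r * ‖J' - J‖ := by
  have hr := C.r0
  have m : ∀ x ∈ ball J r, ((η, x) : ℂ × ℂ) ∈ ball ((0, J₀) : ℂ × ℂ) (2 * r) := fun x hx =>
    mem_bd.2 ⟨hη, by
      have := norm_sub_le_norm_sub_add_norm_sub x J J₀
      have := mem_ball_iff_norm.1 hx
      show ‖x - J₀‖ < 2 * r
      linarith⟩
  have k := Complex.dist_le_div_mul_dist_of_mapsTo_ball (f := fun x => τ (η, x)) (c := J) (z := J')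
    (R₁ := r) (R₂ := 2 * ‖κ‖ * r * r) (C.an.comp (by fun_prop) m) (fun x hx => by
      have k1 := C.sq (m x hx)
      have k2 := C.sq (m J (mem_ball_self hr))
      have k3 := norm_sub_le (τ (η, x) - κ * η ^ 2) (τ (η, J) - κ * η ^ 2)
      rw [sub_sub_sub_cancel_right] at k3
      have k4 : ‖κ‖ * ‖η‖ ^ 2 ≤ ‖κ‖ * (2 * r) ^ 2 := by gcongr
      rw [mem_closedBall_iff_norm]
      simp only at k1 k2
      nlinarith) (mem_ball_iff_norm.2 h)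
  rwa [dist_eq_norm, dist_eq_norm, mul_div_cancel_right₀ _ hr.ne'] at k

theorem taylor {a b J : ℂ} (ha : ‖a‖ < r) (hb : ‖b - a‖ < r) (hJ : ‖J - J₀‖ < 2 * r) :
    ‖τ (b, J) - τ (a, J) - f (a, J) * (b - a)‖ ≤ 3 * ‖κ‖ * ‖b - a‖ ^ 2 := by
  have hr := C.r0
  have m : ∀ x ∈ ball a r, ((x, J) : ℂ × ℂ) ∈ ball ((0, J₀) : ℂ × ℂ) (2 * r) := fun x hx =>
    mem_bd.2 ⟨by
      have := norm_le_norm_sub_add x a
      have := mem_ball_iff_norm.1 hx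
      show ‖x‖ < 2 * r
      linarith, hJ⟩
  have b1 : ∀ x ∈ ball a r, ‖f (x, J) - 2 * κ * x‖ ≤ ‖κ‖ * r / 2 := fun x hx => by
    have k1 := C.lin _ (m x hx)
    have k2 : ‖κ‖ * ‖x‖ ≤ ‖κ‖ * (2 * r) := by
      have := (mem_bd.1 (m x hx)).1
      gcongr
    simp only at k1
    linarith
  have lip : ∀ x ∈ ball a r, ‖f (x, J) - f (a, J)‖ ≤ 3 * ‖κ‖ * ‖x - a‖ := fun x hx => by
    have k := Complex.dist_le_div_mul_dist_of_mapsTo_ball (f := fun x => f (x, J) - 2 * κ * x)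
      (c := a) (z := x) (R₁ := r) (R₂ := ‖κ‖ * r)
      ((C.fd.comp (f := fun x => (x, J)) (by fun_prop) m).sub (by fun_prop)) (fun y hy => by
        have k3 := norm_sub_le (f (y, J) - 2 * κ * y) (f (a, J) - 2 * κ * a)
        rw [mem_closedBall_iff_norm]
        linarith [b1 y hy, b1 a (mem_ball_self hr)]) hx
    rw [dist_eq_norm, dist_eq_norm, mul_div_cancel_right₀ _ hr.ne'] at k
    have k2 := norm_add_le (f (x, J) - 2 * κ * x - (f (a, J) - 2 * κ * a)) (2 * κ * (x - a))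
    rw [show f (x, J) - 2 * κ * x - (f (a, J) - 2 * κ * a) + 2 * κ * (x - a) =
      f (x, J) - f (a, J) by ring, norm_mul, norm_mul, Complex.norm_ofNat] at k2
    linarith
  have sub : closedBall a ‖b - a‖ ⊆ ball a r := closedBall_subset_ball hb
  have := (convex_closedBall a ‖b - a‖).norm_image_sub_le_of_norm_hasDerivWithin_le
    (f := fun x => τ (x, J) - f (a, J) * x) (f' := fun x => f (x, J) - f (a, J))
    (C := 3 * ‖κ‖ * ‖b - a‖)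
    (fun x hx => by
      have d := (C.der _ (m x (sub hx))).sub ((hasDerivAt_id x).const_mul (f (a, J)))
      refine (d.congr_deriv ?_).hasDerivWithinAt
      simp)
    (fun x hx => (lip x (sub hx)).trans (by
      have := mem_closedBall_iff_norm.1 hx
      gcongr)) (mem_closedBall_self (norm_nonneg _)) (mem_closedBall_iff_norm.2 le_rfl)
  rw [show τ (b, J) - f (a, J) * b - (τ (a, J) - f (a, J) * a) =
    τ (b, J) - τ (a, J) - f (a, J) * (b - a) by ring] at this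
  exact this.trans_eq (by ring)

/-- one step -/
theorem step {q q' : ℂ × ℂ} {ε : ℂ} {σ e d : ℝ} (hq : q ∈ ball ((0, J₀) : ℂ × ℂ) r)
    (hσ : σ ≤ ‖q.1‖) (h0 : 0 < ‖κ‖ * σ) (h1 : ‖q'.2 - q.2‖ ≤ e) (h2 : ‖f q * (q'.1 - q.1) - ε‖ ≤ e)
    (hd : ‖ε‖ + e ≤ ‖κ‖ * σ * d) (hdr : d < r) (he : e < r) :
    q' ∈ ball ((0, J₀) : ℂ × ℂ) (2 * r) ∧ ‖q'.1 - q.1‖ ≤ d ∧
      ‖τ q' - τ q - ε‖ ≤ 2 * ‖κ‖ * r * e + 3 * ‖κ‖ * d ^ 2 + e := by
  have hr := C.r0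
  obtain ⟨m1, m2⟩ := mem_bd.1 hq
  have k1 : ‖κ‖ * σ ≤ ‖f q‖ :=
    le_trans (by gcongr) (C.f_lo (ball_subset_ball (by linarith) hq))
  have k2 : ‖q'.1 - q.1‖ ≤ d := by
    have a1 := norm_le_norm_sub_add (f q * (q'.1 - q.1)) ε
    rw [norm_mul] at a1
    have a2 : ‖κ‖ * σ * ‖q'.1 - q.1‖ ≤ ‖f q‖ * ‖q'.1 - q.1‖ := by gcongr
    exact le_of_mul_le_mul_left (by linarith) h0
  have k3 : ‖q'.1‖ < 2 * r := by linarith [norm_le_norm_sub_add q'.1 q.1]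
  refine ⟨mem_bd.2 ⟨k3, by linarith [norm_sub_le_norm_sub_add_norm_sub q'.2 q.2 J₀]⟩, k2, ?_⟩
  have k4 := C.lipJ k3 m2 (h1.trans_lt he)
  have k5 := C.taylor m1 (k2.trans_lt hdr) (J := q.2) (by linarith)
  have k6 := norm_add₃_le (a := τ (q'.1, q'.2) - τ (q'.1, q.2))
    (b := τ (q'.1, q.2) - τ (q.1, q.2) - f (q.1, q.2) * (q'.1 - q.1))
    (c := f q * (q'.1 - q.1) - ε)
  rw [show τ (q'.1, q'.2) - τ (q'.1, q.2) +
    (τ (q'.1, q.2) - τ (q.1, q.2) - f (q.1, q.2) * (q'.1 - q.1)) + (f q * (q'.1 - q.1) - ε) =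
    τ q' - τ q - ε by ring] at k6
  have k7 : 2 * ‖κ‖ * r * ‖q'.2 - q.2‖ ≤ 2 * ‖κ‖ * r * e := by gcongr
  have k8 : 3 * ‖κ‖ * ‖q'.1 - q.1‖ ^ 2 ≤ 3 * ‖κ‖ * d ^ 2 := by gcongr
  linarith

end Clk

/-- the region of clearance `σ` -/
def An (J₀ : ℂ) (r σ : ℝ) : Set (ℂ × ℂ) := {q | q ∈ ball ((0, J₀) : ℂ × ℂ) r ∧ σ < ‖q.1‖}

theorem isOpen_An (J₀ : ℂ) (r σ : ℝ) : IsOpen (An J₀ r σ) :=
  isOpen_ball.inter (isOpen_lt continuous_const continuous_fst.norm)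

/-- the step map in the coordinates of the obstacle -/
structure Stp (S : ℂ × ℂ → ℂ × ℂ) (f : ℂ × ℂ → ℂ) (J₀ ε : ℂ) (r σ e : ℝ) : Prop where
  an : DifferentiableOn ℂ S (An J₀ r σ)
  dJ : ∀ q ∈ An J₀ r σ, ‖(S q).2 - q.2‖ ≤ e
  dη : ∀ q ∈ An J₀ r σ, ‖f q * ((S q).1 - q.1) - ε‖ ≤ e

/-- **PASS** -/
theorem pass {τ f : ℂ × ℂ → ℂ} {κ J₀ ε : ℂ} {r σ e d e₁ : ℝ} {S : ℂ × ℂ → ℂ × ℂ}
    (C : Clk τ f κ J₀ r) (H : Stp S f J₀ ε r σ e) (h0 : 0 < ‖κ‖ * σ)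
    (hd : ‖ε‖ + e ≤ ‖κ‖ * σ * d) (hdr : d < r) (he0 : 0 ≤ e) (he : e < r)
    (h1 : 2 * ‖κ‖ * r * e + 3 * ‖κ‖ * d ^ 2 + e ≤ e₁) {N : ℕ} {q : ℂ × ℂ}
    (hq : q ∈ ball ((0, J₀) : ℂ × ℂ) (2 * r)) (hJ : ‖q.2 - J₀‖ + N * e < r)
    (hτ : ∀ j ≤ N, 5 / 4 * (‖κ‖ * σ ^ 2) + N * e₁ < ‖τ q + j * ε‖ ∧
      ‖τ q + j * ε‖ + N * e₁ < 3 / 4 * (‖κ‖ * r ^ 2)) :
    ∀ j ≤ N, S^[j] q ∈ An J₀ r σ ∧ DifferentiableAt ℂ S^[j] q ∧
      ‖τ (S^[j] q) - τ q - j * ε‖ ≤ j * e₁ ∧ ‖(S^[j] q).2 - q.2‖ ≤ j * e := by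
  have hr := C.r0
  have hκ : 0 < ‖κ‖ := (norm_nonneg κ).lt_of_ne fun h => by simp [← h] at h0
  have hσ : 0 < σ := (pos_iff_pos_of_mul_pos h0).1 hκ
  have he₁ : 0 ≤ e₁ := le_trans (by positivity) h1
  have key : ∀ j ≤ N, ∀ p ∈ ball ((0, J₀) : ℂ × ℂ) (2 * r), ‖τ p - τ q - j * ε‖ ≤ j * e₁ →
      ‖p.2 - q.2‖ ≤ j * e → p ∈ An J₀ r σ := by
    intro j hj p hp a1 a2
    have hjN : (j : ℝ) ≤ N := by exact_mod_cast hj
    have b1 : (j : ℝ) * e₁ ≤ N * e₁ := by gcongr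
    have b2 : (j : ℝ) * e ≤ N * e := by gcongr
    obtain ⟨c1, c2⟩ := hτ j hj
    rw [sub_sub] at a1
    have c3 := norm_sub_norm_le (τ p) (τ q + j * ε)
    have c4 := norm_sub_norm_le (τ q + j * ε) (τ p)
    rw [norm_sub_rev] at c4
    have c5 := C.lo hp
    have c6 := C.up hp
    refine ⟨mem_bd.2 ⟨?_, by linarith [norm_sub_le_norm_sub_add_norm_sub p.2 q.2 J₀]⟩, ?_⟩
    · exact lt_of_pow_lt_pow_left₀ 2 hr.le (lt_of_mul_lt_mul_left (a := ‖κ‖) (by linarith) hκ.le)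
    · exact lt_of_pow_lt_pow_left₀ 2 (norm_nonneg _)
        (lt_of_mul_lt_mul_left (a := ‖κ‖) (by linarith) hκ.le)
  intro j
  induction j with
  | zero =>
    intro hj
    refine ⟨key 0 hj q hq (by simp) (by simp), differentiableAt_id, by simp, by simp⟩
  | succ j ih =>
    intro hj
    obtain ⟨i1, i2, i3, i4⟩ := ih (by omega)
    obtain ⟨s1, -, s3⟩ := C.step i1.1 i1.2.le h0 (H.dJ _ i1) (H.dη _ i1) hd hdr he
    have s4 := H.dJ _ i1
    have t1 : ‖τ (S (S^[j] q)) - τ q - (j + 1 : ℕ) * ε‖ ≤ (j + 1 : ℕ) * e₁ := by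
      have := norm_add_le (τ (S (S^[j] q)) - τ (S^[j] q) - ε) (τ (S^[j] q) - τ q - j * ε)
      push_cast
      rw [show τ (S (S^[j] q)) - τ q - (j + 1) * ε =
        τ (S (S^[j] q)) - τ (S^[j] q) - ε + (τ (S^[j] q) - τ q - j * ε) by ring]
      linarith
    have t2 : ‖(S (S^[j] q)).2 - q.2‖ ≤ (j + 1 : ℕ) * e := by
      have := norm_sub_le_norm_sub_add_norm_sub (S (S^[j] q)).2 (S^[j] q).2 q.2
      push_cast
      linarith
    rw [Function.iterate_succ']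
    exact ⟨key _ hj _ s1 t1 t2,
      (H.an.differentiableAt ((isOpen_An _ _ _).mem_nhds i1)).comp q i2, t1, t2⟩

/-- **SIGN**: the branch is constant on a connected family -/
theorem sign {τ f : ℂ × ℂ → ℂ} {κ J₀ : ℂ} {r s e e' : ℝ} (C : Clk τ f κ J₀ r) {X : Type*}
    [TopologicalSpace X] {D : Set X} (hD : IsPreconnected D) {p q : X → ℂ × ℂ}
    (hp : ContinuousOn p D) (hq : ContinuousOn q D) (hs : 0 < s) (he' : e' < r)
    (hE : e + 2 * ‖κ‖ * r * e' < ‖κ‖ * s ^ 2 / 2)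
    (h : ∀ x ∈ D, p x ∈ ball ((0, J₀) : ℂ × ℂ) r ∧ q x ∈ ball ((0, J₀) : ℂ × ℂ) r ∧ s ≤ ‖(p x).1‖ ∧
      ‖τ (q x) - τ (p x)‖ ≤ e ∧ ‖(q x).2 - (p x).2‖ ≤ e')
    {x₀ : X} (hx₀ : x₀ ∈ D) (h0 : ‖(q x₀).1 - (p x₀).1‖ ≤ ‖(p x₀).1‖ / 2) :
    ∀ x ∈ D, ‖κ‖ * s * ‖(q x).1 - (p x).1‖ ≤ e + 2 * ‖κ‖ * r * e' := by
  have hr := C.r0
  have A : ∀ x ∈ D, ‖(q x).1 - (p x).1‖ ≤ ‖(p x).1‖ / 2 →
      ‖κ‖ * s * ‖(q x).1 - (p x).1‖ ≤ e + 2 * ‖κ‖ * r * e' := by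
    intro x hx hc
    obtain ⟨m1, m2, m3, m4, m5⟩ := h x hx
    obtain ⟨a1, a2⟩ := mem_bd.1 m1
    obtain ⟨a3, a4⟩ := mem_bd.1 m2
    have b1 : ‖(q x).1‖ ≤ 3 / 2 * ‖(p x).1‖ := by
      linarith [norm_le_norm_sub_add (q x).1 (p x).1]
    have b2 := C.seg (a := (p x).1) (b := (q x).1) (J := (p x).2) (m := 3 / 2 * ‖(p x).1‖)
      (by linarith) (by linarith [norm_nonneg (p x).1]) b1 (by linarith)
    have b3 := C.lipJ (η := (q x).1) (by linarith) a2 (m5.trans_lt he')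
    have b4 : 3 / 2 * ‖(p x).1‖ ≤ ‖(q x).1 + (p x).1‖ := by
      have := norm_sub_le ((q x).1 + (p x).1) ((q x).1 - (p x).1)
      rw [show (q x).1 + (p x).1 - ((q x).1 - (p x).1) = 2 * (p x).1 by ring, norm_mul,
        Complex.norm_ofNat] at this
      linarith
    have b5 : ‖κ * ((q x).1 ^ 2 - (p x).1 ^ 2)‖ =
        ‖κ‖ * ‖(q x).1 - (p x).1‖ * ‖(q x).1 + (p x).1‖ := by
      rw [← norm_mul, ← norm_mul]
      congr 1
      ring
    have b6 := norm_sub_norm_le (κ * ((q x).1 ^ 2 - (p x).1 ^ 2))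
      (τ ((q x).1, (p x).2) - τ ((p x).1, (p x).2))
    rw [norm_sub_rev (κ * _), b5] at b6
    have b7 := norm_sub_le (τ (q x) - τ (p x)) (τ ((q x).1, (q x).2) - τ ((q x).1, (p x).2))
    rw [show τ (q x) - τ (p x) - (τ ((q x).1, (q x).2) - τ ((q x).1, (p x).2)) =
      τ ((q x).1, (p x).2) - τ ((p x).1, (p x).2) by ring] at b7
    have b8 : 2 * ‖κ‖ * r * ‖(q x).2 - (p x).2‖ ≤ 2 * ‖κ‖ * r * e' := by gcongr
    have b0 : 0 ≤ ‖κ‖ * ‖(q x).1 - (p x).1‖ := by positivity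
    have b9 := mul_le_mul_of_nonneg_left b4 b0
    have b10 := mul_le_mul_of_nonneg_left m3 b0
    have b11 := mul_nonneg b0 (norm_nonneg (p x).1)
    nlinarith
  have B : ∀ x ∈ D, ‖(q x).1 - (p x).1‖ ≤ ‖(p x).1‖ / 2 → ‖(q x).1 - (p x).1‖ < ‖(p x).1‖ / 2 := by
    intro x hx hc
    have a1 := (A x hx hc).trans_lt hE
    have a2 := (h x hx).2.2.1
    have a3 : ‖κ‖ * s * ‖(q x).1 - (p x).1‖ < ‖κ‖ * s * (s / 2) := a1.trans_eq (by ring)
    have := lt_of_mul_lt_mul_left a3 (by positivity)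
    linarith
  intro x hx
  refine A x hx ?_
  by_contra hc
  have hc' : ContinuousOn (fun x => ‖(q x).1 - (p x).1‖ - ‖(p x).1‖ / 2) D :=
    (hq.fst.sub hp.fst).norm.sub (hp.fst.norm.div_const 2)
  obtain ⟨y, hy, e0⟩ := hD.intermediate_value hx₀ hx hc'
    (show (0 : ℝ) ∈ Icc _ _ from ⟨by simpa using h0, by simpa using (not_le.1 hc).le⟩)
  have := B y hy (by simp only at e0; linarith)
  simp only at e0
  linarith

/-- **DRIFT**: an almost periodic function on a big disc is almost constant -/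
theorem drift {E : Type*} [NormedAddCommGroup E] [NormedSpace ℂ E] {D : ℂ → E} {t₀ : ℂ}
    {R M e : ℝ} (hR : 1 < R) (hD : DifferentiableOn ℂ D (ball t₀ (2 * R)))
    (hM : ∀ t ∈ ball t₀ (2 * R), ‖D t‖ ≤ M) (he : ∀ t ∈ ball t₀ R, ‖D (t + 1) - D t‖ ≤ e) :
    ∀ t ∈ ball t₀ R, ‖D t - D t₀‖ ≤ (e + 4 * M / R ^ 2) * ‖t - t₀‖ := by
  have hR0 : 0 < R := by linarith
  have sub : ∀ t ∈ ball t₀ R, ball t R ⊆ ball t₀ (2 * R) := fun t ht =>
    ball_subset_ball' (by linarith [mem_ball.1 ht])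
  have dA : ∀ t ∈ ball t₀ R, HasDerivAt D (deriv D t) t := fun t ht =>
    (hD.differentiableAt (isOpen_ball.mem_nhds (sub t ht (mem_ball_self hR0)))).hasDerivAt
  have b : ∀ t ∈ ball t₀ R, ‖deriv D t‖ ≤ e + 4 * M / R ^ 2 := by
    intro t ht
    have m : ∀ u ∈ ball t R, ‖D u - D t‖ ≤ 2 * M := fun u hu => by
      linarith [norm_sub_le (D u) (D t), hM u (sub t ht hu), hM t (sub t ht (mem_ball_self hR0))]
    have k1 : ‖deriv D t‖ ≤ 2 * M / R := Complex.norm_deriv_le_div_of_mapsTo_ball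
      (hD.mono (sub t ht)) (fun u hu => mem_closedBall_iff_norm.2 (m u hu)) hR0
    have k2 := Complex.dist_le_mul_div_pow_of_mapsTo_ball_of_isLittleO
      (f := fun u => D u - (u - t) • deriv D t) (c := t) (z := t + 1) (R₁ := R) (R₂ := 4 * M)
      (n := 1) ((hD.mono (sub t ht)).sub (by fun_prop)) (fun u hu => by
        rw [mem_closedBall_iff_norm, sub_self, zero_smul, sub_zero, sub_right_comm]
        have a1 := norm_sub_le (D u - D t) ((u - t) • deriv D t)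
        rw [norm_smul] at a1
        have a2 : ‖u - t‖ * ‖deriv D t‖ ≤ R * (2 * M / R) :=
          mul_le_mul (mem_ball_iff_norm.1 hu).le k1 (norm_nonneg _) hR0.le
        rw [mul_div_cancel₀ _ hR0.ne'] at a2
        linarith [m u hu]) (by
        have := (hasDerivAt_iff_isLittleO.1 (dA t ht)).norm_right
        simpa only [sub_self, zero_smul, sub_zero, pow_one, sub_right_comm] using this)
      (by simpa using hR)
    rw [dist_eq_norm, dist_eq_norm, add_sub_cancel_left, one_smul, sub_self, zero_smul, sub_zero,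
      norm_one, sub_right_comm] at k2
    have k3 := norm_sub_norm_le (deriv D t) (D (t + 1) - D t)
    rw [norm_sub_rev (deriv D t)] at k3
    have k4 : 4 * M * (1 / R) ^ (1 + 1) = 4 * M / R ^ 2 := by ring
    linarith [he t ht]
  intro t ht
  exact (convex_ball t₀ R).norm_image_sub_le_of_norm_hasDerivWithin_le
    (fun x hx => (dA x hx).hasDerivWithinAt) b (mem_ball_self hR0) ht

end Vale.Agent.P097F.N
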