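import Vale.Agent.P097F.N.Inv
import Vale.Agent.P097F.N.Clock
import Vale.Agent.P097Q.SDefs

/-!
# P097F/N: the machine at one scale (definitions and statements)

Step units.  `Z (s, ζ)` is the true state at the time `s` on the leaf `ζ`; `ε = ς ^ 220`.
Gaps `[lo j, hi j]`, `j ≤ M`; the obstacle `c < M` lies between `hi c` and `lo (c + 1)`.
-/

set_option linter.all false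

noncomputable section

namespace Vale.Agent.P097F.N

open Filter Topology Set Metric Complex

/-- the step map `T` near an obstacle, in the coordinates `q = Λ p`, `p = Ξ q` -/
structure Patch (T Λ Ξ : ℂ × ℂ → ℂ × ℂ) (τ f : ℂ × ℂ → ℂ) (κ J₀ ε : ℂ) (r σ e : ℝ) : Prop where
  clk : Clk τ f κ J₀ r
  stp : Stp (fun q => Λ (T (Ξ q))) f J₀ ε r σ e
  anT : ∀ q ∈ An J₀ r σ, AnalyticAt ℂ T (Ξ q)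
  li : ∀ q ∈ An J₀ r σ, Λ (Ξ q) = q
  cj : ∀ q ∈ An J₀ r σ, Ξ (Λ (T (Ξ q))) = T (Ξ q)

/-- a ball of states inside the patch, away from the obstacle -/
structure Ck (Λ Ξ : ℂ × ℂ → ℂ × ℂ) (J₀ : ℂ) (ϱ r : ℝ) (p₀ : ℂ × ℂ) : Prop where
  an : AnalyticOnNhd ℂ Λ (ball p₀ r)
  ri : ∀ p ∈ ball p₀ r, Ξ (Λ p) = p
  mem : ∀ p ∈ ball p₀ r, ϱ / 8 < ‖(Λ p).1‖ ∧ ‖(Λ p).1‖ < ϱ ∧ ‖(Λ p).2 - J₀‖ < ϱ / 2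

/-- the data -/
structure Md where
  T : ℂ × ℂ → ℂ × ℂ
  T' : ℂ × ℂ → ℂ × ℂ
  Z : ℂ × ℂ → ℂ × ℂ
  m : ℕ
  n : ℕ
  M : ℕ
  R : ℝ
  H : ℝ
  r : ℝ
  a : ℝ
  m₀ : ℝ
  m₁ : ℝ
  ω : ℝ
  C₁ : ℝ
  C₂ : ℝ
  FL : ℝ
  FR : ℝ
  G : ℝ
  lo : ℕ → ℤ
  hi : ℕ → ℤ
  Λ : ℕ → ℂ × ℂ → ℂ × ℂ
  Ξ : ℕ → ℂ × ℂ → ℂ × ℂ
  τ : ℕ → ℂ × ℂ → ℂ
  f : ℕ → ℂ × ℂ → ℂ
  κ : ℕ → ℂ
  J : ℕ → ℂ
  ϱ : ℕ → ℝ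

namespace Md

variable (D : Md)

/-- the time of a chart at the point `p = (z, ζ)`; `im z = 0` is the reference level -/
def tz (p : ℂ × ℂ) : ℂ := p.1 + I * (D.m₀ + D.m₁ * p.2)

/-- the chart with base point at the time `i`, as a function of the time -/
def Ct (i : ℤ) (ζ t : ℂ) : ℂ × ℂ := Ch D.T D.m t (D.Z (i, ζ))

/-- the chart with base point at the time `i` -/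
def C (i : ℤ) (p : ℂ × ℂ) : ℂ × ℂ := D.Ct i p.2 (D.tz p)

/-- the true state in the coordinates of the chart `i` -/
def Zi (i : ℤ) (p : ℂ × ℂ) : ℂ × ℂ := D.Z (i + D.tz p, p.2)

/-- the number of steps of the passage `c` -/
def N (c : ℕ) : ℕ := (D.lo (c + 1) - D.hi c).toNat

/-- the clock at the base point of the chart `hi c` -/
def τ₀ (c : ℕ) (ζ : ℂ) : ℂ := D.τ c (D.Λ c (D.Z (D.hi c, ζ)))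

/-- the position of the obstacle `c` in the time of the chart `hi c` -/
def ν (ε : ℝ) (c : ℕ) (ζ : ℂ) : ℂ := -D.τ₀ c ζ / ε

/-- the slope of the obstacle `c` -/
def sl (ε : ℝ) (c : ℕ) : ℝ := (deriv (D.ν ε c) 0).re

/-- the horizontal range -/
def Hor (s : ℂ) : Prop := (D.lo 0 : ℝ) - 9 * D.n ≤ s.re ∧ s.re ≤ D.hi D.M + 9 * D.n

/-- the top of the cone -/
def top (s ζ : ℂ) : ℝ := D.m₀ + D.m₁ * ζ.re - D.ω * s.re * ζ.im - D.C₁ * |ζ.im|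

/-- `i` lies in a gap -/
def Gap (i : ℤ) : Prop := ∃ j ≤ D.M, D.lo j ≤ i ∧ i ≤ D.hi j

/-- `i` is an end of a gap -/
def End (i : ℤ) : Prop := ∃ j ≤ D.M, i = D.lo j ∨ i = D.hi j

end Md

/-- the sizes -/
structure Num (K ς ε : ℝ) (D : Md) : Prop where
  K1 : 1 ≤ K
  ς0 : 0 < ς
  eq : ε = ς ^ 220
  MK : (D.M : ℝ) ≤ K
  nm : 40 * D.n ≤ D.m
  mK : ε * D.m ≤ K
  am : 216 * D.a * D.m ≤ D.r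
  aK : D.a ≤ K * ε
  r0 : 1 ≤ K * D.r
  r1 : D.r ≤ 1
  H0 : 1 ≤ K * (ε * D.H)
  HR : 4 * D.H ≤ D.R
  Rn : D.R ≤ D.n
  m0 : 9 * (D.n : ℝ) ≤ D.m₀ ∧ D.m₀ ≤ 10 * D.n
  m1 : |D.m₁| ≤ K
  ω0 : 0 < D.ω ∧ D.ω ≤ K * ε ∧ D.ω * D.n ≤ 1
  C1 : 0 ≤ D.C₁ ∧ D.C₁ ≤ K
  lh : ∀ j ≤ D.M, D.lo j ≤ D.hi j
  hl : ∀ c < D.M, D.hi c < D.lo (c + 1)
  len : ε * |(D.lo 0 : ℝ)| ≤ K ∧ ε * |(D.hi D.M : ℝ)| ≤ K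
  FL : D.G ≤ D.FL ∧ D.FL ≤ -(D.ω * D.lo 0) - D.C₁ - D.ω * D.n
  FR : D.FR ≤ -D.G ∧ -(D.ω * D.hi D.M) + D.C₁ + D.ω * D.n ≤ D.FR
  G1 : 1 ≤ K * D.G
  κ : ∀ c < D.M, 1 ≤ K * ‖D.κ c‖ ∧ ‖D.κ c‖ ≤ K ∧ 1 ≤ K * D.ϱ c ∧ D.ϱ c ≤ 1

/-- **the machine** -/
structure Mach (K ς ε : ℝ) (D : Md) : Prop where
  num : Num K ς ε D
  cone : ∀ s ζ : ℂ, D.Hor s → ε * ‖ζ‖ ≤ 3 * ς ^ 10 → -(8 * (D.n : ℝ)) ≤ s.im →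
    s.im ≤ D.top s ζ - ς ^ 19 / ε → AnalyticAt ℂ D.Z (s, ζ) ∧ ‖D.Z (s, ζ)‖ ≤ 1 / ε ^ 3
  deep : ∀ s ζ : ℂ, D.Hor s → (‖ζ‖ < D.R ∧ |s.im| ≤ 8 * D.n ∨
    ε * ‖ζ‖ ≤ 3 * ς ^ 10 ∧ |s.im| ≤ D.m₀ - D.H / 4) → AnalyticAt ℂ D.Z (s, ζ) ∧
    ‖D.Z (s, ζ)‖ ≤ K ∧ D.T (D.Z (s, ζ)) = D.Z (s + 1, ζ) ∧ D.T' (D.Z (s + 1, ζ)) = D.Z (s, ζ)
  gap : ∀ i, D.Gap i → ∀ ζ : ℂ, ‖ζ‖ < D.R → Near D.T (D.Z (i, ζ)) D.r D.a ∧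
    Near D.T' (D.Z (i, ζ)) D.r D.a ∧
    ∀ y ∈ ball (D.Z (i, ζ)) D.r, D.T' (D.T y) = y ∧ D.T (D.T' y) = y
  inv : ∀ i, D.Gap i → ∃ G : ℂ × ℂ → ℂ × ℂ, ∀ p : ℂ × ℂ, ‖p‖ ≤ 2 * D.H →
    ∀ q ∈ ball (D.C i p) (1 / K),
      DifferentiableAt ℂ G q ∧ D.C i (G q) = q ∧ ‖G q - p‖ ≤ K / ε * ‖q - D.C i p‖
  pat : ∀ c < D.M,
    Patch D.T (D.Λ c) (D.Ξ c) (D.τ c) (D.f c) (D.κ c) (D.J c) ε (D.ϱ c) (ς ^ 10) (K * ς ^ 240) ∧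
    Patch D.T' (D.Λ c) (D.Ξ c) (D.τ c) (D.f c) (D.κ c) (D.J c) (-ε) (D.ϱ c) (ς ^ 10) (K * ς ^ 240)
  lip : ∀ c < D.M, ∀ q ∈ An (D.J c) (D.ϱ c) (D.ϱ c / 16), ∀ q' ∈ An (D.J c) (D.ϱ c) (D.ϱ c / 16),
    ‖q - q'‖ ≤ D.ϱ c / 32 → ‖D.Ξ c q - D.Ξ c q'‖ ≤ K * ‖q - q'‖
  ck : ∀ c < D.M, ∀ ζ : ℂ, ‖ζ‖ < D.R →
    Ck (D.Λ c) (D.Ξ c) (D.J c) (D.ϱ c) D.r (D.Z (D.hi c, ζ)) ∧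
    Ck (D.Λ c) (D.Ξ c) (D.J c) (D.ϱ c) D.r (D.Z (D.lo (c + 1), ζ))
  geo : ∀ c < D.M, ∀ ζ : ℂ, ‖ζ‖ < D.R → (D.τ₀ c ζ).im ≤ -(ε * D.n) ∧
    (D.τ₀ c ζ).re + ε * D.m ≤ -(1 / K) ∧ 1 / K ≤ (D.τ₀ c ζ).re + ε * D.N c - ε * D.m ∧
    ‖D.τ₀ c ζ‖ + ε * D.m ≤ ‖D.κ c‖ * D.ϱ c ^ 2 / 2 ∧
    ‖D.τ₀ c ζ + ε * D.N c‖ + ε * D.m ≤ ‖D.κ c‖ * D.ϱ c ^ 2 / 2
  sep : ∀ c < D.M, 1 ≤ K * |D.sl ε c - D.FL| ∧ 1 ≤ K * |D.sl ε c - D.FR| ∧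
    ∀ c' < D.M, c ≠ c' → 1 ≤ K * |D.sl ε c - D.sl ε c'|
  pos : ∀ c < D.M, |D.sl ε c + D.ω * D.hi c| ≤ D.C₂ ∧ |D.sl ε c + D.ω * D.lo (c + 1)| ≤ D.C₂

/-- the passage below an obstacle, both directions, with a neighbourhood -/
def PasO (ς ε : ℝ) (D : Md) : Prop := ∀ c < D.M, ∀ ζ t : ℂ, ‖ζ‖ < D.R → ‖t‖ ≤ D.m / 2 →
  t.im ≤ (D.ν ε c ζ).im - ς ^ 19 / ε →
  (∀ q ∈ ball (D.Ct (D.hi c) ζ t) (ς ^ 20), AnalyticAt ℂ (D.T^[D.N c]) q ∧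
    ‖D.T^[D.N c] q - D.Ct (D.lo (c + 1)) ζ t‖ ≤ ς) ∧
  ∀ q ∈ ball (D.Ct (D.lo (c + 1)) ζ t) (ς ^ 20), AnalyticAt ℂ (D.T'^[D.N c]) q ∧
    ‖D.T'^[D.N c] q - D.Ct (D.hi c) ζ t‖ ≤ ς

/-- the obstacles are not below the reference level -/
def LevO (ς ε : ℝ) (D : Md) : Prop := ∀ c < D.M, ∀ ξ : ℝ, ε * |ξ| ≤ 2 * ς ^ 10 →
  D.m₀ + D.m₁ * ξ - 8 * (ς ^ 19 / ε) ≤ (D.ν ε c ξ).im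

/-- transport inside a gap, both directions -/
def PasG (K' : ℝ) (D : Md) : Prop := ∀ j ≤ D.M, ∀ i i' : ℤ, D.lo j ≤ i → i ≤ i' → i' ≤ D.hi j →
  ∀ (ζ t : ℂ) (η : ℝ), ‖ζ‖ < D.R → ‖t‖ ≤ D.m / 2 → 0 ≤ η → η ≤ 1 / K' →
  (∀ q, ‖q - D.Ct i ζ t‖ ≤ η → AnalyticAt ℂ (D.T^[(i' - i).toNat]) q ∧
    ‖D.T^[(i' - i).toNat] q - D.Ct i' ζ t‖ ≤ K' * (η + Real.exp (-(D.m / 4)))) ∧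
  ∀ q, ‖q - D.Ct i' ζ t‖ ≤ η → AnalyticAt ℂ (D.T'^[(i' - i).toNat]) q ∧
    ‖D.T'^[(i' - i).toNat] q - D.Ct i ζ t‖ ≤ K' * (η + Real.exp (-(D.m / 4)))

/-- the true state follows the chart up to the level `y`: `c₀` is absolute -/
def Tub (c₀ ς ε : ℝ) (D : Md) : Prop := ∀ i, D.Gap i → ∀ (ζ t : ℂ) (y B : ℝ),
  ε * ‖ζ‖ ≤ 3 * ς ^ 10 → 1 ≤ B → 0 ≤ y → y ≤ 11 * D.n →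
  (∀ s : ℂ, |s.re| ≤ D.n → 0 ≤ s.im → s.im ≤ y →
    AnalyticAt ℂ D.Z (i + s, ζ) ∧ ‖D.Z (i + s, ζ)‖ ≤ B) →
  |t.re| ≤ D.n / 2 → 0 ≤ t.im → t.im ≤ y →
  ‖D.Z (i + t, ζ) - D.Ct i ζ t‖ ≤ 4 * B / ς * Real.exp (-(c₀ * (y - t.im)))

/-- **true = clean** in the central part of the gaps -/
def OutQ (K' ς ε : ℝ) (D : Md) : Prop := ∀ i, D.Gap i → |D.ω * i| + D.C₂ < D.G → ∀ p : ℂ × ℂ,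
  ε * |p.1.re| ≤ ς ^ 10 → 4 * (ε * |p.2.re|) ≤ ς ^ 10 → |p.2.im| ≤ 1 →
  20 * (ς ^ 19 / ε) ≤ -p.1.im → -p.1.im ≤ D.H →
  ‖D.Zi i p - D.C i p‖ ≤ Real.exp (-(ς ^ 10 / ε / K'))

/-! ## the rows -/

def S_PS : Prop := ∀ K : ℝ, ∃ ς₀ > 0, ∀ ς ε D, ς < ς₀ → Mach K ς ε D → PasO ς ε D

def S_PG : Prop := ∀ K : ℝ, ∃ K' ≥ 1, ∃ ς₀ > 0, ∀ ς ε D, ς < ς₀ → Mach K ς ε D → PasG K' D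

def S_TUB : Prop := ∃ c₀ > 0, c₀ ≤ 1 ∧ ∀ K : ℝ, ∃ ς₀ > 0, ∀ ς ε D, ς < ς₀ → Mach K ς ε D →
  Tub c₀ ς ε D

def S_LEVO : Prop := ∀ K : ℝ, ∃ ς₀ > 0, ∀ ς ε D, ς < ς₀ → Mach K ς ε D → LevO ς ε D

/-- the level of an obstacle is linear on the window -/
def S_LIN : Prop := ∀ K : ℝ, ∃ ς₀ > 0, ∀ ς ε D, ς < ς₀ → Mach K ς ε D → ∀ c < D.M,
  |D.sl ε c| ≤ 16 * K ^ 2 ∧ ∀ ζ : ℂ, ε * ‖ζ‖ ≤ 3 * ς ^ 10 →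
    |(D.ν ε c ζ).im - (D.ν ε c ζ.re).im - D.sl ε c * ζ.im| ≤ ς ^ 19 / ε

/-- **the output of the blocks N and Q** -/
def Spec_NQ : Prop := ∀ K : ℝ, ∃ K' ≥ 1, ∃ ς₀ > 0, ∀ ς ε D, ς < ς₀ → Mach K ς ε D →
  OutQ K' ς ε D

end Vale.Agent.P097F.N
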