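import Vale.Agent.P097F.N.Wc
import Vale.Agent.P097F.N.Defs

/-!
# P097F/N: from step units to the wedge
-/

set_option linter.all false

noncomputable section

namespace Vale.Agent.P097F.N

open Filter Topology Set Metric Complex Vale.Agent.P097D Vale.Agent.P097Mo
open Vale.Agent.P097N (EE)

/-- the point `(W, x)` with the labels `p = (s, ζ)` -/
def pt (e c v : ℝ) (x₀ : ℂ) (p : ℂ × ℂ) : ℂ × ℂ :=
  (v + e * c * p.2, x₀ + e * (v + e * c * p.2) * p.1)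

theorem pt_an (e c v : ℝ) (x₀ : ℂ) (p : ℂ × ℂ) : AnalyticAt ℂ (pt e c v x₀) p :=
  have a : AnalyticAt ℂ (fun p : ℂ × ℂ => (v : ℂ) + e * c * p.2) p :=
    analyticAt_const.add (analyticAt_const.mul analyticAt_snd)
  a.prod (analyticAt_const.add ((analyticAt_const.mul a).mul analyticAt_fst))

theorem pt_add (e c v : ℝ) (x₀ s ζ : ℂ) : pt e c v x₀ (s + 1, ζ) =
    ((pt e c v x₀ (s, ζ)).1, (pt e c v x₀ (s, ζ)).2 + e * (pt e c v x₀ (s, ζ)).1) := by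
  simp only [pt]; congr 1; ring

theorem pt_sub (e c v : ℝ) (x₀ s ζ : ℂ) : pt e c v x₀ (s, ζ) =
    ((pt e c v x₀ (s + 1, ζ)).1, (pt e c v x₀ (s + 1, ζ)).2 - e * (pt e c v x₀ (s + 1, ζ)).1) := by
  simp only [pt]; congr 1; ring

/-- the geometry of a machine -/
structure Gm (e c v H b C a L Λ : ℝ) (x₀ : ℂ) (F : ℂ × ℂ → ℂ) (D : Md) : Prop where
  e0 : 0 < e
  c0 : 0 ≤ c
  v0 : 1 / 2 ≤ v
  Z : ∀ p, D.Z p = Zt e F (pt e c v x₀ p)
  ω : D.ω = e * c / v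
  C1 : D.C₁ = C * c / v
  m1 : D.m₁ = -(b * c / v) - c * e * D.m₀ / v
  im : x₀.im = H - e * v * D.m₀
  m0 : 9 * (D.n : ℝ) ≤ D.m₀ ∧ D.m₀ ≤ 10 * D.n
  n1 : 40 * (e * D.n) * v ≤ 1
  hor : ∀ s, D.Hor s → |x₀.re + e * v * s.re - a| ≤ L - 1 / 2 ∧ |e * s.re| ≤ Λ

namespace Gm

variable {e c v H b C a L Λ Λ' : ℝ} {x₀ : ℂ} {F : ℂ × ℂ → ℂ} {D : Md}
  (G : Gm e c v H b C a L Λ x₀ F D)
include G

theorem top_eq (s ζ : ℂ) : e * D.top s ζ = e * v * D.m₀ / v -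
    (b / v + e * v * D.m₀ / v ^ 2) * ((e * c : ℝ) * ζ).re - ((e : ℝ) * s).re / v * ((e * c : ℝ) * ζ).im -
      C / v * |((e * c : ℝ) * ζ).im| := by
  have v0 : v ≠ 0 := by linarith [G.v0] |> fun (h : 0 < v) => h.ne'
  rw [Md.top, G.ω, G.C1, G.m1, re_ofReal_mul, im_ofReal_mul, re_ofReal_mul, abs_mul,
    abs_of_nonneg (mul_nonneg G.e0.le G.c0)]
  field_simp
  ring

theorem m0_le : 0 ≤ e * D.m₀ ∧ e * D.m₀ ≤ 1 / 2 ∧ 20 * (e * D.n) ≤ 1 := by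
  have e0 := G.e0
  have n0 : 0 ≤ e * D.n := by positivity
  have := G.n1
  have := G.v0
  have a1 := mul_le_mul_of_nonneg_left G.m0.1 e0.le
  have a2 := mul_le_mul_of_nonneg_left G.m0.2 e0.le
  refine ⟨by nlinarith, by nlinarith, by nlinarith⟩

theorem top_bd (bC : |b| ≤ C) {s ζ : ℂ} {δ : ℝ} (hΛ : |e * s.re| ≤ Λ') (hδ : e * c * ‖ζ‖ ≤ δ) :
    |e * D.top s ζ - e * D.m₀| ≤ 2 * (2 * C + 1 + Λ') * δ := by
  have v0 : 0 < v := by linarith [G.v0]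
  have C0 := (abs_nonneg b).trans bC
  have Λ0 := (abs_nonneg _).trans hΛ
  obtain ⟨a1, a2, -⟩ := G.m0_le
  set w : ℂ := (e * c : ℝ) * ζ with hw
  have nw : ‖w‖ ≤ δ := by
    rwa [hw, norm_mul, Complex.norm_real, Real.norm_of_nonneg (mul_nonneg G.e0.le G.c0)]
  have δ0 := (norm_nonneg _).trans nw
  have e1 : e * D.top s ζ - e * D.m₀ =
      -(((b + e * D.m₀) * w.re + e * s.re * w.im + C * |w.im|) / v) := by
    rw [G.top_eq, re_ofReal_mul e s]; field_simp; ring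
  rw [e1, abs_neg, abs_div, abs_of_pos v0, div_le_iff₀ v0]
  have b1 : |b + e * D.m₀| ≤ C + 1 := (abs_add_le _ _).trans (by rw [abs_of_nonneg a1]; linarith)
  have p1 := (abs_re_le_norm w).trans nw
  have q1 := (abs_im_le_norm w).trans nw
  refine (abs_add_three _ _ _).trans ?_
  rw [abs_mul, abs_mul (e * s.re), abs_mul C, abs_abs, abs_of_nonneg C0]
  calc _ ≤ (C + 1) * δ + Λ' * δ + C * δ := by gcongr
    _ = 2 * (2 * C + 1 + Λ') * δ * (1 / 2) := by ring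
    _ ≤ _ := by gcongr; exact G.v0

/-- the point of the labels under the cone is in the wedge -/
theorem mem {K T ρ l δ : ℝ} (K0 : 0 ≤ K) (bC : |b| ≤ C) (hT : -T + 1 ≤ H) {s ζ : ℂ}
    (h1 : |x₀.re + e * v * s.re - a| ≤ L - 3 / 8) (hΛ : |e * s.re| ≤ Λ') (l0 : 0 ≤ l)
    (lo : -(10 * (D.n : ℝ)) ≤ s.im) (hi : e * s.im ≤ e * D.top s ζ - l) (hδ : e * c * ‖ζ‖ ≤ δ)
    (δρ : δ ≤ ρ) (δ1 : (2 * C + 1 + Λ') * δ ≤ 1 / 8) :
    pt e c v x₀ (s, ζ) ∈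
      Wk a (L - 1 / 4) (T - 1 / 4) ρ K C v H b (l / 4 - (K + 2 * (2 * C + 1 + Λ')) * δ ^ 2) := by
  have v1 := G.v0
  have v0 : 0 < v := by linarith
  have e0 := G.e0
  have C0 := (abs_nonneg b).trans bC
  have Λ0 := (abs_nonneg _).trans hΛ
  obtain ⟨a1, a2, a3⟩ := G.m0_le
  have tb := abs_le.1 (G.top_bd bC hΛ hδ)
  set w : ℂ := (e * c : ℝ) * ζ with hw
  set t : ℂ := (e : ℝ) * s with ht
  have nw : ‖w‖ ≤ δ := by
    rwa [hw, norm_mul, Complex.norm_real, Real.norm_of_nonneg (mul_nonneg G.e0.le G.c0)]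
  have δ0 := (norm_nonneg _).trans nw
  have e1 : pt e c v x₀ (s, ζ) = (v + w, x₀ + t * (v + w)) := by
    simp only [pt, hw, ht]; push_cast; congr 1; ring
  have tr : t.re = e * s.re := re_ofReal_mul e s
  have ti : t.im = e * s.im := im_ofReal_mul e s
  have lo' := mul_le_mul_of_nonneg_left lo e0.le
  have ti1 : |t.im| ≤ 1 := abs_le.2 ⟨by rw [ti]; nlinarith, by rw [ti]; nlinarith⟩
  have p1 := (abs_re_le_norm w).trans nw
  have q1 := (abs_im_le_norm w).trans nw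
  have u1 : |t.re * w.re| ≤ Λ' * δ := by rw [abs_mul, tr]; gcongr
  have u2 : |t.re * w.im| ≤ Λ' * δ := by rw [abs_mul, tr]; gcongr
  have u3 : |t.im * w.re| ≤ 1 * δ := by rw [abs_mul]; gcongr
  have u4 : |t.im * w.im| ≤ 1 * δ := by rw [abs_mul]; gcongr
  have Cδ := mul_nonneg C0 δ0
  have Λδ := mul_nonneg Λ0 δ0
  have k := topalg (K := K) (C := C) (H := H) (b := b) (h₀ := e * v * D.m₀) (l := l) (Λ := Λ')
    (w := w) (t := t) (x₀ := x₀) v0 K0 C0 (by nlinarith) l0 G.im (by linarith) (tr ▸ hΛ)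
    (by rw [ti]; exact hi.trans (by rw [G.top_eq]))
  rw [abs_le] at h1 u1 u2 u3 u4
  rw [e1]
  refine ⟨by simpa using nw.trans δρ, abs_le.2 ⟨?_, ?_⟩, ?_, k.trans ?_⟩
  · simp only [add_re, mul_re, add_im, ofReal_re, ofReal_im, zero_add]
    rw [mul_add, tr] at *
    linarith
  · simp only [add_re, mul_re, add_im, ofReal_re, ofReal_im, zero_add]
    rw [mul_add, tr] at *
    linarith
  · simp only [add_re, mul_im, add_im, ofReal_re, ofReal_im, zero_add, G.im]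
    have b1 := mul_le_mul_of_nonneg_right lo' v0.le
    have b2 := mul_le_mul_of_nonneg_left G.m0.2 (mul_nonneg e0.le v0.le)
    have b3 := G.n1
    rw [mul_add, ti] at *
    linarith
  · have b1 : (|b| + e * v * D.m₀ / v + Λ' + C) / v ≤ 2 * (2 * C + 1 + Λ') := by
      rw [div_le_iff₀ v0, show e * v * D.m₀ / v = e * D.m₀ by field_simp]
      linarith [mul_le_mul_of_nonneg_left v1 (show 0 ≤ 2 * (2 * C + 1 + Λ') by linarith)]
    have b2 : (K + (|b| + e * v * D.m₀ / v + Λ' + C) / v) * ‖w‖ ^ 2 ≤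
        (K + 2 * (2 * C + 1 + Λ')) * δ ^ 2 := by gcongr
    linarith [mul_le_mul_of_nonneg_left v1 l0]

theorem an {s ζ : ℂ} (h : AnalyticAt ℂ (Zt e F) (pt e c v x₀ (s, ζ))) :
    AnalyticAt ℂ D.Z (s, ζ) := by
  rw [show D.Z = fun p => Zt e F (pt e c v x₀ p) from funext G.Z]
  exact AnalyticAt.comp (g := Zt e F) h (pt_an ..)

theorem imW {s ζ : ℂ} {δ : ℝ} (hδ : e * c * ‖ζ‖ ≤ δ) : |(pt e c v x₀ (s, ζ)).1.im| ≤ δ := by
  have : (pt e c v x₀ (s, ζ)).1.im = e * c * ζ.im := by simp [pt]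
  rw [this, abs_mul, abs_of_nonneg (mul_nonneg G.e0.le G.c0)]
  exact (mul_le_mul_of_nonneg_left (abs_im_le_norm _) (mul_nonneg G.e0.le G.c0)).trans hδ

end Gm

end Vale.Agent.P097F.N
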