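import Vale.Agent.P097F.N.Slp
import Vale.Agent.P097F.N.Defs

/-!
# P097F.N: position and slope of an obstacle in the limit
-/

set_option linter.all false

noncomputable section

namespace Vale.Agent.P097F.N

open Filter Topology Set Metric Complex Vale.Agent.P097Mo

/-- the clocks `φ n` converge to the time after the obstacle `X` near the point `q₀` -/
structure Ph (𝒰 : Ultrafilter ℕ) (φ : ℕ → ℂ × ℂ → ℂ) (X : ℂ → ℂ) (q₀ : ℂ × ℂ) (δ : ℝ) :
    Prop where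
  δ0 : 0 < δ
  an : ∀ᶠ n in (𝒰 : Filter ℕ), ∀ q ∈ ball q₀ δ, DifferentiableAt ℂ (φ n) q
  cc : CC2 𝒰 φ (fun q => (q.2 - X q.1) / q.1) (ball q₀ δ)
  aX : AnalyticOnNhd ℂ X (ball q₀.1 δ)
  W0 : ∀ w ∈ ball q₀.1 δ, w ≠ 0

variable {𝒰 : Ultrafilter ℕ} {φ : ℕ → ℂ × ℂ → ℂ} {X : ℂ → ℂ} {W ξ μ₀ c₀ : ℂ} {δ : ℝ}
  {ε v cc x₀ μ : ℕ → ℂ}

theorem Ph.nb (P : Ph 𝒰 φ X (W, ξ + W * μ₀) δ) (hx : Tendsto x₀ 𝒰 (𝓝 ξ))
    (hμ : Tendsto μ 𝒰 (𝓝 μ₀)) : ∃ s > 0, s ≤ δ ∧
      (∀ w ∈ ball W s, (w, ξ + w * μ₀) ∈ ball (W, ξ + W * μ₀) δ) ∧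
      ∀ᶠ n in (𝒰 : Filter ℕ), ∀ w ∈ ball W s, (w, x₀ n + w * μ n) ∈ ball (W, ξ + W * μ₀) δ := by
  have c : Continuous fun z : ℂ × ℂ × ℂ => (z.1, z.2.1 + z.1 * z.2.2) := by fun_prop
  obtain ⟨A, hA, B, hB, sub⟩ := mem_nhds_prod_iff.1
    ((c.continuousAt (x := (W, ξ, μ₀))).preimage_mem_nhds (ball_mem_nhds _ P.δ0))
  obtain ⟨s, s0, hs⟩ := Metric.mem_nhds_iff.1 hA
  have sb := (ball_subset_ball (x := W) (min_le_left s δ)).trans hs
  refine ⟨min s δ, lt_min s0 P.δ0, min_le_right _ _,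
    fun w hw => sub (mk_mem_prod (sb hw) (mem_of_mem_nhds hB)), ?_⟩
  filter_upwards [(hx.prodMk_nhds hμ).eventually hB] with n k w hw using sub (mk_mem_prod (sb hw) k)

/-- **the slope converges** -/
theorem Ph.der (P : Ph 𝒰 φ X (W, ξ + W * μ₀) δ) (e0 : ∀ n, ε n ≠ 0) (hv : Tendsto v 𝒰 (𝓝 W))
    (hc : Tendsto cc 𝒰 (𝓝 c₀)) (hx : Tendsto x₀ 𝒰 (𝓝 ξ)) (hμ : Tendsto μ 𝒰 (𝓝 μ₀)) :
    Tendsto (fun n => deriv (fun ζ => -φ n (v n + ε n * cc n * ζ,
      x₀ n + (v n + ε n * cc n * ζ) * μ n) / ε n) 0) 𝒰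
      (𝓝 (c₀ * deriv (fun w => (X w - ξ) / w) W)) := by
  obtain ⟨s, s0, sδ, h1, h2⟩ := P.nb hx hμ
  have sb : ball W s ⊆ ball W δ := ball_subset_ball sδ
  have an : ∀ᶠ n in (𝒰 : Filter ℕ), ∀ w ∈ ball W s,
      DifferentiableAt ℂ (fun w => φ n (w, x₀ n + w * μ n)) w := by
    filter_upwards [h2, P.an] with n a b w hw
    exact DifferentiableAt.comp (g := φ n) w (b _ (a w hw)) (by fun_prop)
  have dX : ∀ w ∈ ball W s, DifferentiableAt ℂ (fun w => (X w - ξ) / w) w := fun w hw =>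
    ((P.aX w (sb hw)).differentiableAt.sub_const ξ).div differentiableAt_id (P.W0 w (sb hw))
  have k := cc_deriv 𝒰 (F := fun n w => φ n (w, x₀ n + w * μ n))
    (f := fun w => μ₀ - (X w - ξ) / w) isOpen_ball
    (fun w hw => by
      obtain ⟨ρ, ρ0, k⟩ := Metric.isOpen_iff.1 isOpen_ball w hw
      exact ⟨ρ, ρ0, an.mono fun n a z hz => (a z (k hz)).differentiableWithinAt⟩)
    (fun w hw => ((dX w hw).const_sub μ₀).differentiableWithinAt)
    (fun w hw u hu => by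
      have := P.cc _ (h1 w hw) (fun n => (u n, x₀ n + u n * μ n))
        (hu.prodMk_nhds (hx.add (hu.mul hμ)))
      have e : (ξ + w * μ₀ - X w) / w = μ₀ - (X w - ξ) / w := by
        have := P.W0 w (sb hw)
        field_simp
        ring
      simpa only [e] using this) W (mem_ball_self s0) v hv
  have k2 := (hc.mul k).neg
  rw [deriv_const_sub, mul_neg, neg_neg] at k2
  refine k2.congr' ?_
  filter_upwards [an, hv.eventually (ball_mem_nhds W s0)] with n a b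
  have l : HasDerivAt (fun ζ : ℂ => v n + ε n * cc n * ζ) (ε n * cc n) 0 := by
    simpa using ((hasDerivAt_id (0 : ℂ)).const_mul (ε n * cc n)).const_add (v n)
  have d := ((HasDerivAt.comp_of_eq (hh₂ := (a _ b).hasDerivAt) (hh := l)
    (hy := by simp)).neg.div_const (ε n)).deriv
  refine Eq.trans ?_ d.symm
  rw [eq_div_iff (e0 n)]
  ring

/-- **the clock at the base points** -/
theorem Ph.val (P : Ph 𝒰 φ X (W, ξ + W * μ₀) δ) (hv : Tendsto v 𝒰 (𝓝 W))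
    (hx : Tendsto x₀ 𝒰 (𝓝 ξ)) (hμ : Tendsto μ 𝒰 (𝓝 μ₀)) {η : ℝ} (η0 : 0 < η) :
    ∃ ϑ > 0, ∀ᶠ n in (𝒰 : Filter ℕ), ∀ u : ℂ, ‖u‖ ≤ ϑ →
      ‖φ n (v n + u, x₀ n + (v n + u) * μ n) - (ξ + W * μ₀ - X W) / W‖ ≤ η := by
  obtain ⟨s, s0, sδ, h1, -⟩ := P.nb hx hμ
  have m := mem_ball_self (x := W) P.δ0
  have c : ContinuousAt (fun w => (ξ + w * μ₀ - X w) / w) W :=
    ((by fun_prop : ContinuousAt (fun w => ξ + w * μ₀) W).sub (P.aX W m).continuousAt).div
      continuousAt_id (P.W0 W m)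
  obtain ⟨t, t0, ht⟩ := Metric.continuousAt_iff.1 c η η0
  refine ⟨min s t / 2, by positivity, ?_⟩
  have k := ev_cpt 𝒰 (isCompact_closedBall (0 : ℂ) (min s t / 2)) (P := fun n u =>
    ‖φ n (v n + u, x₀ n + (v n + u) * μ n) - (ξ + W * μ₀ - X W) / W‖ ≤ η) fun u hu y _ hy => by
      have n1 : dist (W + u) W < min s t := by
        rw [dist_eq_norm, add_sub_cancel_left]
        linarith [mem_closedBall_zero_iff.1 hu, lt_min s0 t0]
      have a := hv.add hy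
      have b := ((P.cc _ (h1 _ (n1.trans_le (min_le_left _ _)))
        (fun n => (v n + y n, x₀ n + (v n + y n) * μ n))
        (a.prodMk_nhds (hx.add (a.mul hμ)))).sub_const ((ξ + W * μ₀ - X W) / W)).norm
      have c := ht (n1.trans_le (min_le_right _ _))
      rw [dist_eq_norm] at c
      exact (b.eventually (gt_mem_nhds c)).mono fun n k => k.le
  exact k.mono fun n a u hu => a u (mem_closedBall_zero_iff.2 hu)

/-- the limit slope -/
theorem sl_eq {W c : ℝ} (hX : AnalyticAt ℂ X W) (W0 : W ≠ 0) (ξ : ℂ) :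
    (c * deriv (fun w => (X w - ξ) / w) W).re =
      c * ((deriv X W).re / W - ((X W).re - ξ.re) / W ^ 2) := by
  have w0 : (W : ℂ) ≠ 0 := ofReal_ne_zero.2 W0
  have d := ((hX.differentiableAt.hasDerivAt.sub_const ξ).div (hasDerivAt_id (W : ℂ)) w0).deriv
  have e : deriv (fun w => (X w - ξ) / w) W =
      deriv X W * (W⁻¹ : ℝ) - (X W - ξ) * ((W ^ 2)⁻¹ : ℝ) := by
    refine d.trans ?_
    push_cast
    simp only [id]
    field_simp
  rw [e, re_ofReal_mul, sub_re, re_mul_ofReal, re_mul_ofReal, sub_re, div_eq_mul_inv,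
    div_eq_mul_inv]

/-- level obstacles which are not linked have different slopes -/
theorem sl_ne {X' : ℂ → ℂ} {W σ : ℝ} (hX : AnalyticAt ℂ X W) (hX' : AnalyticAt ℂ X' W)
    (W0 : W ≠ 0) (σ0 : 0 < σ) (lev : ∀ u : ℝ, (u : ℂ) ∈ ball (W : ℂ) σ → (X u).im = (X' u).im)
    (h : deriv (fun w => (X' w - X w) / w) W ≠ 0) :
    (deriv X W).re / W - (X W).re / W ^ 2 ≠ (deriv X' W).re / W - (X' W).re / W ^ 2 := by
  intro e
  have w0 : (W : ℂ) ≠ 0 := ofReal_ne_zero.2 W0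
  have a := hX'.sub hX
  have d1 : (deriv (X' - X) W).im = 0 := by
    have d := imCLM.hasFDerivAt.comp_hasDerivAt W a.differentiableAt.hasDerivAt.comp_ofReal
    have z : (imCLM ∘ fun u : ℝ => (X' - X) u) =ᶠ[𝓝 W] fun _ => 0 := by
      filter_upwards [continuous_ofReal.continuousAt.eventually (ball_mem_nhds (W : ℂ) σ0)]
        with u hu
      simp [lev u hu]
    simpa using d.unique ((hasDerivAt_const W (0 : ℝ)).congr_of_eventuallyEq z)
  have d2 : ((X' - X) W).im = 0 := by simp [lev W (mem_ball_self σ0)]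
  have d := (a.differentiableAt.hasDerivAt.div (hasDerivAt_id (W : ℂ)) w0).deriv
  have e2 : deriv (fun w => (X' w - X w) / w) W =
      deriv (X' - X) W * (W⁻¹ : ℝ) - (X' - X) W * ((W ^ 2)⁻¹ : ℝ) := by
    refine d.trans ?_
    push_cast
    simp only [id]
    field_simp
  refine h (e2.trans (Complex.ext ?_ ?_))
  · rw [sub_re, re_mul_ofReal, re_mul_ofReal, deriv_sub hX'.differentiableAt hX.differentiableAt]
    simp only [div_eq_mul_inv] at e
    simp only [Pi.sub_apply, sub_re, zero_re]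
    linarith
  · rw [sub_im, im_mul_ofReal, im_mul_ofReal, d1, d2]
    simp

/-- a point of an interval which avoids finitely many values -/
theorem avoid {ι : Type} [Finite ι] (s : ι → ℝ) (a : ℝ) :
    ∃ x, a < x ∧ x < a + 1 ∧ ∀ i, s i ≠ x := by
  obtain ⟨x, hx, k⟩ := (Ioo_infinite (show a < a + 1 by linarith)).exists_notMem_finite
    (finite_range s)
  exact ⟨x, hx.1, hx.2, fun i e => k ⟨i, e⟩⟩

/-- a sequence with a nonzero limit is bounded below -/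
theorem ev_sep {l : Filter ℕ} {s : ℕ → ℝ} {s₀ : ℝ} (h : Tendsto s l (𝓝 s₀)) (h0 : s₀ ≠ 0) :
    ∃ K₀ : ℝ, ∀ K ≥ K₀, ∀ᶠ n in l, 1 ≤ K * |s n| := by
  have p := abs_pos.2 h0
  refine ⟨2 / |s₀|, fun K hK => ?_⟩
  filter_upwards [h.abs.eventually (lt_mem_nhds (half_lt_self p))] with n k
  calc (1 : ℝ) = 2 / |s₀| * (|s₀| / 2) := by field_simp
    _ ≤ _ := mul_le_mul hK k.le (by positivity) (le_trans (by positivity) hK)

end Vale.Agent.P097F.N
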