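import Vale.Agent.P097F.N.Obg

/-!
# P097F.N: the fields `geo`, `pos`, `sep` of the machine from the convergence of the clocks
-/

set_option linter.all false

noncomputable section

namespace Vale.Agent.P097F.N

open Filter Topology Set Metric Complex Vale.Agent.P097Mo

/-- the obstacle `c` of the machines `D n` lies at the distance `d` after the station `hi c`, and at
the distance `d'` before the station `lo (c + 1)` -/
structure Og (𝒰 : Ultrafilter ℕ) (D : ℕ → Md) (c : ℕ) (ε v cc : ℕ → ℝ) (x₀ : ℕ → ℂ)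
    (φ : ℕ → ℂ × ℂ → ℂ) (X : ℂ → ℂ) (W c₀ a h₀ d d' δ : ℝ) : Prop where
  e0 : ∀ n, 0 < ε n
  W0 : 0 < W
  lv : Tendsto v 𝒰 (𝓝 W)
  lc : Tendsto cc 𝒰 (𝓝 c₀)
  lx : Tendsto x₀ 𝒰 (𝓝 (a + ((X W).im - h₀ : ℝ) * I))
  hi : Tendsto (fun n => ε n * (D n).hi c) 𝒰 (𝓝 (((X W).re - d - a) / W))
  lo : Tendsto (fun n => ε n * (D n).lo (c + 1)) 𝒰 (𝓝 (((X W).re + d' - a) / W))
  ph : Ph 𝒰 φ X (W, X W - d - h₀ * I) δ
  eq : ∀ᶠ n in (𝒰 : Filter ℕ), (D n).ω = ε n * cc n / v n ∧ ∀ ζ : ℂ, (D n).τ₀ c ζ =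
    φ n (v n + ε n * cc n * ζ, x₀ n + (v n + ε n * cc n * ζ) * (ε n * (D n).hi c))

namespace Og

variable {𝒰 : Ultrafilter ℕ} {D : ℕ → Md} {c : ℕ} {ε v cc : ℕ → ℝ} {x₀ : ℕ → ℂ}
  {φ : ℕ → ℂ × ℂ → ℂ} {X : ℂ → ℂ} {W c₀ a h₀ d d' δ : ℝ}
  (O : Og 𝒰 D c ε v cc x₀ φ X W c₀ a h₀ d d' δ)
include O

theorem pt : (a + ((X W).im - h₀ : ℝ) * I : ℂ) + W * ((((X W).re - d - a) / W : ℝ) : ℂ) =
    X W - d - h₀ * I := by
  have := O.W0.ne'
  rw [← ofReal_mul, mul_div_cancel₀ _ this]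
  apply Complex.ext <;> simp

theorem mu : Tendsto (fun n => (ε n : ℂ) * (D n).hi c) 𝒰
    (𝓝 ((((X W).re - d - a) / W : ℝ) : ℂ)) := by
  simpa only [Function.comp_def, ofReal_mul, ofReal_intCast] using
    (continuous_ofReal.tendsto _).comp O.hi

/-- the limit of the slopes -/
theorem sl : Tendsto (fun n => (D n).sl (ε n) c) 𝒰
    (𝓝 (c₀ * ((deriv X W).re / W - ((X W).re - a) / W ^ 2))) := by
  have P := O.ph
  rw [← O.pt] at P
  have k := (continuous_re.tendsto _).comp (P.der (ε := fun n => (ε n : ℂ))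
    (fun n => ofReal_ne_zero.2 (O.e0 n).ne') ((continuous_ofReal.tendsto _).comp O.lv)
    ((continuous_ofReal.tendsto _).comp O.lc) O.lx O.mu)
  rw [sl_eq (O.ph.aX _ (mem_ball_self O.ph.δ0)) O.W0.ne'] at k
  simp only [add_re, ofReal_re, mul_re, I_re, mul_zero, ofReal_im, I_im, mul_one, sub_self,
    add_zero] at k
  refine k.congr' (O.eq.mono fun n e => ?_)
  have : (D n).ν (ε n) c = fun ζ => -φ n (v n + ε n * cc n * ζ,
      x₀ n + (v n + ε n * cc n * ζ) * (ε n * (D n).hi c)) / ε n := by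
    funext ζ
    rw [Md.ν, e.2]
  show _ = (deriv ((D n).ν (ε n) c) 0).re
  rw [this]
  rfl

theorem om {i : ℕ → ℤ} {μ : ℝ} (h : Tendsto (fun n => ε n * i n) 𝒰 (𝓝 μ)) :
    Tendsto (fun n => (D n).ω * i n) 𝒰 (𝓝 (c₀ / W * μ)) := by
  refine ((O.lc.div O.lv O.W0.ne').mul h).congr' (O.eq.mono fun n e => ?_)
  simp only [Pi.div_apply, e.1]
  ring

/-- `Mach.pos` -/
theorem pos {C C₂ : ℝ} (c0 : 0 < c₀) (hX : |(deriv X W).re| ≤ C) (d0 : 0 ≤ d) (d1 : 0 ≤ d')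
    (h1 : c₀ / W * (C + d / W) < C₂) (h2 : c₀ / W * (C + d' / W) < C₂) :
    ∀ᶠ n in (𝒰 : Filter ℕ), |(D n).sl (ε n) c + (D n).ω * (D n).hi c| ≤ C₂ ∧
      |(D n).sl (ε n) c + (D n).ω * (D n).lo (c + 1)| ≤ C₂ := by
  have W0 := O.W0
  have key : ∀ t : ℝ, c₀ / W * (C + |t| / W) < C₂ → |c₀ * ((deriv X W).re / W -
      ((X W).re - a) / W ^ 2) + c₀ / W * (((X W).re + t - a) / W)| < C₂ := fun t ht => by
    have e : c₀ * ((deriv X W).re / W - ((X W).re - a) / W ^ 2) +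
        c₀ / W * (((X W).re + t - a) / W) = c₀ / W * ((deriv X W).re + t / W) := by
      field_simp
      ring
    rw [e, abs_mul, abs_of_pos (by positivity : 0 < c₀ / W)]
    refine lt_of_le_of_lt (mul_le_mul_of_nonneg_left ((abs_add_le _ _).trans ?_) (by positivity)) ht
    rw [abs_div, abs_of_pos W0]
    linarith
  filter_upwards [(O.sl.add (O.om O.hi)).abs.eventually (gt_mem_nhds (key (-d)
      (by rwa [abs_neg, abs_of_nonneg d0]))),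
    (O.sl.add (O.om O.lo)).abs.eventually (gt_mem_nhds (key d' (by rwa [abs_of_nonneg d1])))]
    with n a b using ⟨a.le, b.le⟩

/-- `Mach.geo` -/
theorem geo {n₀ m₀ Λ : ℝ} (hn : Tendsto (fun n => ε n * (D n).n) 𝒰 (𝓝 n₀))
    (hm : Tendsto (fun n => ε n * (D n).m) 𝒰 (𝓝 m₀)) (h0 : 0 ≤ h₀) (h1 : n₀ < h₀ / W)
    (m0 : 0 ≤ m₀) (h2 : m₀ < d / W) (h3 : m₀ < d' / W) (h4 : (d + h₀) / W + m₀ < Λ)
    (h5 : (d' + h₀) / W + m₀ < Λ) :
    ∃ ϑ > 0, ∃ K₀ : ℝ, ∀ K ≥ K₀, ∀ᶠ n in (𝒰 : Filter ℕ), ∀ ζ : ℂ, ε n * ‖ζ‖ ≤ ϑ →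
      ((D n).τ₀ c ζ).im ≤ -(ε n * (D n).n) ∧
      ((D n).τ₀ c ζ).re + ε n * (D n).m ≤ -(1 / K) ∧
      1 / K ≤ ((D n).τ₀ c ζ).re + ε n * (D n).N c - ε n * (D n).m ∧
      ‖(D n).τ₀ c ζ‖ + ε n * (D n).m ≤ Λ ∧
      ‖(D n).τ₀ c ζ + ε n * (D n).N c‖ + ε n * (D n).m ≤ Λ := by
  have W0 := O.W0
  obtain ⟨η, η0, a1, a2, a3, a4, a5⟩ : ∃ η > 0, n₀ + 4 * η ≤ h₀ / W ∧ m₀ + 4 * η ≤ d / W ∧
      m₀ + 4 * η ≤ d' / W ∧ (d + h₀) / W + m₀ + 4 * η ≤ Λ ∧ (d' + h₀) / W + m₀ + 4 * η ≤ Λ := by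
    have t : ∀ {x y : ℝ}, x < y → ∀ᶠ η in 𝓝[>] (0 : ℝ), x + 4 * η ≤ y := fun {x y} h =>
      (((by fun_prop : Continuous fun η : ℝ => x + 4 * η).tendsto 0).mono_left
        nhdsWithin_le_nhds).eventually_le_const (by simpa using h)
    exact (eventually_mem_nhdsWithin.and ((t h1).and ((t h2).and ((t h3).and
      ((t h4).and (t h5)))))).exists
  have P := O.ph
  rw [← O.pt] at P
  obtain ⟨ϑ, ϑ0, k⟩ := P.val ((continuous_ofReal.tendsto _).comp O.lv) O.lx O.mu η0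
  rw [O.pt] at k
  have d0 : 0 < d := by
    have : 0 < d / W := by linarith
    exact (div_pos_iff_of_pos_right W0).1 this
  have d1 : 0 < d' := by
    have : 0 < d' / W := by linarith
    exact (div_pos_iff_of_pos_right W0).1 this
  have lN : Tendsto (fun n => ε n * (D n).lo (c + 1) - ε n * (D n).hi c) 𝒰
      (𝓝 (d / W + d' / W)) := by
    have := O.lo.sub O.hi
    rwa [show ((X W).re + d' - a) / W - ((X W).re - d - a) / W = d / W + d' / W by ring] at this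
  refine ⟨ϑ / (|c₀| + 1), by positivity, 1 / η, fun K hK => ?_⟩
  have hK' : 1 / K ≤ η := by
    rw [one_div_le (lt_of_lt_of_le (by positivity) hK) η0]
    exact hK
  filter_upwards [k, O.eq, Metric.tendsto_nhds.1 hn η η0, Metric.tendsto_nhds.1 hm η η0,
    Metric.tendsto_nhds.1 lN η η0, O.lc.abs.eventually (gt_mem_nhds (lt_add_one _))]
    with n k1 k2 k3 k4 k5 k6 ζ hζ
  have e0 := O.e0 n
  have u : ‖(ε n : ℂ) * cc n * ζ‖ ≤ ϑ := by
    rw [le_div_iff₀ (by positivity)] at hζ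
    rw [norm_mul, norm_mul, Complex.norm_real, Complex.norm_real, Real.norm_of_nonneg e0.le,
      Real.norm_eq_abs]
    nlinarith [mul_nonneg e0.le (norm_nonneg ζ)]
  have b := k1 _ u
  simp only [Function.comp] at b
  rw [← k2.2] at b
  rw [Real.dist_eq, abs_lt] at k3 k4 k5
  have eN : ε n * (D n).N c = ε n * (D n).lo (c + 1) - ε n * (D n).hi c := by
    have p : (0 : ℝ) < ε n * ((D n).lo (c + 1) - (D n).hi c) := by linarith
    have p' : (0 : ℝ) ≤ ((D n).lo (c + 1) - (D n).hi c : ℤ) := by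
      push_cast
      exact ((mul_pos_iff_of_pos_left e0).1 p).le
    have : (((D n).N c : ℤ) : ℝ) = ((D n).lo (c + 1) - (D n).hi c : ℤ) := by
      rw [Md.N, Int.toNat_of_nonneg (by exact_mod_cast p')]
    push_cast at this
    rw [this]
    ring
  have e : (X W - d - h₀ * I - X W) / W = (-(d / W) : ℝ) + (-(h₀ / W) : ℝ) * I := by
    push_cast
    ring
  rw [e] at b
  have b1 := abs_le.1 ((abs_re_le_norm _).trans b)
  have b2 := abs_le.1 ((abs_im_le_norm _).trans b)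
  simp only [sub_re, sub_im, add_re, add_im, ofReal_re, ofReal_im, mul_re, mul_im, I_re, I_im,
    mul_zero, mul_one, sub_self, add_zero, zero_add] at b1 b2
  have nr : ∀ x : ℝ, ‖(x : ℂ) + (-(h₀ / W) : ℝ) * I‖ ≤ |x| + h₀ / W := fun x => by
    refine (norm_add_le _ _).trans ?_
    rw [norm_mul, norm_I, mul_one, Complex.norm_real, Complex.norm_real, norm_neg,
      Real.norm_of_nonneg (by positivity : 0 ≤ h₀ / W), Real.norm_eq_abs]
  have p1 : 0 < d / W := by positivity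
  have p2 : 0 < d' / W := by positivity
  rw [add_div] at a4 a5
  refine ⟨by linarith, by linarith, by linarith, ?_, ?_⟩
  · have := nr (-(d / W))
    rw [abs_neg, abs_of_pos p1] at this
    linarith [norm_le_norm_sub_add ((D n).τ₀ c ζ) ((-(d / W) : ℝ) + (-(h₀ / W) : ℝ) * I)]
  · have := nr (-(d / W) + ε n * (D n).N c)
    have s : |-(d / W) + ε n * (D n).N c| ≤ d' / W + η := abs_le.2 ⟨by linarith, by linarith⟩
    have e' : (D n).τ₀ c ζ + ε n * (D n).N c = ((D n).τ₀ c ζ - ((-(d / W) : ℝ) +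
        (-(h₀ / W) : ℝ) * I)) + (((-(d / W) + ε n * (D n).N c : ℝ) : ℂ) + (-(h₀ / W) : ℝ) * I) := by
      push_cast
      ring
    rw [e']
    linarith [norm_add_le ((D n).τ₀ c ζ - ((-(d / W) : ℝ) + (-(h₀ / W) : ℝ) * I))
      (((-(d / W) + ε n * (D n).N c : ℝ) : ℂ) + (-(h₀ / W) : ℝ) * I)]

end Og

/-- `Mach.sep` -/
theorem sep_of {l : Filter ℕ} {M : ℕ} {s : ℕ → ℕ → ℝ} {s₀ : ℕ → ℝ} {FL FR : ℝ}
    (h : ∀ c < M, Tendsto (fun n => s n c) l (𝓝 (s₀ c))) (h1 : ∀ c < M, s₀ c ≠ FL ∧ s₀ c ≠ FR)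
    (h2 : ∀ c < M, ∀ c' < M, c ≠ c' → s₀ c ≠ s₀ c') : ∃ K₀ : ℝ, ∀ K ≥ K₀, ∀ᶠ n in l, ∀ c < M,
      1 ≤ K * |s n c - FL| ∧ 1 ≤ K * |s n c - FR| ∧
        ∀ c' < M, c ≠ c' → 1 ≤ K * |s n c - s n c'| := by
  have k : ∀ᶠ K in atTop, ∀ c ∈ Iio M, (∀ᶠ n in l, 1 ≤ K * |s n c - FL|) ∧
      (∀ᶠ n in l, 1 ≤ K * |s n c - FR|) ∧
      ∀ c' ∈ Iio M, c ≠ c' → ∀ᶠ n in l, 1 ≤ K * |s n c - s n c'| := by
    refine (eventually_all_finite (finite_Iio M)).2 fun c hc => ?_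
    refine (eventually_atTop.2 (ev_sep ((h c hc).sub_const FL) (sub_ne_zero.2 (h1 c hc).1))).and
      ((eventually_atTop.2 (ev_sep ((h c hc).sub_const FR) (sub_ne_zero.2 (h1 c hc).2))).and
        ((eventually_all_finite (finite_Iio M)).2 fun c' hc' => ?_))
    by_cases e : c = c'
    · exact Eventually.of_forall fun _ k => absurd e k
    · exact (eventually_atTop.2 (ev_sep ((h c hc).sub (h c' hc'))
        (sub_ne_zero.2 (h2 c hc c' hc' e)))).mono fun _ k _ => k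
  obtain ⟨K₀, k⟩ := eventually_atTop.1 k
  refine ⟨K₀, fun K hK => (eventually_all_finite (finite_Iio M)).2 fun c hc => ?_⟩
  obtain ⟨a1, a2, a3⟩ := k K hK c hc
  refine a1.and (a2.and ((eventually_all_finite (finite_Iio M)).2 fun c' hc' => ?_))
  by_cases e : c = c'
  · exact Eventually.of_forall fun _ k => absurd e k
  · exact (a3 c' hc' e).mono fun _ k _ => k

end Vale.Agent.P097F.N
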