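import Mathlib

/-!
# P097F/N: the stations (limit positions and their integer approximations)
-/

set_option linter.all false

noncomputable section

namespace Vale.Agent.P097F.N

open Filter Topology Set

/-- the left end of the gap `j` -/
def stA {N : ℕ} (xs : Fin N → ℝ) (a₁ d : ℝ) : ℕ → ℝ
  | 0 => a₁ - 2 * d
  | j + 1 => if h : j < N then xs ⟨j, h⟩ + d else 0

/-- the right end of the gap `j` -/
def stB {N : ℕ} (xs : Fin N → ℝ) (a₂ d : ℝ) (j : ℕ) : ℝ :=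
  if h : j < N then xs ⟨j, h⟩ - d else a₂ + 2 * d

variable {N : ℕ} {xs : Fin N → ℝ} {a₁ a₂ d : ℝ}

theorem stA_succ (c : Fin N) : stA xs a₁ d (c + 1) = xs c + d := by simp [stA]

theorem stB_lt (c : Fin N) : stB xs a₂ d c = xs c - d := by simp [stB]

theorem stA_zero : stA xs a₁ d 0 = a₁ - 2 * d := rfl

theorem stB_last : stB xs a₂ d N = a₂ + 2 * d := by simp [stB]

/-- the gaps are not empty, lie in the stretch and stay away from the obstacles -/
theorem st_gap (d0 : 0 < d) (h12 : a₁ ≤ a₂) (h1 : ∀ c, a₁ ≤ xs c ∧ xs c ≤ a₂)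
    (h2 : ∀ c c', c < c' → xs c + 4 * d ≤ xs c') {j : ℕ} (hj : j ≤ N) :
    stA xs a₁ d j + d ≤ stB xs a₂ d j ∧ a₁ - 2 * d ≤ stA xs a₁ d j ∧
      stB xs a₂ d j ≤ a₂ + 2 * d ∧
      ∀ c : Fin N, xs c + d ≤ stA xs a₁ d j ∨ stB xs a₂ d j ≤ xs c - d := by
  have mono : ∀ c c', c ≤ c' → xs c ≤ xs c' := fun c c' h => by
    rcases h.eq_or_lt with e | e
    · rw [e]
    · linarith [h2 c c' e]
  have hB : ∀ c : Fin N, j ≤ c → stB xs a₂ d j ≤ xs c - d := fun c h => by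
    have : j < N := h.trans_lt c.2
    rw [stB, dif_pos this]
    linarith [mono ⟨j, this⟩ c h]
  have hB' : stB xs a₂ d j ≤ a₂ + 2 * d := by
    unfold stB
    split_ifs with h
    · linarith [(h1 ⟨j, h⟩).2]
    · exact le_rfl
  cases j with
  | zero =>
    refine ⟨?_, le_rfl, hB', fun c => Or.inr (hB c (Nat.zero_le _))⟩
    rw [stA_zero]
    unfold stB
    split_ifs with h
    · linarith [(h1 ⟨0, h⟩).1]
    · linarith
  | succ j =>
    have hj' : j < N := hj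
    have e : stA xs a₁ d (j + 1) = xs ⟨j, hj'⟩ + d := by simp [stA, hj']
    refine ⟨?_, by linarith [(h1 ⟨j, hj'⟩).1], hB', fun c => ?_⟩
    · rw [e]
      unfold stB
      split_ifs with h
      · linarith [h2 ⟨j, hj'⟩ ⟨j + 1, h⟩ (Nat.lt_succ_self j)]
      · linarith [(h1 ⟨j, hj'⟩).2]
    · rcases Nat.lt_or_ge c (j + 1) with h | h
      · exact Or.inl (by linarith [mono c ⟨j, hj'⟩ (Nat.lt_succ_iff.1 h)])
      · exact Or.inr (hB c h)

/-- the integer part at the scale `u` -/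
theorem fl_bd {u : ℝ} (u0 : 0 < u) (x : ℝ) : x - u < u * ⌊x / u⌋ ∧ u * ⌊x / u⌋ ≤ x := by
  have h1 := mul_le_mul_of_nonneg_left (Int.floor_le (x / u)) u0.le
  have h2 := mul_lt_mul_of_pos_left (Int.lt_floor_add_one (x / u)) u0
  rw [mul_div_cancel₀ _ u0.ne'] at h1 h2
  constructor <;> linarith

theorem fl_le {u x y : ℝ} (u0 : 0 < u) (h : x ≤ y) : ⌊x / u⌋ ≤ ⌊y / u⌋ :=
  Int.floor_le_floor (by gcongr)

theorem fl_lt {u x y : ℝ} (u0 : 0 < u) (h : x + u ≤ y) : ⌊x / u⌋ < ⌊y / u⌋ := by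
  have h1 := (fl_bd u0 x).2
  have h2 := (fl_bd u0 y).1
  have : (⌊x / u⌋ : ℝ) < ⌊y / u⌋ := lt_of_mul_lt_mul_left (by linarith) u0.le
  exact_mod_cast this

theorem fln_bd {u : ℝ} (u0 : 0 < u) {x : ℝ} (hx : 0 ≤ x) :
    x - u < u * ⌊x / u⌋₊ ∧ u * ⌊x / u⌋₊ ≤ x := by
  have h1 := mul_le_mul_of_nonneg_left (Nat.floor_le (div_nonneg hx u0.le)) u0.le
  have h2 := mul_lt_mul_of_pos_left (Nat.lt_floor_add_one (x / u)) u0
  rw [mul_div_cancel₀ _ u0.ne'] at h1 h2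
  constructor <;> linarith

theorem fl_lim {l : Filter ℕ} {u e : ℕ → ℝ} {x W : ℝ} (W0 : 0 < W) (e0 : ∀ n, 0 < e n)
    (he : Tendsto e l (𝓝 0)) (hu : Tendsto u l (𝓝 W)) :
    Tendsto (fun n => e n * (⌊x / (e n * u n)⌋ : ℝ)) l (𝓝 (x / W)) := by
  have h1 : Tendsto (fun n => x / u n) l (𝓝 (x / W)) := tendsto_const_nhds.div hu W0.ne'
  have h2 : Tendsto (fun n => x / u n - e n) l (𝓝 (x / W)) := by simpa using h1.sub he
  refine tendsto_of_tendsto_of_tendsto_of_le_of_le' h2 h1 ?_ ?_ <;>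
    filter_upwards [hu.eventually (lt_mem_nhds W0)] with n k
  · have := (fl_bd (e0 n) (x / u n)).1
    rw [div_div, mul_comm (u n)] at this
    exact this.le
  · have := (fl_bd (e0 n) (x / u n)).2
    rwa [div_div, mul_comm (u n)] at this

theorem fln_lim {l : Filter ℕ} {e : ℕ → ℝ} {x : ℝ} (x0 : 0 ≤ x) (e0 : ∀ n, 0 < e n)
    (he : Tendsto e l (𝓝 0)) : Tendsto (fun n => e n * (⌊x / e n⌋₊ : ℝ)) l (𝓝 x) := by
  have h2 : Tendsto (fun n => x - e n) l (𝓝 x) := by simpa using he.const_sub x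
  exact tendsto_of_tendsto_of_tendsto_of_le_of_le h2 tendsto_const_nhds
    (fun n => (fln_bd (e0 n) x0).1.le) fun n => (fln_bd (e0 n) x0).2

end Vale.Agent.P097F.N
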