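import Vale.Agent.P097F.N.Ob1

/-!
# P097F/N: the slopes of the obstacles
-/

set_option linter.all false

noncomputable section

namespace Vale.Agent.P097F.N

open Filter Topology Set Metric Complex Vale.Agent.P097D Vale.Agent.P097N Vale.Agent.P097Mo

/-- the slope of the position of an obstacle at one scale -/
theorem slope_one {τ X : ℂ → ℂ} {v x₀ c i : ℂ} {ε R e : ℝ} (R0 : 0 < R) (ε0 : 0 < ε)
    (hτ : DifferentiableOn ℂ τ (ball 0 R))
    (hX : ∀ ζ ∈ ball (0 : ℂ) R, AnalyticAt ℂ X (v + ε * c * ζ) ∧ v + ε * c * ζ ≠ 0)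
    (h : ∀ ζ ∈ ball (0 : ℂ) R, ‖τ ζ - (x₀ + ε * (v + ε * c * ζ) * i - X (v + ε * c * ζ)) /
      (v + ε * c * ζ)‖ ≤ e) :
    ‖deriv (fun ζ => -τ ζ / ε) 0 - c * deriv (fun w => (X w - x₀) / w) v‖ ≤ 2 * e / (ε * R) := by
  have m0 := mem_ball_self (x := (0 : ℂ)) R0
  have e0 : (ε : ℂ) ≠ 0 := ofReal_ne_zero.2 ε0.ne'
  obtain ⟨G, hG⟩ : ∃ G : ℂ → ℂ, G = fun w => (X w - x₀) / w := ⟨_, rfl⟩
  have l : ∀ ζ : ℂ, HasDerivAt (fun ζ : ℂ => v + ε * c * ζ) (ε * c) ζ := fun ζ => by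
    simpa using ((hasDerivAt_id ζ).const_mul (ε * c)).const_add v
  have dG : ∀ ζ ∈ ball (0 : ℂ) R, HasDerivAt (fun ζ : ℂ => G (v + ε * c * ζ))
      (deriv G (v + ε * c * ζ) * (ε * c)) ζ := fun ζ hζ => by
    have : AnalyticAt ℂ G (v + ε * c * ζ) :=
      hG ▸ ((hX ζ hζ).1.sub analyticAt_const).div analyticAt_id (hX ζ hζ).2
    exact this.differentiableAt.hasDerivAt.comp ζ (l ζ)
  have b : ∀ ζ ∈ ball (0 : ℂ) R, ‖τ ζ + G (v + ε * c * ζ) - ε * i‖ ≤ e := fun ζ hζ => by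
    refine le_of_eq_of_le (congrArg norm ?_) (h ζ hζ)
    have := (hX ζ hζ).2
    rw [hG]
    field_simp
    ring
  have k := norm_deriv_le_div_of_mapsTo_ball (f := fun ζ => τ ζ + G (v + ε * c * ζ) - ε * i)
    (c := 0) (R₁ := R) (R₂ := 2 * e)
    ((hτ.add fun ζ hζ => (dG ζ hζ).differentiableAt.differentiableWithinAt).sub_const _)
    (fun z hz => by
      rw [mem_closedBall_iff_norm]
      linarith [norm_sub_le (τ z + G (v + ε * c * z) - ε * i) (τ 0 + G (v + ε * c * 0) - ε * i),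
        b z hz, b 0 m0]) R0
  have d := (hτ.differentiableAt (isOpen_ball.mem_nhds m0)).hasDerivAt
  rw [((d.fun_add (dG 0 m0)).sub_const _).deriv, mul_zero, add_zero] at k
  rw [(d.fun_neg.div_const _).deriv, ← hG, show -deriv τ 0 / ε - c * deriv G v =
    -(deriv τ 0 + deriv G v * (ε * c)) / ε by field_simp; ring, norm_div, norm_neg, norm_real,
    Real.norm_of_nonneg ε0.le, div_le_iff₀ ε0]
  exact k.trans_eq (by field_simp)

theorem der_line {X : ℂ → ℂ} {W X' : ℂ} (d : HasDerivAt X X' W) (u : ℂ) :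
    HasDerivAt (fun t : ℝ => (X (W + t * u)).im) (X' * u).im 0 := by
  have l : HasDerivAt (fun t : ℂ => W + t * u) u ((0 : ℝ) : ℂ) := by
    simpa using ((hasDerivAt_id (0 : ℂ)).mul_const u).const_add W
  have k := (HasDerivAt.comp_of_eq (hh₂ := d) (hh := l) (hy := by simp)).comp_ofReal
  exact imCLM.hasFDerivAt.comp_hasDerivAt (0 : ℝ) k

theorem tend_line (W u : ℂ) : Tendsto (fun t : ℝ => W + t * u) (𝓝 0) (𝓝 W) := by
  have : Continuous fun t : ℝ => W + t * u := by fun_prop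
  simpa using this.tendsto 0

/-- obstacles which stay level have real relative slopes -/
theorem lev_real {X X' : ℂ → ℂ} {W σ : ℝ} (σ0 : 0 < σ) (W0 : W ≠ 0) (a : AnalyticAt ℂ X W)
    (a' : AnalyticAt ℂ X' W) (h : ∀ u : ℝ, (u : ℂ) ∈ ball (W : ℂ) σ → (X u).im = (X' u).im) :
    (deriv (fun w => (X' w - X w) / w) W).im = 0 := by
  have d := der_line ((a'.sub a).div analyticAt_id
    (ofReal_ne_zero.2 W0)).differentiableAt.hasDerivAt 1
  rw [mul_one] at d
  refine d.unique ((hasDerivAt_const (0 : ℝ) (0 : ℝ)).congr_of_eventuallyEq ?_)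
  filter_upwards [(tend_line W 1).eventually (ball_mem_nhds _ σ0)] with t ht
  rw [mul_one, ← ofReal_add] at ht ⊢
  show ((X' _ - X _) / ((W + t : ℝ) : ℂ)).im = 0
  rw [div_ofReal_im, sub_im, h _ ht, sub_self, zero_div]

/-- an obstacle which touches the top of the wedge from above -/
theorem touch_sl {X : ℂ → ℂ} {W H b K C : ℝ} (a : AnalyticAt ℂ X W) (e : (X W).im = H)
    (h : ∀ᶠ w in 𝓝 (W : ℂ), H - b * (w.re - W) - K * (w.re - W) ^ 2 - C * |w.im| ≤ (X w).im) :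
    |(deriv X W).re| ≤ C ∧ (deriv X W).im = -b := by
  have d := a.differentiableAt.hasDerivAt
  have v : ∀ s : ℝ, |s| = 1 → 0 ≤ (deriv X W).re * s + C := fun s hs => by
    have k := ((der_line d (s * I)).add ((hasDerivAt_id (0 : ℝ)).const_mul C)
      ).tendsto_slope_zero_right
    have e' : (deriv X W * (s * I)).im + C * 1 = (deriv X W).re * s + C := by simp
    rw [e'] at k
    refine ge_of_tendsto k ?_
    filter_upwards [self_mem_nhdsWithin, ((tend_line W (s * I)).eventually h).filter_mono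
      nhdsWithin_le_nhds] with t t0 ht
    have t1 : (0 : ℝ) < t := t0
    have r1 : ((W : ℂ) + t * (s * I)).re = W := by simp
    have r2 : |((W : ℂ) + t * (s * I)).im| = t := by simp [abs_mul, hs, abs_of_pos t1]
    rw [r1, r2] at ht
    refine smul_nonneg (inv_nonneg.2 t1.le) ?_
    simp only [Pi.add_apply, id, zero_add, ofReal_zero, zero_mul, add_zero, mul_zero, e]
    linarith
  refine ⟨abs_le.2 ⟨by linarith [v 1 abs_one], by linarith [v (-1) (by simp)]⟩, ?_⟩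
  have k := ((der_line d 1).fun_add ((hasDerivAt_id' (0 : ℝ)).const_mul b)).fun_add
    ((hasDerivAt_pow 2 (0 : ℝ)).const_mul K)
  have := IsLocalMin.hasDerivAt_eq_zero (by
    filter_upwards [(tend_line W 1).eventually h] with t ht
    simp only [mul_one, add_re, ofReal_re, add_sub_cancel_left, add_im, ofReal_im, add_zero,
      abs_zero, mul_zero, sub_zero] at ht
    simp only [mul_one, ofReal_zero, add_zero, mul_zero, e, ne_eq, OfNat.ofNat_ne_zero,
      not_false_eq_true, zero_pow]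
    linarith) k
  simp at this
  linarith

/-- the obstacles lie above the wedge -/
theorem above {E : D.Dat} {Y Φ Δ : ℂ × ℂ → ℂ} {x₀ : ℂ} {σ ρ' : ℝ} {X : ℂ → ℂ}
    {a L ρ K C W H b : ℝ} (O : D.One E Y W x₀ σ ρ' X Φ Δ) (σ0 : 0 < σ) (ρ0 : 0 < ρ)
    (h1 : |x₀.re - a| < L) (h2 : E.b₀ < x₀.im)
    (sub : ∀ p ∈ Wd a L (-E.b₀) ρ K C W H b, p ∈ E.Om) :
    ∀ᶠ w in 𝓝 (W : ℂ), H - b * (w.re - W) - K * (w.re - W) ^ 2 - C * |w.im| ≤ (X w).im := by
  have c : Tendsto X (𝓝 (W : ℂ)) (𝓝 x₀) :=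
    O.at₀ ▸ (O.an _ (mem_ball_self σ0)).continuousAt.tendsto
  filter_upwards [ball_mem_nhds _ σ0, ball_mem_nhds _ ρ0,
    (((continuous_re.tendsto _).comp c).sub_const a).abs.eventually (gt_mem_nhds h1),
    ((continuous_im.tendsto _).comp c).eventually (lt_mem_nhds h2)] with w m1 m2 m3 m4
  by_contra n
  have nr := O.near w m1
  have p0 := (norm_nonneg _).trans_lt nr
  have b1 := abs_lt.1 ((abs_re_le_norm _).trans_lt nr)
  have b2 := abs_lt.1 ((abs_im_le_norm _).trans_lt nr)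
  rw [sub_re] at b1
  rw [sub_im] at b2
  exact (O.om w m1 (X w) ⟨by linarith, by linarith, m4, by linarith⟩).1
    (sub (w, X w) ⟨m2, m3, by rw [neg_neg]; exact m4, not_le.1 n⟩) ⟨rfl, le_rfl⟩

end Vale.Agent.P097F.N
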