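import Vale.Agent.P097F.N.SideDefs
import Vale.Agent.P097Q.SDefs

/-!
# P097F/N: the chart of a family, its derivative and its inverse
-/

set_option linter.all false

noncomputable section

namespace Vale.Agent.P097F.N

open Filter Topology Set Metric Complex Vale.Agent.P097Q

/-- the inverse of a chart in the units `ε` on a small set `X` -/
theorem inv_on (X : Set (ℂ × ℂ)) (C : ℂ × ℂ → ℂ × ℂ) {ε w M B κ s : ℝ} (ε0 : 0 < ε) (κ0 : 0 < κ)
    (s0 : 0 < s) (B0 : 0 < B) (sw : s ≤ w / 2) (hs : 64 * B * M * s ≤ κ * w ^ 2)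
    (hC : ∀ p ∈ ball (0 : ℂ × ℂ) (w / ε), AnalyticAt ℂ C p ∧ ‖C p - C 0‖ ≤ M)
    (hB : ‖fderiv ℂ C 0‖ ≤ B * ε) (hκ : κ * ε ^ 2 ≤ ‖det2 (fderiv ℂ C 0)‖)
    (hX : ∀ p ∈ X, ε * ‖p‖ < s ∧ 8 * B * M * (ε * ‖p‖) ≤ κ * s * w) :
    ∃ G : ℂ × ℂ → ℂ × ℂ, (∀ p ∈ X, AnalyticAt ℂ C p ∧ ∀ y ∈ ball (C p) (κ * s / (8 * B)),
      AnalyticAt ℂ G y ∧ C (G y) = y ∧ ‖G y - p‖ ≤ 4 * B / (κ * ε) * ‖y - C p‖) ∧
      (∀ p : ℂ × ℂ, ε * ‖p‖ < s → G (C p) = p) ∧ ∀ p p' : ℂ × ℂ, ε * ‖p‖ < s → ε * ‖p'‖ < s →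
        ‖p - p'‖ ≤ 4 * B / (κ * ε) * ‖C p - C p'‖ := by
  have w0 : 0 < w := by linarith
  have e0 : (ε : ℂ) ≠ 0 := by exact_mod_cast ε0.ne'
  have ne : ‖(ε : ℂ)‖ = ε := by simp [abs_of_pos ε0]
  have nm : ∀ q : ℂ × ℂ, ‖(ε : ℂ)⁻¹ • q‖ = ‖q‖ / ε := fun q => by
    rw [norm_smul, norm_inv, ne, div_eq_inv_mul]
  have nm' : ∀ q : ℂ × ℂ, ‖(ε : ℂ) • q‖ = ε * ‖q‖ := fun q => by rw [norm_smul, ne]
  have mem : ∀ q ∈ ball (0 : ℂ × ℂ) w, (ε : ℂ)⁻¹ • q ∈ ball (0 : ℂ × ℂ) (w / ε) := fun q hq => by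
    rw [mem_ball_zero_iff] at hq ⊢
    rw [nm]; gcongr
  set F : ℂ × ℂ → ℂ × ℂ := fun q => C ((ε : ℂ)⁻¹ • q) with hF
  have F0 : F 0 = C 0 := by simp [hF]
  have Fe : ∀ p, F ((ε : ℂ) • p) = C p := fun p => by
    simp only [hF]; rw [smul_smul, inv_mul_cancel₀ e0, one_smul]
  have aF : AnalyticOnNhd ℂ F (ball 0 w) := fun q hq =>
    (hC _ (mem q hq)).1.comp (f := fun q : ℂ × ℂ => (ε : ℂ)⁻¹ • q) (by fun_prop)
  have d : fderiv ℂ F 0 = (ε : ℂ)⁻¹ • fderiv ℂ C 0 := by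
    have h1 : HasFDerivAt C (fderiv ℂ C 0) ((ε : ℂ)⁻¹ • (0 : ℂ × ℂ)) := by
      rw [smul_zero]
      exact (hC 0 (mem_ball_self (by positivity))).1.differentiableAt.hasFDerivAt
    have := (h1.comp (0 : ℂ × ℂ) ((hasFDerivAt_id (0 : ℂ × ℂ)).const_smul (ε : ℂ)⁻¹)).fderiv
    refine this.trans ?_
    ext <;> simp
  have dB : ‖fderiv ℂ F 0‖ ≤ B := by
    rw [d, norm_smul, norm_inv, ne, inv_mul_le_iff₀ ε0]; linarith
  have dκ : κ ≤ ‖det2 (fderiv ℂ F 0)‖ := by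
    have : det2 (fderiv ℂ F 0) = (ε : ℂ)⁻¹ ^ 2 * det2 (fderiv ℂ C 0) := by
      rw [d]; simp [det2]; ring
    rw [this, norm_mul, norm_pow, norm_inv, ne, inv_pow, le_inv_mul_iff₀ (by positivity)]
    linarith
  obtain ⟨A, hA, hK⟩ := equiv2 _ dB κ0 dκ
  obtain ⟨G, g1, g2, g3, g4⟩ := qinv (M := M) A aF (fun q hq => by
    rw [F0]; exact (hC _ (mem q hq)).2) hA hK s0 sw (by
      rw [show 32 * (2 * B / κ) * M * s = 64 * B * M * s / κ by ring, div_le_iff₀ κ0]; linarith)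
  have lp : ∀ q q' : ℂ × ℂ, q ∈ ball (0 : ℂ × ℂ) s → ε * ‖q'‖ < s →
      ‖(ε : ℂ)⁻¹ • q - q'‖ ≤ 4 * B / (κ * ε) * ‖F q - C q'‖ := fun q q' h h' => by
    have := g4 q h ((ε : ℂ) • q') (by rwa [mem_ball_zero_iff, nm'])
    rw [Fe] at this
    have e : (ε : ℂ)⁻¹ • q - q' = (ε : ℂ)⁻¹ • (q - (ε : ℂ) • q') := by
      rw [smul_sub, smul_smul, inv_mul_cancel₀ e0, one_smul]
    rw [e, nm, div_le_iff₀ ε0]
    refine this.trans_eq ?_
    field_simp; ring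
  refine ⟨fun y => (ε : ℂ)⁻¹ • G y, fun p hp => ?_, fun p hp => ?_, fun p p' hp hp' => ?_⟩
  · obtain ⟨x1, x2⟩ := hX p hp
    have pm : p ∈ ball (0 : ℂ × ℂ) (w / ε) := by
      rw [mem_ball_zero_iff, lt_div_iff₀ ε0]; linarith
    refine ⟨(hC p pm).1, fun y hy => ?_⟩
    have l := dist_le_div_mul_dist_of_mapsTo_ball (f := C) (c := 0) (R₁ := w / ε) (R₂ := M)
      (fun q hq => (hC q hq).1.differentiableAt.differentiableWithinAt)
      (fun q hq => by rw [mem_closedBall, dist_eq_norm]; exact (hC q hq).2) pm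
    rw [dist_zero_right] at l
    have l2 : M / (w / ε) * ‖p‖ ≤ κ * s / (8 * B) := by
      rw [le_div_iff₀ (by positivity), show M / (w / ε) * ‖p‖ * (8 * B) =
        8 * B * M * (ε * ‖p‖) / w by field_simp, div_le_iff₀ w0]
      exact x2
    have ym : y ∈ ball (F 0) (s / (2 * (2 * B / κ))) := by
      rw [mem_ball, F0] at *
      have := dist_triangle y (C p) (C 0)
      have e : s / (2 * (2 * B / κ)) = κ * s / (8 * B) + κ * s / (8 * B) := by field_simp; ring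
      linarith
    refine ⟨AnalyticAt.fun_smul analyticAt_const (g1 y ym), (g2 y ym).2, ?_⟩
    have := lp (G y) p (g2 y ym).1 x1
    rwa [(g2 y ym).2] at this
  · have := g3 ((ε : ℂ) • p) (by rwa [mem_ball_zero_iff, nm'])
    rw [Fe] at this
    show (ε : ℂ)⁻¹ • G (C p) = p
    rw [this, smul_smul, inv_mul_cancel₀ e0, one_smul]
  · have := lp ((ε : ℂ) • p) p' (by rwa [mem_ball_zero_iff, nm']) hp'
    rwa [Fe, smul_smul, inv_mul_cancel₀ e0, one_smul] at this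

theorem sinv : S_INV := fun P C ε w M B κ s h1 h2 h3 h4 h5 h6 h7 h8 h9 h10 => by
  obtain ⟨G, g, -⟩ := inv_on (Mb P) C h1 h2 h3 h4 h5 h6 h7 h8 h9 h10
  exact ⟨G, fun p hp => (g p hp).2⟩

/-- the chart with its inverse on the box of the seam -/
theorem cht_of (Mc : Mac) (P : Par) (C : ℂ × ℂ → ℂ × ℂ) {ε w M B κ s : ℝ} (ε0 : 0 < ε)
    (κ0 : 0 < κ) (s0 : 0 < s) (B0 : 0 < B) (sw : s ≤ w / 2) (hs : 64 * B * M * s ≤ κ * w ^ 2)
    (hC : ∀ p ∈ ball (0 : ℂ × ℂ) (w / ε), AnalyticAt ℂ C p ∧ ‖C p - C 0‖ ≤ M)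
    (hB : ‖fderiv ℂ C 0‖ ≤ B * ε) (hκ : κ * ε ^ 2 ≤ ‖det2 (fderiv ℂ C 0)‖)
    (hX : ∀ p ∈ MB Mc P, ε * ‖p‖ < s ∧ 8 * B * M * (ε * ‖p‖) ≤ κ * s * w)
    (hδ : Mc.δ ≤ κ * s / (8 * B)) (hK : 4 * B / (κ * ε) ≤ Mc.K) : ∃ D, Cht Mc P C D := by
  obtain ⟨G, g, -⟩ := inv_on (MB Mc P) C ε0 κ0 s0 B0 sw hs hC hB hκ hX
  refine ⟨G, fun p hp => ⟨(g p hp).1.differentiableAt, fun q hq => ?_⟩⟩
  obtain ⟨a, b, c⟩ := (g p hp).2 q (ball_subset_ball hδ hq)
  exact ⟨a.differentiableAt, b, c.trans (by gcongr)⟩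

section
variable {E : Type} [NormedAddCommGroup E] [NormedSpace ℂ E] [CompleteSpace E]
  {T : E → E} {p₀ : E} {r a : ℝ}

theorem Ch_zero (T : E → E) (m : ℕ) (p : E) : Ch T m 0 p = p := by
  simpa using Ch_nat T (Nat.zero_le m) p

/-- the chart moves linearly in the time -/
theorem Near.lin_Ch (h : Near T p₀ r a) {m : ℕ} (hm : 216 * a * m ≤ r) (m1 : 1 ≤ m) {p : E}
    (hp : p ∈ ball p₀ (r / 2)) {t : ℂ} (ht : ‖t‖ < 8 * m) : ‖Ch T m t p - p‖ ≤ 7 * a * ‖t‖ := by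
  have a0 := h.a0
  have m1' : (1 : ℝ) ≤ m := by exact_mod_cast m1
  have := dist_le_div_mul_dist_of_mapsTo_ball (f := fun t => Ch T m t p) (c := 0) (R₁ := 8 * m)
    (R₂ := 54 * a * m) (fun z _ => (h.an_t hm hp z).differentiableAt.differentiableWithinAt)
    (fun z hz => by
      rw [mem_closedBall, dist_eq_norm, Ch_zero]
      exact h.bd_Ch hm hp (mem_ball_zero_iff.1 hz).le) (mem_ball_zero_iff.2 ht)
  rw [dist_eq_norm, dist_zero_right, Ch_zero] at this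
  refine this.trans ?_
  gcongr
  rw [div_le_iff₀ (by positivity)]; nlinarith

/-- the speed of the chart -/
theorem Near.der_Ch (h : Near T p₀ r a) {m : ℕ} (hm : 216 * a * m ≤ r) (m1 : 1 ≤ m) {p : E}
    (hp : p ∈ ball p₀ (r / 2)) {t : ℂ} (ht : ‖t‖ ≤ m) :
    ‖deriv (fun t => Ch T m t p) t - (T p - p)‖ ≤ 14 * a * (‖t‖ + 2) / m := by
  have a0 := h.a0
  have m1' : (1 : ℝ) ≤ m := by exact_mod_cast m1
  set f : ℂ → E := fun t => Ch T m t p with hf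
  have an : ∀ z, AnalyticAt ℂ f z := h.an_t hm hp
  have d1 : ∀ z ∈ ball (0 : ℂ) (4 * m), ‖deriv f z‖ ≤ 27 * a := fun z hz => by
    have z1 := mem_ball_zero_iff.1 hz
    refine (norm_deriv_le_div_of_mapsTo_ball (R₁ := 4 * m) (R₂ := 108 * a * m)
      (fun z _ => (an z).differentiableAt.differentiableWithinAt) (fun y hy => ?_)
      (by positivity)).trans_eq (by field_simp; ring)
    rw [mem_closedBall, dist_eq_norm]
    have y1 : ‖y‖ ≤ 8 * m := by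
      have := norm_add_le (y - z) z
      rw [sub_add_cancel, ← dist_eq_norm] at this
      linarith [mem_ball.1 hy]
    have := h.bd_Ch hm hp y1
    have := h.bd_Ch hm hp (t := z) (by linarith)
    have := norm_sub_le (f y - p) (f z - p)
    rw [sub_sub_sub_cancel_right] at this
    linarith
  have d2 : ∀ z : ℂ, ‖z‖ ≤ m → ‖deriv f z - deriv f 0‖ ≤ 14 * a * ‖z‖ / m := fun z hz => by
    have := dist_le_div_mul_dist_of_mapsTo_ball (f := deriv f) (c := 0) (R₁ := 4 * m)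
      (R₂ := 54 * a) (fun z _ => (an z).deriv.differentiableAt.differentiableWithinAt)
      (fun y hy => by
        rw [mem_closedBall, dist_eq_norm]
        have := d1 y hy
        have := d1 0 (mem_ball_self (by positivity))
        have := norm_sub_le (deriv f y) (deriv f 0)
        linarith) (z := z) (mem_ball_zero_iff.2 (by linarith))
    rw [dist_eq_norm, dist_zero_right] at this
    refine this.trans ?_
    rw [div_mul_eq_mul_div, div_le_div_iff₀ (by positivity) (by positivity)]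
    have : 0 ≤ a * ‖z‖ * m := by positivity
    nlinarith
  have d3 : ‖(f 1 - (1 : ℂ) • deriv f 0) - (f 0 - (0 : ℂ) • deriv f 0)‖ ≤
      14 * a / m * ‖(1 : ℂ) - 0‖ :=
    (convex_closedBall (0 : ℂ) 1).norm_image_sub_le_of_norm_hasDerivWithin_le
      (f := fun z => f z - z • deriv f 0) (f' := fun z => deriv f z - deriv f 0)
      (fun z _ => by
        simpa using ((an z).differentiableAt.hasDerivAt.fun_sub
          ((hasDerivAt_id z).smul_const (deriv f 0))).hasDerivWithinAt)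
      (fun z hz => by
        have z1 : ‖z‖ ≤ 1 := by simpa using hz
        refine (d2 z (by linarith)).trans ?_
        exact div_le_div_of_nonneg_right (by nlinarith) (by positivity)) (by simp) (by simp)
  have f1 : f 1 = T p := by simpa using Ch_nat T m1 p
  have f0 : f 0 = p := Ch_zero T m p
  simp only [one_smul, zero_smul, sub_zero, norm_one, mul_one, f1, f0] at d3
  have e : deriv f t - (T p - p) = (deriv f t - deriv f 0) - (T p - deriv f 0 - p) := by abel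
  rw [e]
  refine (norm_sub_le _ _).trans ?_
  have := d2 t ht
  have e2 : 14 * a * (‖t‖ + 2) / m = 14 * a * ‖t‖ / m + 14 * a / m + 14 * a / m := by ring
  have : 0 ≤ 14 * a / m := by positivity
  linarith

/-- the dependence of the chart on the base point -/
theorem Near.par_Ch (h : Near T p₀ r a) {m : ℕ} (hm : 216 * a * m ≤ r) (m1 : 1 ≤ m) {t : ℂ}
    (ht : ‖t‖ < 8 * m) : ‖fderiv ℂ (fun p => Ch T m t p - p) p₀‖ ≤ 28 * a * ‖t‖ / r := by
  have a0 := h.a0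
  have m1' : (1 : ℝ) ≤ m := by exact_mod_cast m1
  have r0 : 0 < r := by nlinarith
  refine (norm_fderiv_le_div_of_mapsTo_ball (R₁ := r / 2) (R₂ := 14 * a * ‖t‖)
    (fun p hp => (((h.an_Ch hm (q := (t, p)) hp).comp₂ (f := fun _ => t) (g := fun p => p)
      analyticAt_const analyticAt_id).sub analyticAt_id).differentiableAt.differentiableWithinAt)
    (fun p hp => ?_) (by linarith)).trans_eq (by field_simp; ring)
  rw [mem_closedBall, dist_eq_norm]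
  have := h.lin_Ch hm m1 hp ht
  have := h.lin_Ch hm m1 (mem_ball_self (by linarith)) ht
  have := norm_sub_le (Ch T m t p - p) (Ch T m t p₀ - p₀)
  show ‖Ch T m t p - p - (Ch T m t p₀ - p₀)‖ ≤ _
  linarith

end

/-- the two columns of the derivative of the chart of a curve `b` of base points -/
theorem cols_Ch {T : ℂ × ℂ → ℂ × ℂ} {r a : ℝ} {b : ℂ → ℂ × ℂ} {b' : ℂ × ℂ} {t₀ : ℂ} {m : ℕ}
    (h : Near T (b 0) r a) (hm : 216 * a * m ≤ r) (m1 : 1 ≤ m) (hb : HasDerivAt b b' 0)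
    (ht : ‖t₀‖ ≤ m) :
    ‖fderiv ℂ (fun q : ℂ × ℂ => Ch T m (q.1 + t₀) (b q.2)) 0 (1, 0) - (T (b 0) - b 0)‖ ≤
      14 * a * (‖t₀‖ + 2) / m ∧
    ‖fderiv ℂ (fun q : ℂ × ℂ => Ch T m (q.1 + t₀) (b q.2)) 0 (0, 1) - b'‖ ≤
      28 * a * ‖t₀‖ / r * ‖b'‖ := by
  have a0 := h.a0
  have m1' : (1 : ℝ) ≤ m := by exact_mod_cast m1
  have r0 : 0 < r := by nlinarith
  have hp : b 0 ∈ ball (b 0) (r / 2) := mem_ball_self (by linarith)
  have A := (h.an_Ch hm (q := (t₀, b 0)) hp).differentiableAt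
  have D : DifferentiableAt ℂ (fun q : ℂ × ℂ => Ch T m (q.1 + t₀) (b q.2)) 0 := by
    refine DifferentiableAt.comp (0 : ℂ × ℂ) (g := fun q : ℂ × (ℂ × ℂ) => Ch T m q.1 q.2)
      (f := fun q : ℂ × ℂ => (q.1 + t₀, b q.2)) (by simpa using A) ?_
    exact (differentiableAt_fst.add_const t₀).prodMk
      (DifferentiableAt.comp (0 : ℂ × ℂ) (g := b) hb.differentiableAt differentiableAt_snd)
  constructor
  · have c1 : HasDerivAt (fun z : ℂ => ((z, 0) : ℂ × ℂ)) (1, 0) 0 :=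
      (hasDerivAt_id 0).prodMk (hasDerivAt_const 0 0)
    have e1 := (D.hasFDerivAt.comp_hasDerivAt_of_eq 0 c1 rfl).deriv
    have e2 := (((h.an_t hm hp (0 + t₀)).differentiableAt.hasDerivAt).comp_add_const 0 t₀).deriv
    have e3 : fderiv ℂ (fun q : ℂ × ℂ => Ch T m (q.1 + t₀) (b q.2)) 0 (1, 0) =
        deriv (fun t => Ch T m t (b 0)) t₀ := by
      rw [← e1, zero_add] at *
      exact e2
    rw [e3]
    exact h.der_Ch hm m1 hp ht
  · have c1 : HasDerivAt (fun z : ℂ => ((0, z) : ℂ × ℂ)) (0, 1) 0 :=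
      (hasDerivAt_const 0 0).prodMk (hasDerivAt_id 0)
    have e1 := D.hasFDerivAt.comp_hasDerivAt_of_eq 0 c1 rfl
    have A2 : DifferentiableAt ℂ (fun p => Ch T m t₀ p - p) (b 0) :=
      (((h.an_Ch hm (q := (t₀, b 0)) hp).comp₂ (f := fun _ => t₀) (g := fun p => p)
        analyticAt_const analyticAt_id).sub analyticAt_id).differentiableAt
    have e2 := A2.hasFDerivAt.comp_hasDerivAt 0 hb
    have e3 := (e1.fun_sub hb).unique (by simpa [Function.comp_def] using e2)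
    rw [e3]
    exact (ContinuousLinearMap.le_opNorm _ _).trans
      (by gcongr; exact h.par_Ch hm m1 (by linarith))

/-- norm and determinant from approximate columns -/
theorem det_cols (L : ℂ × ℂ →L[ℂ] ℂ × ℂ) {u v : ℂ × ℂ} {α β e₁ e₂ : ℝ} (hu : ‖u‖ ≤ α)
    (hv : ‖v‖ ≤ β) (h1 : ‖L (1, 0) - u‖ ≤ e₁) (h2 : ‖L (0, 1) - v‖ ≤ e₂) :
    ‖L‖ ≤ α + β + e₁ + e₂ ∧
      ‖det2 L - (u.1 * v.2 - v.1 * u.2)‖ ≤ 2 * (e₁ * β + α * e₂ + e₁ * e₂) := by
  have α0 := (norm_nonneg _).trans hu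
  have β0 := (norm_nonneg _).trans hv
  have e10 := (norm_nonneg _).trans h1
  have e20 := (norm_nonneg _).trans h2
  constructor
  · refine ContinuousLinearMap.opNorm_le_bound _ (by positivity) fun x => ?_
    have n1 := norm_add_le (L (1, 0) - u) u
    have n2 := norm_add_le (L (0, 1) - v) v
    rw [sub_add_cancel] at n1 n2
    rw [ap2 L x]
    refine (norm_add_le _ _).trans ?_
    rw [norm_smul, norm_smul]
    have : ‖x.1‖ * ‖L (1, 0)‖ ≤ ‖x‖ * (e₁ + α) := by gcongr; exact norm_fst_le _; linarith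
    have : ‖x.2‖ * ‖L (0, 1)‖ ≤ ‖x‖ * (e₂ + β) := by gcongr; exact norm_snd_le _; linarith
    linarith
  · set x := L (1, 0) - u
    set y := L (0, 1) - v
    have e : det2 L - (u.1 * v.2 - v.1 * u.2) =
        (x.1 * v.2 + u.1 * y.2 + x.1 * y.2) - (x.2 * v.1 + u.2 * y.1 + x.2 * y.1) := by
      simp only [det2, x, y, Prod.fst_sub, Prod.snd_sub]; ring
    have g : ∀ a b c d : ℂ, ‖a‖ ≤ e₁ → ‖b‖ ≤ β → ‖c‖ ≤ α → ‖d‖ ≤ e₂ →
        ‖a * b + c * d + a * d‖ ≤ e₁ * β + α * e₂ + e₁ * e₂ := fun a b c d _ _ _ _ => by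
      refine norm_add₃_le.trans ?_
      simp only [norm_mul]; gcongr
    rw [e]
    have := g x.1 v.2 u.1 y.2 ((norm_fst_le _).trans h1) ((norm_snd_le _).trans hv)
      ((norm_fst_le _).trans hu) ((norm_snd_le _).trans h2)
    have := g x.2 v.1 u.2 y.1 ((norm_snd_le _).trans h1) ((norm_fst_le _).trans hv)
      ((norm_snd_le _).trans hu) ((norm_fst_le _).trans h2)
    exact (norm_sub_le _ _).trans (by linarith)

/-- the chart with a tilted time: analytic, bounded, norm and determinant of the derivative -/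
theorem tilt_Ch {T : ℂ × ℂ → ℂ × ℂ} {b : ℂ → ℂ × ℂ} {m : ℕ} {r a R M₀ m₀ m₁ ε α β ϑ κ : ℝ}
    (hN : ∀ ζ : ℂ, ‖ζ‖ < R → Near T (b ζ) r a ∧ AnalyticAt ℂ b ζ ∧ ‖b ζ - b 0‖ ≤ M₀)
    (hm : 216 * a * m ≤ r) (m1 : 1 ≤ m) (R0 : 0 < R) (ε0 : 0 < ε) (hm₀ : |m₀| ≤ m)
    (hR : (|m₁| + 1) * R ≤ 7 * m) (ha : a ≤ α * ε) (hβ : ‖deriv b 0‖ ≤ β * ε)
    (hκ : κ * ε ^ 2 ≤ ‖(T (b 0) - b 0).1 * (deriv b 0).2 - (deriv b 0).1 * (T (b 0) - b 0).2‖)
    (h1 : 14 * α * (|m₀| + 2) ≤ ϑ * m) (h2 : 28 * a * |m₀| * β ≤ ϑ * r)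
    (h3 : 4 * (ϑ * β + α * ϑ + ϑ * ϑ) ≤ κ) (C : ℂ × ℂ → ℂ × ℂ)
    (hC : C = fun p => Ch T m (p.1 + I * (m₀ + m₁ * p.2)) (b p.2)) :
    (∀ p ∈ ball (0 : ℂ × ℂ) R, AnalyticAt ℂ C p ∧ ‖C p - C 0‖ ≤ M₀ + r) ∧
      ‖fderiv ℂ C 0‖ ≤ (α + β + 2 * ϑ) * (|m₁| + 1) * ε ∧
      κ / 2 * ε ^ 2 ≤ ‖det2 (fderiv ℂ C 0)‖ := by
  obtain ⟨n0, b0, -⟩ := hN 0 (by simpa using R0)
  have a0 := n0.a0
  have m1' : (1 : ℝ) ≤ m := by exact_mod_cast m1
  have r0 : 0 < r := by nlinarith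
  have α0 : 0 < α := pos_of_mul_pos_left (a0.trans_le ha) ε0.le
  have β0 : 0 ≤ β := nonneg_of_mul_nonneg_left ((norm_nonneg _).trans hβ) ε0
  have t0 : ‖I * (m₀ : ℂ)‖ = |m₀| := by simp
  have A : ∀ p ∈ ball (0 : ℂ × ℂ) R, AnalyticAt ℂ C p ∧ ‖C p - b p.2‖ ≤ r / 4 := fun p hp => by
    have p0 := mem_ball_zero_iff.1 hp
    have p1 := norm_fst_le p
    have p2 := norm_snd_le p
    obtain ⟨n, bn, -⟩ := hN p.2 (by linarith)
    have hb : b p.2 ∈ ball (b p.2) (r / 2) := mem_ball_self (by linarith)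
    subst hC
    refine ⟨(n.an_Ch hm (q := (p.1 + I * (m₀ + m₁ * p.2), b p.2)) hb).comp₂
      (f := fun p : ℂ × ℂ => p.1 + I * (m₀ + m₁ * p.2)) (g := fun p : ℂ × ℂ => b p.2)
      (analyticAt_fst.add (analyticAt_const.mul (analyticAt_const.add
        (analyticAt_const.mul analyticAt_snd)))) (bn.comp analyticAt_snd), (n.bd_Ch hm hb ?_).trans (by linarith)⟩
    refine (norm_add_le _ _).trans ?_
    rw [norm_mul, norm_I, one_mul]
    have := norm_add_le (m₀ : ℂ) (m₁ * p.2)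
    rw [norm_mul, Complex.norm_real, Complex.norm_real, Real.norm_eq_abs, Real.norm_eq_abs] at this
    nlinarith [abs_nonneg m₁]
  obtain ⟨c1, c2⟩ := cols_Ch (t₀ := I * m₀) n0 hm m1 b0.differentiableAt.hasDerivAt
    (by rwa [t0])
  set Φ : ℂ × ℂ → ℂ × ℂ := fun q => Ch T m (q.1 + I * m₀) (b q.2) with hΦ
  rw [t0] at c1 c2
  have e1 : 14 * a * (|m₀| + 2) / m ≤ ϑ * ε := by
    rw [div_le_iff₀ (by positivity)]
    have : 14 * a * (|m₀| + 2) ≤ 14 * (α * ε) * (|m₀| + 2) := by gcongr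
    nlinarith
  have e2 : 28 * a * |m₀| / r * ‖deriv b 0‖ ≤ ϑ * ε := by
    calc _ ≤ 28 * a * |m₀| / r * (β * ε) := by gcongr
      _ = 28 * a * |m₀| * β / r * ε := by ring
      _ ≤ _ := by gcongr; rwa [div_le_iff₀ r0]
  obtain ⟨d1, d2⟩ := det_cols (fderiv ℂ Φ 0) ((n0.bd _ (mem_ball_self r0)).trans ha) hβ
    (c1.trans e1) (c2.trans e2)
  let L : ℂ × ℂ →L[ℂ] ℂ × ℂ := ContinuousLinearMap.id ℂ _ + (I * m₁) •
    (ContinuousLinearMap.inl ℂ ℂ ℂ).comp (ContinuousLinearMap.snd ℂ ℂ ℂ)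
  have Lp : ∀ p : ℂ × ℂ, L p = (p.1 + I * m₁ * p.2, p.2) := fun p => by ext <;> simp [L]
  have CL : C = Φ ∘ L := by
    subst hC; funext p; simp only [Function.comp, hΦ, Lp]; congr 1; ring
  have dΦ : DifferentiableAt ℂ Φ (L 0) := by
    rw [map_zero]
    exact ((n0.an_Ch hm (q := ((0 : ℂ × ℂ).1 + I * m₀, b (0 : ℂ × ℂ).2))
      (mem_ball_self (by linarith))).comp₂ (f := fun p : ℂ × ℂ => p.1 + I * m₀)
      (g := fun p : ℂ × ℂ => b p.2) (analyticAt_fst.add analyticAt_const)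
      (AnalyticAt.comp (g := b) (f := fun p : ℂ × ℂ => p.2) (x := 0) b0
        analyticAt_snd)).differentiableAt
  have D : fderiv ℂ C 0 = (fderiv ℂ Φ 0).comp L := by
    rw [CL, fderiv_comp _ dΦ L.differentiableAt, map_zero, L.fderiv]
  have nL : ‖L‖ ≤ |m₁| + 1 := ContinuousLinearMap.opNorm_le_bound _ (by positivity) fun p => by
    have p1 := norm_fst_le p
    have p2 := norm_snd_le p
    rw [Lp, Prod.norm_def]
    refine max_le ((norm_add_le _ _).trans ?_) (by nlinarith [abs_nonneg m₁, norm_nonneg p])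
    simp only [norm_mul, norm_I, one_mul, Complex.norm_real, Real.norm_eq_abs]
    nlinarith [abs_nonneg m₁]
  refine ⟨fun p hp => ⟨(A p hp).1, ?_⟩, ?_, ?_⟩
  · have := (A p hp).2
    have := (A 0 (mem_ball_self R0)).2
    have := (hN p.2 ((norm_snd_le p).trans_lt (mem_ball_zero_iff.1 hp))).2.2
    have e : C p - C 0 = (C p - b p.2) + (b p.2 - b 0) - (C 0 - b (0 : ℂ × ℂ).2) := by simp
    have := norm_sub_le ((C p - b p.2) + (b p.2 - b 0)) (C 0 - b (0 : ℂ × ℂ).2)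
    have := norm_add_le (C p - b p.2) (b p.2 - b 0)
    rw [e]; linarith
  · rw [D]
    refine (ContinuousLinearMap.opNorm_comp_le _ _).trans ?_
    calc _ ≤ (α * ε + β * ε + ϑ * ε + ϑ * ε) * (|m₁| + 1) :=
          mul_le_mul d1 nL (norm_nonneg _) ((norm_nonneg _).trans d1)
      _ = _ := by ring
  · have : det2 (fderiv ℂ C 0) = det2 (fderiv ℂ Φ 0) := by
      have x : fderiv ℂ Φ 0 (L (0, 1)) = (I * m₁) • fderiv ℂ Φ 0 (1, 0) + fderiv ℂ Φ 0 (0, 1) := by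
        rw [ap2, Lp]; simp
      have y : L (1, 0) = (1, 0) := by rw [Lp]; simp
      rw [D]
      simp only [det2, ContinuousLinearMap.comp_apply, x, y, Prod.fst_add, Prod.snd_add,
        Prod.smul_fst, Prod.smul_snd, smul_eq_mul]
      ring
    rw [this]
    have := norm_sub_norm_le ((T (b 0) - b 0).1 * (deriv b 0).2 - (deriv b 0).1 * (T (b 0) - b 0).2)
      (det2 (fderiv ℂ Φ 0))
    rw [norm_sub_rev] at d2
    nlinarith [mul_le_mul_of_nonneg_right h3 (sq_nonneg ε)]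

end Vale.Agent.P097F.N
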