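import Vale.Agent.P097F.N.Lev
import Vale.Agent.P097F.N.FoDefs
import Vale.Agent.P097F.N.Defs

/-!
# P097F/N: the step map in the coordinates of an obstacle; passage of states
-/

set_option linter.all false

noncomputable section

namespace Vale.Agent.P097F.N

open Filter Topology Set Metric Complex Vale.Agent.P097D Vale.Agent.P097N

/-- from `(Y, v)` to `(Y, δ)` -/
def yd (g : ℂ → ℂ) (p : ℂ × ℂ) : ℂ × ℂ := (p.1, p.2 * g p.1 / 2)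

/-- from `(Y, δ)` to `(Y, v)` -/
def yv (g : ℂ → ℂ) (P : ℂ × ℂ) : ℂ × ℂ := (P.1, 2 * P.2 / g P.1)

/-- the coordinates `(η, J)` of a state `(Y, v)` -/
def La (g : ℂ → ℂ) (p : ℂ × ℂ) : ℂ × ℂ :=
  (g p.1 * sin (p.2 * g p.1 / 2), 24 * SS (p.2 * g p.1 / 2) / g p.1 ^ 3)

/-- the state with the coordinates `q` -/
def Xv (g : ℂ → ℂ) (Ξ : ℂ × ℂ → ℂ × ℂ) (q : ℂ × ℂ) : ℂ × ℂ := yv g (Ξ q)

theorem yv_yd {g : ℂ → ℂ} {p : ℂ × ℂ} (h : g p.1 ≠ 0) : yv g (yd g p) = p :=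
  Prod.ext rfl (by simp only [yv, yd]; field_simp)

theorem yd_yv {g : ℂ → ℂ} {P : ℂ × ℂ} (h : g P.1 ≠ 0) : yd g (yv g P) = P :=
  Prod.ext rfl (by simp only [yv, yd]; field_simp)

theorem yd_an {g : ℂ → ℂ} {p : ℂ × ℂ} (h : AnalyticAt ℂ g p.1) : AnalyticAt ℂ (yd g) p :=
  analyticAt_fst.prod ((analyticAt_snd.mul (h.comp analyticAt_fst)).div analyticAt_const two_ne_zero)

theorem La_an {g : ℂ → ℂ} {p : ℂ × ℂ} (h : AnalyticAt ℂ g p.1) (h0 : g p.1 ≠ 0) :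
    AnalyticAt ℂ (La g) p := by
  have a1 : AnalyticAt ℂ (fun p : ℂ × ℂ => g p.1) p := h.comp analyticAt_fst
  have a2 : AnalyticAt ℂ (fun p : ℂ × ℂ => p.2 * g p.1 / 2) p :=
    (analyticAt_snd.mul a1).div analyticAt_const two_ne_zero
  exact (a1.mul (analyticAt_sin.comp a2)).prod
    ((analyticAt_const.mul ((SS_an _).comp a2)).div (a1.pow 3) (pow_ne_zero _ h0))

theorem Fm_La {g : ℂ → ℂ} {p : ℂ × ℂ} (h0 : g p.1 ≠ 0) :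
    Fm g (yd g p, (La g p).2) = (((La g p).1, 0), (La g p).2) := by
  simp only [Fm, yd, La]
  rw [div_mul_cancel₀ _ (pow_ne_zero _ h0), sub_self]

theorem tay {E F : Type*} [NormedAddCommGroup E] [NormedSpace ℂ E] [NormedAddCommGroup F]
    [NormedSpace ℂ F] {D : E → F} {x y : E} {ρ m : ℝ} (hD : DifferentiableOn ℂ D (ball x ρ))
    (hm : ∀ u ∈ ball x ρ, ‖D u‖ ≤ m) (hy : y ∈ ball x ρ) :
    ‖fderiv ℂ D x‖ ≤ 2 * m / ρ ∧ ‖D y - D x‖ ≤ 2 * m / ρ * ‖y - x‖ ∧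
      ‖D y - D x - fderiv ℂ D x (y - x)‖ ≤ 4 * m * (‖y - x‖ / ρ) ^ 2 := by
  have h0 : 0 < ρ := nonempty_ball.1 ⟨_, hy⟩
  have m1 : ∀ u ∈ ball x ρ, ‖D u - D x‖ ≤ 2 * m := fun u hu => by
    linarith [norm_sub_le (D u) (D x), hm u hu, hm x (mem_ball_self h0)]
  have mp : MapsTo D (ball x ρ) (closedBall (D x) (2 * m)) := fun u hu =>
    mem_closedBall_iff_norm.2 (m1 u hu)
  have k1 := norm_fderiv_le_div_of_mapsTo_ball hD mp h0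
  have k0 := dist_le_div_mul_dist_of_mapsTo_ball hD mp hy
  rw [dist_eq_norm, dist_eq_norm] at k0
  have k2 := dist_le_mul_div_pow_of_mapsTo_ball_of_isLittleO
    (f := fun u => D u - fderiv ℂ D x (u - x)) (c := x) (z := y) (R₁ := ρ) (R₂ := 4 * m)
    (n := 1) (hD.sub (by fun_prop)) (fun u hu => by
      rw [mem_closedBall_iff_norm, sub_self, map_zero, sub_zero, sub_right_comm]
      have a1 := norm_sub_le (D u - D x) (fderiv ℂ D x (u - x))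
      have a2 : ‖fderiv ℂ D x (u - x)‖ ≤ 2 * m / ρ * ρ := ((fderiv ℂ D x).le_opNorm _).trans
        (mul_le_mul k1 (mem_ball_iff_norm.1 hu).le (norm_nonneg _) ((norm_nonneg _).trans k1))
      rw [div_mul_cancel₀ _ h0.ne'] at a2
      linarith [m1 u hu]) (by
      have := (hD.differentiableAt (ball_mem_nhds x h0)).hasFDerivAt.isLittleO.norm_right
      simpa only [sub_self, map_zero, sub_zero, pow_one, sub_right_comm] using this) hy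
  rw [dist_eq_norm, dist_eq_norm, sub_self, map_zero, sub_zero, sub_right_comm] at k2
  exact ⟨k1, k0, k2⟩

/-- the model field in the coordinates -/
theorem der_VF {g : ℂ → ℂ} {p : ℂ × ℂ} {J : ℂ} (h : AnalyticAt ℂ g p.1) (h0 : g p.1 ≠ 0)
    (h1 : (yd g p).2 ≠ 0) (h2 : sin (yd g p).2 ≠ 0) (hJ : J * g p.1 ^ 3 = 24 * SS (yd g p).2) :
    fderiv ℂ (fun u => Fm g (yd g u, J)) p (VF g p) =
      ((deriv g p.1 * Dn (yd g p).2 / (g p.1 * sin (yd g p).2), 0), 0) := by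
  have aF : AnalyticAt ℂ (Fm g) (yd g p, J) := Fm_an h
  have l : HasDerivAt (fun t : ℂ => p + t • VF g p) (VF g p) 0 := by
    simpa using ((hasDerivAt_id (0 : ℂ)).smul_const (VF g p)).const_add p
  have aH : AnalyticAt ℂ (fun u => Fm g (yd g u, J)) p :=
    aF.comp (f := fun u => (yd g u, J)) ((yd_an h).prod analyticAt_const)
  have d0 := HasFDerivAt.comp_hasDerivAt_of_eq (hl := aH.differentiableAt.hasFDerivAt)
    (hf := l) (hy := by simp)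
  have lin : ∀ a b : ℂ, HasDerivAt (fun t : ℂ => a + t * b) b 0 := fun a b => by
    simpa using ((hasDerivAt_id (0 : ℂ)).mul_const b).const_add a
  have d1 := HasDerivAt.comp_of_eq (hh₂ := h.differentiableAt.hasDerivAt)
    (hh := lin p.1 (VF g p).1) (hy := by simp)
  have d2 := ((lin p.1 (VF g p).1).prodMk (((lin p.2 (VF g p).2).mul d1).div_const 2)).prodMk
    (hasDerivAt_const (0 : ℂ) J)
  have d3 := HasFDerivAt.comp_hasDerivAt_of_eq (hl := aF.differentiableAt.hasFDerivAt)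
    (hf := d2) (hy := by simp [yd])
  rw [d0.unique d3, Fm_der (x := (yd g p, J)) h]
  obtain ⟨δ, hδ⟩ : ∃ δ, δ = p.2 * g p.1 / 2 := ⟨_, rfl⟩
  have hv : p.2 = 2 * δ / g p.1 := by rw [hδ]; field_simp
  have hJ' : J = 24 * SS δ / g p.1 ^ 3 := by
    rw [eq_div_iff (pow_ne_zero _ h0), hδ]
    exact hJ
  simp only [yd, ← hδ] at h1 h2
  simp only [yd, VF, Function.comp_apply, zero_mul, add_zero, ← hδ, zero_add, Prod.mk.injEq,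
    and_true]
  rw [hv, hJ']
  simp only [ps, Dn, SS]
  constructor
  · field_simp
    ring
  · field_simp
    ring

namespace Lev

variable {g : ℂ → ℂ} {Ξ : ℂ × ℂ → ℂ × ℂ} {P₀ : ℂ × ℂ} {J₀ κ : ℂ} {r s B : ℝ}
  (L : Lev g Ξ P₀ J₀ κ r s B)
include L

theorem s0 : 0 < s := by linarith [L.r0, L.rs]

theorem mem' {q : ℂ × ℂ} (hq : q ∈ ball ((0, J₀) : ℂ × ℂ) (2 * r)) :
    Ξ q ∈ ball P₀ s ∧ (Ξ q).1 ∈ ball P₀.1 (2 * s) ∧ (Ξ q).2 ∈ ball P₀.2 (2 * s) ∧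
      g (Ξ q).1 * sin (Ξ q).2 = q.1 ∧ q.2 * g (Ξ q).1 ^ 3 = 24 * SS (Ξ q).2 ∧
      (Ξ q, q.2) ∈ ball (P₀, J₀) s := by
  have := L.s0
  obtain ⟨a1, a2⟩ := L.mem q hq
  have a3 := mem_ball_prod.1 (ball_subset_ball (show s / 2 ≤ 2 * s by linarith) a1)
  have a4 : Ξ q ∈ ball P₀ s := ball_subset_ball (by linarith) a1
  exact ⟨a4, a3.1, a3.2, congrArg (·.1.1) a2, sub_eq_zero.1 (congrArg (·.1.2) a2),
    mem_ball_prod.2 ⟨a4, mem_ball_iff_norm.2 (by linarith [(mem_bd.1 hq).2, L.rs, L.r0])⟩⟩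

theorem ne {P : ℂ × ℂ} (hP : P ∈ ball P₀ s) : deriv g P.1 * Dn P.2 ≠ 0 := fun h => by
  have := L.lin P hP
  rw [h, inv_zero, zero_sub, norm_neg, norm_mul, Complex.norm_ofNat] at this
  linarith [norm_pos_iff.2 L.κ0]

/-- the clock of the patch -/
theorem clk : Clk (clk (fq g Ξ)) (fq g Ξ) κ J₀ r := by
  refine clk_spec L.r0 (fun q hq => ?_) fun q hq => ?_
  · obtain ⟨a1, a2, -⟩ := L.mem' hq
    exact analyticAt_fst.mul (((((L.ag _ a2).deriv).comp (f := fun q => (Ξ q).1)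
      (analyticAt_fst.comp (L.an q hq))).mul ((Dn_an _).comp (f := fun q => (Ξ q).2)
      (analyticAt_snd.comp (L.an q hq)))).inv (L.ne a1))
  · rw [fq, mul_comm (2 * κ), ← mul_sub, norm_mul]
    have := mul_le_mul_of_nonneg_left (L.lin _ (L.mem' hq).1) (norm_nonneg q.1)
    linarith

theorem lipΞ {q q' : ℂ × ℂ} (hq : q ∈ ball ((0, J₀) : ℂ × ℂ) (2 * r))
    (hq' : q' ∈ ball ((0, J₀) : ℂ × ℂ) (2 * r)) : ‖Ξ q - Ξ q'‖ ≤ B * ‖q - q'‖ := by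
  have k := L.inj _ (L.mem' hq).2.2.2.2.2 _ (L.mem' hq').2.2.2.2.2
  rw [(L.mem q hq).2, (L.mem q' hq').2] at k
  refine ((norm_fst_le ((Ξ q, q.2) - (Ξ q', q'.2))).trans k).trans_eq ?_
  simp [Prod.norm_def]

/-- a state near the obstacle is the state of its coordinates -/
theorem xi_la {p : ℂ × ℂ} (h0 : g p.1 ≠ 0) (h1 : yd g p ∈ ball P₀ s)
    (h2 : La g p ∈ ball ((0, J₀) : ℂ × ℂ) (2 * r)) : Ξ (La g p) = yd g p ∧ Xv g Ξ (La g p) = p := by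
  have m := (L.mem' h2).2.2.2.2.2
  have k := L.inj _ m (yd g p, (La g p).2) (mem_ball_prod.2 ⟨h1, (mem_ball_prod.1 m).2⟩)
  rw [(L.mem _ h2).2, Fm_La h0, sub_self, norm_zero, mul_zero, norm_le_zero_iff, sub_eq_zero] at k
  have e : Ξ (La g p) = yd g p := congrArg Prod.fst k
  exact ⟨e, by rw [Xv, e, yv_yd h0]⟩

theorem g_lo {q : ℂ × ℂ} (hq : q ∈ ball ((0, J₀) : ℂ × ℂ) (2 * r)) :
    ‖q.1‖ ≤ B * ‖g (Ξ q).1‖ ∧ ‖q.1‖ ≤ B * ‖sin (Ξ q).2‖ := by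
  obtain ⟨-, a2, a3, a4, -⟩ := L.mem' hq
  rw [← a4, norm_mul]
  exact ⟨by rw [mul_comm B]; gcongr; exact (L.bd _ a3).2.2, by gcongr; exact (L.bg _ a2).1⟩

theorem g_ne {q : ℂ × ℂ} (hq : q ∈ ball ((0, J₀) : ℂ × ℂ) (2 * r)) (h : q.1 ≠ 0) :
    g (Ξ q).1 ≠ 0 ∧ sin (Ξ q).2 ≠ 0 :=
  mul_ne_zero_iff.1 ((L.mem' hq).2.2.2.1 ▸ h)

theorem la_xv {q : ℂ × ℂ} (hq : q ∈ ball ((0, J₀) : ℂ × ℂ) (2 * r)) (h : q.1 ≠ 0) :
    yd g (Xv g Ξ q) = Ξ q ∧ La g (Xv g Ξ q) = q := by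
  have h0 := (L.g_ne hq h).1
  obtain ⟨-, -, -, a4, a5, -⟩ := L.mem' hq
  have e : yd g (Xv g Ξ q) = Ξ q := yd_yv h0
  have e2 : (Xv g Ξ q).2 * g (Xv g Ξ q).1 / 2 = (Ξ q).2 := congrArg Prod.snd e
  refine ⟨e, Prod.ext ?_ ?_⟩
  · simp only [La, e2]
    exact a4
  · simp only [La, e2]
    exact (div_eq_iff (pow_ne_zero _ h0)).2 a5.symm

theorem xv_an {q : ℂ × ℂ} (hq : q ∈ ball ((0, J₀) : ℂ × ℂ) (2 * r)) (h : q.1 ≠ 0) :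
    AnalyticAt ℂ (Xv g Ξ) q := by
  have a1 : AnalyticAt ℂ (fun q => (Ξ q).1) q := analyticAt_fst.comp (L.an q hq)
  exact a1.prod ((analyticAt_const.mul (analyticAt_snd.comp (L.an q hq))).div
    ((L.ag _ (L.mem' hq).2.1).comp (f := fun q => (Ξ q).1) a1) (L.g_ne hq h).1)

theorem lipg {y y' : ℂ} (hy : y ∈ ball P₀.1 (2 * s)) (hy' : y' ∈ ball P₀.1 (2 * s)) :
    ‖g y' - g y‖ ≤ B * ‖y' - y‖ :=
  (convex_ball _ _).norm_image_sub_le_of_norm_deriv_le (fun x hx => (L.ag x hx).differentiableAt)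
    (fun x hx => (L.bg x hx).2) hy hy'

/-- the states are Lipschitz in the coordinates at clearance `σ` -/
theorem lipX {q q' : ℂ × ℂ} {σ : ℝ} (hq : q ∈ ball ((0, J₀) : ℂ × ℂ) (2 * r))
    (hq' : q' ∈ ball ((0, J₀) : ℂ × ℂ) (2 * r)) (σ0 : 0 < σ) (σ1 : σ ≤ 1) (h : σ ≤ ‖q.1‖)
    (h' : σ ≤ ‖q'.1‖) : ‖Xv g Ξ q - Xv g Ξ q'‖ ≤ 4 * B ^ 5 / σ ^ 2 * ‖q - q'‖ := by
  have B1 := L.B1
  have k := L.lipΞ hq hq'
  have k1 := (norm_fst_le (Ξ q - Ξ q')).trans k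
  have k2 := (norm_snd_le (Ξ q - Ξ q')).trans k
  have g1 := h.trans (L.g_lo hq).1
  have g2 := h'.trans (L.g_lo hq').1
  have n1 : 0 < ‖g (Ξ q).1‖ := by by_contra c; nlinarith [norm_nonneg (g (Ξ q).1)]
  have n2 : 0 < ‖g (Ξ q').1‖ := by by_contra c; nlinarith [norm_nonneg (g (Ξ q').1)]
  have k3 := (L.lipg (L.mem' hq).2.1 (L.mem' hq').2.1)
  rw [norm_sub_rev (Ξ q').1] at k3
  have b1 := (L.bd _ (L.mem' hq').2.2.1).1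
  have b2 := (L.bg _ (L.mem' hq').2.1).1
  have D0 := norm_nonneg (q - q')
  have p1 : B ≤ 4 * B ^ 5 / σ ^ 2 := by
    rw [le_div_iff₀ (by positivity)]
    nlinarith [one_le_pow₀ B1 (n := 4), pow_le_one₀ σ0.le σ1 (n := 2), pow_succ B 4]
  rw [Prod.norm_def]
  refine max_le (k1.trans (by gcongr)) ?_
  have e : (Xv g Ξ q - Xv g Ξ q').2 = 2 * (((Ξ q).2 - (Ξ q').2) * g (Ξ q').1 +
      (Ξ q').2 * (g (Ξ q').1 - g (Ξ q).1)) / (g (Ξ q).1 * g (Ξ q').1) := by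
    have := norm_pos_iff.1 n1
    have := norm_pos_iff.1 n2
    simp only [Xv, yv, Prod.snd_sub]
    field_simp
    ring
  have u1 : ‖((Ξ q).2 - (Ξ q').2) * g (Ξ q').1 + (Ξ q').2 * (g (Ξ q').1 - g (Ξ q).1)‖ ≤
      B * ‖q - q'‖ * B + B * (B * (B * ‖q - q'‖)) := by
    refine (norm_add_le _ _).trans ?_
    rw [norm_mul, norm_mul]
    gcongr
    · exact k2
    · exact k3.trans (by gcongr; exact k1)
  have u2 : σ * σ ≤ B * ‖g (Ξ q).1‖ * (B * ‖g (Ξ q').1‖) := by gcongr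
  rw [e, norm_div, norm_mul, norm_mul, Complex.norm_ofNat, div_mul_eq_mul_div,
    div_le_div_iff₀ (by positivity) (by positivity)]
  have u3 : B * ‖q - q'‖ * B ≤ B * (B * (B * ‖q - q'‖)) := by
    nlinarith [mul_nonneg (mul_nonneg (by linarith : 0 ≤ B) (by linarith : 0 ≤ B)) D0]
  calc _ ≤ 2 * (2 * (B * (B * (B * ‖q - q'‖)))) * (B * ‖g (Ξ q).1‖ * (B * ‖g (Ξ q').1‖)) := by
        rw [sq]
        gcongr
        linarith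
    _ = _ := by ring

theorem v_bd {q : ℂ × ℂ} {σ : ℝ} (hq : q ∈ ball ((0, J₀) : ℂ × ℂ) (2 * r)) (σ0 : 0 < σ)
    (h : σ ≤ ‖q.1‖) : ‖(Xv g Ξ q).2‖ ≤ 2 * B ^ 2 / σ ∧ 2 ≤ B ^ 2 * ‖(Xv g Ξ q).2‖ := by
  have B1 := L.B1
  have g1 := h.trans (L.g_lo hq).1
  have n1 : 0 < ‖g (Ξ q).1‖ := by by_contra c; nlinarith [norm_nonneg (g (Ξ q).1)]
  obtain ⟨b1, b2, -⟩ := L.bd _ (L.mem' hq).2.2.1
  have b3 := (L.bg _ (L.mem' hq).2.1).1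
  have e : ‖(Xv g Ξ q).2‖ = 2 * ‖(Ξ q).2‖ / ‖g (Ξ q).1‖ := by simp [Xv, yv]
  rw [e, div_le_div_iff₀ n1 σ0, ← mul_div_assoc, le_div_iff₀ n1]
  constructor
  · calc _ ≤ 2 * B * (B * ‖g (Ξ q).1‖) := by gcongr
      _ = _ := by ring
  · nlinarith

theorem near {q u : ℂ × ℂ} {σ : ℝ} (hq : q ∈ An J₀ r σ) (σ0 : 0 < σ) (σ1 : σ ≤ 1)
    (hu : u ∈ ball (Xv g Ξ q) (σ * s / (4 * B ^ 3))) : u.1 ∈ ball P₀.1 (2 * s) ∧
      yd g u ∈ ball P₀ s ∧ σ ≤ 2 * B * ‖g u.1‖ := by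
  have B1 := L.B1
  have r0 := L.r0
  have s0 := L.s0
  have hq2 : q ∈ ball ((0, J₀) : ℂ × ℂ) (2 * r) := ball_subset_ball (by linarith) hq.1
  have η0 : q.1 ≠ 0 := norm_pos_iff.1 (σ0.trans hq.2)
  have m2 := (L.mem' hq2).2.1
  have e1 := (L.la_xv hq2 η0).1
  have v1 := (L.v_bd hq2 σ0 hq.2.le).1
  obtain ⟨ϱ, hϱ⟩ : ∃ ϱ, ϱ = σ * s / (4 * B ^ 3) := ⟨_, rfl⟩
  rw [← hϱ] at hu
  have ϱ0 : 0 < ϱ := by rw [hϱ]; positivity
  have ϱ1 : B * (B * (B * ϱ)) = σ * s / 4 := by rw [hϱ]; field_simp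
  have σs : σ * s ≤ s := mul_le_of_le_one_left s0.le σ1
  have σs' : σ * s ≤ σ := mul_le_of_le_one_right σ0.le L.s1
  have c1 : ϱ ≤ B * ϱ := le_mul_of_one_le_left ϱ0.le B1
  have c2 : B * ϱ ≤ B * (B * ϱ) := le_mul_of_one_le_left (by positivity) B1
  have c3 : B * (B * ϱ) ≤ B * (B * (B * ϱ)) := le_mul_of_one_le_left (by positivity) B1
  obtain ⟨p, hp⟩ : ∃ p, p = Xv g Ξ q := ⟨_, rfl⟩
  rw [← hp] at hu e1 v1
  have p1 : (Ξ q).1 = p.1 := by rw [hp]; rfl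
  obtain ⟨u1, u2⟩ := mem_ball_prod.1 hu
  rw [mem_ball_iff_norm] at u1 u2
  obtain ⟨w1, w2⟩ := mem_ball_prod.1 (L.mem q hq2).1
  rw [mem_ball_iff_norm] at w1 w2
  rw [p1] at w1 m2
  have a0 : ‖u.1 - P₀.1‖ < s := by linarith [norm_sub_le_norm_sub_add_norm_sub u.1 p.1 P₀.1]
  have a1 : u.1 ∈ ball P₀.1 (2 * s) := mem_ball_iff_norm.2 (by linarith)
  have a2 : ‖g u.1 - g p.1‖ ≤ B * ϱ := (L.lipg m2 a1).trans (by gcongr)
  refine ⟨a1, mem_ball_prod.2 ⟨mem_ball_iff_norm.2 a0, mem_ball_iff_norm.2 ?_⟩, ?_⟩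
  · have a3 : (yd g u).2 - (Ξ q).2 = ((u.2 - p.2) * g u.1 + p.2 * (g u.1 - g p.1)) / 2 := by
      rw [← e1]
      simp only [yd]
      ring
    have a4 : ‖(u.2 - p.2) * g u.1 + p.2 * (g u.1 - g p.1)‖ ≤ ϱ * B + 2 * B ^ 2 / σ * (B * ϱ) := by
      refine (norm_add_le _ _).trans ?_
      rw [norm_mul, norm_mul]
      gcongr
      exact (L.bg _ a1).1
    have a5 : 2 * B ^ 2 / σ * (B * ϱ) = s / 2 := by rw [hϱ]; field_simp; ring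
    have a7 := norm_sub_le_norm_sub_add_norm_sub (yd g u).2 (Ξ q).2 P₀.2
    rw [a3, norm_div, Complex.norm_ofNat] at a7
    linarith
  · have b1 := hq.2.le.trans (L.g_lo hq2).1
    have b2 := norm_sub_norm_le (g p.1) (g u.1)
    rw [norm_sub_rev] at b2
    rw [p1] at b1
    have b3 : B * ‖g p.1‖ ≤ B * (‖g u.1‖ + B * ϱ) := by gcongr; linarith
    have b4 : 0 ≤ B * ‖g u.1‖ := by positivity
    linarith

theorem keyF {q p' : ℂ × ℂ} {ε : ℂ} {σ x y : ℝ} (hq : q ∈ An J₀ r σ) (σ0 : 0 < σ) (σ1 : σ ≤ 1)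
    (h1 : ‖p' - Xv g Ξ q - ε • VF g (Xv g Ξ q)‖ ≤ y * (σ * s / (4 * B ^ 3)))
    (h2 : ‖p' - Xv g Ξ q‖ ≤ x * (σ * s / (4 * B ^ 3)))
    (mp : p' ∈ ball (Xv g Ξ q) (σ * s / (4 * B ^ 3))) :
    ‖Fm g (yd g p', q.2) - ((q.1, 0), q.2)‖ ≤ 2 * B * x ∧
    ‖Fm g (yd g p', q.2) - ((q.1, 0), q.2) -
      ε • (((deriv g (Ξ q).1 * Dn (Ξ q).2 / q.1, 0), 0) : (ℂ × ℂ) × ℂ)‖ ≤
      4 * B * x ^ 2 + 2 * B * y := by
  have B1 := L.B1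
  have r0 := L.r0
  have s0 := L.s0
  have hq2 : q ∈ ball ((0, J₀) : ℂ × ℂ) (2 * r) := ball_subset_ball (by linarith) hq.1
  have η0 : q.1 ≠ 0 := norm_pos_iff.1 (σ0.trans hq.2)
  obtain ⟨m1, m2, m3, m4, m5, m6⟩ := L.mem' hq2
  have e1 := (L.la_xv hq2 η0).1
  obtain ⟨n1, n2⟩ := L.g_ne hq2 η0
  have mu := fun u => L.near (u := u) hq σ0 σ1
  have ϱ0 : 0 < σ * s / (4 * B ^ 3) := by positivity
  generalize σ * s / (4 * B ^ 3) = ϱ at *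
  have p1 : (Xv g Ξ q).1 = (Ξ q).1 := rfl
  generalize Xv g Ξ q = p at *
  obtain ⟨t1, t2, t3⟩ := tay (D := fun u => Fm g (yd g u, q.2)) (m := B)
    (fun u hu => ((Fm_an (x := (yd g u, q.2)) (L.ag _ (mu u hu).1)).comp
      (f := fun u => (yd g u, q.2)) ((yd_an (L.ag _ (mu u hu).1)).prod
        analyticAt_const)).differentiableAt.differentiableWithinAt)
    (fun u hu => L.bF _ (ball_subset_ball (by linarith)
      (mem_ball_prod.2 ⟨(mu u hu).2.1, (mem_ball_prod.1 m6).2⟩))) mp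
  have δ0 : (Ξ q).2 ≠ 0 := fun h => n2 (by rw [h, sin_zero])
  have d := der_VF (J := q.2) (L.ag p.1 (by rwa [p1])) (by rwa [p1]) (by rwa [e1]) (by rwa [e1])
    (by rw [e1, p1]; exact m5)
  rw [e1, p1, m4] at d
  have F0 : Fm g (yd g p, q.2) = ((q.1, 0), q.2) := by rw [e1]; exact (L.mem q hq2).2
  simp only [F0] at t2 t3
  generalize fderiv ℂ (fun u => Fm g (yd g u, q.2)) p = A at *
  constructor
  · have a2 : 2 * B / ϱ * ‖p' - p‖ ≤ 2 * B / ϱ * (x * ϱ) := by gcongr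
    have a3 : 2 * B / ϱ * (x * ϱ) = 2 * B * x := by field_simp
    linarith
  · have a1 := (A.le_opNorm (p' - p - ε • VF g p)).trans
      (mul_le_mul t1 h1 (norm_nonneg _) (by positivity))
    rw [map_sub, map_smul, d] at a1
    have a2 : 4 * B * (‖p' - p‖ / ϱ) ^ 2 ≤ 4 * B * x ^ 2 := by
      gcongr
      rwa [div_le_iff₀ ϱ0]
    have a3 : 2 * B / ϱ * (y * ϱ) = 2 * B * y := by field_simp
    have a4 := norm_sub_le_norm_sub_add_norm_sub (Fm g (yd g p', q.2) - ((q.1, 0), q.2))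
      (A (p' - p)) (ε • (((deriv g (Ξ q).1 * Dn (Ξ q).2 / q.1, 0), 0) : (ℂ × ℂ) × ℂ))
    linarith

/-- one step of a map which follows the model field to first order -/
theorem one {q p' : ℂ × ℂ} {ε : ℂ} {σ x y E : ℝ} (hq : q ∈ An J₀ r σ) (σ0 : 0 < σ) (σ1 : σ ≤ 1)
    (h1 : ‖p' - Xv g Ξ q - ε • VF g (Xv g Ξ q)‖ ≤ y * (σ * s / (4 * B ^ 3)))
    (h2 : ‖p' - Xv g Ξ q‖ ≤ x * (σ * s / (4 * B ^ 3))) (hx : 2 * B * x < r)
    (hE : 4 * B * x ^ 2 + 2 * B * y ≤ E) (he : 8 * B ^ 3 * E / σ ^ 3 < r) :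
    AnalyticAt ℂ (La g) p' ∧ Xv g Ξ (La g p') = p' ∧
      ‖(La g p').2 - q.2‖ ≤ 8 * B ^ 3 * E / σ ^ 3 ∧
      ‖fq g Ξ q * ((La g p').1 - q.1) - ε‖ ≤ 8 * B ^ 3 * E / σ ^ 3 := by
  have B1 := L.B1
  have r0 := L.r0
  have s0 := L.s0
  have rs := L.rs
  have s1 := L.s1
  have hq2 : q ∈ ball ((0, J₀) : ℂ × ℂ) (2 * r) := ball_subset_ball (by linarith) hq.1
  have η0 : q.1 ≠ 0 := norm_pos_iff.1 (σ0.trans hq.2)
  have ϱ0 : 0 < σ * s / (4 * B ^ 3) := by positivity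
  have x0 : 0 ≤ x := nonneg_of_mul_nonneg_left ((norm_nonneg _).trans h2) ϱ0
  have x1 : x < 1 := by linarith [le_mul_of_one_le_left x0 B1]
  have mp : p' ∈ ball (Xv g Ξ q) (σ * s / (4 * B ^ 3)) :=
    mem_ball_iff_norm.2 (h2.trans_lt (mul_lt_of_lt_one_left ϱ0 x1))
  obtain ⟨n1, n2, g1⟩ := L.near hq σ0 σ1 mp
  obtain ⟨t, key⟩ := L.keyF hq σ0 σ1 h1 h2 mp
  replace key := key.trans hE
  have E0 : 0 ≤ E := (norm_nonneg _).trans key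
  have k1 : ‖(La g p').1 - q.1 - ε * (deriv g (Ξ q).1 * Dn (Ξ q).2 / q.1)‖ ≤ E :=
    ((norm_fst_le _).trans (norm_fst_le _)).trans key
  have k2 : ‖q.2 * g p'.1 ^ 3 - 24 * SS (yd g p').2‖ ≤ E := by
    have := ((norm_snd_le _).trans (norm_fst_le _)).trans key
    simpa [Fm, yd] using this
  have k3 : ‖(La g p').1 - q.1‖ ≤ 2 * B * x := ((norm_fst_le _).trans (norm_fst_le _)).trans t
  have g2 : g p'.1 ≠ 0 := fun h => by simp [h] at g1; linarith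
  have g0 := norm_pos_iff.2 g2
  have σ3 := pow_le_one₀ σ0.le σ1 (n := 3)
  have k4 : ‖(La g p').2 - q.2‖ ≤ 8 * B ^ 3 * E / σ ^ 3 := by
    have a1 : (La g p').2 - q.2 = -(q.2 * g p'.1 ^ 3 - 24 * SS (yd g p').2) / g p'.1 ^ 3 := by
      simp only [La, yd]
      field_simp
      ring
    rw [a1, norm_div, norm_neg, norm_pow, div_le_div_iff₀ (by positivity) (by positivity)]
    calc _ ≤ E * (2 * B * ‖g p'.1‖) ^ 3 := by gcongr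
      _ = _ := by ring
  obtain ⟨q1, q2⟩ := mem_bd.1 hq.1
  refine ⟨La_an (L.ag _ n1) g2, (L.xi_la g2 n2 (mem_bd.2
    ⟨by linarith [norm_le_norm_sub_add (La g p').1 q.1],
      by linarith [norm_sub_le_norm_sub_add_norm_sub (La g p').2 q.2 J₀]⟩)).2, k4, ?_⟩
  have a0 := L.ne (L.mem' hq2).1
  have a1 : fq g Ξ q * ((La g p').1 - q.1) - ε =
      fq g Ξ q * ((La g p').1 - q.1 - ε * (deriv g (Ξ q).1 * Dn (Ξ q).2 / q.1)) := by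
    rw [fq]
    generalize deriv g (Ξ q).1 * Dn (Ξ q).2 = D at a0
    field_simp
  have a2 : ‖fq g Ξ q‖ ≤ B := by
    have b1 := L.clk.lin q hq2
    have b2 := norm_le_norm_sub_add (fq g Ξ q) (2 * κ * q.1)
    rw [norm_mul, norm_mul, Complex.norm_ofNat] at b2
    have b3 : ‖κ‖ * ‖q.1‖ ≤ B * (1 / 4) := by
      have := L.κB
      gcongr
      linarith
    linarith
  rw [a1, norm_mul, le_div_iff₀ (by positivity)]
  have a4 : B ≤ 8 * B ^ 3 := by linarith [le_self_pow₀ B1 (n := 3) (by decide)]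
  calc _ ≤ 8 * B ^ 3 * E * 1 := by gcongr; linarith
    _ = _ := mul_one _

end Lev

theorem Patch.mono {T Λ Ξ : ℂ × ℂ → ℂ × ℂ} {τ f : ℂ × ℂ → ℂ} {κ J₀ ε : ℂ} {r σ e e' : ℝ}
    (H : Patch T Λ Ξ τ f κ J₀ ε r σ e) (h : e ≤ e') : Patch T Λ Ξ τ f κ J₀ ε r σ e' :=
  ⟨H.clk, ⟨H.stp.an, fun q hq => (H.stp.dJ q hq).trans h, fun q hq => (H.stp.dη q hq).trans h⟩,
    H.anT, H.li, H.cj⟩

/-- the patch of a curve -/
abbrev PatchG (T : ℂ × ℂ → ℂ × ℂ) (g : ℂ → ℂ) (Ξ : ℂ × ℂ → ℂ × ℂ) (κ J₀ ε : ℂ) (r σ e : ℝ) : Prop :=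
  Patch T (La g) (Xv g Ξ) (clk (fq g Ξ)) (fq g Ξ) κ J₀ ε r σ e

theorem Lev.rg {g Q : ℂ → ℂ} {Ξ : ℂ × ℂ → ℂ × ℂ} {P₀ : ℂ × ℂ} {J₀ κ : ℂ} {r s B M σ : ℝ}
    {U : Set ℂ} (L : Lev g Ξ P₀ J₀ κ r s B) (hU : ball P₀.1 (2 * s) ⊆ U)
    (hQ : ∀ z ∈ ball P₀.1 (2 * s), ‖Q z‖ ≤ M) (M0 : 0 ≤ M) (σ0 : 0 < σ) (σ1 : σ ≤ 1) {q : ℂ × ℂ}
    (hq : q ∈ ball ((0, J₀) : ℂ × ℂ) (2 * r)) (h : σ ≤ ‖q.1‖) :
    Rg g Q U s (2 * B + M) (σ / (2 * B ^ 2)) (Xv g Ξ q) := by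
  have B1 := L.B1
  have s0 := L.s0
  have η0 : q.1 ≠ 0 := norm_pos_iff.1 (σ0.trans_le h)
  have sb : closedBall (Xv g Ξ q).1 s ⊆ ball P₀.1 (2 * s) := closedBall_subset_ball' (by
    have : dist (Ξ q).1 P₀.1 < s := (mem_ball_prod.1 (L.mem' hq).1).1
    show s + dist (Ξ q).1 P₀.1 < 2 * s
    linarith)
  obtain ⟨v1, v2⟩ := L.v_bd hq σ0 h
  have e2 : (Xv g Ξ q).2 * g (Xv g Ξ q).1 / 2 = (Ξ q).2 := congrArg Prod.snd (L.la_xv hq η0).1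
  obtain ⟨b1, b2, -⟩ := L.bd _ (L.mem' hq).2.2.1
  have δ0 : (Ξ q).2 ≠ 0 := fun h => by simp [h] at b2; linarith
  refine ⟨sb.trans hU, fun z hz => ⟨by linarith [(L.bg z (sb hz)).1],
    by linarith [(L.bg z (sb hz)).2], by linarith [hQ z (sb hz)]⟩, ?_, by rwa [one_div_div], ?_, ?_⟩
  · rw [div_le_iff₀ (by positivity)]
    linarith
  · rw [show (Xv g Ξ q).2 * g (Xv g Ξ q).1 = 2 * (Ξ q).2 by rw [← e2]; ring, norm_mul,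
      Complex.norm_ofNat]
    linarith
  · rw [e2, snc, dslope_of_ne _ δ0, slope_def_field, sin_zero, sub_zero, sub_zero, norm_div,
      div_le_div_iff₀ (by positivity) (norm_pos_iff.2 δ0)]
    have := h.trans (L.g_lo hq).2
    calc _ ≤ B * ‖sin (Ξ q).2‖ * B := by gcongr
      _ ≤ _ := by nlinarith [mul_nonneg (norm_nonneg (sin (Ξ q).2)) (sq_nonneg B)]

/-- **PATCH**: the step and the backward step in the coordinates of the obstacle -/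
theorem patch (hFO : S_FO) {r s B M : ℝ} (r0 : 0 < r) (s0 : 0 < s) (B1 : 1 ≤ B) (M0 : 0 ≤ M) :
    ∃ c C c' C' : ℝ, 0 < c ∧ 1 ≤ C ∧ 0 < c' ∧ ∀ (θ h Q : ℂ → ℂ) (c₀ : ℂ) (U : Set ℂ) (ε : ℂ)
      (Ξ : ℂ × ℂ → ℂ × ℂ) (P₀ : ℂ × ℂ) (J₀ κ : ℂ) (σ : ℝ), Cv θ h Q c₀ U → ε ≠ 0 →
      Lev (gg θ ε) Ξ P₀ J₀ κ r s B → ball P₀.1 (2 * s) ⊆ U →
      (∀ z ∈ ball P₀.1 (2 * s), ‖Q z‖ ≤ M) → 0 < σ → σ ≤ 1 → ‖ε‖ ≤ c * σ ^ 8 →
      PatchG (TT θ h ε) (gg θ ε) Ξ κ J₀ ε r σ (C * ‖ε‖ ^ 2 / σ ^ 15) ∧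
      PatchG (TB θ h ε) (gg θ ε) Ξ κ J₀ (-ε) r σ (C * ‖ε‖ ^ 2 / σ ^ 15) ∧
      ∀ q ∈ ball ((0, J₀) : ℂ × ℂ) (2 * r), σ ≤ ‖q.1‖ →
        Fo θ h ε c' C' (σ / (2 * B ^ 2)) (Xv (gg θ ε) Ξ q) := by
  obtain ⟨c', C', c0, -, C1, F⟩ := hFO (2 * B + M) (by linarith)
  obtain ⟨A, hA⟩ : ∃ A, A = C' * (2 * B ^ 2) ^ 5 * (4 * B ^ 3) / s := ⟨_, rfl⟩
  obtain ⟨A', hA'⟩ : ∃ A', A' = C' * (2 * B ^ 2) ^ 10 * (4 * B ^ 3) / s := ⟨_, rfl⟩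
  have A0 : 0 < A := by rw [hA]; positivity
  have A0' : 0 < A' := by rw [hA']; positivity
  obtain ⟨C, hC⟩ : ∃ C, C = 4 * B * A ^ 2 + 2 * B * A' + 1 := ⟨_, rfl⟩
  have C0 : 1 ≤ C := by rw [hC]; linarith [show 0 < 4 * B * A ^ 2 + 2 * B * A' by positivity]
  obtain ⟨c, cp, u1, u2, u3, u4⟩ : ∃ c > 0, 2 * B * (A * c) < r ∧ 8 * B ^ 3 * C * c ^ 2 < r ∧
      c ≤ c' / (2 * B ^ 2) ^ 5 ∧ c ≤ c' / (2 * B ^ 2) * s := by
    have t : Tendsto (fun ω : ℝ => ω) (𝓝[>] 0) (𝓝 0) := tendsto_id.mono_left nhdsWithin_le_nhds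
    have v1 := ((t.const_mul A).const_mul (2 * B)).eventually_lt_const (u := r) (by simpa using r0)
    have v2 := ((t.pow 2).const_mul (8 * B ^ 3 * C)).eventually_lt_const (u := r)
      (by simpa using r0)
    have v3 := t.eventually_le_const (u := c' / (2 * B ^ 2) ^ 5) (by positivity)
    have v4 := t.eventually_le_const (u := c' / (2 * B ^ 2) * s) (by positivity)
    exact (eventually_mem_nhdsWithin.and (v1.and (v2.and (v3.and v4)))).exists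
  refine ⟨c, 8 * B ^ 3 * C, c', C', cp, by nlinarith [one_le_pow₀ B1 (n := 3)], c0,
    fun θ h Q c₀ U ε Ξ P₀ J₀ κ σ hC' ε0 L hU hQ σ0 σ1 hε => ?_⟩
  have pw : ∀ {m n : ℕ}, m ≤ n → σ ^ n ≤ σ ^ m := fun h => pow_le_pow_of_le_one σ0.le σ1 h
  have fo : ∀ q ∈ ball ((0, J₀) : ℂ × ℂ) (2 * r), σ ≤ ‖q.1‖ →
      Fo θ h ε c' C' (σ / (2 * B ^ 2)) (Xv (gg θ ε) Ξ q) := fun q hq hσ =>
    F θ h Q c₀ U ε s _ _ hC' ε0 (by positivity) (by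
      rw [div_le_one (by positivity)]
      nlinarith [one_le_pow₀ B1 (n := 2)]) (L.rg hU hQ M0 σ0 σ1 hq hσ)
      (hε.trans (by
        calc _ ≤ c' / (2 * B ^ 2) ^ 5 * σ ^ 5 :=
          mul_le_mul u3 (pw (by norm_num)) (by positivity) (by positivity)
          _ = _ := by ring))
      (hε.trans (by
        calc _ ≤ c' / (2 * B ^ 2) * s * σ ^ 1 :=
          mul_le_mul u4 (pw (by norm_num)) (by positivity) (by positivity)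
          _ = _ := by ring))
  obtain ⟨x, hx⟩ : ∃ x, x = ‖ε‖ / σ ^ 6 := ⟨_, rfl⟩
  have x0 : 0 ≤ x := by rw [hx]; positivity
  have x1 : x ≤ c * σ ^ 2 := by
    rw [hx, div_le_iff₀ (by positivity)]
    exact hε.trans_eq (by ring)
  have x2 : x ≤ c := x1.trans (mul_le_of_le_one_right cp.le (pow_le_one₀ σ0.le σ1))
  have ee : 8 * B ^ 3 * (C * x ^ 2) / σ ^ 3 = 8 * B ^ 3 * C * ‖ε‖ ^ 2 / σ ^ 15 := by
    rw [hx]
    field_simp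
  have key : ∀ (T : ℂ × ℂ → ℂ × ℂ) (ε' : ℂ), (∀ q ∈ An J₀ r σ, AnalyticAt ℂ T (Xv (gg θ ε) Ξ q) ∧
      ‖T (Xv (gg θ ε) Ξ q) - Xv (gg θ ε) Ξ q - ε' • VF (gg θ ε) (Xv (gg θ ε) Ξ q)‖ ≤
        C' * ‖ε‖ ^ 2 / (σ / (2 * B ^ 2)) ^ 10 ∧
      ‖T (Xv (gg θ ε) Ξ q) - Xv (gg θ ε) Ξ q‖ ≤ C' * ‖ε‖ / (σ / (2 * B ^ 2)) ^ 5) →
      PatchG T (gg θ ε) Ξ κ J₀ ε' r σ (8 * B ^ 3 * C * ‖ε‖ ^ 2 / σ ^ 15) := by
    intro T ε' hT
    have o := fun q (hq : q ∈ An J₀ r σ) => L.one (x := A * x) (y := A' * x ^ 2) (E := C * x ^ 2)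
      hq σ0 σ1 ((hT q hq).2.1.trans (by
        calc _ = A' * x ^ 2 * (σ * s / (4 * B ^ 3)) * σ := by rw [hA', hx]; field_simp
          _ ≤ _ := mul_le_of_le_one_right (by positivity) σ1))
      ((hT q hq).2.2.trans_eq (by rw [hA, hx]; field_simp))
      (lt_of_le_of_lt (by gcongr) u1) (by rw [hC]; nlinarith [sq_nonneg x]) (by
        refine lt_of_le_of_lt ?_ u2
        rw [div_le_iff₀ (by positivity)]
        calc _ ≤ 8 * B ^ 3 * (C * (c * σ ^ 2) ^ 2) := by gcongr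
          _ = 8 * B ^ 3 * C * c ^ 2 * σ ^ 4 := by ring
          _ ≤ _ := mul_le_mul_of_nonneg_left (pw (by norm_num)) (by positivity))
    rw [ee] at o
    exact ⟨L.clk, ⟨fun q hq => (((o q hq).1.comp (hT q hq).1).comp (L.xv_an
      (ball_subset_ball (by linarith) hq.1)
      (norm_pos_iff.1 (σ0.trans hq.2)))).differentiableAt.differentiableWithinAt,
      fun q hq => (o q hq).2.2.1, fun q hq => (o q hq).2.2.2⟩, fun q hq => (hT q hq).1,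
      fun q hq => (L.la_xv (ball_subset_ball (by linarith) hq.1)
        (norm_pos_iff.1 (σ0.trans hq.2))).2, fun q hq => (o q hq).2.1⟩
  have sub : ∀ q ∈ An J₀ r σ, q ∈ ball ((0, J₀) : ℂ × ℂ) (2 * r) := fun q hq =>
    ball_subset_ball (by linarith) hq.1
  exact ⟨key _ _ fun q hq => have f := fo q (sub q hq) hq.2.le; ⟨f.anT, f.exT, f.bdT⟩,
    key _ _ fun q hq => have f := fo q (sub q hq) hq.2.le
      ⟨f.anB, by rw [neg_smul, sub_neg_eq_add]; exact f.exB, f.bdB⟩, fo⟩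

/-- **PASS for states** -/
theorem Patch.pass {T Λ Ξ : ℂ × ℂ → ℂ × ℂ} {τ f : ℂ × ℂ → ℂ} {κ J₀ ε : ℂ} {r σ e d e₁ : ℝ}
    (H : Patch T Λ Ξ τ f κ J₀ ε r σ e) (h0 : 0 < ‖κ‖ * σ)
    (hd : ‖ε‖ + e ≤ ‖κ‖ * σ * d) (hdr : d < r) (he0 : 0 ≤ e) (he : e < r)
    (h1 : 2 * ‖κ‖ * r * e + 3 * ‖κ‖ * d ^ 2 + e ≤ e₁) {N : ℕ} {p : ℂ × ℂ} (hp : Ξ (Λ p) = p)
    (hq : Λ p ∈ ball ((0, J₀) : ℂ × ℂ) (2 * r)) (hJ : ‖(Λ p).2 - J₀‖ + N * e < r)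
    (hτ : ∀ j ≤ N, 5 / 4 * (‖κ‖ * σ ^ 2) + N * e₁ < ‖τ (Λ p) + j * ε‖ ∧
      ‖τ (Λ p) + j * ε‖ + N * e₁ < 3 / 4 * (‖κ‖ * r ^ 2)) :
    ∀ j ≤ N, AnalyticAt ℂ T^[j] p ∧ Λ (T^[j] p) ∈ An J₀ r σ ∧ Ξ (Λ (T^[j] p)) = T^[j] p ∧
      Λ (T^[j] p) = (fun q => Λ (T (Ξ q)))^[j] (Λ p) ∧
      ‖τ (Λ (T^[j] p)) - τ (Λ p) - j * ε‖ ≤ j * e₁ ∧ ‖(Λ (T^[j] p)).2 - (Λ p).2‖ ≤ j * e := by
  have P := Vale.Agent.P097F.N.pass H.clk H.stp h0 hd hdr he0 he h1 hq hJ hτ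
  have key : ∀ j ≤ N, AnalyticAt ℂ T^[j] p ∧ Ξ (Λ (T^[j] p)) = T^[j] p ∧
      Λ (T^[j] p) = (fun q => Λ (T (Ξ q)))^[j] (Λ p) := by
    intro j
    induction j with
    | zero => exact fun _ => ⟨analyticAt_id, hp, rfl⟩
    | succ j ih =>
      intro hj
      obtain ⟨i1, i2, i3⟩ := ih (by omega)
      have m := (P j (by omega)).1
      rw [← i3] at m
      have a1 := H.anT _ m
      have a2 := H.cj _ m
      rw [i2] at a1 a2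
      rw [Function.iterate_succ', Function.iterate_succ']
      exact ⟨a1.comp i1, a2, by rw [Function.comp_apply, Function.comp_apply, ← i3, i2]⟩
  intro j hj
  obtain ⟨k1, k2, k3⟩ := key j hj
  obtain ⟨p1, -, p3, p4⟩ := P j hj
  rw [← k3] at p1 p3 p4
  exact ⟨k1, p1, k2, k3, p3, p4⟩

end Vale.Agent.P097F.N
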