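import Vale.Agent.P097F.N.Dync
import Vale.Agent.P097F.N.Patch

/-!
# P097F/N: the patches of a sequence of curves, the limit of the clocks, the clock of the model
-/

set_option linter.all false

noncomputable section

namespace Vale.Agent.P097F.N

open Filter Topology Set Metric Complex Vale.Agent.P097D Vale.Agent.P097N Vale.Agent.P097Mo

theorem Clk.stab {τ f τ' f' : ℂ × ℂ → ℂ} {κ κ' J₀ : ℂ} {r e : ℝ} (C : Clk τ f κ J₀ r)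
    (C' : Clk τ' f' κ' J₀ r) (h : ∀ q ∈ closedBall ((0, J₀) : ℂ × ℂ) r, ‖f q - f' q‖ ≤ e)
    {q : ℂ × ℂ} (hq : q ∈ ball ((0, J₀) : ℂ × ℂ) r) : ‖τ q - τ' q‖ ≤ e * ‖q.1‖ := by
  have hr := C.r0
  obtain ⟨h1, h2⟩ := mem_bd.1 hq
  have m : ∀ x ∈ ball (0 : ℂ) r, ((x, q.2) : ℂ × ℂ) ∈ ball ((0, J₀) : ℂ × ℂ) r :=
    fun x hx => mem_bd.2 ⟨mem_ball_zero_iff.1 hx, h2⟩
  have sb : ball ((0, J₀) : ℂ × ℂ) r ⊆ ball (0, J₀) (2 * r) := ball_subset_ball (by linarith)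
  have := (convex_ball (0 : ℂ) r).norm_image_sub_le_of_norm_hasDerivWithin_le
    (f := fun x => τ (x, q.2) - τ' (x, q.2)) (f' := fun x => f (x, q.2) - f' (x, q.2)) (C := e)
    (fun x hx => ((C.der _ (sb (m x hx))).sub (C'.der _ (sb (m x hx)))).hasDerivWithinAt)
    (fun x hx => h _ (ball_subset_closedBall (m x hx))) (mem_ball_self hr)
    (mem_ball_zero_iff.2 h1)
  have j : q.2 ∈ ball J₀ (2 * r) := mem_ball_iff_norm.2 (by linarith)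
  simpa [C.z _ j, C'.z _ j] using this

theorem Lev.mono {g : ℂ → ℂ} {Ξ : ℂ × ℂ → ℂ × ℂ} {P₀ : ℂ × ℂ} {J₀ κ : ℂ} {r r' s B : ℝ}
    (L : Lev g Ξ P₀ J₀ κ r s B) (h0 : 0 < r') (h : r' ≤ r) : Lev g Ξ P₀ J₀ κ r' s B :=
  have sb : ball ((0, J₀) : ℂ × ℂ) (2 * r') ⊆ ball (0, J₀) (2 * r) := ball_subset_ball (by linarith)
  ⟨h0, by linarith [L.rs], L.s1, L.B1, L.ag, L.an.mono sb, fun q hq => L.mem q (sb hq), L.inj,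
    L.lin, L.κ0, L.κB, L.bg, L.bd, L.bF⟩

/-- the coordinates depend on the curve in a Lipschitz way -/
theorem Lev.stab {g g₀ : ℂ → ℂ} {Ξ Ξ₀ : ℂ × ℂ → ℂ × ℂ} {P₀ : ℂ × ℂ} {J₀ κ : ℂ} {r s B : ℝ}
    (L : Lev g Ξ P₀ J₀ κ r s B) (L₀ : Lev g₀ Ξ₀ P₀ J₀ κ r s B) {q : ℂ × ℂ}
    (hq : q ∈ ball ((0, J₀) : ℂ × ℂ) (2 * r)) :
    ‖Ξ q - Ξ₀ q‖ ≤ B * (3 * B ^ 3 * ‖g₀ (Ξ₀ q).1 - g (Ξ₀ q).1‖) := by
  have s0 := L.s0
  obtain ⟨-, a2, a3, -, -, a6⟩ := L₀.mem' hq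
  have k := L.inj _ (L.mem' hq).2.2.2.2.2 _ a6
  rw [(L.mem q hq).2, ← (L₀.mem q hq).2] at k
  refine ((norm_fst_le ((Ξ q, q.2) - (Ξ₀ q, q.2))).trans k).trans ?_
  have B0 : 0 ≤ B := by linarith [L.B1]
  gcongr
  exact Fm_sub (x := (Ξ₀ q, q.2)) L.B1 (L₀.bg _ a2).1 (L.bg _ a2).1 (L.bd _ a3).2.2
    ((norm_snd_le (Fm g (Ξ₀ q, q.2))).trans (L.bF _ (ball_subset_ball (by linarith) a6))) le_rfl

/-- the states inside the patch, away from the obstacle -/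
def Ins (g : ℂ → ℂ) (P₀ : ℂ × ℂ) (J₀ : ℂ) (r s : ℝ) : Set (ℂ × ℂ) :=
  {p | g p.1 ≠ 0 ∧ yd g p ∈ ball P₀ s ∧ r / 8 < ‖(La g p).1‖ ∧ ‖(La g p).1‖ < r ∧
    ‖(La g p).2 - J₀‖ < r / 2}

theorem Ins.mem {g : ℂ → ℂ} {P₀ p : ℂ × ℂ} {J₀ : ℂ} {r s : ℝ} (h : p ∈ Ins g P₀ J₀ r s) :
    La g p ∈ ball ((0, J₀) : ℂ × ℂ) r :=
  mem_bd.2 ⟨h.2.2.2.1, by linarith [h.2.2.2.1, h.2.2.2.2, norm_nonneg (La g p).1]⟩

theorem Lev.y_mem {g g' : ℂ → ℂ} {Ξ : ℂ × ℂ → ℂ × ℂ} {P₀ p : ℂ × ℂ} {J₀ κ : ℂ} {r s B : ℝ}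
    (L : Lev g Ξ P₀ J₀ κ r s B) (h : yd g' p ∈ ball P₀ s) : p.1 ∈ ball P₀.1 (2 * s) :=
  ball_subset_ball (by linarith [L.s0]) (mem_ball_prod.1 h).1

theorem Lev.ck {g : ℂ → ℂ} {Ξ : ℂ × ℂ → ℂ × ℂ} {P₀ p₀ : ℂ × ℂ} {J₀ κ : ℂ} {r s B ρ : ℝ}
    (L : Lev g Ξ P₀ J₀ κ r s B) (h : ball p₀ ρ ⊆ Ins g P₀ J₀ r s) :
    Ck (La g) (Xv g Ξ) J₀ r ρ p₀ :=
  ⟨fun p hp => La_an (L.ag _ (L.y_mem (h hp).2.1)) (h hp).1,
    fun p hp => (L.xi_la (h hp).1 (h hp).2.1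
      (ball_subset_ball (by linarith [L.r0]) (Ins.mem (h hp)))).2, fun p hp => (h hp).2.2⟩

theorem la_lim {α : Type} {l : Filter α} {g : α → ℂ → ℂ} {g₀ : ℂ → ℂ} {v : α → ℂ × ℂ}
    {p : ℂ × ℂ} (hv : Tendsto v l (𝓝 p)) (hg : Tendsto (fun n => g n (v n).1) l (𝓝 (g₀ p.1)))
    (h0 : g₀ p.1 ≠ 0) : Tendsto (fun n => yd (g n) (v n)) l (𝓝 (yd g₀ p)) ∧
      Tendsto (fun n => La (g n) (v n)) l (𝓝 (La g₀ p)) := by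
  have a := (continuous_fst.tendsto p).comp hv
  have b := (((continuous_snd.tendsto p).comp hv).mul hg).div_const 2
  exact ⟨a.prodMk_nhds b, (hg.mul ((continuous_sin.tendsto _).comp b)).prodMk_nhds
    ((((SS_an _).continuousAt.tendsto.comp b).const_mul 24).div (hg.pow 3) (pow_ne_zero _ h0))⟩

theorem in_lim {α : Type} {l : Filter α} {g : α → ℂ → ℂ} {g₀ : ℂ → ℂ} {v : α → ℂ × ℂ}
    {p P₀ : ℂ × ℂ} {J₀ : ℂ} {r s : ℝ} (hv : Tendsto v l (𝓝 p))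
    (hg : Tendsto (fun n => g n (v n).1) l (𝓝 (g₀ p.1))) (h : p ∈ Ins g₀ P₀ J₀ r s) :
    ∀ᶠ n in l, v n ∈ Ins (g n) P₀ J₀ r s := by
  obtain ⟨a, b⟩ := la_lim hv hg h.1
  have b1 := ((continuous_fst.tendsto _).comp b).norm
  have b2 := (((continuous_snd.tendsto _).comp b).sub_const J₀).norm
  filter_upwards [hg.eventually_ne h.1, a.eventually (isOpen_ball.mem_nhds h.2.1),
    b1.eventually (lt_mem_nhds h.2.2.1), b1.eventually (gt_mem_nhds h.2.2.2.1),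
    b2.eventually (gt_mem_nhds h.2.2.2.2)] with n c1 c2 c3 c4 c5 using ⟨c1, c2, c3, c4, c5⟩

theorem Lev.in_open {g : ℂ → ℂ} {Ξ : ℂ × ℂ → ℂ × ℂ} {P₀ : ℂ × ℂ} {J₀ κ : ℂ} {r s B : ℝ}
    (L : Lev g Ξ P₀ J₀ κ r s B) : IsOpen (Ins g P₀ J₀ r s) := isOpen_iff_mem_nhds.2 fun p hp =>
  in_lim (g := fun _ => g) (v := id) tendsto_id
    ((L.ag _ (L.y_mem hp.2.1)).continuousAt.tendsto.comp (continuous_fst.tendsto p)) hp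

/-- the patches of a sequence of curves and of the limit curve -/
structure LevS (𝒰 : Ultrafilter ℕ) (g : ℕ → ℂ → ℂ) (Ξ : ℕ → ℂ × ℂ → ℂ × ℂ) (g₀ : ℂ → ℂ)
    (Ξ₀ : ℂ × ℂ → ℂ × ℂ) (P₀ : ℂ × ℂ) (J₀ κ : ℂ) (r s B : ℝ) : Prop where
  ev : ∀ᶠ n in (𝒰 : Filter ℕ), Lev (g n) (Ξ n) P₀ J₀ κ r s B
  lim : Lev g₀ Ξ₀ P₀ J₀ κ r s B
  cc : CC 𝒰 g g₀ (ball P₀.1 (2 * s))

namespace LevS

variable {𝒰 : Ultrafilter ℕ} {g : ℕ → ℂ → ℂ} {Ξ : ℕ → ℂ × ℂ → ℂ × ℂ} {g₀ : ℂ → ℂ}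
  {Ξ₀ : ℂ × ℂ → ℂ × ℂ} {P₀ : ℂ × ℂ} {J₀ κ : ℂ} {r s B : ℝ} (S : LevS 𝒰 g Ξ g₀ Ξ₀ P₀ J₀ κ r s B)
include S

theorem mono {r' : ℝ} (h0 : 0 < r') (h : r' ≤ r) : LevS 𝒰 g Ξ g₀ Ξ₀ P₀ J₀ κ r' s B :=
  ⟨S.ev.mono fun _ L => L.mono h0 h, S.lim.mono h0 h, S.cc⟩

theorem xi {v : ℕ → ℂ × ℂ} {q : ℂ × ℂ} (hq : q ∈ ball ((0, J₀) : ℂ × ℂ) (2 * r))
    (hv : Tendsto v 𝒰 (𝓝 q)) : Tendsto (fun n => Ξ n (v n)) 𝒰 (𝓝 (Ξ₀ q)) := by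
  have a := (S.lim.an q hq).continuousAt.tendsto.comp hv
  have a1 := (continuous_fst.tendsto _).comp a
  have m := (S.lim.mem' hq).2.1
  have b := ((((S.lim.ag _ m).continuousAt.tendsto.comp a1).sub
    (S.cc _ m _ a1)).norm.const_mul (3 * B ^ 3)).const_mul B
  rw [sub_self, norm_zero, mul_zero, mul_zero] at b
  refine a.congr_dist (squeeze_zero' (Eventually.of_forall fun _ => dist_nonneg) ?_ b)
  filter_upwards [S.ev, hv.eventually (isOpen_ball.mem_nhds hq)] with n L k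
  rw [dist_comm, dist_eq_norm]
  exact L.stab S.lim k

theorem f {v : ℕ → ℂ × ℂ} {q : ℂ × ℂ} (hq : q ∈ ball ((0, J₀) : ℂ × ℂ) (2 * r))
    (hv : Tendsto v 𝒰 (𝓝 q)) : Tendsto (fun n => fq (g n) (Ξ n) (v n)) 𝒰 (𝓝 (fq g₀ Ξ₀ q)) := by
  have a := S.xi hq hv
  have eh : EH 𝒰 g (ball P₀.1 (2 * s)) := fun y hy => by
    obtain ⟨ρ, ρ0, k⟩ := Metric.isOpen_iff.1 isOpen_ball y hy
    exact ⟨ρ, ρ0, S.ev.mono fun n L => (L.ag.mono k).differentiableOn⟩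
  have b := cc_deriv 𝒰 isOpen_ball eh S.lim.ag.differentiableOn S.cc _ (S.lim.mem' hq).2.1 _
    ((continuous_fst.tendsto _).comp a)
  exact ((continuous_fst.tendsto _).comp hv).mul ((b.mul ((Dn_an _).continuousAt.tendsto.comp
    ((continuous_snd.tendsto _).comp a))).inv₀ (S.lim.ne (S.lim.mem' hq).1))

/-- **the clocks converge** -/
theorem tau {v : ℕ → ℂ × ℂ} {q : ℂ × ℂ} (hq : q ∈ ball ((0, J₀) : ℂ × ℂ) r)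
    (hv : Tendsto v 𝒰 (𝓝 q)) :
    Tendsto (fun n => clk (fq (g n) (Ξ n)) (v n)) 𝒰 (𝓝 (clk (fq g₀ Ξ₀) q)) := by
  have r0 := S.lim.r0
  have sb : closedBall ((0, J₀) : ℂ × ℂ) r ⊆ ball (0, J₀) (2 * r) :=
    closedBall_subset_ball (by linarith)
  have C := S.lim.clk
  have a := (C.an.continuousOn.continuousAt
    (isOpen_ball.mem_nhds (sb (ball_subset_closedBall hq)))).tendsto.comp hv
  refine a.congr_dist (Metric.tendsto_nhds.2 fun e e0 => ?_)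
  have u := ev_cpt 𝒰 (isCompact_closedBall ((0, J₀) : ℂ × ℂ) r)
    (P := fun n x => ‖fq g₀ Ξ₀ x - fq (g n) (Ξ n) x‖ ≤ e / (2 * r)) fun x hx w _ hw => by
      have b := (((C.fd.continuousOn.continuousAt
        (isOpen_ball.mem_nhds (sb hx))).tendsto.comp hw).sub (S.f (sb hx) hw)).norm
      rw [sub_self, norm_zero] at b
      exact b.eventually_le_const (by positivity)
  filter_upwards [u, S.ev, hv.eventually (isOpen_ball.mem_nhds hq)] with n k L m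
  have b := C.stab L.clk k m
  have c : e / (2 * r) * ‖(v n).1‖ ≤ e / (2 * r) * r := by gcongr; exact (mem_bd.1 m).1.le
  have d : e / (2 * r) * r = e / 2 := by field_simp
  rw [Real.dist_eq, sub_zero, abs_of_nonneg dist_nonneg, dist_eq_norm]
  exact b.trans_lt (by linarith)

/-- the clocks of the states converge -/
theorem tauLa {v : ℕ → ℂ × ℂ} {p : ℂ × ℂ} (h0 : g₀ p.1 ≠ 0) (h1 : yd g₀ p ∈ ball P₀ s)
    (h2 : La g₀ p ∈ ball ((0, J₀) : ℂ × ℂ) r) (hv : Tendsto v 𝒰 (𝓝 p)) :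
    Tendsto (fun n => clk (fq (g n) (Ξ n)) (La (g n) (v n))) 𝒰
      (𝓝 (clk (fq g₀ Ξ₀) (La g₀ p))) :=
  S.tau h2 (la_lim hv (S.cc _ (S.lim.y_mem h1) _ ((continuous_fst.tendsto _).comp hv)) h0).2

theorem inn {K : Set (ℂ × ℂ)} (hK : IsCompact K) (sub : K ⊆ Ins g₀ P₀ J₀ r s) :
    ∀ᶠ n in (𝒰 : Filter ℕ), K ⊆ Ins (g n) P₀ J₀ r s :=
  ev_cpt 𝒰 hK (P := fun n p => p ∈ Ins (g n) P₀ J₀ r s) fun p hp v _ hv => in_lim hv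
    (S.cc _ (S.lim.y_mem (sub hp).2.1) _ ((continuous_fst.tendsto _).comp hv)) (sub hp)

/-- **the checkpoints** -/
theorem ck {K : Set (ℂ × ℂ)} (hK : IsCompact K) (sub : K ⊆ Ins g₀ P₀ J₀ r s) :
    ∃ ρ > 0, ∀ᶠ n in (𝒰 : Filter ℕ), ∀ q ∈ K, ∀ p, ‖p - q‖ ≤ ρ → ∀ ρ' ≤ ρ,
      Ck (La (g n)) (Xv (g n) (Ξ n)) J₀ r ρ' p := by
  obtain ⟨ρ, ρ0, hρ⟩ := hK.exists_cthickening_subset_open S.lim.in_open sub
  refine ⟨ρ / 2, half_pos ρ0, ?_⟩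
  filter_upwards [S.inn (hK.cthickening (r := ρ)) hρ, S.ev] with n k L q hq p hp ρ' h'
  exact L.ck ((ball_cth hq hp (by linarith)).trans k)

theorem lip (r1 : r ≤ 1) : ∀ᶠ n in (𝒰 : Filter ℕ), ∀ q ∈ An J₀ r (r / 16), ∀ q' ∈ An J₀ r (r / 16),
    ‖Xv (g n) (Ξ n) q - Xv (g n) (Ξ n) q'‖ ≤ 4 * B ^ 5 / (r / 16) ^ 2 * ‖q - q'‖ := by
  have r0 := S.lim.r0
  have sb : ball ((0, J₀) : ℂ × ℂ) r ⊆ ball (0, J₀) (2 * r) := ball_subset_ball (by linarith)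
  filter_upwards [S.ev] with n L q hq q' hq'
  exact L.lipX (sb hq.1) (sb hq'.1) (by positivity) (by linarith) hq.2.le hq'.2.le

end LevS

variable {𝒰 : Ultrafilter ℕ} {ε : ℕ → ℂ} {θ h Q : ℕ → ℂ → ℂ} {c : ℕ → ℂ} {U : ℕ → Set ℂ}
  {g : ℂ → ℂ} {L : Set ℂ}

/-- the curves of the sequence near the obstacle -/
def QB (𝒰 : Ultrafilter ℕ) (Q : ℕ → ℂ → ℂ) (U : ℕ → Set ℂ) (y : ℂ) (s M : ℝ) : Prop :=
  ∀ᶠ n in (𝒰 : Filter ℕ), ball y (2 * s) ⊆ U n ∧ ∀ z ∈ ball y (2 * s), ‖Q n z‖ ≤ M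

/-- **the patches exist** -/
theorem levS (S : Seq 𝒰 ε θ h Q c U g L) (z : NZ g L) {P₀ : ℂ × ℂ} {J₀ : ℂ} (m : P₀.1 ∈ L)
    (sp : Sp g P₀ J₀) : ∃ (κ : ℂ) (B M s₀ : ℝ), 1 ≤ B ∧ 0 ≤ M ∧ 0 < s₀ ∧ ∀ s, 0 < s → s ≤ s₀ →
      ball P₀.1 (2 * s) ⊆ L ∧ QB 𝒰 Q U P₀.1 s M ∧ ∃ Ξ Ξ₀,
        LevS 𝒰 (fun n => gg (θ n) (ε n)) Ξ g Ξ₀ P₀ J₀ κ (s / (8 * B)) s B := by
  obtain ⟨ρ, ρ0, M, sub, hM⟩ := S.qb z _ m
  have sb : closedBall P₀.1 (ρ / 2) ⊆ ball P₀.1 ρ := closedBall_subset_ball (half_lt_self ρ0)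
  have ag := (S.dg.analyticOnNhd S.op).mono (sb.trans sub)
  obtain ⟨κ, B, s₀, B1, s0, s1, H⟩ := lev (half_pos ρ0) sp ag
  refine ⟨κ, B, |M|, s₀, B1, abs_nonneg _, s0, fun s a b => ?_⟩
  have sb' : ball P₀.1 (2 * s) ⊆ ball P₀.1 ρ := ball_subset_ball (by linarith)
  obtain ⟨ω, ω0, hω⟩ := H s a b
  obtain ⟨Ξ₀, L₀⟩ := hω g (ag.mono ball_subset_closedBall) fun y _ => by simpa using ω0.le
  have ev : ∀ᶠ n in (𝒰 : Filter ℕ), ∃ Ξ, Lev (gg (θ n) (ε n)) Ξ P₀ J₀ κ (s / (8 * B)) s B := by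
    filter_upwards [hM, cc_unif 𝒰 S.cc (isCompact_closedBall _ _) (sb.trans sub) ag.continuousOn ω0]
      with n k1 k2
    refine hω _ (fun y hy => ?_) fun y hy => k2 y (ball_subset_closedBall hy)
    exact analyticAt_const.mul (((S.cv n).dθ.analyticOnNhd (S.cv n).op).deriv y
      (k1.1 (sb (ball_subset_closedBall hy))))
  obtain ⟨Ξ, hΞ⟩ := ev.choice
  exact ⟨sb'.trans sub, hM.mono fun n k => ⟨sb'.trans k.1, fun y hy =>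
    (k.2 y (sb' hy)).trans (le_abs_self M)⟩, Ξ, Ξ₀, hΞ, L₀, fun y hy => S.cc y (sub (sb' hy))⟩

/-- **the step maps in the patch**, at the scales of the machine -/
theorem LevS.pat {Ξ : ℕ → ℂ × ℂ → ℂ × ℂ} {Ξ₀ : ℂ × ℂ → ℂ × ℂ} {P₀ : ℂ × ℂ} {J₀ κ : ℂ}
    {r s B M : ℝ} (T : LevS 𝒰 (fun n => gg (θ n) (ε n)) Ξ g Ξ₀ P₀ J₀ κ r s B)
    (S : Seq 𝒰 ε θ h Q c U g L) (M0 : 0 ≤ M) (qb : QB 𝒰 Q U P₀.1 s M) :
    ∃ K ≥ 1, ∀ᶠ n in (𝒰 : Filter ℕ), ∀ ς : ℝ, 0 < ς → ‖ε n‖ = ς ^ 220 →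
      PatchG (TT (θ n) (h n) (ε n)) (gg (θ n) (ε n)) (Ξ n) κ J₀ (ε n) r (ς ^ 10) (K * ς ^ 240) ∧
      PatchG (TB (θ n) (h n) (ε n)) (gg (θ n) (ε n)) (Ξ n) κ J₀ (-ε n) r (ς ^ 10)
        (K * ς ^ 240) := by
  obtain ⟨a, C, c', C', a0, C1, -, H⟩ := patch foC T.lim.r0 T.lim.s0 T.lim.B1 M0
  have e0 : Tendsto (fun j => ‖ε j‖) 𝒰 (𝓝 0) := by simpa using S.el.norm
  refine ⟨C, C1, ?_⟩
  filter_upwards [T.ev, qb, e0.eventually_le_const (show 0 < min 1 (a ^ 2) by positivity)]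
    with n Ln k1 k2 ς ς0 e
  rw [e, le_min_iff] at k2
  have ς1 : ς ≤ 1 := (pow_le_one_iff_of_nonneg ς0.le (by norm_num)).1 k2.1
  have b1 : ς ^ 140 ≤ a := by
    refine (pow_le_pow_iff_left₀ (by positivity) a0.le two_ne_zero).1 (le_trans ?_ k2.2)
    rw [← pow_mul]
    exact pow_le_pow_of_le_one ς0.le ς1 (by norm_num)
  obtain ⟨p1, p2, -⟩ := H _ _ _ _ _ _ _ _ _ _ (ς ^ 10) (S.cv n) (S.e0 n) Ln k1.1 k1.2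
    (by positivity) (pow_le_one₀ ς0.le ς1) (by
      rw [e, ← pow_mul, show 220 = 140 + 10 * 8 from rfl, pow_add]
      gcongr)
  have b2 : C * ‖ε n‖ ^ 2 / (ς ^ 10) ^ 15 ≤ C * ς ^ 240 := by
    rw [e, div_le_iff₀ (by positivity), mul_assoc, ← pow_mul, ← pow_mul, ← pow_add]
    exact mul_le_mul_of_nonneg_left (pow_le_pow_of_le_one ς0.le ς1 (by norm_num)) (by linarith)
  exact ⟨p1.mono b2, p2.mono b2⟩

/-! ## the clock of the model -/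

theorem ch_sp {V : Set ℂ} {R : ℝ} {Φ Δ : ℂ × ℂ → ℂ} (C : D.Ch g V R Φ Δ) (R0 : 0 < R) {W : ℂ}
    (hW : W ∈ V) : Sp g (Φ (W, 0), Δ (W, 0)) (W ^ 3) ∧ (Φ (W, 0)).im < 0 := by
  have m : ((W, 0) : ℂ × ℂ) ∈ V ×ˢ ball (0 : ℂ) R := ⟨hW, mem_ball_self R0⟩
  obtain ⟨a1, a2, a3⟩ := C.lo _ m
  refine ⟨⟨?_, a2, a3, C.ty.imp (fun k => k W hW) fun k => k W hW⟩, a1⟩
  rw [← mul_pow]
  exact (C.inv _ m :)

theorem Lev.xi_eq {Ξ : ℂ × ℂ → ℂ × ℂ} {P₀ P : ℂ × ℂ} {J₀ κ J : ℂ} {r s B : ℝ}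
    (Lv : Lev g Ξ P₀ J₀ κ r s B) (a1 : P ∈ ball P₀ s)
    (a2 : (g P.1 * sin P.2, J) ∈ ball ((0, J₀) : ℂ × ℂ) (2 * r))
    (e : J * g P.1 ^ 3 = 24 * SS P.2) : Ξ (g P.1 * sin P.2, J) = P := by
  have mm := (Lv.mem' a2).2.2.2.2.2
  have k := Lv.inj _ mm (P, J) (mem_ball_prod.2 ⟨a1, (mem_ball_prod.1 mm).2⟩)
  have e' : Fm g (P, J) = ((g P.1 * sin P.2, 0), J) := by simp only [Fm, e, sub_self]
  rw [(Lv.mem _ a2).2, e', sub_self, norm_zero, mul_zero, norm_le_zero_iff, sub_eq_zero] at k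
  exact congrArg Prod.fst k

theorem clk_alg {W G G' φ' d d' u sn cs S : ℂ} (W0 : W ≠ 0) (n2 : d ≠ 0)
    (n1 : G' * (2 * d * sn ^ 2 + 6 * S * cs) ≠ 0)
    (e1 : 3 * (W * G) ^ 2 * (W * (G' * φ')) = 24 * (d * sn * d')) (e2 : W * G * φ' = 4 * u * d)
    (e3 : (W * G) ^ 3 = 24 * S) :
    G * sn * (G' * (2 * d * sn ^ 2 + 6 * S * cs))⁻¹ * (G' * φ' * sn + G * (cs * d')) =
      2 * u / W := by
  rw [mul_right_comm, mul_inv_eq_iff_eq_mul₀ n1, div_mul_eq_mul_div, eq_div_iff W0]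
  refine mul_left_cancel₀ n2 ?_
  linear_combination (d * G' * sn ^ 2 + 3 * S * G' * cs) * e2 - (W * G ^ 2 * cs / 24) * e1 +
    (W * G * φ' * G' * cs / 8) * e3

theorem clk_d {φ d : ℂ → ℂ} {φ' d' u : ℂ} {Ξ : ℂ × ℂ → ℂ × ℂ} {P₀ : ℂ × ℂ} {J₀ κ W : ℂ}
    {r s B : ℝ} (Lv : Lev g Ξ P₀ J₀ κ r s B) (W0 : W ≠ 0) (d1 : HasDerivAt φ φ' u)
    (d2 : HasDerivAt d d' u) (a1 : (φ u, d u) ∈ ball P₀ s)
    (a2 : (g (φ u) * sin (d u), W ^ 3) ∈ ball ((0, J₀) : ℂ × ℂ) (2 * r)) (n2 : d u ≠ 0)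
    (inv : ∀ᶠ x in 𝓝 u, (W * g (φ x)) ^ 3 = 24 * SS (d x)) (e2 : W * g (φ u) * φ' = 4 * u * d u) :
    HasDerivAt (fun x => clk (fq g Ξ) (g (φ x) * sin (d x), W ^ 3)) (2 * u / W) u := by
  have ag : AnalyticAt ℂ g (φ u) :=
    Lv.ag _ (ball_subset_ball (by linarith [Lv.s0]) (mem_ball_prod.1 a1).1)
  have d3 : HasDerivAt (fun x => g (φ x)) (deriv g (φ u) * φ') u :=
    ag.differentiableAt.hasDerivAt.comp u d1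
  have d4 : HasDerivAt (fun x => g (φ x) * sin (d x))
    (deriv g (φ u) * φ' * sin (d u) + g (φ u) * (cos (d u) * d')) u := d3.mul d2.csin
  have d0 : HasDerivAt (fun η => clk (fq g Ξ) (η, W ^ 3)) (fq g Ξ (g (φ u) * sin (d u), W ^ 3))
    (g (φ u) * sin (d u)) := (Lv.clk.der _ a2 :)
  have d6 : HasDerivAt (fun x => (W * g (φ x)) ^ 3)
      (3 * (W * g (φ u)) ^ 2 * (W * (deriv g (φ u) * φ'))) u := by
    simpa using (d3.const_mul W).fun_pow 3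
  have d7 : HasDerivAt (fun x => SS (d x)) (d u * sin (d u) * d') u := (SS_der _).comp u d2
  have e1 := d6.unique ((d7.const_mul 24).congr_of_eventuallyEq inv)
  have e3 := inv.self_of_nhds
  have e4 := Lv.xi_eq (P := (φ u, d u)) a1 a2 (by rw [← mul_pow]; exact e3)
  have d8 := HasDerivAt.comp u (h₂ := fun η => clk (fq g Ξ) (η, W ^ 3))
    (h := fun x => g (φ x) * sin (d x)) d0 d4
  refine d8.congr_deriv ?_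
  rw [fq, e4]
  exact clk_alg W0 n2 (Lv.ne a1) e1 e2 e3

/-- **CLK0**: the clock of the chart `x - X W = ζ ^ 2` is `ζ ^ 2 / W` -/
theorem clk0 {V : Set ℂ} {R δ : ℝ} {Φ Δ : ℂ × ℂ → ℂ} {Ξ : ℂ × ℂ → ℂ × ℂ} {P₀ : ℂ × ℂ}
    {J₀ κ W : ℂ} {r s B : ℝ} (C : D.Ch g V R Φ Δ) (Lv : Lev g Ξ P₀ J₀ κ r s B) (hW : W ∈ V)
    (W0 : W ≠ 0) (hδ : δ ≤ R) (H : ∀ ζ ∈ ball (0 : ℂ) δ, (Φ (W, ζ), Δ (W, ζ)) ∈ ball P₀ s ∧
      (g (Φ (W, ζ)) * sin (Δ (W, ζ)), W ^ 3) ∈ ball ((0, J₀) : ℂ × ℂ) (2 * r)) :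
    ∀ ζ ∈ ball (0 : ℂ) δ,
      clk (fq g Ξ) (g (Φ (W, ζ)) * sin (Δ (W, ζ)), W ^ 3) = ζ ^ 2 / W := by
  intro ζ hζ
  have δ0 : 0 < δ := nonempty_ball.1 ⟨_, hζ⟩
  have m : ∀ u ∈ ball (0 : ℂ) δ, ((W, u) : ℂ × ℂ) ∈ V ×ˢ ball (0 : ℂ) R := fun u hu =>
    ⟨hW, ball_subset_ball hδ hu⟩
  obtain ⟨G, hG⟩ : ∃ G : ℂ → ℂ, G = fun u =>
    clk (fq g Ξ) (g (Φ (W, u)) * sin (Δ (W, u)), W ^ 3) := ⟨_, rfl⟩
  have d : ∀ u ∈ ball (0 : ℂ) δ, HasDerivAt (fun u => G u - u ^ 2 / W) 0 u := by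
    intro u hu
    have sl : ∀ {F : ℂ × ℂ → ℂ}, AnalyticAt ℂ F (W, u) →
        HasDerivAt (fun x => F (W, x)) (D.dx F (W, u)) u := fun hF =>
      (hF.comp (f := fun x : ℂ => (W, x)) (analyticAt_const.prod analyticAt_id)
        ).differentiableAt.hasDerivAt
    have k := clk_d Lv W0 (sl (C.anΦ _ (m u hu))) (sl (C.anΔ _ (m u hu))) (H u hu).1 (H u hu).2
      (C.lo _ (m u hu)).2.1 (by
        filter_upwards [isOpen_ball.mem_nhds hu] with x hx using (C.inv _ (m x hx) :))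
      (C.ode _ (m u hu) :)
    rw [← hG] at k
    exact (k.sub ((hasDerivAt_pow 2 u).div_const W)).congr_deriv (by simp)
  have k := isOpen_ball.is_const_of_deriv_eq_zero (convex_ball (0 : ℂ) δ).isPreconnected
    (fun u hu => (d u hu).differentiableAt.differentiableWithinAt) (fun u hu => (d u hu).deriv)
    hζ (mem_ball_self δ0)
  have z : g (Φ (W, 0)) * sin (Δ (W, 0)) = 0 :=
    mul_eq_zero.2 (C.ty.imp (fun k => k W hW) fun k => k W hW)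
  have z' : G 0 = 0 := by simp [hG, z, clk]
  rw [z', zero_pow two_ne_zero, zero_div, sub_zero, sub_eq_zero, hG] at k
  exact k

end Vale.Agent.P097F.N
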