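import Mathlib

/-!
# P097F/N: the crude bound of a holomorphic function with values in the lower half plane
-/

set_option linter.all false

noncomputable section

namespace Vale.Agent.P097F.N

open Set Metric Complex

theorem crude {f : ℂ → ℂ} {c z : ℂ} {R B d : ℝ} (hd : 0 < d) (hB : 0 < B)
    (hf : DifferentiableOn ℂ f (ball c R)) (hi : ∀ w ∈ ball c R, (f w).im ≤ 0) (hc : ‖f c‖ ≤ B)
    (hz : ‖z - c‖ ≤ R - d) : ‖f z‖ ≤ 4 * B * R / d := by
  have n0 := norm_nonneg (z - c)
  have R0 : 0 < R := by linarith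
  have mem : ∀ w ∈ ball (0 : ℂ) R, c + w ∈ ball c R := fun w hw => by
    rw [mem_ball, dist_eq_norm, add_sub_cancel_left]
    exact mem_ball_zero_iff.1 hw
  have k := borelCaratheodory (f := fun w => -I * f (c + w)) (M := B) (R := R) (z := z - c) hB
    ((hf.comp (by fun_prop) mem).const_mul _)
    (fun w hw => by
      have := hi _ (mem w hw)
      show (-I * f (c + w)).re ≤ B
      simp only [neg_mul, neg_re, mul_re, I_re, I_im]
      linarith) R0 (mem_ball_zero_iff.2 (by linarith))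
  simp only [norm_mul, norm_neg, norm_I, one_mul, add_zero, add_sub_cancel] at k
  have h0 : 0 < R - ‖z - c‖ := by linarith
  have e : 2 * B * ‖z - c‖ / (R - ‖z - c‖) + ‖f c‖ * (R + ‖z - c‖) / (R - ‖z - c‖) ≤
      4 * B * R / (R - ‖z - c‖) := by
    rw [← add_div]
    refine div_le_div_of_nonneg_right ?_ h0.le
    have : ‖f c‖ * (R + ‖z - c‖) ≤ B * (R + ‖z - c‖) := by gcongr
    nlinarith
  refine (k.trans e).trans ?_
  exact div_le_div_of_nonneg_left (by positivity) hd (by linarith)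

/-- the form on a rectangle: bounded at the depth `R` under the top `y`, clearance `d` -/
theorem crude_box {f : ℂ → ℂ} {z : ℂ} {α β s y R B d : ℝ} (hd : 0 < d) (hB : 0 < B)
    (hf : ∀ w : ℂ, α < w.re → w.re < β → s < w.im → w.im < y →
      DifferentiableAt ℂ f w ∧ (f w).im ≤ 0)
    (h1 : α + R ≤ z.re) (h2 : z.re + R ≤ β) (h3 : s + 2 * R ≤ y)
    (hc : ‖f (z.re + (y - R : ℝ) * I)‖ ≤ B) (z1 : y - 2 * R + d ≤ z.im) (z2 : z.im ≤ y - d) :
    ‖f z‖ ≤ 4 * B * R / d := by
  have mem : ∀ w ∈ ball ((z.re : ℂ) + (y - R : ℝ) * I) R,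
      α < w.re ∧ w.re < β ∧ s < w.im ∧ w.im < y := fun w hw => by
    rw [mem_ball, dist_eq_norm] at hw
    have a1 := abs_lt.1 ((abs_re_le_norm _).trans_lt hw)
    have a2 := abs_lt.1 ((abs_im_le_norm _).trans_lt hw)
    simp at a1 a2
    refine ⟨?_, ?_, ?_, ?_⟩ <;> linarith [a1.1, a1.2, a2.1, a2.2]
  refine crude (c := (z.re : ℂ) + (y - R : ℝ) * I) hd hB (fun w hw => ?_) (fun w hw => ?_) hc ?_
  · obtain ⟨a, b, c, e⟩ := mem w hw
    exact (hf w a b c e).1.differentiableWithinAt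
  · obtain ⟨a, b, c, e⟩ := mem w hw
    exact (hf w a b c e).2
  · have e : z - ((z.re : ℂ) + (y - R : ℝ) * I) = ((z.im - (y - R) : ℝ) : ℂ) * I := by
      apply Complex.ext <;> simp
    rw [e, norm_mul, norm_I, mul_one, norm_real, Real.norm_eq_abs, abs_le]
    constructor <;> linarith

end Vale.Agent.P097F.N
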