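import Vale.Agent.P097F.N.Sta
import Vale.Agent.P097F.N.Fo
import Vale.Agent.P097F.N.StepAll
import Vale.Agent.P097F.Defs

/-!
# P097F.N: on compact sets the true state converges to the model state and follows the step map
-/

set_option linter.all false

noncomputable section

namespace Vale.Agent.P097F.N

open Filter Topology Set Metric Complex Vale.Agent.P097N Vale.Agent.P097Mo

/-- the first order lemma, closed -/
theorem foC : S_FO := fo sstep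

/-- a property which holds along every convergent sequence holds uniformly on a compact set -/
theorem ev_cpt {X : Type} [TopologicalSpace X] (𝒰 : Ultrafilter ℕ) {K : Set X} (hK : IsCompact K)
    {P : ℕ → X → Prop} (h : ∀ q ∈ K, ∀ v : ℕ → X, (∀ n, v n ∈ K) → Tendsto v 𝒰 (𝓝 q) →
      ∀ᶠ n in (𝒰 : Filter ℕ), P n (v n)) : ∀ᶠ n in (𝒰 : Filter ℕ), ∀ q ∈ K, P n q := by
  by_contra hn
  have h1 : ∀ᶠ n in (𝒰 : Filter ℕ), ∃ q ∈ K, ¬ P n q := by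
    filter_upwards [Ultrafilter.eventually_not.2 hn] with n k
    simpa using k
  obtain ⟨n₀, q₀, m₀, -⟩ := h1.exists
  have H : ∀ n, ∃ q ∈ K, (∃ q ∈ K, ¬ P n q) → ¬ P n q := fun n => by
    by_cases k : ∃ q ∈ K, ¬ P n q
    · obtain ⟨q, a, b⟩ := k
      exact ⟨q, a, fun _ => b⟩
    · exact ⟨q₀, m₀, fun e => absurd e k⟩
  choose v m hv using H
  obtain ⟨q, mq, lq⟩ := hK.ultrafilter_le_nhds (𝒰.map v)
    (le_principal_iff.2 (mem_map.2 (Eventually.of_forall m)))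
  obtain ⟨n, a, b⟩ := ((h q mq v m lq).and h1).exists
  exact hv n b a

/-- the true state at the point `q = (W, x)` -/
def Zt (ε : ℂ) (F : ℂ × ℂ → ℂ) (q : ℂ × ℂ) : ℂ × ℂ := stt ε (F (q.1, q.2 - ε * q.1)) (F q)

/-- a sequence of true families on the sets `On n` which exhaust `O`, with the limit `F₀` -/
structure Tf (𝒰 : Ultrafilter ℕ) (ε : ℕ → ℂ) (θ h : ℕ → ℂ → ℂ) (On : ℕ → Set (ℂ × ℂ))
    (O : Set (ℂ × ℂ)) (F : ℕ → ℂ × ℂ → ℂ) (F₀ : ℂ × ℂ → ℂ) : Prop where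
  op : IsOpen O
  ex : ∀ q ∈ O, ∃ ρ > 0, ∀ᶠ n in (𝒰 : Filter ℕ), ball q ρ ⊆ On n
  an : ∀ᶠ n in (𝒰 : Filter ℕ), AnalyticOnNhd ℂ (F n) (On n)
  law : ∀ᶠ n in (𝒰 : Filter ℕ), ∀ W x : ℂ, (W, x - ε n * W) ∈ On n → (W, x) ∈ On n →
    (W, x + ε n * W) ∈ On n →
    EE (θ n) (h n) (F n (W, x - ε n * W)) (F n (W, x)) (F n (W, x + ε n * W)) = 0
  an₀ : AnalyticOnNhd ℂ F₀ O
  cc : CC2 𝒰 F F₀ O

variable {𝒰 : Ultrafilter ℕ} {ε : ℕ → ℂ} {θ h Q : ℕ → ℂ → ℂ} {c : ℕ → ℂ} {U : ℕ → Set ℂ}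
  {g : ℂ → ℂ} {L : Set ℂ} {On : ℕ → Set (ℂ × ℂ)} {O : Set (ℂ × ℂ)} {F : ℕ → ℂ × ℂ → ℂ}
  {F₀ : ℂ × ℂ → ℂ}

theorem Tf.mem (T : Tf 𝒰 ε θ h On O F F₀) {q : ℂ × ℂ} (hq : q ∈ O) {v : ℕ → ℂ × ℂ}
    (hv : Tendsto v 𝒰 (𝓝 q)) : ∀ᶠ n in (𝒰 : Filter ℕ), v n ∈ On n := by
  obtain ⟨ρ, ρ0, k⟩ := T.ex q hq
  filter_upwards [k, hv.eventually (ball_mem_nhds q ρ0)] with n a b using a b

theorem Tf.sub (T : Tf 𝒰 ε θ h On O F F₀) {K : Set (ℂ × ℂ)} (hK : IsCompact K) (sub : K ⊆ O) :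
    ∀ᶠ n in (𝒰 : Filter ℕ), K ⊆ On n :=
  ev_cpt 𝒰 hK (P := fun n q => q ∈ On n) fun q hq v _ hv => T.mem (sub hq) hv

theorem tend_sh (el : Tendsto ε 𝒰 (𝓝 0)) {q : ℂ × ℂ} {v : ℕ → ℂ × ℂ} (hv : Tendsto v 𝒰 (𝓝 q))
    (t : ℂ) : Tendsto (fun n => ((v n).1, (v n).2 + t * (ε n * (v n).1))) 𝒰 (𝓝 q) := by
  have a := (continuous_fst.tendsto q).comp hv
  have b := (continuous_snd.tendsto q).comp hv
  have := a.prodMk_nhds (b.add ((el.mul a).const_mul t))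
  simpa using this

/-- continuous convergence of the states -/
theorem Tf.zc (T : Tf 𝒰 ε θ h On O F F₀) (e0 : ∀ n, ε n ≠ 0) (el : Tendsto ε 𝒰 (𝓝 0))
    {q : ℂ × ℂ} (hq : q ∈ O) {v : ℕ → ℂ × ℂ} (hv : Tendsto v 𝒰 (𝓝 q)) :
    Tendsto (fun n => Zt (ε n) (F n) (v n)) 𝒰 (𝓝 (Z0 F₀ q)) := by
  have a := (continuous_fst.tendsto q).comp hv
  have b := (continuous_snd.tendsto q).comp hv
  have cs : Continuous fun x : ℂ => (q.1, x) := by fun_prop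
  have oS : IsOpen {x : ℂ | (q.1, x) ∈ O} := T.op.preimage cs
  have hE : EH 𝒰 (fun n x => F n ((v n).1, x)) {x : ℂ | (q.1, x) ∈ O} := by
    intro x hx
    obtain ⟨ρ, ρ0, k⟩ := T.ex _ hx
    refine ⟨ρ, ρ0, ?_⟩
    filter_upwards [k, T.an, a.eventually (ball_mem_nhds q.1 ρ0)] with n k1 k2 k3 z hz
    have m : ((v n).1, z) ∈ ball (q.1, x) ρ := by
      rw [← ball_prod_same]
      exact ⟨k3, hz⟩
    exact (AnalyticAt.comp (g := F n) (f := fun x : ℂ => ((v n).1, x)) (k2 _ (k1 m))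
      (analyticAt_const.prod analyticAt_id)).differentiableAt.differentiableWithinAt
  have hf : DifferentiableOn ℂ (fun x => F₀ (q.1, x)) {x : ℂ | (q.1, x) ∈ O} := fun x hx =>
    (AnalyticAt.comp (g := F₀) (f := fun x : ℂ => (q.1, x)) (T.an₀ _ hx)
      (analyticAt_const.prod analyticAt_id)).differentiableAt.differentiableWithinAt
  have hc : CC 𝒰 (fun n x => F n ((v n).1, x)) (fun x => F₀ (q.1, x)) {x : ℂ | (q.1, x) ∈ O} :=
    fun x hx u hu => T.cc _ hx (fun n => ((v n).1, u n)) (a.prodMk_nhds hu)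
  have k := (dq 𝒰 oS hE hf hc (y₀ := q.2) hq b e0 el (-q.1) (mem_univ _) (fun n => -(v n).1)
    a.neg).neg
  have e1 : -(deriv (fun x => F₀ (q.1, x)) q.2 * -q.1) = D.vv F₀ q := by
    rw [D.vv, D.dx]; ring
  rw [e1] at k
  refine (T.cc q hq v hv).prodMk_nhds (k.congr fun n => ?_)
  simp only [Function.comp, mul_neg, ← sub_eq_add_neg]
  ring

theorem z0_an (an : AnalyticOnNhd ℂ F₀ O) (op : IsOpen O) : AnalyticOnNhd ℂ (Z0 F₀) O := by
  intro q hq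
  have e : (fun p => fderiv ℂ F₀ p (0, 1)) =ᶠ[𝓝 q] D.dx F₀ := by
    filter_upwards [op.mem_nhds hq] with p hp
    exact ((an p hp).differentiableAt.hasFDerivAt.comp_hasDerivAt p.2
      ((hasDerivAt_const p.2 p.1).prodMk (hasDerivAt_id p.2))).deriv.symm
  have a : AnalyticAt ℂ (fun p => fderiv ℂ F₀ p (0, 1)) q :=
    ((ContinuousLinearMap.apply ℂ ℂ ((0, 1) : ℂ × ℂ)).analyticAt _).comp (an q hq).fderiv
  exact (an q hq).prod (analyticAt_fst.mul (a.congr e))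

/-- uniform convergence of the states on compact sets -/
theorem Tf.zu (T : Tf 𝒰 ε θ h On O F F₀) (e0 : ∀ n, ε n ≠ 0) (el : Tendsto ε 𝒰 (𝓝 0))
    {K : Set (ℂ × ℂ)} (hK : IsCompact K) (sub : K ⊆ O) {η : ℝ} (η0 : 0 < η) :
    ∀ᶠ n in (𝒰 : Filter ℕ), ∀ q ∈ K, AnalyticAt ℂ (Zt (ε n) (F n)) q ∧
      ‖Zt (ε n) (F n) q - Z0 F₀ q‖ < η := by
  refine ev_cpt 𝒰 hK fun q hq v _ hv => ?_
  have a := (T.zc e0 el (sub hq) hv).sub
    ((z0_an T.an₀ T.op q (sub hq)).continuousAt.tendsto.comp hv)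
  rw [sub_self] at a
  have b := a.norm
  rw [norm_zero] at b
  filter_upwards [b.eventually (gt_mem_nhds η0), T.an, T.mem (sub hq) hv,
    T.mem (sub hq) (tend_sh el hv (-1))] with n k1 k2 k3 k4
  refine ⟨?_, k1⟩
  have k5 : AnalyticAt ℂ (fun q : ℂ × ℂ => F n (q.1, q.2 - ε n * q.1)) (v n) :=
    AnalyticAt.comp (g := F n) (f := fun q : ℂ × ℂ => (q.1, q.2 - ε n * q.1))
      (k2 _ (by simpa [sub_eq_add_neg] using k4))
      (analyticAt_fst.prod (analyticAt_snd.sub (analyticAt_const.mul analyticAt_fst)))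
  exact (k2 _ k3).prod (((k2 _ k3).sub k5).div_const (c := ε n))

/-- on compact sets of regular states the true state follows the step maps -/
theorem Tf.dyn (T : Tf 𝒰 ε θ h On O F F₀) (s : Seq 𝒰 ε θ h Q c U g L) (z : NZ g L)
    {K : Set (ℂ × ℂ)} (hK : IsCompact K) (sub : K ⊆ O) (reg : ∀ q ∈ K, Z0 F₀ q ∈ RS g L) :
    ∀ᶠ n in (𝒰 : Filter ℕ), ∀ q ∈ K,
      TT (θ n) (h n) (ε n) (Zt (ε n) (F n) q) = Zt (ε n) (F n) (q.1, q.2 + ε n * q.1) ∧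
      TB (θ n) (h n) (ε n) (Zt (ε n) (F n) q) = Zt (ε n) (F n) (q.1, q.2 - ε n * q.1) := by
  refine ev_cpt 𝒰 hK fun q hq v _ hv => ?_
  obtain ⟨r, ρ, K', c', C, σ, r0, -, -, c0, -, σ0, -, -, H⟩ :=
    fon foC s z (isCompact_singleton (x := Z0 F₀ q)) (singleton_subset_iff.2 (reg q hq))
  have t0 := T.zc s.e0 s.el (sub hq) hv
  have v1 := tend_sh s.el hv 1
  have v2 := tend_sh s.el hv (-1)
  have v3 := tend_sh s.el hv (-2)
  have d : ∀ {u : ℕ → ℂ × ℂ}, Tendsto u 𝒰 (𝓝 q) → ∀ᶠ n in (𝒰 : Filter ℕ),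
      ‖(Zt (ε n) (F n) (u n)).2 - (Zt (ε n) (F n) (v n)).2‖ < c' * σ ^ 2 := fun hu => by
    have a := ((continuous_snd.tendsto _).comp (T.zc s.e0 s.el (sub hq) hu)).sub
      ((continuous_snd.tendsto _).comp t0)
    rw [sub_self] at a
    have b := a.norm
    rw [norm_zero] at b
    exact b.eventually (gt_mem_nhds (by positivity))
  filter_upwards [H, t0.eventually (closedBall_mem_nhds _ r0), d v1, d v2, T.law,
    T.mem (sub hq) hv, T.mem (sub hq) v1, T.mem (sub hq) v2, T.mem (sub hq) v3]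
    with n k1 k2 k3 k4 k5 m0 m1 m2 m3
  have f := (k1 _ (closedBall_subset_cthickening (mem_singleton _) r k2)).2
  simp only [one_mul, neg_mul, ← sub_eq_add_neg] at k3 k4 m1 m2 m3
  have e1 : (v n).2 + ε n * (v n).1 - ε n * (v n).1 = (v n).2 := by ring
  have e2 : (v n).2 - ε n * (v n).1 + ε n * (v n).1 = (v n).2 := by ring
  have e3 : (v n).2 - 2 * (ε n * (v n).1) = (v n).2 - ε n * (v n).1 - ε n * (v n).1 := by ring
  rw [e3] at m3
  constructor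
  · have := dynT (s.e0 n) f (k5 _ _ m2 m0 m1) (by simpa only [Zt, e1] using k3)
    simpa only [Zt, e1] using this
  · have l := k5 _ _ m3 m2 (by rwa [e2])
    rw [e2] at l
    exact dynB (s.e0 n) f l (by rw [norm_sub_rev]; exact k4)

/-- the wedge is open -/
theorem wd_open (a L T ρ K C v H b : ℝ) : IsOpen (Wd a L T ρ K C v H b) := by
  simp only [Wd, mem_ball, setOf_and]
  refine IsOpen.inter ?_ (IsOpen.inter ?_ (IsOpen.inter ?_ ?_))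
  all_goals
    apply isOpen_lt <;> fun_prop

/-- the families on the wedges -/
theorem tf_of {ε : ℕ → ℝ} {a L T ρ K C : ℝ} {v H b : ℕ → ℝ} {v₀ H₀ b₀ : ℝ}
    (S : Loc 𝒰 ε θ h U a L T ρ K C v H b v₀ H₀ b₀ F F₀) :
    Tf 𝒰 (fun n => (ε n : ℂ)) θ h (fun n => Wd a L T ρ K C (v n) (H n) (b n))
      (Wd a L T ρ K C v₀ H₀ b₀) F F₀ := by
  refine ⟨wd_open _ _ _ _ _ _ _ _ _, fun q hq => ?_, S.tr.mono fun n k => k.an,
    S.tr.mono fun n k => k.law, S.an, S.cc⟩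
  have o : IsOpen {z : (ℝ × ℝ × ℝ) × ℂ × ℂ | z.2 ∈ Wd a L T ρ K C z.1.1 z.1.2.1 z.1.2.2} := by
    simp only [Wd, mem_ball, mem_setOf_eq, setOf_and]
    refine IsOpen.inter ?_ (IsOpen.inter ?_ (IsOpen.inter ?_ ?_))
    all_goals
      apply isOpen_lt <;> fun_prop
  obtain ⟨A, hA, B, hB, sub⟩ := mem_nhds_prod_iff.1 (o.mem_nhds (x := ((v₀, H₀, b₀), q)) hq)
  obtain ⟨r, r0, hr⟩ := Metric.mem_nhds_iff.1 hB
  refine ⟨r, r0, ?_⟩
  filter_upwards [(S.lv.prodMk_nhds (S.lH.prodMk_nhds S.lb)).eventually hA] with n k z hz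
  exact sub (mk_mem_prod k (hr hz))

end Vale.Agent.P097F.N
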