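import Vale.Agent.P097F.N.SideDefs

/-!
# P097F/N: transport of a chart along an orbit
-/

set_option linter.all false

noncomputable section

namespace Vale.Agent.P097F.N

open Filter Topology Set Metric Complex

variable {E : Type} [NormedAddCommGroup E] [NormedSpace ℂ E] [CompleteSpace E]

theorem Near.shrink {T : E → E} {x y : E} {r a s : ℝ} (h : Near T x r a) (hy : ‖y - x‖ ≤ r / 4)
    (hs : s ≤ 3 * r / 4) : Near T y s a := by
  have sub : ball y s ⊆ ball x r := ball_subset_ball' (by rw [dist_eq_norm]; linarith)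
  exact ⟨h.a0, h.an.mono sub, fun p hp => h.bd p (sub hp)⟩

/-- the chart almost commutes with the step map -/
theorem Near.comm {T : E → E} {x : E} {r a : ℝ} (h : Near T x r a) {m : ℕ}
    (hm : 216 * a * m ≤ r) (m1 : 1 ≤ m) {t : ℂ} (ht : ‖t‖ ≤ m) :
    ‖T (Ch T m t x) - Ch T m t (T x)‖ ≤ r * (1 / 2) ^ m := by
  have a0 := h.a0
  have m1' : (1 : ℝ) ≤ m := by exact_mod_cast m1
  have ar : 216 * a ≤ r := by nlinarith
  have r0 : 0 < r := by linarith
  have hx : x ∈ ball x (r / 2) := mem_ball_self (by linarith)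
  have b0 : ‖T x - x‖ ≤ a := h.bd x (mem_ball_self r0)
  have hTx : T x ∈ ball x (r / 2) := by rw [mem_ball, dist_eq_norm]; linarith
  have mm : ∀ z ∈ closedBall (0 : ℂ) (7 * m), Ch T m z x ∈ ball x r := fun z hz =>
    ball_subset_ball (by linarith) (h.mem_Ch hm hx (by
      have : ‖z‖ ≤ 7 * m := by simpa using hz
      linarith))
  have := zer (F := fun t => T (Ch T m t x) - Ch T m t (T x)) (R := 7 * m) (M := r) (n := m)
    (by linarith) (fun z hz => (((h.an _ (mm z hz)).comp (f := fun t => Ch T m t x)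
      (h.an_t hm hx z)).sub (h.an_t hm hTx z)).differentiableAt.differentiableWithinAt)
    (fun z hz => by
      have z1 : ‖z‖ ≤ 7 * m := by simpa using hz
      have b1 := h.bd _ (mm z hz)
      have b2 := h.bd_Ch hm hx (t := z) (by linarith)
      have b3 := h.bd_Ch hm hTx (t := z) (by linarith)
      have e : T (Ch T m z x) - Ch T m z (T x) =
        ((T (Ch T m z x) - Ch T m z x) + (Ch T m z x - x)) - ((Ch T m z (T x) - T x) + (T x - x)) := by
        abel
      have := norm_sub_le ((T (Ch T m z x) - Ch T m z x) + (Ch T m z x - x))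
        ((Ch T m z (T x) - T x) + (T x - x))
      have := norm_add_le (T (Ch T m z x) - Ch T m z x) (Ch T m z x - x)
      have := norm_add_le (Ch T m z (T x) - T x) (T x - x)
      rw [e]; nlinarith)
    (fun j hj => by
      rw [Ch_nat T hj.le, Ch_nat T hj.le, ← Function.iterate_succ_apply,
        Function.iterate_succ_apply', sub_self])
    (t := t) (by linarith)
  refine this.trans (mul_le_mul_of_nonneg_left (pow_le_pow_left₀
    (div_nonneg (by positivity) (by linarith)) ?_ _) (by positivity))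
  rw [div_le_iff₀ (by linarith)]; linarith

theorem Near.cl {T : E → E} {x : E} {r a : ℝ} (h : Near T x r a) {m : ℕ}
    (hm : 216 * a * m ≤ r) (m1 : 1 ≤ m) {t : ℂ} (ht : ‖t‖ ≤ m) :
    ‖Ch T m t x - x‖ ≤ r / 4 := by
  have a0 := h.a0
  have m1' : (1 : ℝ) ≤ m := by exact_mod_cast m1
  have ar : 216 * a ≤ r := by nlinarith
  have := h.bd_Ch hm (p := x) (mem_ball_self (by linarith)) (t := t) (by linarith)
  linarith

theorem gtf : S_GTF := by
  intro T p q t r a η m N h hm m1 ht hq hs
  have a0 := (h 0 (Nat.zero_le _)).a0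
  have m1' : (1 : ℝ) ≤ m := by exact_mod_cast m1
  have ar : 216 * a ≤ r := by nlinarith
  have r0 : 0 < r := by linarith
  refine shadow (T := T) (p := fun j => Ch T m t (T^[j] p)) (r := fun _ => r / 2) (a := fun _ => a)
    (N := N) (τ := 2 * r * (1 / 2) ^ m) (η := η) (lam := 4 * a / r) (by positivity) (by positivity)
    (fun j hj => ⟨?_, ?_, ?_, hs⟩) (by simpa using hq) N le_rfl
  · exact (h j hj.le).shrink ((h j hj.le).cl hm m1 ht) (by linarith)
  · exact le_of_eq (by field_simp; ring)
  · have := (h j hj.le).comm hm m1 ht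
    rw [Function.iterate_succ_apply']
    have : 0 ≤ r * (1 / 2) ^ m := by positivity
    linarith

theorem gtb : S_GTB := by
  intro T T' p q t r a η m N h hm m1 ht hq hs
  have a0 := (h 0 (Nat.zero_le _)).1.a0
  have m1' : (1 : ℝ) ≤ m := by exact_mod_cast m1
  have ar : 216 * a ≤ r := by nlinarith
  have r0 : 0 < r := by linarith
  have key := shadow (T := T') (p := fun j => Ch T m t (T^[N - j] p)) (r := fun _ => r / 2)
    (a := fun _ => a) (N := N) (τ := 4 * r * (1 / 2) ^ m) (η := η) (lam := 4 * a / r)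
    (by positivity) (by positivity) (fun j hj => ⟨?_, ?_, ?_, hs⟩) (q := q) (by simpa using hq)
    N le_rfl
  · simpa using key
  · exact (h _ (Nat.sub_le _ _)).2.1.shrink ((h _ (Nat.sub_le _ _)).1.cl hm m1 ht) (by linarith)
  · exact le_of_eq (by field_simp; ring)
  · obtain ⟨i, hi, hiN⟩ : ∃ i, N - (j + 1) = i ∧ N - j = i + 1 := ⟨_, rfl, by omega⟩
    have i1 : i + 1 ≤ N := by omega
    simp only [hi, hiN]
    obtain ⟨n1, -, n3⟩ := h i (by omega)
    obtain ⟨n4, n5, -⟩ := h (i + 1) i1
    have c := n1.comm hm m1 ht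
    rw [← Function.iterate_succ_apply' T i p] at c
    have c1 := n1.cl hm m1 ht
    have e := n3 (Ch T m t (T^[i] p)) (by rw [mem_ball, dist_eq_norm]; linarith)
    have n6 : Near T' (Ch T m t (T^[i + 1] p)) (3 * r / 4) a := n5.shrink (n4.cl hm m1 ht) le_rfl
    have h2 : (1 / 2 : ℝ) ^ m ≤ 1 / 2 := by
      have := pow_le_pow_of_le_one (a := (1 / 2 : ℝ)) (by norm_num) (by norm_num) m1
      simpa using this
    have h3 : r * (1 / 2 : ℝ) ^ m ≤ r / 2 := by nlinarith
    have l := n6.lip (q := T (Ch T m t (T^[i] p))) (by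
      rw [mem_ball, dist_eq_norm]; exact c.trans_lt (by linarith))
    rw [e] at l
    have l1 : 1 + 2 * a / (3 * r / 4) ≤ 2 := by
      have : 2 * a / (3 * r / 4) ≤ 1 := by rw [div_le_one (by linarith)]; linarith
      linarith
    rw [norm_sub_rev]
    have : 0 ≤ r * (1 / 2) ^ m := by positivity
    calc _ ≤ _ := l
      _ ≤ 2 * (r * (1 / 2) ^ m) := by gcongr
      _ ≤ _ := by linarith

end Vale.Agent.P097F.N
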