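import Vale.Agent.P097F.N.Newt

/-!
# P097F/N: a quantitative inverse and pseudo-orbits
-/

set_option linter.all false

noncomputable section

namespace Vale.Agent.P097F.N

open Filter Topology Set Metric Complex
open scoped NNReal

variable {E : Type} [NormedAddCommGroup E] [NormedSpace ℂ E] [CompleteSpace E]

/-- the derivative of a bounded map -/
theorem fd_bd {F : E → E} {q₀ : E} {ρ M : ℝ} (hF : AnalyticOnNhd ℂ F (ball q₀ ρ))
    (hM : ∀ q ∈ ball q₀ ρ, ‖F q - F q₀‖ ≤ M) {q : E} (hq : q ∈ ball q₀ (ρ / 2)) :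
    ‖fderiv ℂ F q‖ ≤ 4 * M / ρ ∧ ‖fderiv ℂ F q - fderiv ℂ F q₀‖ ≤ 16 * M / ρ ^ 2 * ‖q - q₀‖ := by
  have ρ0 : 0 < ρ := by have := nonempty_ball.1 ⟨_, hq⟩; linarith
  have b : ∀ q ∈ ball q₀ (ρ / 2), ‖fderiv ℂ F q‖ ≤ 4 * M / ρ := fun q hq => by
    have s : ball q (ρ / 2) ⊆ ball q₀ ρ := ball_subset_ball' (by rw [mem_ball] at hq; linarith)
    refine (norm_fderiv_le_div_of_mapsTo_ball (R₂ := 2 * M) (hF.differentiableOn.mono s)
      (fun z hz => ?_) (by linarith)).trans_eq (by field_simp; ring)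
    rw [mem_closedBall, dist_eq_norm]
    have := hM z (s hz)
    have := hM q (s (mem_ball_self (by linarith)))
    have := norm_sub_le (F z - F q₀) (F q - F q₀)
    rw [sub_sub_sub_cancel_right] at this
    linarith
  refine ⟨b q hq, ?_⟩
  have := dist_le_div_mul_dist_of_mapsTo_ball (f := fderiv ℂ F) (c := q₀) (R₁ := ρ / 2)
    (R₂ := 8 * M / ρ) ((hF.fderiv.mono (ball_subset_ball (by linarith))).differentiableOn)
    (fun z hz => by
      rw [mem_closedBall, dist_eq_norm]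
      have := b z hz
      have := b q₀ (mem_ball_self (by linarith))
      have := norm_sub_le (fderiv ℂ F z) (fderiv ℂ F q₀)
      have e : 8 * M / ρ = 4 * M / ρ + 4 * M / ρ := by ring
      linarith) hq
  rw [dist_eq_norm, dist_eq_norm] at this
  refine this.trans_eq ?_
  congr 1; field_simp; ring

/-- the quantitative inverse -/
theorem qinv [Nontrivial E] {F : E → E} {q₀ : E} {ρ M K s : ℝ} (A : E ≃L[ℂ] E)
    (hF : AnalyticOnNhd ℂ F (ball q₀ ρ)) (hM : ∀ q ∈ ball q₀ ρ, ‖F q - F q₀‖ ≤ M)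
    (hA : fderiv ℂ F q₀ = A) (hK : ‖(A.symm : E →L[ℂ] E)‖ ≤ K) (s0 : 0 < s) (s1 : s ≤ ρ / 2)
    (hs : 32 * K * M * s ≤ ρ ^ 2) :
    ∃ G : E → E, AnalyticOnNhd ℂ G (ball (F q₀) (s / (2 * K))) ∧
      (∀ y ∈ ball (F q₀) (s / (2 * K)), G y ∈ ball q₀ s ∧ F (G y) = y) ∧
      (∀ q ∈ ball q₀ s, G (F q) = q) ∧
      ∀ q ∈ ball q₀ s, ∀ q' ∈ ball q₀ s, ‖q - q'‖ ≤ 2 * K * ‖F q - F q'‖ := by
  have N0 : 0 < ‖(A.symm : E →L[ℂ] E)‖ := A.norm_symm_pos
  have K0 : 0 < K := N0.trans_le hK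
  have ρ0 : 0 < ρ := by linarith
  have M0 : 0 ≤ M := by simpa using hM q₀ (mem_ball_self ρ0)
  set c : ℝ≥0 := ⟨1 / (2 * K), by positivity⟩ with hc
  have cc : (c : ℝ) = 1 / (2 * K) := rfl
  have NK : 1 / K ≤ ‖(A.symm : E →L[ℂ] E)‖⁻¹ := by
    rw [one_div]; exact inv_anti₀ N0 hK
  have e2 : 1 / K = 1 / (2 * K) + 1 / (2 * K) := by field_simp; ring
  have p2 : 0 < 1 / (2 * K) := by positivity
  have hcN : c < ‖(A.symm : E →L[ℂ] E)‖₊⁻¹ := by
    rw [← NNReal.coe_lt_coe, cc, NNReal.coe_inv, coe_nnnorm]; linarith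
  have sub : ball q₀ s ⊆ ball q₀ ρ := ball_subset_ball (by linarith)
  have d : ∀ q ∈ ball q₀ s, ‖fderiv ℂ F q - A‖ ≤ c := fun q hq => by
    have := (fd_bd hF hM (ball_subset_ball s1 hq)).2
    rw [hA] at this
    refine this.trans ?_
    have : ‖q - q₀‖ ≤ s := by rw [← dist_eq_norm]; exact (mem_ball.1 hq).le
    calc _ ≤ 16 * M / ρ ^ 2 * s := by gcongr
      _ ≤ _ := by
        rw [cc, div_mul_eq_mul_div, div_le_div_iff₀ (by positivity) (by positivity)]; linarith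
  have ap : ApproximatesLinearOn F (A : E →L[ℂ] E) (ball q₀ s) c := fun x hx y hy =>
    (convex_ball q₀ s).norm_image_sub_le_of_norm_hasFDerivWithin_le'
      (fun z hz => (hF z (sub hz)).differentiableAt.hasFDerivAt.hasFDerivWithinAt) d hy hx
  set P := ap.toOpenPartialHomeomorph F _ (Or.inr hcN) isOpen_ball with hP
  have tg : ball (F q₀) (s / (2 * K)) ⊆ P.target := fun y hy => by
    have hy' : ‖y - F q₀‖ < s / (2 * K) := by rwa [← dist_eq_norm]
    rw [lt_div_iff₀ (by positivity)] at hy'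
    refine ap.closedBall_subset_target (Or.inr hcN) isOpen_ball (b := q₀)
      (ε := ‖y - F q₀‖ * (2 * K)) (by positivity) (closedBall_subset_ball hy') ?_
    rw [mem_closedBall, dist_eq_norm, cc, NNReal.coe_inv, coe_nnnorm]
    calc _ = 1 / (2 * K) * (‖y - F q₀‖ * (2 * K)) := by field_simp
      _ ≤ _ := by gcongr; linarith
  refine ⟨P.symm, fun y hy => ?_, fun y hy => ⟨P.map_target (tg hy), P.right_inv (tg hy)⟩,
    fun q hq => P.left_inv hq, fun q hq q' hq' => ?_⟩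
  · have m := P.map_target (tg hy)
    have l : ApproximatesLinearOn (fderiv ℂ F (P.symm y)) (A : E →L[ℂ] E) univ c :=
      fun x _ z _ => by
        rw [← map_sub, ← ContinuousLinearMap.sub_apply]
        exact (ContinuousLinearMap.le_opNorm _ _).trans (by gcongr; exact d _ m)
    let i : E ≃L[ℂ] E := ContinuousLinearEquiv.ofBijective (fderiv ℂ F (P.symm y))
      (LinearMap.ker_eq_bot.2 (injOn_univ.1 (l.injOn (Or.inr hcN))))
      (LinearMap.range_eq_top.2 (l.surjective (Or.inr hcN)))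
    exact P.analyticAt_symm (i := i) (tg hy) (hF _ (sub m)) rfl
  · have h1 := ap q hq q' hq'
    have h2 : ‖q - q'‖ ≤ K * ‖A (q - q')‖ := by
      calc _ = ‖(A.symm : E →L[ℂ] E) (A (q - q'))‖ := by simp
        _ ≤ _ := (ContinuousLinearMap.le_opNorm _ _).trans (by gcongr)
    have h3 := norm_sub_le (F q - F q') (F q - F q' - (A : E →L[ℂ] E) (q - q'))
    rw [sub_sub_cancel] at h3
    rw [cc] at h1
    have h4 : K * ‖(A : E →L[ℂ] E) (q - q')‖ ≤ K * (‖F q - F q'‖ + 1 / (2 * K) * ‖q - q'‖) := by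
      gcongr; linarith
    have h5 : K * (1 / (2 * K) * ‖q - q'‖) = ‖q - q'‖ / 2 := by field_simp
    have h6 : (A : E →L[ℂ] E) (q - q') = A (q - q') := rfl
    rw [h6] at h4
    nlinarith

/-- the determinant -/
def det2 (L : ℂ × ℂ →L[ℂ] ℂ × ℂ) : ℂ := (L (1, 0)).1 * (L (0, 1)).2 - (L (0, 1)).1 * (L (1, 0)).2

theorem ap2 (L : ℂ × ℂ →L[ℂ] ℂ × ℂ) (v : ℂ × ℂ) : L v = v.1 • L (1, 0) + v.2 • L (0, 1) := by
  rw [← map_smul, ← map_smul, ← map_add]; simp

/-- the inverse of a map of the plane -/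
theorem equiv2 (L : ℂ × ℂ →L[ℂ] ℂ × ℂ) {B κ : ℝ} (hB : ‖L‖ ≤ B) (κ0 : 0 < κ)
    (hκ : κ ≤ ‖det2 L‖) : ∃ A : (ℂ × ℂ) ≃L[ℂ] (ℂ × ℂ), L = A ∧
      ‖(A.symm : ℂ × ℂ →L[ℂ] ℂ × ℂ)‖ ≤ 2 * B / κ := by
  have d0 : det2 L ≠ 0 := norm_pos_iff.1 (κ0.trans_le hκ)
  have B0 : 0 ≤ B := (norm_nonneg _).trans hB
  have b1 : ‖L (1, 0)‖ ≤ B := (L.le_opNorm _).trans (by simpa using hB)
  have b2 : ‖L (0, 1)‖ ≤ B := (L.le_opNorm _).trans (by simpa using hB)
  have key : ∀ v, ‖v‖ ≤ 2 * B / κ * ‖L v‖ := fun v => by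
    have e1 : det2 L * v.1 = (L v).1 * (L (0, 1)).2 - (L v).2 * (L (0, 1)).1 := by
      rw [ap2 L v, det2]; simp; ring
    have e2 : det2 L * v.2 = (L v).2 * (L (1, 0)).1 - (L v).1 * (L (1, 0)).2 := by
      rw [ap2 L v, det2]; simp; ring
    have g : ∀ x a b c d : ℂ, det2 L * x = a * b - c * d → ‖a‖ ≤ ‖L v‖ → ‖c‖ ≤ ‖L v‖ → ‖b‖ ≤ B →
        ‖d‖ ≤ B → ‖x‖ ≤ 2 * B / κ * ‖L v‖ := fun x a b c d e h1 h2 h3 h4 => by
      have := norm_sub_le (a * b) (c * d)
      rw [← e, norm_mul, norm_mul, norm_mul] at this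
      have h5 : ‖a‖ * ‖b‖ ≤ ‖L v‖ * B := by gcongr
      have h6 : ‖c‖ * ‖d‖ ≤ ‖L v‖ * B := by gcongr
      have h7 : κ * ‖x‖ ≤ ‖det2 L‖ * ‖x‖ := by gcongr
      rw [div_mul_eq_mul_div, le_div_iff₀ κ0]; linarith
    rw [Prod.norm_def]
    exact max_le (g _ _ _ _ _ e1 (norm_fst_le _) (norm_snd_le _) ((norm_snd_le _).trans b2)
      ((norm_fst_le _).trans b2)) (g _ _ _ _ _ e2 (norm_snd_le _) (norm_fst_le _)
      ((norm_fst_le _).trans b1) ((norm_snd_le _).trans b1))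
  have inj : Function.Injective L := (injective_iff_map_eq_zero L).2 fun v hv => by
    have := key v
    rw [hv, norm_zero, mul_zero] at this
    exact norm_le_zero_iff.1 this
  let A : (ℂ × ℂ) ≃L[ℂ] (ℂ × ℂ) := ContinuousLinearEquiv.ofBijective L (LinearMap.ker_eq_bot.2 inj)
    (LinearMap.range_eq_top.2 (LinearMap.injective_iff_surjective.1 inj))
  refine ⟨A, rfl, ContinuousLinearMap.opNorm_le_bound _ (by positivity) fun v => ?_⟩
  have := key (A.symm v)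
  have e : L (A.symm v) = v := A.apply_symm_apply v
  rwa [e] at this

theorem Near.lip {T : E → E} {p q : E} {r a : ℝ} (h : Near T p r a) (hq : q ∈ ball p r) :
    ‖T q - T p‖ ≤ (1 + 2 * a / r) * ‖q - p‖ := by
  have r0 : 0 < r := nonempty_ball.1 ⟨_, hq⟩
  have := dist_le_div_mul_dist_of_mapsTo_ball (f := fun q => T q - q) (c := p) (R₁ := r)
    (R₂ := 2 * a) (h.an.sub analyticOnNhd_id).differentiableOn (fun z hz => by
      rw [mem_closedBall, dist_eq_norm]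
      have := h.bd z hz
      have := h.bd p (mem_ball_self r0)
      have := norm_sub_le (T z - z) (T p - p)
      linarith) hq
  rw [dist_eq_norm, dist_eq_norm] at this
  have e : T q - T p = (T q - q - (T p - p)) + (q - p) := by abel
  rw [e]
  exact (norm_add_le _ _).trans (by linarith)

/-- an orbit follows a pseudo-orbit -/
theorem shadow {T : E → E} {p : ℕ → E} {r a : ℕ → ℝ} {N : ℕ} {τ η lam : ℝ} (τ0 : 0 ≤ τ)
    (l0 : 0 ≤ lam) (h : ∀ j < N, Near T (p j) (r j) (a j) ∧ 2 * a j ≤ lam * r j ∧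
      ‖T (p j) - p (j + 1)‖ ≤ τ ∧ (η + N * τ) * Real.exp (lam * N) < r j)
    {q : E} (hq : ‖q - p 0‖ ≤ η) : ∀ j ≤ N, AnalyticAt ℂ (T^[j]) q ∧
      ‖T^[j] q - p j‖ ≤ (η + j * τ) * Real.exp (lam * j) := by
  have η0 : 0 ≤ η := (norm_nonneg _).trans hq
  intro j
  induction j with
  | zero => intro _; exact ⟨analyticAt_id, by simpa using hq⟩
  | succ j ih =>
    intro hj
    obtain ⟨i1, i2⟩ := ih (by omega)
    obtain ⟨n, h1, h2, h3⟩ := h j (by omega)
    have jN : (j : ℝ) ≤ N := by exact_mod_cast (by omega : j ≤ N)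
    have m : T^[j] q ∈ ball (p j) (r j) := by
      rw [mem_ball, dist_eq_norm]
      exact i2.trans_lt (lt_of_le_of_lt (by gcongr) h3)
    have r0 : 0 < r j := nonempty_ball.1 ⟨_, m⟩
    rw [Function.iterate_succ']
    refine ⟨(n.an _ m).comp i1, ?_⟩
    have l := n.lip m
    have l1 : 1 + 2 * a j / r j ≤ Real.exp lam := by
      have : 2 * a j / r j ≤ lam := by rwa [div_le_iff₀ r0]
      linarith [Real.add_one_le_exp lam]
    have e : Real.exp (lam * (j + 1 : ℕ)) = Real.exp lam * Real.exp (lam * j) := by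
      rw [← Real.exp_add]; push_cast; ring_nf
    have e1 : 1 ≤ Real.exp (lam * (j + 1 : ℕ)) := Real.one_le_exp (by positivity)
    have t := norm_add_le (T (T^[j] q) - T (p j)) (T (p j) - p (j + 1))
    rw [sub_add_sub_cancel] at t
    have l2 : ‖T (T^[j] q) - T (p j)‖ ≤ Real.exp lam * ((η + j * τ) * Real.exp (lam * j)) :=
      l.trans (by gcongr)
    calc _ ≤ Real.exp lam * ((η + j * τ) * Real.exp (lam * j)) + τ * 1 := by
          rw [Function.comp_apply]; linarith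
      _ ≤ Real.exp lam * ((η + j * τ) * Real.exp (lam * j)) +
          τ * Real.exp (lam * (j + 1 : ℕ)) := by gcongr
      _ = _ := by rw [e]; push_cast; ring

end Vale.Agent.P097F.N
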