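import Vale.Agent.P097F.N.Inv
import Vale.Agent.P097F.N.Clock
import Vale.Agent.P097D.Defs

/-!
# P097F/N: the coordinates `(η, J)` at an obstacle, folds and `Z` points at once

`η = g(Y) sin δ`, `J = 24 S(δ) / g(Y) ^ 3`.  Points `P = (Y, δ)`.
-/

set_option linter.all false

noncomputable section

namespace Vale.Agent.P097F.N

open Filter Topology Set Metric Complex Vale.Agent.P097D

/-- the inverse function theorem, uniformly for perturbations -/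
theorem pinv {E : Type} [NormedAddCommGroup E] [NormedSpace ℂ E] [FiniteDimensional ℂ E]
    [Nontrivial E] {F₀ : E → E} {q₀ : E} {ρ : ℝ} (hρ : 0 < ρ)
    (hF₀ : AnalyticOnNhd ℂ F₀ (closedBall q₀ ρ)) (inj : Function.Injective (fderiv ℂ F₀ q₀)) :
    ∃ K s₀ ω₀ : ℝ, 1 ≤ K ∧ 0 < s₀ ∧ s₀ ≤ ρ / 2 ∧ 0 < ω₀ ∧ ∀ s, 0 < s → s ≤ s₀ → ∀ F : E → E,
      AnalyticOnNhd ℂ F (ball q₀ ρ) → (∀ q ∈ ball q₀ ρ, ‖F q - F₀ q‖ ≤ ω₀) →
      ∃ G : E → E, AnalyticOnNhd ℂ G (ball (F q₀) (s / K)) ∧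
        (∀ y ∈ ball (F q₀) (s / K), G y ∈ ball q₀ s ∧ F (G y) = y) ∧ G (F q₀) = q₀ ∧
        ∀ q ∈ ball q₀ s, ∀ q' ∈ ball q₀ s, ‖q - q'‖ ≤ K * ‖F q - F q'‖ := by
  have : CompleteSpace E := FiniteDimensional.complete ℂ E
  have mk : ∀ L : E →L[ℂ] E, Function.Injective L → ∃ A : E ≃L[ℂ] E, L = A := fun L h =>
    ⟨ContinuousLinearEquiv.ofBijective L (LinearMap.ker_eq_bot.2 h)
      (LinearMap.range_eq_top.2 (LinearMap.injective_iff_surjective.1 h)), rfl⟩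
  obtain ⟨A₀, hA₀⟩ := mk _ inj
  obtain ⟨M₀, hM₀⟩ := (isCompact_closedBall q₀ ρ).exists_bound_of_continuousOn hF₀.continuousOn
  have M0 : 0 ≤ M₀ := (norm_nonneg _).trans (hM₀ q₀ (mem_closedBall_self hρ.le))
  obtain ⟨K₀, hK₀⟩ : ∃ K₀, K₀ = ‖(A₀.symm : E →L[ℂ] E)‖ + 1 := ⟨_, rfl⟩
  have K1 : 1 ≤ K₀ := by rw [hK₀]; linarith [norm_nonneg (A₀.symm : E →L[ℂ] E)]
  refine ⟨2 * (2 * K₀), min (ρ / 2) (ρ ^ 2 / (32 * (2 * K₀) * (2 * M₀ + 2))), min 1 (ρ / (4 * K₀)),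
    by linarith, by positivity, min_le_left _ _, by positivity, fun s s0 s1 F hF hω => ?_⟩
  have w1 : ∀ q ∈ ball q₀ ρ, ‖F q - F₀ q‖ ≤ 1 := fun q hq => (hω q hq).trans (min_le_left _ _)
  have w2 : ∀ q ∈ ball q₀ ρ, ‖F q - F₀ q‖ ≤ ρ / (4 * K₀) := fun q hq =>
    (hω q hq).trans (min_le_right _ _)
  have m0 := mem_ball_self (x := q₀) hρ
  have d0 : ‖fderiv ℂ F q₀ - fderiv ℂ F₀ q₀‖ ≤ 1 / (2 * K₀) := by
    have k := norm_fderiv_le_div_of_mapsTo_ball (f := fun q => F q - F₀ q) (c := q₀) (R₁ := ρ)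
      (R₂ := ρ / (2 * K₀)) (hF.sub (hF₀.mono ball_subset_closedBall)).differentiableOn
      (fun z hz => by
        rw [mem_closedBall_iff_norm]
        have := norm_sub_le (F z - F₀ z) (F q₀ - F₀ q₀)
        have e : ρ / (2 * K₀) = ρ / (4 * K₀) + ρ / (4 * K₀) := by field_simp; ring
        linarith [w2 z hz, w2 q₀ m0]) hρ
    rw [fderiv_fun_sub (hF q₀ m0).differentiableAt
      (hF₀ q₀ (mem_closedBall_self hρ.le)).differentiableAt] at k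
    exact k.trans_eq (by field_simp)
  have key : ∀ v, ‖v‖ ≤ 2 * K₀ * ‖fderiv ℂ F q₀ v‖ := fun v => by
    have h1 : ‖v‖ ≤ K₀ * ‖fderiv ℂ F₀ q₀ v‖ := by
      calc _ = ‖(A₀.symm : E →L[ℂ] E) (fderiv ℂ F₀ q₀ v)‖ := by rw [hA₀]; simp
        _ ≤ _ := (ContinuousLinearMap.le_opNorm _ _).trans (by gcongr; linarith)
    have h2 := ((fderiv ℂ F q₀ - fderiv ℂ F₀ q₀).le_opNorm v).trans
      (mul_le_mul_of_nonneg_right d0 (norm_nonneg v))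
    rw [ContinuousLinearMap.sub_apply] at h2
    have h3 := norm_sub_norm_le (fderiv ℂ F₀ q₀ v) (fderiv ℂ F q₀ v)
    rw [norm_sub_rev] at h3
    have h4 : K₀ * ‖fderiv ℂ F₀ q₀ v‖ ≤ K₀ * (‖fderiv ℂ F q₀ v‖ + 1 / (2 * K₀) * ‖v‖) := by
      gcongr
      linarith
    have h5 : K₀ * (1 / (2 * K₀) * ‖v‖) = ‖v‖ / 2 := by field_simp
    nlinarith
  obtain ⟨A, hA⟩ := mk (fderiv ℂ F q₀) ((injective_iff_map_eq_zero _).2 fun v hv => by
    have := key v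
    rw [hv, norm_zero, mul_zero] at this
    exact norm_le_zero_iff.1 this)
  obtain ⟨G, g1, g2, g3, g4⟩ := qinv (M := 2 * M₀ + 2) (K := 2 * K₀) A hF (fun q hq => by
      have a1 := norm_sub_le (F q) (F q₀)
      have a2 := norm_le_norm_sub_add (F q) (F₀ q)
      have a3 := norm_le_norm_sub_add (F q₀) (F₀ q₀)
      linarith [w1 q hq, w1 q₀ m0, hM₀ q (ball_subset_closedBall hq),
        hM₀ q₀ (ball_subset_closedBall m0)]) hA
    (ContinuousLinearMap.opNorm_le_bound _ (by positivity) fun v => by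
      have := key (A.symm v)
      rwa [hA, ContinuousLinearEquiv.coe_coe, A.apply_symm_apply] at this) s0
    (s1.trans (min_le_left _ _)) (by
      have := (le_div_iff₀ (by positivity)).1 (s1.trans (min_le_right _ _))
      linarith)
  exact ⟨G, g1, g2, g3 _ (mem_ball_self s0), g4⟩

/-- the map whose inverse parametrises the level curves -/
def Fm (g : ℂ → ℂ) (x : (ℂ × ℂ) × ℂ) : (ℂ × ℂ) × ℂ :=
  ((g x.1.1 * sin x.1.2, x.2 * g x.1.1 ^ 3 - 24 * SS x.1.2), x.2)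

/-- the factor of the Jacobian -/
def Dn (δ : ℂ) : ℂ := 2 * δ * sin δ ^ 2 + 6 * SS δ * cos δ

/-- the derivative of the time -/
def fq (g : ℂ → ℂ) (Ξ : ℂ × ℂ → ℂ × ℂ) (q : ℂ × ℂ) : ℂ :=
  q.1 * (deriv g (Ξ q).1 * Dn (Ξ q).2)⁻¹

theorem SS_der (z : ℂ) : HasDerivAt SS (z * sin z) z := by
  have := (hasDerivAt_sin z).sub ((hasDerivAt_id z).mul (hasDerivAt_cos z))
  refine this.congr_deriv ?_
  simp

theorem SS_an (z : ℂ) : AnalyticAt ℂ SS z :=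
  Differentiable.analyticAt (fun z => (SS_der z).differentiableAt) z

theorem Dn_an (z : ℂ) : AnalyticAt ℂ Dn z := by
  have := SS_an z
  unfold Dn
  fun_prop

theorem Fm_an {g : ℂ → ℂ} {x : (ℂ × ℂ) × ℂ} (h : AnalyticAt ℂ g x.1.1) :
    AnalyticAt ℂ (Fm g) x := by
  have b1 : AnalyticAt ℂ (fun x : (ℂ × ℂ) × ℂ => x.1.1) x := analyticAt_fst.comp analyticAt_fst
  have b2 : AnalyticAt ℂ (fun x : (ℂ × ℂ) × ℂ => x.1.2) x := analyticAt_snd.comp analyticAt_fst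
  have a1 := h.comp (f := fun x : (ℂ × ℂ) × ℂ => x.1.1) b1
  have a2 := (SS_an _).comp (f := fun x : (ℂ × ℂ) × ℂ => x.1.2) b2
  have a3 := analyticAt_sin.comp (f := fun x : (ℂ × ℂ) × ℂ => x.1.2) b2
  exact ((a1.mul a3).prod ((analyticAt_snd.mul (a1.pow 3)).sub (analyticAt_const.mul a2))).prod
    analyticAt_snd

theorem Fm_der {g : ℂ → ℂ} {x : (ℂ × ℂ) × ℂ} (h : AnalyticAt ℂ g x.1.1) (v : (ℂ × ℂ) × ℂ) :
    fderiv ℂ (Fm g) x v = ((deriv g x.1.1 * v.1.1 * sin x.1.2 + g x.1.1 * (cos x.1.2 * v.1.2),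
      v.2 * g x.1.1 ^ 3 + x.2 * (3 * g x.1.1 ^ 2 * (deriv g x.1.1 * v.1.1)) -
        24 * (x.1.2 * sin x.1.2 * v.1.2)), v.2) := by
  have l : HasDerivAt (fun t : ℂ => x + t • v) v 0 := by
    simpa using ((hasDerivAt_id (0 : ℂ)).smul_const v).const_add x
  have d0 := HasFDerivAt.comp_hasDerivAt_of_eq (hl := (Fm_an h).differentiableAt.hasFDerivAt)
    (hf := l) (hy := by simp)
  have lin : ∀ a b : ℂ, HasDerivAt (fun t : ℂ => a + t * b) b 0 := fun a b => by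
    simpa using ((hasDerivAt_id (0 : ℂ)).mul_const b).const_add a
  have d1 := HasDerivAt.comp_of_eq (hh₂ := h.differentiableAt.hasDerivAt) (hh := lin x.1.1 v.1.1)
    (hy := by simp)
  have d2 := HasDerivAt.comp_of_eq (hh₂ := hasDerivAt_sin x.1.2) (hh := lin x.1.2 v.1.2)
    (hy := by simp)
  have d3 := HasDerivAt.comp_of_eq (hh₂ := SS_der x.1.2) (hh := lin x.1.2 v.1.2) (hy := by simp)
  have d4 := ((d1.mul d2).prodMk (((lin x.2 v.2).mul (d1.pow 3)).sub (d3.const_mul 24))).prodMk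
    (lin x.2 v.2)
  have := d0.unique d4
  simpa using this

/-- a singular point of the level curve `J₀ g(Y) ^ 3 = 24 S(δ)` -/
structure Sp (g : ℂ → ℂ) (P₀ : ℂ × ℂ) (J₀ : ℂ) : Prop where
  lev : J₀ * g P₀.1 ^ 3 = 24 * SS P₀.2
  d0 : P₀.2 ≠ 0
  g1 : deriv g P₀.1 ≠ 0
  ty : g P₀.1 = 0 ∨ sin P₀.2 = 0

theorem Sp.Dn_ne {g : ℂ → ℂ} {P₀ : ℂ × ℂ} {J₀ : ℂ} (h : Sp g P₀ J₀) : Dn P₀.2 ≠ 0 := by
  have c := sin_sq_add_cos_sq P₀.2
  by_cases hs : sin P₀.2 = 0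
  · have hc : cos P₀.2 ≠ 0 := fun e => by simp [hs, e] at c
    simp [Dn, SS, hs, hc, h.d0]
  · have := h.lev
    rw [h.ty.resolve_right hs] at this
    have h2 : SS P₀.2 = 0 := by simpa using this
    simp [Dn, h2, hs, h.d0]

theorem Sp.inj {g : ℂ → ℂ} {P₀ : ℂ × ℂ} {J₀ : ℂ} (h : Sp g P₀ J₀) (ha : AnalyticAt ℂ g P₀.1) :
    Function.Injective (fderiv ℂ (Fm g) (P₀, J₀)) := by
  refine (injective_iff_map_eq_zero _).2 fun v hv => ?_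
  rw [Fm_der (x := (P₀, J₀)) ha, Prod.ext_iff, Prod.ext_iff] at hv
  obtain ⟨⟨e1, e2⟩, e3⟩ := hv
  simp only [Prod.fst_zero, Prod.snd_zero] at e1 e2 e3
  rw [e3] at e2
  have l := h.lev
  have b1 : Dn P₀.2 * v.1.2 = 0 := by
    rw [Dn]
    linear_combination (J₀ * g P₀.1 ^ 2 / 4) * e1 - (sin P₀.2 / 12) * e2 - (cos P₀.2 * v.1.2 / 4) * l
  have b2 : Dn P₀.2 * (deriv g P₀.1 * v.1.1) = 0 := by
    rw [Dn]
    linear_combination (2 * P₀.2 * sin P₀.2) * e1 + (g P₀.1 * cos P₀.2 / 12) * e2 -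
      (cos P₀.2 * (deriv g P₀.1 * v.1.1) / 4) * l
  exact Prod.ext (Prod.ext ((mul_eq_zero.1 ((mul_eq_zero.1 b2).resolve_left h.Dn_ne)).resolve_left
    h.g1) ((mul_eq_zero.1 b1).resolve_left h.Dn_ne)) e3

/-- the coordinates near an obstacle -/
structure Lev (g : ℂ → ℂ) (Ξ : ℂ × ℂ → ℂ × ℂ) (P₀ : ℂ × ℂ) (J₀ κ : ℂ) (r s B : ℝ) : Prop where
  r0 : 0 < r
  rs : 4 * r ≤ s
  s1 : s ≤ 1
  B1 : 1 ≤ B
  ag : AnalyticOnNhd ℂ g (ball P₀.1 (2 * s))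
  an : AnalyticOnNhd ℂ Ξ (ball (0, J₀) (2 * r))
  mem : ∀ q ∈ ball ((0, J₀) : ℂ × ℂ) (2 * r), Ξ q ∈ ball P₀ (s / 2) ∧
    Fm g (Ξ q, q.2) = ((q.1, 0), q.2)
  inj : ∀ x ∈ ball (P₀, J₀) s, ∀ x' ∈ ball (P₀, J₀) s, ‖x - x'‖ ≤ B * ‖Fm g x - Fm g x'‖
  lin : ∀ P ∈ ball P₀ s, ‖(deriv g P.1 * Dn P.2)⁻¹ - 2 * κ‖ ≤ ‖κ‖ / 4
  κ0 : κ ≠ 0
  κB : ‖κ‖ ≤ B
  bg : ∀ y ∈ ball P₀.1 (2 * s), ‖g y‖ ≤ B ∧ ‖deriv g y‖ ≤ B
  bd : ∀ δ ∈ ball P₀.2 (2 * s), ‖δ‖ ≤ B ∧ 1 ≤ B * ‖δ‖ ∧ ‖sin δ‖ ≤ B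
  bF : ∀ x ∈ ball (P₀, J₀) (2 * s), ‖Fm g x‖ ≤ B

theorem mem_ball_prod {α β : Type} [PseudoMetricSpace α] [PseudoMetricSpace β] {x y : α × β}
    {r : ℝ} : x ∈ ball y r ↔ x.1 ∈ ball y.1 r ∧ x.2 ∈ ball y.2 r := by
  rw [mem_ball, Prod.dist_eq, max_lt_iff, mem_ball, mem_ball]

theorem Fm_sub {g g' : ℂ → ℂ} {x : (ℂ × ℂ) × ℂ} {B ω : ℝ} (B1 : 1 ≤ B) (h1 : ‖g x.1.1‖ ≤ B)
    (h2 : ‖g' x.1.1‖ ≤ B) (h3 : ‖sin x.1.2‖ ≤ B) (h4 : ‖x.2‖ ≤ B) (h : ‖g x.1.1 - g' x.1.1‖ ≤ ω) :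
    ‖Fm g x - Fm g' x‖ ≤ 3 * B ^ 3 * ω := by
  have w0 : 0 ≤ ω := (norm_nonneg _).trans h
  have e : Fm g x - Fm g' x = (((g x.1.1 - g' x.1.1) * sin x.1.2, (g x.1.1 - g' x.1.1) *
      (x.2 * (g x.1.1 ^ 2 + g x.1.1 * g' x.1.1 + g' x.1.1 ^ 2))), 0) := by
    simp only [Fm, Prod.mk_sub_mk, sub_self]
    congr 2 <;> ring
  have a1 : ‖g x.1.1 ^ 2 + g x.1.1 * g' x.1.1 + g' x.1.1 ^ 2‖ ≤ B ^ 2 + B * B + B ^ 2 := by
    refine norm_add₃_le.trans ?_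
    rw [norm_pow, norm_pow, norm_mul]
    gcongr
  have a2 : B ≤ 3 * B ^ 3 := by nlinarith [one_le_pow₀ B1 (n := 2)]
  rw [e, Prod.norm_def, Prod.norm_def]
  simp only [norm_mul, norm_zero]
  refine max_le (max_le ?_ ?_) (by positivity)
  · calc _ ≤ ω * (3 * B ^ 3) := by gcongr; linarith
      _ = _ := by ring
  · calc _ ≤ ω * (B * (B ^ 2 + B * B + B ^ 2)) := by gcongr
      _ = _ := by ring

/-- **LEV**: the coordinates exist uniformly for all curves near the limit curve -/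
theorem lev {g₀ : ℂ → ℂ} {P₀ : ℂ × ℂ} {J₀ : ℂ} {R : ℝ} (hR : 0 < R) (h : Sp g₀ P₀ J₀)
    (ha : AnalyticOnNhd ℂ g₀ (closedBall P₀.1 R)) :
    ∃ (κ : ℂ) (B s₀ : ℝ), 1 ≤ B ∧ 0 < s₀ ∧ 4 * s₀ ≤ R ∧ ∀ s, 0 < s → s ≤ s₀ → ∃ ω > 0, ∀ g : ℂ → ℂ,
      AnalyticOnNhd ℂ g (ball P₀.1 R) → (∀ y ∈ ball P₀.1 R, ‖g y - g₀ y‖ ≤ ω) →
      ∃ Ξ, Lev g Ξ P₀ J₀ κ (s / (8 * B)) s B := by
  have m0 := mem_closedBall_self (x := P₀.1) hR.le
  have cb : ∀ x ∈ closedBall ((P₀, J₀) : (ℂ × ℂ) × ℂ) R, x.1.1 ∈ closedBall P₀.1 R ∧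
      x.1.2 ∈ closedBall P₀.2 R ∧ x.2 ∈ closedBall J₀ R := fun x hx => by
    rw [mem_closedBall, Prod.dist_eq, Prod.dist_eq, max_le_iff, max_le_iff] at hx
    exact ⟨hx.1.1, hx.1.2, hx.2⟩
  have aF : AnalyticOnNhd ℂ (Fm g₀) (closedBall (P₀, J₀) R) := fun x hx => Fm_an (ha _ (cb x hx).1)
  obtain ⟨K, s₁, ω₁, K1, s10, s1R, ω10, hK⟩ := pinv hR aF (h.inj (ha _ m0))
  obtain ⟨B₁, hB₁⟩ := (isCompact_closedBall P₀.1 R).exists_bound_of_continuousOn ha.continuousOn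
  obtain ⟨B₂, hB₂⟩ := (isCompact_closedBall P₀.1 R).exists_bound_of_continuousOn
    ha.deriv.continuousOn
  obtain ⟨B₃, hB₃⟩ := (isCompact_closedBall P₀.2 R).exists_bound_of_continuousOn
    (f := fun δ : ℂ => (δ, sin δ)) (by fun_prop)
  obtain ⟨B₄, hB₄⟩ := (isCompact_closedBall J₀ R).exists_bound_of_continuousOn continuousOn_id
  obtain ⟨B₅, hB₅⟩ := (isCompact_closedBall _ R).exists_bound_of_continuousOn aF.continuousOn
  obtain ⟨κ, hκ⟩ : ∃ κ : ℂ, κ = (deriv g₀ P₀.1 * Dn P₀.2)⁻¹ / 2 := ⟨_, rfl⟩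
  have n0 : deriv g₀ P₀.1 * Dn P₀.2 ≠ 0 := mul_ne_zero h.g1 h.Dn_ne
  have κ0 : κ ≠ 0 := hκ ▸ div_ne_zero (inv_ne_zero n0) two_ne_zero
  have d0 : 0 < ‖P₀.2‖ := norm_pos_iff.2 h.d0
  obtain ⟨B, hB⟩ : ∃ B, B = K + |B₁| + |B₂| + |B₃| + |B₄| + |B₅| + ‖κ‖ + 2 / ‖P₀.2‖ + 1 := ⟨_, rfl⟩
  have p1 := abs_nonneg B₁
  have p2 := abs_nonneg B₂
  have p3 := abs_nonneg B₃
  have p4 := abs_nonneg B₄
  have p5 := abs_nonneg B₅
  have p6 := norm_nonneg κ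
  have p7 : 0 < 2 / ‖P₀.2‖ := by positivity
  have q1 := le_abs_self B₁
  have q2 := le_abs_self B₂
  have q3 := le_abs_self B₃
  have q4 := le_abs_self B₄
  have q5 := le_abs_self B₅
  have B1 : 1 ≤ B := by linarith
  have c1 : ContinuousAt (fun x : ℂ × ℂ × ℂ => ((deriv g₀ x.2.1 + x.1) * Dn x.2.2)⁻¹) (0, P₀) := by
    have a1 : ContinuousAt (fun x : ℂ × ℂ × ℂ => deriv g₀ x.2.1) (0, P₀) :=
      ContinuousAt.comp (g := deriv g₀) (ha _ m0).deriv.continuousAt (by fun_prop)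
    have a2 : ContinuousAt (fun x : ℂ × ℂ × ℂ => Dn x.2.2) (0, P₀) :=
      ContinuousAt.comp (g := Dn) (Dn_an _).continuousAt (by fun_prop)
    exact ((a1.add continuousAt_fst).mul a2).inv₀ (by simpa using n0)
  obtain ⟨ι, ι0, hι⟩ := Metric.continuousAt_iff.1 c1 (‖κ‖ / 4) (by positivity)
  refine ⟨κ, B, min (min s₁ (R / 4)) (min (min ι 1) (‖P₀.2‖ / 4)), B1, by positivity,
    by linarith [(min_le_left _ (min (min ι 1) (‖P₀.2‖ / 4))).trans (min_le_right s₁ (R / 4))],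
    fun s s0 hs => ?_⟩
  simp only [le_min_iff] at hs
  obtain ⟨⟨t1, t2⟩, ⟨t3, t4⟩, t5⟩ := hs
  have B0 : 0 < B := by linarith
  obtain ⟨ω, ω0, u1, u2, u3, u4⟩ : ∃ ω > 0, 3 * B ^ 3 * ω ≤ min ω₁ 1 ∧ 3 * B ^ 3 * ω ≤ s / (4 * B) ∧
      ω ≤ 1 ∧ 4 * ω / R < min ι 1 := by
    have t : Tendsto (fun ω : ℝ => ω) (𝓝[>] 0) (𝓝 0) := tendsto_id.mono_left nhdsWithin_le_nhds
    have v1 := (t.const_mul (3 * B ^ 3)).eventually_le_const
      (u := min ω₁ 1) (by simpa using ω10)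
    have v2 := (t.const_mul (3 * B ^ 3)).eventually_le_const (u := s / (4 * B))
      (by rw [mul_zero]; positivity)
    have v3 := t.eventually_le_const one_pos
    have v4 := ((t.const_mul 4).div_const R).eventually_lt_const (u := min ι 1) (by simpa using ι0)
    exact (eventually_mem_nhdsWithin.and (v1.and (v2.and (v3.and v4)))).exists
  refine ⟨ω, ω0, fun g hg hω => ?_⟩
  have bg : ∀ y ∈ ball P₀.1 R, ‖g y‖ ≤ B := fun y hy => by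
    linarith [norm_le_norm_sub_add (g y) (g₀ y), hω y hy, hB₁ y (ball_subset_closedBall hy)]
  have dg : ∀ y ∈ ball P₀.1 (2 * s), ‖deriv g y - deriv g₀ y‖ < min ι 1 := fun y hy => by
    have sb : ball y (R / 2) ⊆ ball P₀.1 R := ball_subset_ball' (by linarith [mem_ball.1 hy])
    have my := sb (mem_ball_self (by linarith))
    have k := norm_deriv_le_div_of_mapsTo_ball (f := fun z => g z - g₀ z) (c := y) (R₁ := R / 2)
      (R₂ := 2 * ω) ((hg.sub (ha.mono ball_subset_closedBall)).differentiableOn.mono sb)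
      (fun z hz => by
        rw [mem_closedBall_iff_norm]
        linarith [norm_sub_le (g z - g₀ z) (g y - g₀ y), hω z (sb hz), hω y my]) (by linarith)
    rw [deriv_fun_sub (hg y my).differentiableAt
      (ha y (ball_subset_closedBall my)).differentiableAt] at k
    exact k.trans_lt (lt_of_eq_of_lt (by field_simp; ring) u4)
  have dF : ∀ x ∈ ball ((P₀, J₀) : (ℂ × ℂ) × ℂ) R, ‖Fm g x - Fm g₀ x‖ ≤ 3 * B ^ 3 * ω := by
    intro x hx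
    obtain ⟨x1, x2, x3⟩ := cb x (ball_subset_closedBall hx)
    have x0 := (mem_ball_prod.1 (mem_ball_prod.1 hx).1).1
    exact Fm_sub B1 (bg _ x0) (by linarith [hB₁ _ x1])
      (by linarith [(norm_snd_le _).trans (hB₃ _ x2)]) (by linarith [show ‖x.2‖ ≤ B₄ from hB₄ _ x3])
      (hω _ x0)
  obtain ⟨G, g1, g2, g3, g4⟩ := hK s s0 t1 (Fm g)
    (fun x hx => Fm_an (hg _ (mem_ball_prod.1 (mem_ball_prod.1 hx).1).1))
    (fun x hx => (dF x hx).trans (u1.trans (min_le_left _ _)))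
  have KB : K ≤ B := by linarith
  have F0 : Fm g₀ (P₀, J₀) = ((0, 0), J₀) := by
    simp only [Fm, h.lev, sub_self, mul_eq_zero.2 h.ty]
  have mG : ∀ q ∈ ball ((0, J₀) : ℂ × ℂ) (2 * (s / (8 * B))),
      ‖(((q.1, 0), q.2) : (ℂ × ℂ) × ℂ) - Fm g (P₀, J₀)‖ < s / (2 * B) := fun q hq => by
    obtain ⟨a1, a2⟩ := mem_bd.1 hq
    have a3 := dF _ (mem_ball_self hR)
    rw [F0, norm_sub_rev] at a3
    have a4 : ‖(((q.1, 0), q.2) : (ℂ × ℂ) × ℂ) - ((0, 0), J₀)‖ < 2 * (s / (8 * B)) := by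
      simp only [Prod.mk_sub_mk, sub_zero, Prod.norm_def, norm_zero, max_lt_iff]
      exact ⟨⟨a1, by positivity⟩, a2⟩
    have a5 := norm_sub_le_norm_sub_add_norm_sub (((q.1, 0), q.2) : (ℂ × ℂ) × ℂ) ((0, 0), J₀)
      (Fm g (P₀, J₀))
    have e : s / (2 * B) = 2 * (s / (8 * B)) + s / (4 * B) := by field_simp; ring
    linarith
  have mG' : ∀ q ∈ ball ((0, J₀) : ℂ × ℂ) (2 * (s / (8 * B))),
      (((q.1, 0), q.2) : (ℂ × ℂ) × ℂ) ∈ ball (Fm g (P₀, J₀)) (s / K) := fun q hq =>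
    mem_ball_iff_norm.2 ((mG q hq).trans_le (by gcongr; linarith))
  have sR : ball P₀.1 (2 * s) ⊆ ball P₀.1 R := ball_subset_ball (by linarith)
  refine ⟨fun q => (G ((q.1, 0), q.2)).1, by positivity, ?_, t4, B1, hg.mono sR,
    fun q hq => analyticAt_fst.comp (AnalyticAt.comp (g := G)
      (f := fun q : ℂ × ℂ => (((q.1, 0), q.2) : (ℂ × ℂ) × ℂ)) (g1 _ (mG' q hq))
      ((analyticAt_fst.prod analyticAt_const).prod analyticAt_snd)),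
    fun q hq => ?_, fun x hx x' hx' => (g4 x hx x' hx').trans (by gcongr), fun P hP => ?_, κ0,
    by linarith, fun y hy => ⟨bg y (sR hy), ?_⟩, fun δ hδ => ?_, fun x hx => ?_⟩
  · rw [← mul_div_assoc, div_le_iff₀ (by positivity)]
    nlinarith
  · obtain ⟨a1, a2⟩ := g2 _ (mG' q hq)
    have a3 := g4 _ a1 _ (mem_ball_self s0)
    rw [a2] at a3
    have a4 : K * ‖(((q.1, 0), q.2) : (ℂ × ℂ) × ℂ) - Fm g (P₀, J₀)‖ < B * (s / (2 * B)) :=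
      lt_of_le_of_lt (by gcongr) (mul_lt_mul_of_pos_left (mG q hq) B0)
    have a5 : B * (s / (2 * B)) = s / 2 := by field_simp
    have a6 : (G ((q.1, 0), q.2)).2 = q.2 := congrArg Prod.snd a2
    refine ⟨mem_ball_iff_norm.2 (lt_of_le_of_lt (norm_fst_le (G ((q.1, 0), q.2) - (P₀, J₀)))
      (by linarith)), ?_⟩
    exact (congrArg (Fm g) (show ((G ((q.1, 0), q.2)).1, q.2) = G ((q.1, 0), q.2) from
      Prod.ext rfl a6.symm)).trans a2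
  · have a1 := dg P.1 (ball_subset_ball (by linarith) (mem_ball_prod.1 hP).1)
    have a2 := hι (x := (deriv g P.1 - deriv g₀ P.1, P)) (by
      rw [Prod.dist_eq, max_lt_iff, dist_zero_right]
      exact ⟨a1.trans_le (min_le_left _ _), (mem_ball.1 hP).trans_le t3⟩)
    rw [dist_eq_norm] at a2
    simp only [add_sub_cancel, add_zero] at a2
    rw [show 2 * κ = (deriv g₀ P₀.1 * Dn P₀.2)⁻¹ by rw [hκ]; ring]
    exact a2.le
  · linarith [norm_le_norm_sub_add (deriv g y) (deriv g₀ y), (dg y hy).trans_le (min_le_right _ _),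
      hB₂ y (ball_subset_closedBall (sR hy))]
  · have a1 := hB₃ δ (ball_subset_closedBall (ball_subset_ball (by linarith) hδ))
    have a2 := norm_sub_norm_le P₀.2 δ
    rw [norm_sub_rev] at a2
    have a3 := mem_ball_iff_norm.1 hδ
    have a4 : 2 / ‖P₀.2‖ * (‖P₀.2‖ / 2) ≤ B * ‖δ‖ := by gcongr <;> linarith
    exact ⟨by linarith [(norm_fst_le _).trans a1], le_of_eq_of_le (by field_simp) a4,
      by linarith [(norm_snd_le _).trans a1]⟩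
  · have a1 : x ∈ ball ((P₀, J₀) : (ℂ × ℂ) × ℂ) R := ball_subset_ball (by linarith) hx
    linarith [norm_le_norm_sub_add (Fm g x) (Fm g₀ x), dF x a1, u1.trans (min_le_right _ _),
      hB₅ x (ball_subset_closedBall a1)]

end Vale.Agent.P097F.N
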