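import Vale.Agent.P097F.N.LevoB

/-!
# P097F/N: the obstacles are not below the reference level
-/

set_option linter.all false

noncomputable section

namespace Vale.Agent.P097F.N

open Filter Topology Set Metric Complex

namespace Lv57

variable {K ς ε : ℝ} {D : Md} {ξ : ℝ} {c : ℕ}

namespace Cx

variable (X : Cx K ς ε D ξ) (hc : c < D.M)
include X hc

theorem hor {t : ℂ} (h1 : -3 ≤ t.re) (h2 : t.re ≤ D.N c + 3) : D.Hor (D.hi c + t) := by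
  obtain ⟨a1, a2, a3, -⟩ := ends X.H.num hc
  have b1 : (D.lo 0 : ℝ) ≤ D.hi c := by exact_mod_cast a1
  have b2 : (D.hi c : ℝ) + D.N c ≤ D.hi D.M := by exact_mod_cast a3.trans_le a2
  have := X.n4
  constructor <;> simp only [add_re, intCast_re] <;> linarith

theorem an {t : ℂ} (h1 : -3 ≤ t.re) (h2 : t.re ≤ D.N c + 3) (h3 : 0 ≤ t.im)
    (h4 : t.im ≤ D.m₀ + D.m₁ * ξ - 2 * (ς ^ 19 / ε)) :
    AnalyticAt ℂ (fun t : ℂ => D.Z (D.hi c + t, ξ)) t := by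
  refine (X.H.cone _ _ (X.hor hc h1 h2) X.ξ3 ?_ ?_).1.comp
    (f := fun t : ℂ => ((D.hi c + t, ξ) : ℂ × ℂ)) (by fun_prop)
  · simp only [add_im, intCast_im]; linarith [X.n4]
  · simp only [Md.top, add_im, intCast_im, ofReal_re, ofReal_im, mul_zero, abs_zero]
    linarith [X.l0]

theorem clock {i : ℤ} (hi : i = D.hi c ∨ i = D.lo (c + 1)) {t : ℂ} (h1 : |t.re| ≤ 2)
    (h2 : 0 ≤ t.im) (h3 : t.im ≤ D.m₀ + D.m₁ * ξ - 2 * (ς ^ 19 / ε)) :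
    ‖t‖ < D.m ∧ D.Z (i + t, ξ) ∈ ball (D.Z (i, ξ)) D.r ∧
      ‖D.τ c (D.Λ c (D.Z (i + t, ξ))) - D.τ c (D.Λ c (D.Z (i, ξ))) - ε * t‖ ≤
        13 * (K ^ 3 * ς ^ 20) := by
  have N := X.H.num
  have K1 := N.K1
  have s0 := N.ς0
  obtain ⟨a1, a2, a3, a4, a5⟩ := ends N hc
  obtain ⟨k1, k2, k3, k4⟩ := N.κ c hc
  obtain ⟨b1, b2, b3, b4, b5, b6, b7, -⟩ := stc K1 s0 X.hs k1 k2 k3 k4
  have g : D.Gap i ∧ D.lo 0 ≤ i ∧ i ≤ D.hi D.M ∧
      Ck (D.Λ c) (D.Ξ c) (D.J c) (D.ϱ c) D.r (D.Z (i, ξ)) := by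
    have := N.hl c hc
    rcases hi with rfl | rfl
    · exact ⟨a4, a1, by omega, (X.H.ck c hc _ X.ξR).1⟩
    · exact ⟨a5, by omega, a2, (X.H.ck c hc _ X.ξR).2⟩
  have nε : ‖(ε : ℂ)‖ = ε := by rw [norm_real, Real.norm_of_nonneg X.e0.le]
  have tm : ‖t‖ < D.m := by
    have := norm_le_abs_re_add_abs_im t
    rw [abs_of_nonneg h2] at this
    linarith [X.n4, X.nm, X.Y2, X.l0]
  have K0 : 0 < K := by linarith
  obtain ⟨c1, c2⟩ := chart_clock (X.H.pat c hc).1 g.2.2.2 (X.H.gap i g.1 _ X.ξR).1 N.am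
    (by have := X.nm; have := X.n4; exact_mod_cast (show (2 : ℝ) ≤ D.m by linarith)) b1 b2
    (by rw [nε, N.eq]; exact b3) b4 b5 b6 (by positivity) b7 (by rw [nε]; exact N.mK) N.r0
    (lt_of_mul_lt_mul_left (a := K) (by
      linarith [pk K1 s0 X.hs (a := 1) (b := 20) (by omega) (by omega), N.r0]) K0.le) tm
    (X.tb i g.1 g.2.1 g.2.2.1 t h1 h2 h3)
  refine ⟨tm, c1, c2.trans ?_⟩
  have d1 := mul_le_mul_of_nonneg_right N.mK (show 0 ≤ K ^ 2 * ς ^ 20 by positivity)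
  have d2 := mul_le_mul_of_nonneg_right K1 (show 0 ≤ K ^ 2 * ς ^ 20 by positivity)
  rw [N.eq] at d1
  linarith [X.mK]

theorem step {t : ℂ} (ht : t ∈ Ioo (-2) 2 ×ℂ Ioo 0 (D.m₀ + D.m₁ * ξ - 2 * (ς ^ 19 / ε))) :
    D.T (D.Z (D.hi c + t, ξ)) = D.Z (D.hi c + (t + 1), ξ) := by
  have N0 := Nat.cast_nonneg (α := ℝ) (D.N c)
  have := X.n4
  refine AnalyticOnNhd.eqOn_of_preconnected_of_eventuallyEq (𝕜 := ℂ)
    (f := fun t : ℂ => D.T (D.Z (D.hi c + t, ξ))) (g := fun t : ℂ => D.Z (D.hi c + (t + 1), ξ))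
    (z₀ := I) (fun t ht => ?_) (fun t ht => ?_)
    (rect _ _ _ _) ?_ ?_ ht
  · obtain ⟨⟨a1, a2⟩, a3, a4⟩ := mem_reProdIm.1 ht
    exact ((X.H.gap _ (ends X.H.num hc).2.2.2.1 _ X.ξR).1.an _
      (X.clock hc (Or.inl rfl) (abs_le.2 ⟨a1.le, a2.le⟩) a3.le a4.le).2.1).comp
      (f := fun t : ℂ => D.Z (D.hi c + t, ξ)) (X.an hc (by linarith) (by linarith) a3.le a4.le)
  · obtain ⟨⟨a1, a2⟩, a3, a4⟩ := mem_reProdIm.1 ht
    exact (X.an hc (t := t + 1) (by simp; linarith) (by simp; linarith) (by simpa using a3.le)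
      (by simpa using a4.le)).comp (f := fun t : ℂ => t + 1) (by fun_prop)
  · rw [mem_reProdIm, mem_Ioo, mem_Ioo, I_re, I_im]
    refine ⟨⟨by norm_num, by norm_num⟩, one_pos, by linarith [X.Y1, X.ln]⟩
  · filter_upwards [(isOpen_Ioo.reProdIm isOpen_Ioo).mem_nhds
      (show I ∈ Ioo (-2 : ℝ) 2 ×ℂ Ioo (0 : ℝ) 2 by simp [mem_reProdIm])] with t ht
    obtain ⟨⟨a1, a2⟩, a3, a4⟩ := mem_reProdIm.1 ht
    rw [← add_assoc]
    refine (X.H.deep _ _ (X.hor hc (by linarith) (by linarith)) (Or.inl ⟨X.ξR, ?_⟩)).2.2.1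
    simp only [add_im, intCast_im, zero_add, abs_of_pos a3]
    linarith

theorem nu (s : ℂ) : (ε : ℂ) * (s - D.ν ε c ξ) = D.τ₀ c ξ + ε * s := by
  have : (ε : ℂ) ≠ 0 := ofReal_ne_zero.2 X.e0.ne'
  rw [Md.ν]
  field_simp
  ring

theorem nu' : ε * (D.ν ε c ξ).re = -(D.τ₀ c ξ).re ∧ ε * (D.ν ε c ξ).im = -(D.τ₀ c ξ).im := by
  have := X.nu hc 0
  rw [zero_sub, mul_neg, mul_zero, add_zero, neg_eq_iff_eq_neg] at this
  exact ⟨by simpa using congrArg re this, by simpa using congrArg im this⟩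

theorem hband (hlt : (D.ν ε c ξ).im < D.m₀ + D.m₁ * ξ - 8 * (ς ^ 19 / ε)) {s : ℂ}
    (h1 : 0 ≤ s.re) (h2 : s.re ≤ D.N c) (h3 : |s.im - (D.ν ε c ξ).im| = 4 * (ς ^ 19 / ε)) :
    ContinuousAt (fun s : ℂ => D.Λ c (D.Z (D.hi c + s, ξ))) s ∧
      D.Λ c (D.Z (D.hi c + s, ξ)) ∈ ball ((0, D.J c) : ℂ × ℂ) (D.ϱ c) ∧
      ‖D.τ c (D.Λ c (D.Z (D.hi c + s, ξ))) - D.τ₀ c ξ - ε * s‖ ≤ 17 * (K ^ 3 * ς ^ 20) := by
  have N := X.H.num
  have K1 := N.K1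
  have s0 := N.ς0
  have e0 := X.e0
  have l0 := X.l0
  obtain ⟨k1, k2, k3, k4⟩ := N.κ c hc
  obtain ⟨b1, b2, b3, b4, b5, b6, b7, b8, b9⟩ := stc K1 s0 X.hs k1 k2 k3 k4
  obtain ⟨g1, -, -, g4, g5⟩ := X.H.geo c hc _ X.ξR
  obtain ⟨-, n2⟩ := X.nu' hc
  have P := (X.H.pat c hc).1
  have C := (X.H.ck c hc _ X.ξR).1
  have nε : ‖(ε : ℂ)‖ = ε := by rw [norm_real, Real.norm_of_nonneg e0.le]
  have el : ε * (ς ^ 19 / ε) = ς ^ 19 := mul_div_cancel₀ _ e0.ne'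
  have νn : (D.n : ℝ) ≤ (D.ν ε c ξ).im := le_of_mul_le_mul_left (by linarith) e0
  have εm : 0 ≤ ε * D.m := by positivity
  have NK : (D.N c : ℝ) * ς ^ 220 ≤ K := by
    have := norm_sub_le (D.τ₀ c ξ + ε * D.N c) (D.τ₀ c ξ)
    rw [add_sub_cancel_left, norm_mul, nε, norm_natCast] at this
    rw [← N.eq]
    linarith
  have Ne : (D.N c : ℝ) * (K * ς ^ 240) ≤ K ^ 2 * ς ^ 20 := by
    linarith [mul_le_mul_of_nonneg_right NK (show 0 ≤ K * ς ^ 20 by positivity)]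
  have Ne₁ : (D.N c : ℝ) * (4 * K ^ 2 * ς ^ 240) ≤ 4 * (K ^ 3 * ς ^ 20) := by
    linarith [mul_le_mul_of_nonneg_right NK (show 0 ≤ K ^ 2 * ς ^ 20 by positivity)]
  have E0 : 0 < K ^ 3 * ς ^ 20 := by positivity
  have E1 : 100 * (K ^ 3 * ς ^ 20) ≤ ς ^ 19 := by
    linarith [mul_le_mul_of_nonneg_right X.hs (pow_pos s0 19).le]
  have E2 : ‖D.κ c‖ * (ς ^ 10) ^ 2 ≤ K ^ 3 * ς ^ 20 := by
    rw [← pow_mul]
    exact mul_le_mul_of_nonneg_right (k2.trans (le_self_pow₀ K1 (by omega))) (by positivity)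
  obtain ⟨U, hU⟩ : ∃ U, U = Ioo (-2 : ℝ) 2 ×ℂ
    Ioo (s.im - 2 * (ς ^ 19 / ε)) (s.im + 2 * (ς ^ 19 / ε)) := ⟨_, rfl⟩
  obtain ⟨y1, y2⟩ := abs_le.1 h3.le
  have mU : ∀ t ∈ U, (-2 < t.re ∧ t.re < 2) ∧ (0 < t.im ∧
      t.im < D.m₀ + D.m₁ * ξ - 2 * (ς ^ 19 / ε)) ∧ 2 * ς ^ 19 ≤ |ε * (t.im - (D.ν ε c ξ).im)| := by
    intro t ht
    rw [hU] at ht
    obtain ⟨a1, a2, a3⟩ := mem_reProdIm.1 ht
    refine ⟨a1, ⟨by linarith [X.ln], by linarith⟩, ?_⟩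
    rw [abs_mul, abs_of_pos e0, ← el, mul_left_comm]
    refine mul_le_mul_of_nonneg_left ?_ e0.le
    rcases (abs_eq (by linarith)).1 h3 with e | e
    · exact le_trans (by linarith) (le_abs_self _)
    · exact le_trans (by linarith) (neg_le_abs _)
  have cl := fun t ht => X.clock hc (Or.inl rfl) (t := t)
    (abs_le.2 ⟨(mU t ht).1.1.le, (mU t ht).1.2.le⟩) (mU t ht).2.1.1.le (mU t ht).2.1.2.le
  have ps := fun t ht => pass P.clk P.stp b2 (by rw [nε, N.eq]; exact b3) b4 (by positivity) b5 b6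
    (N := D.N c) (ball_subset_ball (by linarith [P.clk.r0]) (ck_ball C (cl t ht).2.1))
    (by linarith [(C.mem _ (cl t ht).2.1).2.2]) fun j hj => by
      obtain ⟨c1, -, c3⟩ := cl t ht
      have jN : ε * j ≤ ε * D.N c := by gcongr
      have a1 := norm_mid (z := D.τ₀ c ξ) (B := ‖D.κ c‖ * D.ϱ c ^ 2 / 2 - ε * D.m)
        (show 0 ≤ ε * j by positivity) jN (by linarith) (by push_cast; linarith)
      have a2 := norm_add_le (D.τ₀ c ξ + (ε * j : ℝ)) (ε * t)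
      have a3 : ε * ‖t‖ ≤ ε * D.m := by gcongr
      have a4 := abs_im_le_norm (D.τ₀ c ξ + (ε * j : ℝ) + ε * t)
      rw [add_im, add_im, ofReal_im, im_ofReal_mul, show (D.τ₀ c ξ).im + 0 + ε * t.im =
        ε * (t.im - (D.ν ε c ξ).im) by linarith] at a4
      have a5 := abs_norm_sub_norm_le (D.τ c (D.Λ c (D.Z (D.hi c + t, ξ))) + j * ε)
        (D.τ₀ c ξ + (ε * j : ℝ) + ε * t)
      rw [show D.τ c (D.Λ c (D.Z (D.hi c + t, ξ))) + j * ε - (D.τ₀ c ξ + (ε * j : ℝ) + ε * t) =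
        D.τ c (D.Λ c (D.Z (D.hi c + t, ξ))) - D.τ₀ c ξ - ε * t by push_cast; ring] at a5
      obtain ⟨a6, a7⟩ := abs_le.1 (a5.trans c3)
      rw [norm_mul, nε] at a2
      constructor <;> linarith [(mU t ht).2.2]
  have bd := band P C (W := fun t : ℂ => D.Z (D.hi c + t, ξ)) (U := U) (N := D.N c)
    (hU ▸ isOpen_Ioo.reProdIm isOpen_Ioo)
    (hU ▸ rect _ _ _ _) (t₁ := s.im * I)
    (by simp [hU, mem_reProdIm, l0])
    (by simp only [hU, mem_reProdIm, mem_Ioo]; simp [l0]; norm_num) (fun t ht j hj => by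
      obtain ⟨⟨a1, a2⟩, ⟨a3, a4⟩, -⟩ := mU t ht
      have jN : (j : ℝ) ≤ D.N c := by exact_mod_cast hj
      have j0 := Nat.cast_nonneg (α := ℝ) j
      exact X.an hc (by simp; linarith) (by simp; linarith) (by simpa using a3.le)
        (by simpa using a4.le))
    (fun t ht => (cl t ht).2.1) (fun t ht => X.step hc (mem_reProdIm.2 ⟨(mU t ht).1, (mU t ht).2.1⟩))
    fun t ht j hj => ⟨(ps t ht j hj).1, (ps t ht j hj).2.1⟩
  have j1 := Nat.floor_le h1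
  have j2 := Nat.lt_floor_add_one s.re
  obtain ⟨j, hj⟩ : ∃ j, j = ⌊s.re⌋₊ := ⟨_, rfl⟩
  rw [← hj] at j1 j2
  have jN : (j : ℝ) ≤ D.N c := j1.trans h2
  have tU : s - j ∈ U := by
    simp only [hU, mem_reProdIm, mem_Ioo, sub_re, sub_im, natCast_re, natCast_im]
    refine ⟨⟨?_, ?_⟩, ?_, ?_⟩ <;> linarith
  obtain ⟨d1, d2⟩ := bd j (by exact_mod_cast jN) _ tU
  obtain ⟨d3, -, d4, -⟩ := ps _ tU j (by exact_mod_cast jN)
  simp only [sub_add_cancel] at d1 d2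
  rw [← d1] at d3 d4
  refine ⟨d2, d3.1, ?_⟩
  have d5 := (norm_add_le _ _).trans (add_le_add d4 (cl _ tU).2.2)
  have d6 : (j : ℝ) * (4 * K ^ 2 * ς ^ 240) ≤ D.N c * (4 * K ^ 2 * ς ^ 240) := by gcongr
  refine le_trans (le_of_eq (congrArg norm ?_)) (d5.trans (by linarith))
  rw [Md.τ₀]
  ring

end Cx

end Lv57

open Lv57 in
theorem levo (hT : S_TUB) : S_LEVO := by
  obtain ⟨c₀, c0, c1, hT⟩ := hT
  intro K
  by_cases K1 : 1 ≤ K
  swap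
  · exact ⟨1, one_pos, fun ς ε D _ H => absurd H.num.K1 K1⟩
  obtain ⟨ς₁, s1, hT⟩ := hT K
  refine ⟨min ς₁ (c₀ ^ 4 / (100 * K ^ 3)), by positivity, fun ς ε D hς H c hc ξ hξ => ?_⟩
  have X := cx H c0 c1 (by
    linarith [(lt_div_iff₀ (by positivity)).1 (hς.trans_le (min_le_right _ _))])
    (hT ς ε D (hς.trans_le (min_le_left _ _)) H) hξ
  by_contra hlt
  rw [not_le] at hlt
  have s0 := H.num.ς0
  have e0 := X.e0
  have l0 := X.l0
  obtain ⟨g1, g2, g3, -⟩ := H.geo c hc _ X.ξR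
  obtain ⟨n1, n2⟩ := X.nu' hc
  have εm : 0 ≤ ε * D.m := by positivity
  have el : ε * (ς ^ 19 / ε) = ς ^ 19 := mul_div_cancel₀ _ e0.ne'
  have νn : (D.n : ℝ) ≤ (D.ν ε c ξ).im := le_of_mul_le_mul_left (by linarith) e0
  have E0 : 0 < K ^ 3 * ς ^ 20 := by positivity
  have E1 : 100 * (K ^ 3 * ς ^ 20) ≤ ς ^ 19 := by
    linarith [mul_le_mul_of_nonneg_right X.hs (pow_pos s0 19).le]
  have E2 : ς ^ 19 ≤ 1 / K := by
    rw [le_div_iff₀ (by linarith)]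
    linarith [pk K1 s0 X.hs (a := 1) (b := 19) (by omega) (by omega)]
  have P := (H.pat c hc).1
  obtain ⟨C1, C2⟩ := H.ck c hc _ X.ξR
  have hN : (D.hi c : ℂ) + D.N c = D.lo (c + 1) := by exact_mod_cast (ends H.num hc).2.2.1
  refine no_sqrt2 (n := D.ν ε c ξ) (κ := D.κ c) (ε := ε) (A₁ := (D.ν ε c ξ).re)
    (A₂ := D.N c - (D.ν ε c ξ).re) (b := 4 * (ς ^ 19 / ε))
    (η := fun s => (D.Λ c (D.Z (D.hi c + s, ξ))).1)
    ((pos_iff_pos_of_mul_pos (show 0 < ε * _ by linarith)).1 e0)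
    ((pos_iff_pos_of_mul_pos (show 0 < ε * _ by linarith)).1 e0) (by linarith)
    fun s a1 a2 a3 a4 => ?_
  rw [sub_re] at a1 a2
  rw [sub_re, sub_im] at a4
  rw [sub_im] at a3
  obtain ⟨y1, y2⟩ := abs_le.1 a3
  have y3 : 0 ≤ s.im := by linarith [X.ln]
  have y4 : s.im ≤ D.m₀ + D.m₁ * ξ - 2 * (ς ^ 19 / ε) := by linarith
  have cW := (X.an hc (t := s) (by linarith) (by linarith) y3 y4).continuousAt
  have key : ContinuousAt (fun s : ℂ => D.Λ c (D.Z (D.hi c + s, ξ))) s ∧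
      D.Λ c (D.Z (D.hi c + s, ξ)) ∈ ball ((0, D.J c) : ℂ × ℂ) (D.ϱ c) ∧
      ‖D.τ c (D.Λ c (D.Z (D.hi c + s, ξ))) - D.τ₀ c ξ - ε * s‖ ≤ 43 * (K ^ 3 * ς ^ 20) ∧
      ς ^ 19 ≤ ‖D.τ₀ c ξ + ε * s‖ := by
    have r1 := abs_re_le_norm (D.τ₀ c ξ + ε * s)
    have r2 := abs_im_le_norm (D.τ₀ c ξ + ε * s)
    rw [add_re, re_ofReal_mul] at r1
    rw [add_im, im_ofReal_mul, show (D.τ₀ c ξ).im + ε * s.im =
      ε * (s.im - (D.ν ε c ξ).im) by linarith, abs_mul, abs_of_pos e0] at r2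
    rcases a4 with e | e | e
    · have e' : s.re = 0 := by linarith
      obtain ⟨-, b1, b2⟩ := X.clock hc (Or.inl rfl) (t := s) (by simp [e']) y3 y4
      rw [e'] at r1
      exact ⟨ContinuousAt.comp (g := D.Λ c) (C1.an _ b1).continuousAt cW, ck_ball C1 b1,
        b2.trans (by linarith), by linarith [neg_le_abs ((D.τ₀ c ξ).re + ε * 0)]⟩
    · have e' : s.re = D.N c := by linarith
      obtain ⟨s', hs'⟩ : ∃ s' : ℂ, s' = ⟨D.N c, (D.ν ε c ξ).im + 4 * (ς ^ 19 / ε)⟩ := ⟨_, rfl⟩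
      have u1 : s'.re = D.N c := by rw [hs']
      have u2 : s'.im = (D.ν ε c ξ).im + 4 * (ς ^ 19 / ε) := by rw [hs']
      have w : ∀ s : ℂ, (D.lo (c + 1) : ℂ) + (s - D.N c) = D.hi c + s := fun s => by
        rw [← hN]
        ring
      obtain ⟨-, b1, b2⟩ := X.clock hc (Or.inr rfl) (t := s - D.N c) (by simp [e'])
        (by simpa using y3) (by simpa using y4)
      obtain ⟨-, -, b3⟩ := X.clock hc (Or.inr rfl) (t := s' - D.N c) (by simp [u1])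
        (by rw [sub_im, natCast_im, u2]; linarith [X.n4])
        (by rw [sub_im, natCast_im, u2]; linarith)
      obtain ⟨-, -, b4⟩ := X.hband hc hlt (s := s') (by rw [u1]; positivity) u1.le
        (by rw [u2, add_sub_cancel_left, abs_of_pos (by linarith)])
      rw [w] at b1 b2 b3
      have b5 := (norm_add_le _ _).trans (add_le_add ((norm_sub_le _ _).trans (add_le_add b2 b3)) b4)
      rw [e'] at r1
      refine ⟨ContinuousAt.comp (g := D.Λ c) (C2.an _ b1).continuousAt cW, ck_ball C2 b1,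
        le_trans (le_of_eq (congrArg norm (by ring))) (b5.trans (by linarith)),
        by linarith [le_abs_self ((D.τ₀ c ξ).re + ε * D.N c)]⟩
    · obtain ⟨b1, b2, b3⟩ := X.hband hc hlt (s := s) (by linarith) (by linarith) e
      rw [e] at r2
      exact ⟨b1, b2, b3.trans (by linarith), by linarith [pow_pos s0 19]⟩
  obtain ⟨k1, k2, k3, k4⟩ := key
  rw [X.nu hc]
  rw [sub_sub] at k3
  exact ⟨k1.fst, fin P.clk k2 k3 (by linarith)⟩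

end Vale.Agent.P097F.N
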