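import Vale.Agent.P097EE.Tc

/-!
# P097F.N: two constants under the top of a leaf, and the absence of a square root on a loop
-/

set_option linter.all false

noncomputable section

namespace Vale.Agent.P097F.N

open Set Metric Complex

/-- two constants on a rectangle with a weight which vanishes on the top and on the sides -/
theorem rectS0 {E : Type*} [NormedAddCommGroup E] [NormedSpace ℂ E] {f : ℂ → E} {b h M L : ℝ}
    (hb : 0 < b) (hh : 0 < h) (hL : 0 ≤ L)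
    (hf : DiffContOnCl ℂ f (Ioo (-b) b ×ℂ Ioo 0 h))
    (h1 : ∀ z : ℂ, |z.re| ≤ b → 0 ≤ z.im → z.im ≤ h → ‖f z‖ ≤ M)
    (h2 : ∀ x : ℝ, |x| ≤ b → ‖f x‖ ≤ M * Real.exp (-L)) {z : ℂ}
    (z1 : |z.re| ≤ 2 * b / 3) (z2 : 0 ≤ z.im) (z3 : z.im ≤ h) :
    ‖f z‖ ≤ M * Real.exp (-(L * ((h - z.im) / (2 * h * Real.exp (Real.pi * h / (2 * b)))))) := by
  have hM : 0 ≤ M :=
    (norm_nonneg _).trans (h1 0 (by simpa using hb.le) (by simp) (by simpa using hh.le))
  obtain ⟨a, ha⟩ : ∃ a : ℝ, a = Real.pi / (2 * b) := ⟨_, rfl⟩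
  have a0 : 0 < a := by rw [ha]; positivity
  have ab : a * b = Real.pi / 2 := by rw [ha]; field_simp
  have s0 : 0 < Real.sinh (a * h) := Real.sinh_pos_iff.2 (by positivity)
  let Φ : ℂ → ℂ := fun w => -I * sin (a * (h * I - w)) / (Real.sinh (a * h) : ℝ)
  have re1 : ∀ w : ℂ, (Φ w).re =
      Real.cos (a * w.re) * Real.sinh (a * (h - w.im)) / Real.sinh (a * h) := by
    intro w
    have e : (a : ℂ) * (h * I - w) = ((-(a * w.re) : ℝ) : ℂ) + ((a * (h - w.im) : ℝ) : ℂ) * I := by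
      apply Complex.ext <;> simp
    show (-I * sin (a * (h * I - w)) / (Real.sinh (a * h) : ℝ)).re = _
    rw [div_ofReal_re, e, sin_add_mul_I, ← ofReal_sin, ← ofReal_cos, ← ofReal_cosh, ← ofReal_sinh,
      Real.cos_neg]
    congr 1
    simp only [neg_mul, neg_re, mul_re, I_re, I_im, add_re, add_im, mul_im, ofReal_re, ofReal_im]
    ring
  have hΦ : Differentiable ℂ Φ := by
    show Differentiable ℂ fun w => -I * sin (a * (h * I - w)) / (Real.sinh (a * h) : ℝ)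
    fun_prop
  have hcl : closure (Ioo (-b) b ×ℂ Ioo 0 h) = Icc (-b) b ×ℂ Icc 0 h := by
    rw [closure_reProdIm, closure_Ioo (by linarith), closure_Ioo hh.ne]
  have hbd : Bornology.IsBounded (Ioo (-b) b ×ℂ Ioo 0 h) :=
    (isBounded_Ioo _ _).reProdIm (isBounded_Ioo _ _)
  have key := P097EE.Tc.tc (f := f) (Φ := Φ) (M := M) (L := L) hbd hf hΦ.diffContOnCl hL hM
    (fun w hw => by
      have hw' : w ∈ Icc (-b) b ×ℂ Icc 0 h := hcl ▸ frontier_subset_closure hw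
      obtain ⟨⟨x1, x2⟩, y1, y2⟩ := mem_reProdIm.1 hw'
      have hn : w ∉ Ioo (-b) b ×ℂ Ioo 0 h := fun hh' =>
        ((isOpen_Ioo.reProdIm isOpen_Ioo).frontier_eq ▸ hw).2 hh'
      have hx : |w.re| ≤ b := abs_le.2 ⟨x1, x2⟩
      by_cases c1 : w.im = 0
      · left
        have e : w = (w.re : ℂ) := by apply Complex.ext <;> simp [c1]
        refine ⟨by rw [e]; exact h2 _ hx, ?_⟩
        rw [re1, c1, sub_zero, div_le_one s0]
        exact mul_le_of_le_one_left s0.le (Real.cos_le_one _)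
      · right
        refine ⟨h1 w hx y1 y2, ?_⟩
        rw [re1]
        by_cases c2 : w.im = h
        · rw [c2]; simp
        · have c3 : w.re = -b ∨ w.re = b := by
            by_contra c4
            rw [not_or] at c4
            exact hn (mem_reProdIm.2 ⟨⟨lt_of_le_of_ne x1 (Ne.symm c4.1), lt_of_le_of_ne x2 c4.2⟩,
              lt_of_le_of_ne y1 (Ne.symm c1), lt_of_le_of_ne y2 c2⟩)
          rcases c3 with c3 | c3
          · rw [c3, mul_neg, Real.cos_neg, ab, Real.cos_pi_div_two]; simp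
          · rw [c3, ab, Real.cos_pi_div_two]; simp)
    (z := z) (by
      rw [hcl]
      obtain ⟨u1, u2⟩ := abs_le.1 z1
      exact mem_reProdIm.2 ⟨⟨by linarith, by linarith⟩, z2, z3⟩)
  refine key.trans (mul_le_mul_of_nonneg_left (Real.exp_le_exp.2 (neg_le_neg
    (mul_le_mul_of_nonneg_left ?_ hL))) hM)
  rw [re1]
  have c1 : 1 / 2 ≤ Real.cos (a * z.re) := by
    rw [← Real.cos_pi_div_three, ← Real.cos_abs (a * z.re)]
    refine Real.cos_le_cos_of_nonneg_of_le_pi (abs_nonneg _) (by linarith [Real.pi_pos]) ?_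
    rw [abs_mul, abs_of_pos a0]
    nlinarith
  have c2 : a * (h - z.im) ≤ Real.sinh (a * (h - z.im)) :=
    Real.self_le_sinh_iff.2 (mul_nonneg a0.le (by linarith))
  have c3 : Real.sinh (a * h) ≤ a * h * Real.exp (a * h) := by
    rw [Real.sinh_eq]
    have e1 : Real.exp (-(a * h)) = Real.exp (a * h) * Real.exp (-(2 * (a * h))) := by
      rw [← Real.exp_add]; congr 1; ring
    have e2 := Real.add_one_le_exp (-(2 * (a * h)))
    have e3 := Real.exp_pos (a * h)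
    rw [e1]
    nlinarith
  have e4 : Real.pi * h / (2 * b) = a * h := by rw [ha]; ring
  rw [e4, div_le_div_iff₀ (by positivity) s0]
  have e5 := Real.exp_pos (a * h)
  have d0 : 0 ≤ h - z.im := by linarith
  have c4 : 1 / 2 * (a * (h - z.im)) ≤ Real.cos (a * z.re) * Real.sinh (a * (h - z.im)) :=
    mul_le_mul c1 c2 (mul_nonneg a0.le d0) (by linarith)
  calc (h - z.im) * Real.sinh (a * h) ≤ (h - z.im) * (a * h * Real.exp (a * h)) :=
        mul_le_mul_of_nonneg_left c3 d0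
    _ = 1 / 2 * (a * (h - z.im)) * (2 * h * Real.exp (a * h)) := by ring
    _ ≤ _ := mul_le_mul_of_nonneg_right c4 (by positivity)

/-- the same in the coordinate `c + ω z` -/
theorem rectS {E : Type*} [NormedAddCommGroup E] [NormedSpace ℂ E] {f : ℂ → E} {c ω : ℂ}
    {b h M L : ℝ} (hb : 0 < b) (hh : 0 < h) (hL : 0 ≤ L)
    (hf : ∀ z : ℂ, |z.re| ≤ b → 0 ≤ z.im → z.im ≤ h → DifferentiableAt ℂ f (c + ω * z))
    (h1 : ∀ z : ℂ, |z.re| ≤ b → 0 ≤ z.im → z.im ≤ h → ‖f (c + ω * z)‖ ≤ M)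
    (h2 : ∀ x : ℝ, |x| ≤ b → ‖f (c + ω * x)‖ ≤ M * Real.exp (-L)) {z : ℂ}
    (z1 : |z.re| ≤ 2 * b / 3) (z2 : 0 ≤ z.im) (z3 : z.im ≤ h) :
    ‖f (c + ω * z)‖ ≤
      M * Real.exp (-(L * ((h - z.im) / (2 * h * Real.exp (Real.pi * h / (2 * b)))))) := by
  refine rectS0 (f := fun z => f (c + ω * z)) hb hh hL (DifferentiableOn.diffContOnCl ?_) h1 h2
    z1 z2 z3
  rw [closure_reProdIm, closure_Ioo (by linarith), closure_Ioo hh.ne]
  intro w hw
  obtain ⟨⟨x1, x2⟩, y1, y2⟩ := mem_reProdIm.1 hw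
  exact ((hf w (abs_le.2 ⟨x1, x2⟩) y1 y2).comp w (by fun_prop)).differentiableWithinAt

lemma one_le_sub_I {y : ℂ} (h : y.im ≤ 0) : 1 ≤ ‖y - I‖ := by
  have h1 := abs_im_le_norm (y - I)
  rw [sub_im, I_im, abs_of_nonpos (by linarith)] at h1
  linarith

/-- **TUBE**: a function with values in the lower half plane which is exponentially close to a
bounded one on the bottom side stays close to it below the top -/
theorem tube {y k : ℂ → ℂ} {c ω : ℂ} {b h B L : ℝ} (hb : 0 < b) (hh : 0 < h) (hL : 0 ≤ L)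
    (hf : ∀ z : ℂ, |z.re| ≤ b → 0 ≤ z.im → z.im ≤ h → DifferentiableAt ℂ y (c + ω * z) ∧
      DifferentiableAt ℂ k (c + ω * z) ∧ (y (c + ω * z)).im ≤ 0 ∧ (k (c + ω * z)).im ≤ 0)
    (h2 : ∀ x : ℝ, |x| ≤ b → ‖y (c + ω * x) - k (c + ω * x)‖ ≤ 2 * Real.exp (-L)) {z : ℂ}
    (z1 : |z.re| ≤ 2 * b / 3) (z2 : 0 ≤ z.im) (z3 : z.im ≤ h) (hB : ‖k (c + ω * z) - I‖ ≤ B)
    {η : ℝ}
    (hη : Real.exp (-(L * ((h - z.im) / (2 * h * Real.exp (Real.pi * h / (2 * b)))))) ≤ η)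
    (hs : 4 * B * η ≤ 1) : ‖y (c + ω * z) - k (c + ω * z)‖ ≤ 4 * B ^ 2 * η := by
  have id1 : ∀ u v : ℂ, u.im ≤ 0 → v.im ≤ 0 →
      ‖u - v‖ = ‖(u - I)⁻¹ - (v - I)⁻¹‖ * (‖u - I‖ * ‖v - I‖) := by
    intro u v hu hv
    have u0 : u - I ≠ 0 := norm_pos_iff.1 (by linarith [one_le_sub_I hu])
    have v0 : v - I ≠ 0 := norm_pos_iff.1 (by linarith [one_le_sub_I hv])
    rw [← norm_mul, ← norm_mul, norm_sub_rev u v]
    congr 1
    field_simp
    ring
  have key := rectS (f := fun t => (y t - I)⁻¹ - (k t - I)⁻¹) (c := c) (ω := ω) (M := 2) hb hh hL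
    (fun w a1 a2 a3 => by
      obtain ⟨d1, d2, d3, d4⟩ := hf w a1 a2 a3
      exact ((d1.sub_const I).inv (norm_pos_iff.1 (by linarith [one_le_sub_I d3]))).sub
        ((d2.sub_const I).inv (norm_pos_iff.1 (by linarith [one_le_sub_I d4]))))
    (fun w a1 a2 a3 => by
      obtain ⟨-, -, d3, d4⟩ := hf w a1 a2 a3
      refine (norm_sub_le _ _).trans ?_
      rw [norm_inv, norm_inv]
      linarith [inv_le_one_of_one_le₀ (one_le_sub_I d3), inv_le_one_of_one_le₀ (one_le_sub_I d4)])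
    (fun x a1 => by
      obtain ⟨-, -, d3, d4⟩ := hf x (by simpa using a1) (by simp) (by simpa using hh.le)
      refine le_trans ?_ (h2 x a1)
      rw [id1 _ _ d3 d4]
      exact le_mul_of_one_le_right (norm_nonneg _)
        (one_le_mul_of_one_le_of_one_le (one_le_sub_I d3) (one_le_sub_I d4)))
    z1 z2 z3
  obtain ⟨-, -, d3, d4⟩ := hf z (z1.trans (by linarith)) z2 z3
  have e := id1 _ _ d3 d4
  have t1 : ‖y (c + ω * z) - I‖ ≤ ‖y (c + ω * z) - k (c + ω * z)‖ + B :=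
    (norm_sub_le_norm_sub_add_norm_sub _ (k (c + ω * z)) _).trans (by linarith)
  have B1 : 1 ≤ B := (one_le_sub_I d4).trans hB
  have k2 : ‖(y (c + ω * z) - I)⁻¹ - (k (c + ω * z) - I)⁻¹‖ ≤ 2 * η := key.trans (by linarith)
  have η0 : 0 ≤ η := (Real.exp_pos _).le.trans hη
  have n0 := norm_nonneg (y (c + ω * z) - k (c + ω * z))
  have t2 : ‖y (c + ω * z) - k (c + ω * z)‖ ≤
      2 * η * ((‖y (c + ω * z) - k (c + ω * z)‖ + B) * B) := by
    calc _ = _ := e
      _ ≤ _ := by gcongr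
  nlinarith [mul_nonneg n0 (show 0 ≤ 1 - 4 * B * η by linarith)]

/-! ### no square root on a loop -/

/-- the boundary of a rectangle with centre `n` -/
def Loop (n : ℂ) (a b : ℝ) : Set ℂ :=
  {s | |(s - n).re| ≤ a ∧ |(s - n).im| ≤ b ∧ (|(s - n).re| = a ∨ |(s - n).im| = b)}

lemma loop_conn (n : ℂ) {a b : ℝ} (ha : 0 ≤ a) (hb : 0 ≤ b) : IsPreconnected (Loop n a b) := by
  have cv : ∀ (A B : Set ℝ), Convex ℝ A → Convex ℝ B →
      IsPreconnected {s : ℂ | (s - n).re ∈ A ∧ (s - n).im ∈ B} := by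
    intro A B hA hB
    refine Convex.isPreconnected ?_
    intro x hx y hy u v hu hv huv
    have e : u • x + v • y - n = u • (x - n) + v • (y - n) := by
      rw [smul_sub, smul_sub, sub_add_sub_comm, ← add_smul, huv, one_smul]
    refine ⟨?_, ?_⟩
    · rw [e, add_re, smul_re, smul_re]; exact hA hx.1 hy.1 hu hv huv
    · rw [e, add_im, smul_im, smul_im]; exact hB hx.2 hy.2 hu hv huv
  have p1 := cv {a} (Icc (-b) b) (convex_singleton _) (convex_Icc _ _)
  have p2 := cv (Icc (-a) a) {b} (convex_Icc _ _) (convex_singleton _)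
  have p3 := cv {-a} (Icc (-b) b) (convex_singleton _) (convex_Icc _ _)
  have p4 := cv (Icc (-a) a) {-b} (convex_Icc _ _) (convex_singleton _)
  have ia : -a ≤ a := by linarith
  have ib : -b ≤ b := by linarith
  have q := ((p1.union (n + ⟨a, b⟩) (by rw [mem_setOf_eq, add_sub_cancel_left]; simp [ib])
    (by rw [mem_setOf_eq, add_sub_cancel_left]; simp [ia]) p2).union
    (n + ⟨-a, b⟩) (Or.inr (by rw [mem_setOf_eq, add_sub_cancel_left]; simp [ia]))
    (by rw [mem_setOf_eq, add_sub_cancel_left]; simp [ib]) p3).union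
    (n + ⟨-a, -b⟩) (Or.inr (by rw [mem_setOf_eq, add_sub_cancel_left]; simp [ib]))
    (by rw [mem_setOf_eq, add_sub_cancel_left]; simp [ia]) p4
  refine (congrArg IsPreconnected ?_).mp q
  ext s
  simp only [Loop, mem_union, mem_setOf_eq, mem_singleton_iff, mem_Icc, abs_le, abs_eq ha,
    abs_eq hb]
  constructor
  · rintro (((⟨h1, h2⟩ | ⟨h1, h2⟩) | ⟨h1, h2⟩) | ⟨h1, h2⟩)
    · exact ⟨⟨by linarith, by linarith⟩, h2, Or.inl (Or.inl h1)⟩
    · exact ⟨h1, ⟨by linarith, by linarith⟩, Or.inr (Or.inl h2)⟩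
    · exact ⟨⟨by linarith, by linarith⟩, h2, Or.inl (Or.inr h1)⟩
    · exact ⟨h1, ⟨by linarith, by linarith⟩, Or.inr (Or.inr h2)⟩
  · rintro ⟨h1, h2, (h3 | h3) | (h3 | h3)⟩
    · exact Or.inl (Or.inl (Or.inl ⟨h3, h2⟩))
    · exact Or.inl (Or.inr ⟨h3, h2⟩)
    · exact Or.inl (Or.inl (Or.inr ⟨h1, h3⟩))
    · exact Or.inr ⟨h1, h3⟩

/-- there is no approximate continuous square root on a symmetric connected set -/
theorem no_sqrt0 {Λ : Set ℂ} {n κ ε : ℂ} {η : ℂ → ℂ} (hc : IsPreconnected Λ) {s₀ : ℂ}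
    (h0 : s₀ ∈ Λ) (hs : ∀ s ∈ Λ, 2 * n - s ∈ Λ) (hη : ContinuousOn η Λ)
    (h : ∀ s ∈ Λ, ‖κ * η s ^ 2 - ε * (s - n)‖ < ‖ε * (s - n)‖) : False := by
  have n0 : ∀ s ∈ Λ, ε * (s - n) ≠ 0 := fun s hs' h1 => by
    have := h s hs'
    rw [h1, norm_zero] at this
    exact absurd this (not_lt.2 (norm_nonneg _))
  have e0 : ∀ s ∈ Λ, η s ≠ 0 := fun s hs' h1 => by
    have := h s hs'
    rw [h1, zero_pow two_ne_zero, mul_zero, zero_sub, norm_neg] at this
    exact lt_irrefl _ this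
  -- the quotient of the values at opposite points is never real
  have im0 : ∀ s ∈ Λ, (η (2 * n - s) / η s).im ≠ 0 := by
    intro s hs' h1
    have a1 := h s hs'
    have a2 := h _ (hs s hs')
    obtain ⟨t, ht⟩ : ∃ t : ℝ, η (2 * n - s) = t * η s :=
      ⟨(η (2 * n - s) / η s).re, by
        have e : ((η (2 * n - s) / η s).re : ℂ) = η (2 * n - s) / η s := by
          apply Complex.ext <;> simp [h1]
        rw [e, div_mul_cancel₀ _ (e0 s hs')]⟩
    have e1 : ε * (2 * n - s - n) = -(ε * (s - n)) := by ring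
    rw [ht, e1, norm_neg] at a2
    obtain ⟨A, hA⟩ : ∃ A, A = κ * η s ^ 2 := ⟨_, rfl⟩
    obtain ⟨D, hD⟩ : ∃ D, D = ε * (s - n) := ⟨_, rfl⟩
    have e2 : κ * (t * η s) ^ 2 - -D = (t ^ 2 : ℝ) * A + D := by rw [hA]; push_cast; ring
    rw [← hD, e2] at a2
    rw [← hA, ← hD] at a1
    have b1 := (sq_lt_sq₀ (norm_nonneg _) (norm_nonneg _)).2 a1
    have b2 := (sq_lt_sq₀ (norm_nonneg _) (norm_nonneg _)).2 a2
    rw [Complex.sq_norm, Complex.sq_norm, normSq_apply, normSq_apply] at b1 b2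
    simp only [sub_re, sub_im, add_re, add_im, re_ofReal_mul, im_ofReal_mul] at b1 b2
    have t0 := sq_nonneg t
    have c1 : 0 < A.re * D.re + A.im * D.im := by nlinarith [sq_nonneg A.re, sq_nonneg A.im]
    nlinarith [mul_nonneg t0 c1.le, sq_nonneg (t ^ 2 * A.re), sq_nonneg (t ^ 2 * A.im)]
  have hq : ContinuousOn (fun s => (η (2 * n - s) / η s).im) Λ :=
    continuous_im.comp_continuousOn
      ((hη.comp (by fun_prop) hs).div hη e0)
  have inv : (η (2 * n - (2 * n - s₀)) / η (2 * n - s₀)).im * (η (2 * n - s₀) / η s₀).im < 0 := by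
    rw [sub_sub_cancel, ← inv_div (η (2 * n - s₀)), inv_im]
    have a1 := im0 s₀ h0
    have a2 : 0 < normSq (η (2 * n - s₀) / η s₀) :=
      normSq_pos.2 (div_ne_zero (e0 _ (hs _ h0)) (e0 _ h0))
    rw [div_mul_eq_mul_div]
    exact div_neg_of_neg_of_pos (by nlinarith [sq_pos_of_ne_zero a1]) a2
  rcases mul_neg_iff.1 inv with ⟨c1, c2⟩ | ⟨c1, c2⟩
  · obtain ⟨s, hs', e⟩ := hc.intermediate_value h0 (hs _ h0) hq ⟨c2.le, c1.le⟩
    exact im0 s hs' e
  · obtain ⟨s, hs', e⟩ := hc.intermediate_value (hs _ h0) h0 hq ⟨c1.le, c2.le⟩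
    exact im0 s hs' e

/-- **no square root on the boundary of a rectangle** -/
theorem no_sqrt {n κ ε : ℂ} {a b : ℝ} {η : ℂ → ℂ} (ha : 0 ≤ a) (hb : 0 ≤ b)
    (hη : ContinuousOn η (Loop n a b))
    (h : ∀ s ∈ Loop n a b, ‖κ * η s ^ 2 - ε * (s - n)‖ < ‖ε * (s - n)‖) : False := by
  refine no_sqrt0 (loop_conn n ha hb) (s₀ := n + ⟨a, b⟩) ?_ ?_ hη h
  · simp [Loop, abs_of_nonneg ha, abs_of_nonneg hb]
  · intro s hs
    have e : 2 * n - s - n = -(s - n) := by ring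
    simp only [Loop, mem_setOf_eq, e, neg_re, neg_im, abs_neg] at hs ⊢
    exact hs

end Vale.Agent.P097F.N
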