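import Vale.Agent.P097F.N.Defs
import Vale.Agent.P097F.N.Tube

/-!
# P097F/N: lemmas for the level of an obstacle (loop, clock along a chart, chain along a band)
-/

set_option linter.all false

noncomputable section

namespace Vale.Agent.P097F.N.Lv57

open Filter Topology Set Metric Complex

/-- no square root on the boundary of a rectangle around `n` -/
theorem no_sqrt2 {n κ ε : ℂ} {A₁ A₂ b : ℝ} {η : ℂ → ℂ} (h1 : 0 < A₁) (h2 : 0 < A₂) (hb : 0 < b)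
    (h : ∀ s : ℂ, -A₁ ≤ (s - n).re → (s - n).re ≤ A₂ → |(s - n).im| ≤ b →
      ((s - n).re = -A₁ ∨ (s - n).re = A₂ ∨ |(s - n).im| = b) →
      ContinuousAt η s ∧ ‖κ * η s ^ 2 - ε * (s - n)‖ < ‖ε * (s - n)‖) : False := by
  obtain ⟨g, hg⟩ : ∃ g : ℂ → ℝ, g = fun s =>
    max (max (-(s - n).re / A₁) ((s - n).re / A₂)) (|(s - n).im| / b) := ⟨_, rfl⟩
  have gc : Continuous g := by rw [hg]; fun_prop
  have g1 : ∀ s, -(s - n).re / A₁ ≤ g s ∧ (s - n).re / A₂ ≤ g s ∧ |(s - n).im| / b ≤ g s ∧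
      (g s = -(s - n).re / A₁ ∨ g s = (s - n).re / A₂ ∨ g s = |(s - n).im| / b) := fun s => by
    rw [hg]
    refine ⟨(le_max_left _ _).trans (le_max_left _ _), (le_max_right _ _).trans (le_max_left _ _),
      le_max_right _ _, ?_⟩
    rcases max_choice (max (-(s - n).re / A₁) ((s - n).re / A₂)) (|(s - n).im| / b) with e | e
    · rcases max_choice (-(s - n).re / A₁) ((s - n).re / A₂) with e' | e'
      · exact Or.inl (e.trans e')
      · exact Or.inr (Or.inl (e.trans e'))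
    · exact Or.inr (Or.inr e)
  have g0 : ∀ s, s ≠ n → 0 < g s := fun s hs => by
    by_contra hc
    obtain ⟨a1, a2, a3, -⟩ := g1 s
    have b1 := (div_le_iff₀ h1).1 (a1.trans (not_lt.1 hc))
    have b2 := (div_le_iff₀ h2).1 (a2.trans (not_lt.1 hc))
    have b3 := (div_le_iff₀ hb).1 (a3.trans (not_lt.1 hc))
    rw [zero_mul] at b1 b2 b3
    exact hs (sub_eq_zero.1 (Complex.ext (by rw [zero_re]; linarith) (abs_nonpos_iff.1 b3)))
  have key : ∀ s, s ≠ n → ContinuousAt η (n + (s - n) / g s) ∧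
      ‖κ * η (n + (s - n) / g s) ^ 2 - ε * ((s - n) / g s)‖ < ‖ε * ((s - n) / g s)‖ := by
    intro s hs
    have p := g0 s hs
    obtain ⟨a1, a2, a3, a4⟩ := g1 s
    have := h (n + (s - n) / g s)
    rw [add_sub_cancel_left, div_ofReal_re, div_ofReal_im, abs_div, abs_of_pos p] at this
    rw [div_le_iff₀ h1] at a1
    rw [div_le_iff₀ h2] at a2
    rw [div_le_iff₀ hb] at a3
    refine this ((le_div_iff₀ p).2 (by linarith)) ((div_le_iff₀ p).2 (by linarith))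
      ((div_le_iff₀ p).2 (by linarith)) ?_
    rw [eq_div_iff h1.ne', eq_div_iff h2.ne', eq_div_iff hb.ne'] at a4
    rw [div_eq_iff p.ne', div_eq_iff p.ne', div_eq_iff p.ne']
    rcases a4 with e | e | e
    · exact Or.inl (by linarith)
    · exact Or.inr (Or.inl (by linarith))
    · exact Or.inr (Or.inr (by linarith))
  refine no_sqrt0 (Λ := {n}ᶜ) (n := n) (κ := κ) (ε := ε)
    (η := fun s => η (n + (s - n) / g s) * Real.sqrt (g s))
    (isConnected_compl_singleton_of_one_lt_rank (by simp) n).isPreconnected (s₀ := n + 1)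
    (by simp) (fun s hs e => hs ?_) (fun s hs => ContinuousAt.continuousWithinAt ?_) fun s hs => ?_
  · rw [mem_singleton_iff] at e ⊢
    linear_combination -e
  · have p : (g s : ℂ) ≠ 0 := ofReal_ne_zero.2 (g0 s hs).ne'
    have c1 : ContinuousAt (fun s => n + (s - n) / (g s : ℂ)) s :=
      continuousAt_const.add ((continuousAt_id.sub continuousAt_const).div
        (continuous_ofReal.comp gc).continuousAt p)
    exact (ContinuousAt.comp (f := fun s => n + (s - n) / (g s : ℂ)) (key s hs).1 c1).mul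
      (continuous_ofReal.comp gc.sqrt).continuousAt
  · have p := g0 s hs
    have p' : (g s : ℂ) ≠ 0 := ofReal_ne_zero.2 p.ne'
    have e1 : κ * (η (n + (s - n) / g s) * Real.sqrt (g s)) ^ 2 - ε * (s - n) =
        g s * (κ * η (n + (s - n) / g s) ^ 2 - ε * ((s - n) / g s)) := by
      rw [mul_pow, ← ofReal_pow, Real.sq_sqrt p.le]
      field_simp
    have e2 : ε * (s - n) = g s * (ε * ((s - n) / g s)) := by field_simp
    rw [e1, e2, norm_mul (g s : ℂ), norm_mul (g s : ℂ)]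
    exact mul_lt_mul_of_pos_left (key s hs).2 (norm_pos_iff.2 p')

theorem half_pow {m : ℕ} (hm : 1 ≤ m) : (1 / 2 : ℝ) ^ m ≤ 4 / (m : ℝ) ^ 2 := by
  have k : ∀ n : ℕ, (n : ℝ) ^ 2 + 2 * n + 3 ≤ 4 * 2 ^ n := fun n => by
    induction n with
    | zero => norm_num
    | succ n ih =>
      push_cast
      rw [pow_succ 2 n]
      nlinarith [sq_nonneg (n : ℝ)]
  have m0 : (0 : ℝ) < m := by exact_mod_cast hm
  rw [one_div, inv_pow, inv_eq_one_div, div_le_div_iff₀ (by positivity) (by positivity)]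
  linarith [k m]

variable {T Λ Ξ : ℂ × ℂ → ℂ × ℂ} {τ f : ℂ × ℂ → ℂ} {κ J₀ ε : ℂ} {ϱ σ e r a d e₁ K δ : ℝ}
  {p₀ : ℂ × ℂ}

theorem ck_ball (C : Ck Λ Ξ J₀ ϱ r p₀) {p : ℂ × ℂ} (hp : p ∈ ball p₀ r) :
    Λ p ∈ ball ((0, J₀) : ℂ × ℂ) ϱ := by
  obtain ⟨a1, a2, a3⟩ := C.mem p hp
  exact mem_bd.2 ⟨a2, by linarith [norm_nonneg ((Λ p).2 - J₀)]⟩

/-- the clock along a chart -/
theorem chart_clock (P : Patch T Λ Ξ τ f κ J₀ ε ϱ σ e) (C : Ck Λ Ξ J₀ ϱ r p₀) (h : Near T p₀ r a)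
    {m : ℕ} (hm : 216 * a * m ≤ r) (m2 : 2 ≤ m) (hσ : σ ≤ ϱ / 8) (h0 : 0 < ‖κ‖ * σ)
    (hd : ‖ε‖ + e ≤ ‖κ‖ * σ * d) (hdr : d < ϱ) (he : e < ϱ)
    (h1 : 2 * ‖κ‖ * ϱ * e + 3 * ‖κ‖ * d ^ 2 + e ≤ e₁) (he₁ : 0 ≤ e₁) (hκ : ‖κ‖ * ϱ ^ 2 ≤ K)
    (hε : ‖ε‖ * m ≤ K) (hr : 1 ≤ K * r) (hδ : δ < r / 2) {t : ℂ} (ht : ‖t‖ < m) {p : ℂ × ℂ}
    (hp : ‖p - Ch T m t p₀‖ ≤ δ) :
    p ∈ ball p₀ r ∧ ‖τ (Λ p) - τ (Λ p₀) - ε * t‖ ≤ m * e₁ + 48 * K / m + 8 * K ^ 2 * δ := by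
  have a0 := h.a0
  have m2' : (2 : ℝ) ≤ m := by exact_mod_cast m2
  have r0 : 0 < r := by nlinarith
  have ϱ0 := P.clk.r0
  have K0 : 0 < K := (pos_iff_pos_of_mul_pos (show 0 < K * r by linarith)).2 r0
  have δ0 : 0 ≤ δ := (norm_nonneg _).trans hp
  have b2 : ∀ p ∈ ball p₀ r, Λ p ∈ ball ((0, J₀) : ℂ × ℂ) (2 * ϱ) := fun p hp =>
    ball_subset_ball (by linarith) (ck_ball C hp)
  have dφ : DifferentiableOn ℂ (fun p => τ (Λ p)) (ball p₀ r) :=
    P.clk.an.comp C.an.differentiableOn b2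
  have bφ : ∀ p ∈ ball p₀ r, ‖τ (Λ p)‖ ≤ 2 * K := fun p hp => by
    have k1 := P.clk.up (b2 p hp)
    have k2 : ‖κ‖ * ‖(Λ p).1‖ ^ 2 ≤ ‖κ‖ * ϱ ^ 2 := by
      have := (C.mem p hp).2.1
      gcongr
    linarith
  have cm : ∀ t : ℂ, ‖t‖ ≤ 8 * m → ‖Ch T m t p₀ - p₀‖ ≤ r / 4 := fun t ht =>
    (h.bd_Ch hm (mem_ball_self (by linarith)) ht).trans (by linarith)
  have lip : ∀ p₁ p : ℂ × ℂ, ‖p₁ - p₀‖ ≤ r / 4 → ‖p - p₁‖ < r / 2 →
      p ∈ ball p₀ r ∧ ‖τ (Λ p) - τ (Λ p₁)‖ ≤ 8 * K / r * ‖p - p₁‖ := by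
    intro p₁ p k1 k2
    have sb : ball p₁ (r / 2) ⊆ ball p₀ r := ball_subset_ball' (by rw [dist_eq_norm]; linarith)
    have m1 := mem_ball_iff_norm.2 k2
    have k := dist_le_div_mul_dist_of_mapsTo_ball (f := fun p => τ (Λ p)) (c := p₁)
      (R₁ := r / 2) (R₂ := 4 * K) (dφ.mono sb) (fun z hz => by
        rw [mem_closedBall_iff_norm]
        linarith [norm_sub_le (τ (Λ z)) (τ (Λ p₁)), bφ z (sb hz),
          bφ p₁ (sb (mem_ball_self (by linarith)))]) m1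
    rw [dist_eq_norm, dist_eq_norm] at k
    exact ⟨sb m1, k.trans_eq (by field_simp; ring)⟩
  have mem : ∀ t : ℂ, ‖t‖ ≤ 8 * m → Ch T m t p₀ ∈ ball p₀ r := fun t ht =>
    mem_ball_iff_norm.2 (by linarith [cm t ht])
  have dr := drift (D := fun t => τ (Λ (Ch T m t p₀)) - ε * t) (t₀ := 0) (R := m) (M := 4 * K)
    (e := e₁ + 32 * K / m ^ 2) (by linarith)
    ((dφ.comp (f := fun t => Ch T m t p₀) (fun t _ =>
      (h.an_t hm (mem_ball_self (by linarith)) t).differentiableAt.differentiableWithinAt)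
      fun t ht => mem t (by linarith [mem_ball_zero_iff.1 ht])).sub (by fun_prop))
    (fun t ht => by
      have k1 := mem_ball_zero_iff.1 ht
      have k2 := bφ _ (mem t (by linarith))
      have k3 : ‖ε‖ * ‖t‖ ≤ ‖ε‖ * (2 * m) := by gcongr
      have k4 := norm_sub_le (τ (Λ (Ch T m t p₀))) (ε * t)
      rw [norm_mul] at k4
      linarith)
    (fun t ht => by
      have k1 := mem_ball_zero_iff.1 ht
      have k2 := mem t (by linarith)
      have k3 : Λ (Ch T m t p₀) ∈ An J₀ ϱ σ := ⟨ck_ball C k2, by linarith [(C.mem _ k2).1]⟩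
      have k4 := (P.clk.step k3.1 k3.2.le h0 (P.stp.dJ _ k3) (P.stp.dη _ k3) hd hdr he).2.2
      simp only [C.ri _ k2] at k4
      have k5 := h.defect hm (by omega) (mem_ball_self (by linarith)) (t := t) (by linarith)
      have k6 : (1 / 2 : ℝ) ^ m ≤ (1 / 2) ^ 2 := pow_le_pow_of_le_one (by norm_num) (by norm_num) m2
      have k7 : r * (1 / 2) ^ m ≤ r * (1 / 2) ^ 2 := by gcongr
      have k8 := (lip (Ch T m (t + 1) p₀) (T (Ch T m t p₀))
        (cm _ (by linarith [norm_add_le t 1, norm_one (α := ℂ)])) (by linarith)).2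
      have k9 : 8 * K / r * ‖T (Ch T m t p₀) - Ch T m (t + 1) p₀‖ ≤
          8 * K / r * (r * (4 / m ^ 2)) := by
        have := half_pow (m := m) (by omega)
        gcongr
        exact k5.trans (by gcongr)
      have k10 : 8 * K / r * (r * (4 / m ^ 2)) = 32 * K / m ^ 2 := by field_simp; ring
      have k11 := norm_sub_le (τ (Λ (T (Ch T m t p₀))) - τ (Λ (Ch T m t p₀)) - ε)
        (τ (Λ (T (Ch T m t p₀))) - τ (Λ (Ch T m (t + 1) p₀)))
      rw [show τ (Λ (Ch T m (t + 1) p₀)) - ε * (t + 1) - (τ (Λ (Ch T m t p₀)) - ε * t) =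
        τ (Λ (T (Ch T m t p₀))) - τ (Λ (Ch T m t p₀)) - ε -
          (τ (Λ (T (Ch T m t p₀))) - τ (Λ (Ch T m (t + 1) p₀))) by ring]
      linarith) t (mem_ball_zero_iff.2 ht)
  have c0 : Ch T m 0 p₀ = p₀ := by simpa using Ch_nat T (Nat.zero_le m) p₀
  simp only [c0, mul_zero, sub_zero] at dr
  obtain ⟨l1, l2⟩ := lip (Ch T m t p₀) p (cm t (by linarith)) (by linarith)
  have l3 : 8 * K / r * ‖p - Ch T m t p₀‖ ≤ 8 * K ^ 2 * δ := by
    have : 8 * K / r ≤ 8 * K ^ 2 := by rw [div_le_iff₀ r0]; nlinarith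
    gcongr
  have l4 : (e₁ + 32 * K / m ^ 2 + 4 * (4 * K) / m ^ 2) * ‖t‖ ≤
      (e₁ + 32 * K / m ^ 2 + 4 * (4 * K) / m ^ 2) * m := by gcongr
  have l5 : (e₁ + 32 * K / m ^ 2 + 4 * (4 * K) / m ^ 2) * m = m * e₁ + 48 * K / m := by
    field_simp
    ring
  have l6 := norm_add_le (τ (Λ p) - τ (Λ (Ch T m t p₀)))
    (τ (Λ (Ch T m t p₀)) - ε * t - τ (Λ p₀))
  rw [show τ (Λ p) - τ (Λ (Ch T m t p₀)) + (τ (Λ (Ch T m t p₀)) - ε * t - τ (Λ p₀)) =
    τ (Λ p) - τ (Λ p₀) - ε * t by ring] at l6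
  exact ⟨l1, by linarith⟩

/-- the true states along a band are the iterates of the step map -/
theorem band (P : Patch T Λ Ξ τ f κ J₀ ε ϱ σ e) (C : Ck Λ Ξ J₀ ϱ r p₀) {W : ℂ → ℂ × ℂ}
    {U : Set ℂ} {N : ℕ} (oU : IsOpen U) (cU : IsPreconnected U) {t₁ : ℂ} (u1 : t₁ ∈ U)
    (u2 : t₁ + 1 ∈ U) (hW : ∀ t ∈ U, ∀ j ≤ N, AnalyticAt ℂ W (t + j))
    (hb : ∀ t ∈ U, W t ∈ ball p₀ r) (hs : ∀ t ∈ U, T (W t) = W (t + 1))
    (hP : ∀ t ∈ U, ∀ j ≤ N, (fun q => Λ (T (Ξ q)))^[j] (Λ (W t)) ∈ An J₀ ϱ σ ∧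
      DifferentiableAt ℂ (fun q => Λ (T (Ξ q)))^[j] (Λ (W t))) :
    ∀ j ≤ N, ∀ t ∈ U, Λ (W (t + j)) = (fun q => Λ (T (Ξ q)))^[j] (Λ (W t)) ∧
      ContinuousAt (fun s => Λ (W s)) (t + j) := by
  have A : ∀ j ≤ N, ∀ t ∈ U, W (t + j) = Ξ ((fun q => Λ (T (Ξ q)))^[j] (Λ (W t))) := by
    intro j
    induction j with
    | zero => intro _ t ht; simp [C.ri _ (hb t ht)]
    | succ j ih =>
      intro hj
      have ih := ih (by omega)
      have k1 : ∀ t ∈ U, Ξ ((fun q => Λ (T (Ξ q)))^[j + 1] (Λ (W t))) = T (W (t + j)) :=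
        fun t ht => by
          rw [Function.iterate_succ_apply', P.cj _ (hP t ht j (by omega)).1, ← ih t ht]
      have k2 : AnalyticOnNhd ℂ (fun t => W (t + (j + 1 : ℕ))) U := fun t ht =>
        (hW t ht _ hj).comp (f := fun t => t + ((j + 1 : ℕ) : ℂ)) (by fun_prop)
      have k3 : AnalyticOnNhd ℂ (fun t => T (W (t + j))) U := fun t ht => by
        have := P.anT _ (hP t ht j (by omega)).1
        rw [← ih t ht] at this
        exact this.comp (f := fun t => W (t + j))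
          ((hW t ht j (by omega)).comp (f := fun t => t + (j : ℂ)) (by fun_prop))
      have k4 := k2.eqOn_of_preconnected_of_eventuallyEq k3 cU u1 (by
        filter_upwards [oU.mem_nhds u1,
          (continuous_add_right (1 : ℂ)).continuousAt.preimage_mem_nhds (oU.mem_nhds u2)]
          with t a1 a2
        rw [← k1 t a1, Function.iterate_succ_apply, C.ri _ (hb t a1), hs t a1, ← ih _ a2]
        congr 1
        push_cast
        ring)
      intro t ht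
      rw [k1 t ht]
      exact k4 ht
  have B : ∀ j ≤ N, ∀ t ∈ U, Λ (W (t + j)) = (fun q => Λ (T (Ξ q)))^[j] (Λ (W t)) :=
    fun j hj t ht => by rw [A j hj t ht, P.li _ (hP t ht j hj).1]
  refine fun j hj t ht => ⟨B j hj t ht, ?_⟩
  have c1 : ContinuousAt W t := by simpa using (hW t ht 0 (Nat.zero_le _)).continuousAt
  have c2 : ContinuousAt (fun t => (fun q => Λ (T (Ξ q)))^[j] (Λ (W t))) t :=
    ContinuousAt.comp (f := fun t => Λ (W t)) (hP t ht j hj).2.continuousAt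
      (ContinuousAt.comp (f := W) (C.an _ (hb t ht)).continuousAt c1)
  have c3 : ContinuousAt (fun t => Λ (W (t + j))) t :=
    c2.congr (by filter_upwards [oU.mem_nhds ht] with s hs using (B j hj s hs).symm)
  have c4 : ContinuousAt (fun s => Λ (W (s - j + j))) (t + j) :=
    ContinuousAt.comp_of_eq (g := fun t => Λ (W (t + j))) (f := fun s : ℂ => s - j) c3
      (by fun_prop) (by simp)
  simpa using c4

end Vale.Agent.P097F.N.Lv57
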