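import Vale.Agent.P097F.N.LevoA

/-!
# P097F/N: sizes for the level of an obstacle
-/

set_option linter.all false

noncomputable section

namespace Vale.Agent.P097F.N

open Filter Topology Set Metric Complex

namespace Lv57

variable {K ς ε : ℝ} {D : Md} {ξ : ℝ} {c : ℕ}

theorem pk (K1 : 1 ≤ K) (s0 : 0 < ς) (hs : 100 * K ^ 3 * ς ≤ 1) {a b : ℕ} (ha : a ≤ 3)
    (hb : 1 ≤ b) : K ^ a * ς ^ b ≤ 1 / 100 := by
  have k1 : K ^ a ≤ K ^ 3 := pow_le_pow_right₀ K1 ha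
  have k2 : ς ≤ 1 := by nlinarith [one_le_pow₀ K1 (n := 3)]
  have k3 : ς ^ b ≤ ς ^ 1 := pow_le_pow_of_le_one s0.le k2 hb
  have k4 : K ^ a * ς ^ b ≤ K ^ 3 * ς ^ 1 := by gcongr
  linarith

theorem stc (K1 : 1 ≤ K) (s0 : 0 < ς) (hs : 100 * K ^ 3 * ς ≤ 1) {k ϱ : ℝ} (h1 : 1 ≤ K * k)
    (h2 : k ≤ K) (h3 : 1 ≤ K * ϱ) (h4 : ϱ ≤ 1) :
    ς ^ 10 ≤ ϱ / 8 ∧ 0 < k * ς ^ 10 ∧ ς ^ 220 + K * ς ^ 240 ≤ k * ς ^ 10 * (2 * K * ς ^ 210) ∧
      2 * K * ς ^ 210 < ϱ ∧ K * ς ^ 240 < ϱ ∧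
      2 * k * ϱ * (K * ς ^ 240) + 3 * k * (2 * K * ς ^ 210) ^ 2 + K * ς ^ 240 ≤
        4 * K ^ 2 * ς ^ 240 ∧ k * ϱ ^ 2 ≤ K ∧ 100 * (K ^ 3 * ς ^ 20) ≤ k * ϱ ^ 2 ∧
      K ^ 2 * ς ^ 20 < ϱ / 2 := by
  have K0 : 0 < K := by linarith
  have k0 : 0 < k := (pos_iff_pos_of_mul_pos (show 0 < K * k by linarith)).1 K0
  have ϱ0 : 0 < ϱ := (pos_iff_pos_of_mul_pos (show 0 < K * ϱ by linarith)).1 K0
  have p := fun a b => pk K1 s0 hs (a := a) (b := b)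
  refine ⟨le_of_mul_le_mul_left ?_ K0, by positivity, ?_, lt_of_mul_lt_mul_left ?_ K0.le,
    lt_of_mul_lt_mul_left ?_ K0.le, ?_, ?_, le_of_mul_le_mul_left ?_ (pow_pos K0 3),
    lt_of_mul_lt_mul_left ?_ K0.le⟩
  · linarith [p 1 10 (by omega) (by omega)]
  · have a1 := mul_le_mul_of_nonneg_right (p 1 20 (by omega) (by omega)) (pow_pos s0 220).le
    have a2 := mul_le_mul_of_nonneg_right h1 (pow_pos s0 220).le
    have := pow_pos s0 220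
    linarith
  · linarith [p 2 210 (by omega) (by omega)]
  · linarith [p 2 240 (by omega) (by omega)]
  · have a1 : 2 * k * ϱ * (K * ς ^ 240) ≤ 2 * K * 1 * (K * ς ^ 240) := by gcongr
    have a2 : 3 * k * (2 * K * ς ^ 210) ^ 2 ≤ 3 * K * (2 * K * ς ^ 210) ^ 2 := by gcongr
    have a3 := mul_le_mul_of_nonneg_right (p 3 180 (by omega) (by omega)) (pow_pos s0 240).le
    have a4 := mul_le_mul_of_nonneg_right K1 (show 0 ≤ K * ς ^ 240 by positivity)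
    have a5 := mul_le_mul_of_nonneg_right K1 (pow_pos s0 240).le
    have := pow_pos s0 240
    linarith
  · calc k * ϱ ^ 2 ≤ K * 1 ^ 2 := by gcongr
      _ = K := by ring
  · have a1 : 1 * 1 ^ 2 ≤ K * k * (K * ϱ) ^ 2 := by gcongr
    have a2 := mul_le_mul (p 3 10 le_rfl (by omega)) (p 3 10 le_rfl (by omega)) (by positivity)
      (by norm_num)
    linarith
  · linarith [p 3 20 (by omega) (by omega)]

/-- the sizes on the leaf `ξ` -/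
structure Cx (K ς ε : ℝ) (D : Md) (ξ : ℝ) : Prop where
  H : Mach K ς ε D
  hs : 100 * K ^ 3 * ς ≤ 1
  e0 : 0 < ε
  l0 : 0 < ς ^ 19 / ε
  ln : 6 * (ς ^ 19 / ε) ≤ D.n
  Y1 : 8 * (D.n : ℝ) ≤ D.m₀ + D.m₁ * ξ
  Y2 : D.m₀ + D.m₁ * ξ ≤ 11 * D.n
  n4 : (400 : ℝ) ≤ D.n
  nm : 40 * (D.n : ℝ) ≤ D.m
  ξR : ‖(ξ : ℂ)‖ < D.R
  ξ3 : ε * ‖(ξ : ℂ)‖ ≤ 3 * ς ^ 10
  mK : 48 * K / D.m ≤ K ^ 3 * ς ^ 20
  tb : ∀ i, D.Gap i → D.lo 0 ≤ i → i ≤ D.hi D.M → ∀ t : ℂ, |t.re| ≤ 2 → 0 ≤ t.im →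
    t.im ≤ D.m₀ + D.m₁ * ξ - 2 * (ς ^ 19 / ε) → ‖D.Z (i + t, ξ) - D.Ct i ξ t‖ ≤ ς ^ 20

theorem cx {c₀ : ℝ} (H : Mach K ς ε D) (c0 : 0 < c₀) (c1 : c₀ ≤ 1)
    (hs : 100 * K ^ 3 * ς ≤ c₀ ^ 4) (hT : Tub c₀ ς ε D) (hξ : ε * |ξ| ≤ 2 * ς ^ 10) :
    Cx K ς ε D ξ := by
  have N := H.num
  have K1 := N.K1
  have s0 := N.ς0
  have K0 : 0 < K := by linarith
  have hs' : 100 * K ^ 3 * ς ≤ 1 := hs.trans (pow_le_one₀ c0.le c1)
  have p := fun a b => pk K1 s0 hs' (a := a) (b := b)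
  have e0 : 0 < ε := by rw [N.eq]; positivity
  have Kε : 0 < K * ε := by positivity
  have R4 : 4 ≤ K * ε * D.R := by
    linarith [N.H0, mul_le_mul_of_nonneg_left N.HR Kε.le]
  have n4 : 4 ≤ K * ε * D.n := R4.trans (mul_le_mul_of_nonneg_left N.Rn Kε.le)
  have nm : 40 * (D.n : ℝ) ≤ D.m := by exact_mod_cast N.nm
  have l0 : 0 < ς ^ 19 / ε := by positivity
  have el : ε * (ς ^ 19 / ε) = ς ^ 19 := mul_div_cancel₀ _ e0.ne'
  have ln : 6 * (ς ^ 19 / ε) ≤ D.n := le_of_mul_le_mul_left (by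
    have := p 1 19 (by omega) (by omega)
    rw [← el] at this
    linarith) Kε
  have x1 : |D.m₁ * ξ| ≤ D.n := le_of_mul_le_mul_left (by
    have a1 : |D.m₁| * (ε * |ξ|) ≤ K * (2 * ς ^ 10) := mul_le_mul N.m1 hξ (by positivity) K0.le
    have a2 := mul_le_mul_of_nonneg_left a1 K0.le
    rw [abs_mul]
    linarith [p 2 10 (by omega) (by omega)]) Kε
  obtain ⟨x2, x3⟩ := abs_le.1 x1
  have ε1 : K * ε ≤ 1 / 100 := by simpa [N.eq] using p 1 220 (by omega) (by omega)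
  have n400 : (400 : ℝ) ≤ D.n := by
    linarith [mul_le_mul_of_nonneg_right ε1 (Nat.cast_nonneg (α := ℝ) D.n)]
  have ξ3 : ε * ‖(ξ : ℂ)‖ ≤ 3 * ς ^ 10 := by
    rw [norm_real, Real.norm_eq_abs]
    linarith [pow_pos s0 10]
  have ς1 : ς ≤ 1 := by simpa using (p 0 1 (by omega) le_rfl).trans (by norm_num)
  refine ⟨H, hs', e0, l0, ln, by linarith [N.m0.1], by linarith [N.m0.2], n400, nm,
    lt_of_mul_lt_mul_left ?_ Kε.le, ξ3, ?_, fun i g1 g2 g3 t t1 t2 t3 => ?_⟩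
  · linarith [mul_le_mul_of_nonneg_left ξ3 K0.le, p 1 10 (by omega) (by omega)]
  · rw [div_le_iff₀ (by linarith)]
    have a1 : ε ≤ ς ^ 20 := by rw [N.eq]; exact pow_le_pow_of_le_one s0.le ς1 (by omega)
    have a2 : K * (K * ε * (40 * D.n)) ≤ K * (K * ς ^ 20 * D.m) := by gcongr
    have a3 := mul_le_mul_of_nonneg_left n4 K0.le
    have a4 := mul_le_mul_of_nonneg_right K1 (show 0 ≤ K * (K * ς ^ 20 * D.m) by positivity)
    linarith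
  · have g2' : (D.lo 0 : ℝ) ≤ i := by exact_mod_cast g2
    have g3' : (i : ℝ) ≤ D.hi D.M := by exact_mod_cast g3
    have ε2 : ε ≤ 1 := by nlinarith
    have k := hT i g1 ξ t (D.m₀ + D.m₁ * ξ - ς ^ 19 / ε) (1 / ε ^ 3) ξ3
      (one_le_one_div (by positivity) (pow_le_one₀ e0.le ε2)) (by linarith [N.m0.1])
      (by linarith [N.m0.2]) (fun s a1 a2 a3 => by
        obtain ⟨b1, b2⟩ := abs_le.1 a1
        refine H.cone _ _ ⟨?_, ?_⟩ ξ3 ?_ ?_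
        · simp only [add_re, intCast_re]; linarith
        · simp only [add_re, intCast_re]; linarith
        · simp only [add_im, intCast_im]; linarith
        · simpa [Md.top] using a3) (by linarith) t2 (by linarith)
    have k1 : Real.exp (-(c₀ * (D.m₀ + D.m₁ * ξ - ς ^ 19 / ε - t.im))) ≤
        24 / (c₀ * (ς ^ 19 / ε)) ^ 4 := by
      have a1 := Real.pow_div_factorial_le_exp (c₀ * (ς ^ 19 / ε)) (by positivity) 4
      have a2 : Real.exp (c₀ * (ς ^ 19 / ε)) ≤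
          Real.exp (c₀ * (D.m₀ + D.m₁ * ξ - ς ^ 19 / ε - t.im)) :=
        Real.exp_le_exp.2 (mul_le_mul_of_nonneg_left (by linarith) c0.le)
      rw [Real.exp_neg, inv_eq_one_div, div_le_div_iff₀ (Real.exp_pos _) (by positivity)]
      norm_num [Nat.factorial] at a1
      linarith
    refine k.trans ((mul_le_mul_of_nonneg_left k1 (by positivity)).trans ?_)
    have k2 : 96 * ς / c₀ ^ 4 ≤ 1 := by
      rw [div_le_one (by positivity)]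
      nlinarith [one_le_pow₀ K1 (n := 3)]
    calc _ = 96 * ς / c₀ ^ 4 * ς ^ 142 := by rw [N.eq]; field_simp; ring
      _ ≤ 1 * ς ^ 20 := mul_le_mul k2 (pow_le_pow_of_le_one s0.le ς1 (by omega)) (by positivity)
        zero_le_one
      _ = _ := one_mul _

theorem chain (N : Num K ς ε D) : (∀ j ≤ D.M, D.lo 0 ≤ D.lo j) ∧ ∀ j ≤ D.M, D.hi j ≤ D.hi D.M := by
  refine ⟨fun j => ?_, fun j hj => ?_⟩
  · induction j with
    | zero => exact fun _ => le_rfl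
    | succ j ih =>
      intro hj
      linarith [ih (by omega), N.lh j (by omega), N.hl j (by omega)]
  · induction hj using Nat.decreasingInduction with
    | self => exact le_rfl
    | of_succ j hj ih => linarith [N.hl j hj, N.lh (j + 1) hj]

theorem ends (N : Num K ς ε D) (hc : c < D.M) : D.lo 0 ≤ D.hi c ∧ D.lo (c + 1) ≤ D.hi D.M ∧
    D.hi c + D.N c = D.lo (c + 1) ∧ D.Gap (D.hi c) ∧ D.Gap (D.lo (c + 1)) := by
  obtain ⟨a1, a2⟩ := chain N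
  have b1 := N.lh c hc.le
  have b2 := N.lh (c + 1) hc
  have b3 := N.hl c hc
  exact ⟨(a1 c hc.le).trans b1, b2.trans (a2 _ hc), by rw [Md.N]; omega, ⟨c, hc.le, b1, le_rfl⟩,
    c + 1, hc, le_rfl, b2⟩

theorem norm_mid {z : ℂ} {x X B : ℝ} (h0 : 0 ≤ x) (h1 : x ≤ X) (h2 : ‖z‖ ≤ B)
    (h3 : ‖z + X‖ ≤ B) : ‖z + x‖ ≤ B := by
  have B0 := (norm_nonneg _).trans h2
  rw [← sq_le_sq₀ (norm_nonneg _) B0, Complex.sq_norm, normSq_apply] at h2 h3 ⊢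
  simp only [add_re, add_im, ofReal_re, ofReal_im, add_zero] at h3 ⊢
  rcases le_total 0 (z.re + x) with h | h <;> nlinarith

theorem rect (a b c d : ℝ) : IsPreconnected (Ioo a b ×ℂ Ioo c d) :=
  (((convex_Ioo a b).linear_preimage reLm).inter
    ((convex_Ioo c d).linear_preimage imLm)).isPreconnected

theorem fin {τ f : ℂ × ℂ → ℂ} {κ J₀ d : ℂ} {r E : ℝ} (C : Clk τ f κ J₀ r) {q : ℂ × ℂ}
    (hq : q ∈ ball ((0, J₀) : ℂ × ℂ) r) (h : ‖τ q - d‖ ≤ E) (hE : 2 * E < ‖d‖) :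
    ‖κ * q.1 ^ 2 - d‖ < ‖d‖ := by
  have m := ball_subset_ball (show r ≤ 2 * r by linarith [C.r0]) hq
  have a1 := C.sq m
  have a2 := C.lo m
  have a3 := norm_sub_le_norm_sub_add_norm_sub (κ * q.1 ^ 2) (τ q) d
  rw [norm_sub_rev (κ * _) (τ q)] at a3
  linarith [norm_sub_norm_le (τ q) d]

end Lv57

end Vale.Agent.P097F.N
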