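import Vale.Agent.P097F.N.NqSeam
import Vale.Agent.P097EE.Tc

/-!
# P097F/N: true = clean in the central part of the gaps
-/

set_option linter.all false

noncomputable section

namespace Vale.Agent.P097F.N

open Filter Topology Set Metric Complex Vale.Agent.P097Q

namespace Nq.Cx

variable {K ς ε c y c₀ K' : ℝ} {D : Md} (X : Cx K ς ε c y D)
include X

/-- real leaves -/
lemma real (hS : Spec_SEAM) (hO : PasO ς ε D) (hG : PasG K' D) (hT : Tub c₀ ς ε D)
    (hL : LevO ς ε D) (hI : Lin K ς ε D) (K1 : 1 ≤ K') (Ky : K' ≤ y)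
    (hc : c * (2 * Real.sinh 7) ≤ c₀) {i : ℤ} (hi : D.Gap i) (hc' : |D.ω * i| + D.C₂ < D.G)
    {z : ℂ} {ξ : ℝ} (h1 : |z.re| ≤ y ^ 210) (h2 : |ξ| ≤ y ^ 210 / 2) (h3 : 20 * y ^ 201 ≤ -z.im)
    (h4 : -z.im ≤ D.H) :
    ‖D.Zi i (z, ξ) - D.C i (z, ξ)‖ ≤ 2 * y ^ 660 * Real.exp (-(LL K c y / 2)) := by
  have y0 := X.sz.y0
  have y3 := X.sz.y3
  have K0 := X.sz.K0
  have F1 := X.sz.F1
  have L0 := X.sz.L0
  have r0 := pow_pos y0 210
  obtain ⟨a1, a2, a3, a4, a5⟩ := X.W1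
  have c0 : 0 ≤ c₀ := le_trans (mul_nonneg X.sz.c0.le
    (mul_nonneg zero_le_two (Real.sinh_nonneg_iff.2 (by norm_num)))) hc
  obtain ⟨μ, hμ, k, hk, rfl⟩ := X.gap_st hi
  obtain ⟨G, S⟩ := X.seam hO hG hT hL hI K1 Ky c0 hμ
  have ω0 := X.ma.num.ω0.1
  have b1 := le_abs_self (D.ω * st D μ k)
  have b2 := neg_abs_le (D.ω * st D μ k)
  have p1 := X.sz.pw (k := 100) (l := 201) (by norm_num)
  have p2 := X.sz.py (k := 100) (by norm_num)
  obtain ⟨o1, o2⟩ := hS _ _ _ _ _ _ _ _ _ _ (X.sz.pok X.ma.num.MK)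
    (X.sz.mok hc X.G0.1 ⟨X.ma.num.FL.1, X.FLR.1⟩ ⟨X.ma.num.FR.1, X.FLR.2⟩) S k hk
    (fun j hj => by
      simp only [PP]
      rcases alt (ε := ε) (D := D) D.FL j with e | ⟨l, rfl, e⟩ <;> rw [e]
      · linarith [X.ma.num.FL.1, X.G0.2]
      · have e := X.st_le hμ (i := 3 * l + 2 + 1) (j := k) hj hk
        rw [st_3] at e
        have e' : (D.lo (l + 1) : ℝ) ≤ st D μ k := by exact_mod_cast e
        linarith [(abs_le.1 (X.ma.pos l (by omega)).2).1, mul_le_mul_of_nonneg_left e' ω0.le])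
    (fun j hj hkj => by
      simp only [PP]
      rcases alt (ε := ε) (D := D) D.FR j with e | ⟨l, rfl, e⟩ <;> rw [e]
      · linarith [X.ma.num.FR.1, X.G0.2]
      · have e := X.st_le hμ hkj hj.le
        rw [st_2] at e
        have e' : (st D μ k : ℝ) ≤ D.hi l := by exact_mod_cast e
        linarith [(abs_le.1 (X.ma.pos l (by omega)).1).2, mul_le_mul_of_nonneg_left e' ω0.le])
    (z, ξ) (by simp only [PP]; nlinarith) (by simp only [PP, ofReal_re]; linarith)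
    (by simpa [PP] using X.sz.a0.le) (by simp only [PP]; linarith) h4
  set p : ℂ × ℂ := (z, ξ) with hp
  set q := G k (D.Zi (st D μ k) p)
  have w : Real.exp (LL K c y / 2) ≤ wt (PP K c y D.H D.G D.M) p := by
    simp only [wt, PP, hp, ofReal_re]
    have e1 : ξ ^ 2 / (y ^ 210) ^ 2 ≤ 1 / 4 := by
      rw [div_le_iff₀ (by positivity), ← sq_abs]
      nlinarith [abs_nonneg ξ]
    have e2 : z.re ^ 2 / (2 * FF K * y ^ 210) ^ 2 ≤ 1 / 4 := by
      rw [div_le_iff₀ (by positivity), ← sq_abs]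
      have : |z.re| ≤ FF K * y ^ 210 := by nlinarith
      nlinarith [abs_nonneg z.re]
    rw [Real.exp_le_exp]
    nlinarith
  have n1 : 1000 * ((3 * D.M + 4 : ℕ) : ℝ) * (K * y ^ 220) ≤ y ^ 223 := by
    have e1 : 1000 * ((3 * D.M + 4 : ℕ) : ℝ) ≤ y ^ 2 := by
      push_cast
      linarith [X.ma.num.MK, X.sz.Ky, X.sz.K1, X.sz.py (k := 2) (by norm_num)]
    rw [show y ^ 223 = y ^ 2 * (y * y ^ 220) by ring]
    gcongr
    linarith [X.sz.Ky]
  have d1 : ‖q - p‖ ≤ y ^ 223 * Real.exp (-(LL K c y / 2)) := by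
    rw [Real.exp_neg, ← div_eq_mul_inv, le_div_iff₀ (Real.exp_pos _)]
    exact ((mul_le_mul_of_nonneg_left w (norm_nonneg _)).trans o2).trans n1
  have d2 : ‖q - p‖ < 1 := d1.trans_lt (X.sz.small (q := 0) le_rfl
    (by linarith [X.sz.L2, X.sz.py (k := 209) (by norm_num)]) (by simp) (by norm_num))
  have bb : ∀ u ∈ ball p 1, BB y D u := fun u hu => by
    have e := mem_ball_iff_norm.1 hu
    have e1 := (norm_fst_le (u - p)).trans_lt e
    have e2 := (norm_snd_le (u - p)).trans_lt e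
    have e3 := abs_le.1 ((abs_re_le_norm _).trans e1.le)
    have e4 := abs_le.1 ((abs_im_le_norm _).trans e1.le)
    have e5 := norm_le_norm_add_norm_sub' u.2 p.2
    simp only [hp, Prod.fst_sub, Prod.snd_sub, sub_re, sub_im, norm_real, Real.norm_eq_abs]
      at e2 e3 e4 e5
    have e6 := abs_le.1 h1
    have := pow_pos y0 201
    exact ⟨abs_le.2 ⟨by linarith, by linarith⟩, abs_le.2 ⟨by linarith, by linarith⟩, by linarith⟩
  have g := hi
  have sch := dist_le_div_mul_dist_of_mapsTo_ball (f := D.C (st D μ k)) (R₂ := 2 * (K + 1))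
    (fun u hu => (X.chart g (bb u hu)).1.differentiableAt.differentiableWithinAt)
    (fun u hu => mem_closedBall_iff_norm.2 (by
      linarith [norm_sub_le (D.C (st D μ k) u) (D.C (st D μ k) p), (X.chart g (bb u hu)).2,
        (X.chart g (bb p (mem_ball_self one_pos))).2])) (mem_ball_iff_norm.2 d2)
  rw [dist_eq_norm, dist_eq_norm, div_one, o1] at sch
  refine sch.trans ((mul_le_mul_of_nonneg_left d1 (by positivity)).trans ?_)
  rw [← mul_assoc]
  refine mul_le_mul_of_nonneg_right ?_ (Real.exp_pos _).le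
  calc 2 * (K + 1) * y ^ 223 ≤ y * y ^ 223 := by gcongr; linarith [X.sz.Ky]
    _ ≤ y ^ 660 := by rw [← pow_succ']; exact X.sz.mono (by norm_num)
    _ ≤ _ := by linarith [pow_pos y0 660]

lemma out (hS : Spec_SEAM) (hO : PasO ς ε D) (hG : PasG K' D) (hT : Tub c₀ ς ε D)
    (hL : LevO ς ε D) (hI : Lin K ς ε D) (K1 : 1 ≤ K') (Ky : K' ≤ y)
    (hc : c * (2 * Real.sinh 7) ≤ c₀) : OutQ (128 * K / c) ς ε D := by
  intro i hi hc' p h1 h2 h3 h4 h5
  have y0 := X.sz.y0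
  have K0 := X.sz.K0
  have c0 := X.sz.c0
  have L0 := X.sz.L0
  obtain ⟨a1, a2, a3, a4, a5⟩ := X.W1
  have g1 : |p.1.re| ≤ y ^ 210 := by simpa using X.zle.1 (show _ ≤ 1 * ς ^ 10 by simpa using h1)
  have g2 : |p.2.re| ≤ 1 / 4 * y ^ 210 := X.zle.1 (by linarith)
  rw [X.e201] at h4
  have l0 := pow_pos y0 201
  have key : ∀ ζ ∈ ball (p.2.re : ℂ) 40, AnalyticAt ℂ (D.Zi i) (p.1, ζ) ∧
      ‖D.Zi i (p.1, ζ) - D.C i (p.1, ζ)‖ ≤ 2 * y ^ 660 ∧ AnalyticAt ℂ (D.C i) (p.1, ζ) :=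
    fun ζ hζ => by
    have e := mem_ball_iff_norm.1 hζ
    have e1 := (abs_im_le_norm _).trans e.le
    have e2 := norm_le_norm_add_norm_sub' ζ p.2.re
    rw [norm_real, Real.norm_eq_abs] at e2
    rw [sub_im, ofReal_im, sub_zero] at e1
    have b : BB y D (p.1, ζ) := ⟨by simp only; linarith,
      abs_le.2 ⟨by simp only; linarith, by simp only; linarith⟩, by simp only; linarith⟩
    obtain ⟨u1, u2⟩ := X.cone' hi b (f := 0) (by simpa using sq_nonneg K) e1
      (by simp only; linarith)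
    exact ⟨u1, u2, (X.chart hi b).1⟩
  have := P097EE.Tc.diam (f := fun ζ => D.Zi i (p.1, ζ) - D.C i (p.1, ζ)) (c := p.2.re) (ω := 1)
    (R := 40) (M := 2 * y ^ 660) (L := LL K c y / 2) (by norm_num) (by positivity) norm_one
    (fun ζ hζ => (((key ζ hζ).1.sub (key ζ hζ).2.2).comp₂ (f := fun _ => p.1) analyticAt_const
      analyticAt_id).differentiableAt.differentiableWithinAt) (fun ζ hζ => (key ζ hζ).2.1)
    (fun x hx => by
      have := X.real hS hO hG hT hL hI K1 Ky hc hi hc' (ξ := p.2.re + x) g1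
        (by linarith [abs_add_le p.2.re x]) h4 h5
      simpa using this) (z := p.2) (by
      rw [show p.2 - p.2.re = p.2.im * I by apply Complex.ext <;> simp]
      simpa using h3.trans (by norm_num))
  refine this.trans ?_
  have e1 : ς ^ 10 / ε / (128 * K / c) = LL K c y / 8 := by
    rw [X.e210, LL]
    field_simp
    norm_num
  have e2 := X.sz.small (X := 2 * y ^ 660) (Z := 1) (t := LL K c y / 8) (p := 661) (q := 0)
    (by linarith [X.sz.pw (k := 660) (l := 661) (by norm_num), pow_pos y0 660])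
    (by linarith [X.sz.L2, X.sz.py (k := 209) (by norm_num)]) (by simp) (by norm_num)
  rw [e1, show -(LL K c y / 2 / 2) = -(LL K c y / 8) + -(LL K c y / 8) by ring, Real.exp_add,
    ← mul_assoc]
  exact mul_le_of_le_one_left (Real.exp_pos _).le e2.le

end Nq.Cx

open Nq in
theorem nq (hPS : S_PS) (hPG : S_PG) (hT : S_TUB) (hL : S_LEVO) (hI : S_LIN) (hS : Spec_SEAM) :
    Spec_NQ := by
  intro K
  by_cases K1 : 1 ≤ K
  swap
  · exact ⟨1, le_rfl, 1, one_pos, fun ς ε D _ h => (K1 h.num.K1).elim⟩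
  obtain ⟨c₀, c0, c1, hT⟩ := hT
  obtain ⟨s1, p1, hPS⟩ := hPS K
  obtain ⟨K', K1', s2, p2, hPG⟩ := hPG K
  obtain ⟨s3, p3, hT⟩ := hT K
  obtain ⟨s4, p4, hL⟩ := hL K
  obtain ⟨s5, p5, hI⟩ := hI K
  have s7 : 7 ≤ Real.sinh 7 := Real.self_le_sinh_iff.2 (by norm_num)
  set c := c₀ / (2 * Real.sinh 7) with hc
  have d0 : 0 < c := by positivity
  have d1 : c ≤ 1 := (div_le_one (by positivity)).2 (by linarith)
  obtain ⟨y₀, hy⟩ := eventually_atTop.1 ((eventually_ge_atTop (1000 * K ^ 3 / c)).and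
    ((eventually_ge_atTop K').and ((eventually_gt_atTop 0).and
      ((Real.tendsto_exp_div_pow_atTop 2000).eventually_ge_atTop 1))))
  refine ⟨128 * K / c, (le_div_iff₀ d0).2 (by linarith), min (min (min s1 s2) (min s3 s4))
    (min s5 (max y₀ 1)⁻¹), by positivity, fun ς ε D hς h => ?_⟩
  simp only [lt_min_iff] at hς
  obtain ⟨⟨⟨l1, l2⟩, l3, l4⟩, l5, l6⟩ := hς
  have ς0 := h.num.ς0
  obtain ⟨y1, y2, y3, y4⟩ := hy ς⁻¹ ((le_max_left _ _).trans
    ((lt_inv_comm₀ ς0 (by positivity)).1 l6).le)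
  have X : Cx K ς ε c ς⁻¹ D := ⟨h, ⟨K1, d0, d1, (div_le_iff₀' d0).1 y1,
    (one_le_div (by positivity)).1 y4, by
      have := h.num.H0
      rw [h.num.eq] at this
      rw [inv_pow, inv_le_iff_one_le_mul₀ (by positivity)]
      linarith⟩, mul_inv_cancel₀ ς0.ne'⟩
  exact X.out hS (hPS ς ε D l1 h) (hPG ς ε D l2 h) (hT ς ε D l3 h) (hL ς ε D l4 h)
    (hI ς ε D l5 h) K1' y2 (by rw [hc, div_mul_cancel₀ _ (by positivity)])

end Vale.Agent.P097F.N
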