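import Vale.Agent.P097F.N.Defs
import Vale.Agent.P097F.N.Gt

/-!
# P097F/N: transport inside a gap
-/

set_option linter.all false

noncomputable section

namespace Vale.Agent.P097F.N

open Filter Topology Set Metric Complex

theorem Num.pg_lo {K ς ε : ℝ} {D : Md} (h : Num K ς ε D) : ∀ j ≤ D.M, D.lo 0 ≤ D.lo j := by
  intro j
  induction j with
  | zero => exact fun _ => le_rfl
  | succ j ih =>
    intro hj
    exact ((ih (by omega)).trans (h.lh j (by omega))).trans (h.hl j (by omega)).le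

theorem Num.pg_hi {K ς ε : ℝ} {D : Md} (h : Num K ς ε D) : ∀ k j, j + k = D.M →
    D.hi j ≤ D.hi D.M := by
  intro k
  induction k with
  | zero =>
    intro j hj
    rw [← hj]
    exact le_rfl
  | succ k ih =>
    intro j hj
    exact ((h.hl j (by omega)).le.trans (h.lh (j + 1) (by omega))).trans (ih (j + 1) (by omega))

theorem Mach.pg_orb {K ς ε : ℝ} {D : Md} (h : Mach K ς ε D) {i : ℤ} (hi : D.lo 0 ≤ i) {ζ : ℂ}
    (hζ : ‖ζ‖ < D.R) : ∀ k : ℕ, i + k ≤ D.hi D.M →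
    D.T^[k] (D.Z (i, ζ)) = D.Z (((i + k : ℤ) : ℂ), ζ) := by
  intro k
  induction k with
  | zero => intro _; simp
  | succ k ih =>
    intro hk
    push_cast at hk
    have n0 : (0 : ℝ) ≤ D.n := Nat.cast_nonneg _
    have a1 : (D.lo 0 : ℝ) ≤ ((i + k : ℤ) : ℝ) := by exact_mod_cast (by omega : D.lo 0 ≤ i + k)
    have a2 : ((i + k : ℤ) : ℝ) ≤ D.hi D.M := by exact_mod_cast (by omega : i + k ≤ D.hi D.M)
    have := (h.deep ((i + k : ℤ) : ℂ) ζ ⟨by rw [intCast_re]; linarith, by rw [intCast_re]; linarith⟩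
      (Or.inl ⟨hζ, by rw [intCast_im, abs_zero]; positivity⟩)).2.2.1
    rw [Function.iterate_succ_apply', ih (by omega), this]
    push_cast
    rw [add_assoc]

theorem pg_num {K m : ℝ} (K1 : 1 ≤ K) (hm : 128 * K ^ 2 ≤ m) :
    4 * K ^ 2 * m * Real.exp (-(m / 4)) ≤ 1 := by
  have m0 : 0 ≤ m := le_trans (by positivity) hm
  have h1 := Real.quadratic_le_exp_of_nonneg (x := m / 4) (by positivity)
  rw [Real.exp_neg, ← div_eq_mul_inv, div_le_one (Real.exp_pos _)]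
  nlinarith [mul_le_mul_of_nonneg_right hm m0]

theorem pg_df {K r N : ℝ} {m : ℕ} (K1 : 1 ≤ K) (hm : 128 * K ^ 2 ≤ m) (r0 : 0 ≤ r) (r1 : r ≤ 1)
    (hN : N ≤ K ^ 2 * m) : N * (4 * r * (1 / 2) ^ m) ≤ Real.exp (-(m / 4)) := by
  have hp : (1 / 2 : ℝ) ^ m ≤ Real.exp (-(m / 4)) * Real.exp (-(m / 4)) := by
    rw [← Real.exp_add, show -((m : ℝ) / 4) + -(m / 4) = m * (-(1 / 2)) by ring,
      Real.exp_nat_mul]
    refine pow_le_pow_left₀ (by norm_num) ?_ _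
    linarith [Real.add_one_le_exp (-(1 / 2 : ℝ))]
  have a2 := pg_num K1 hm
  have a3 := Real.exp_pos (-((m : ℝ) / 4))
  calc N * (4 * r * (1 / 2) ^ m)
      ≤ K ^ 2 * m * (4 * 1 * (Real.exp (-(m / 4)) * Real.exp (-(m / 4)))) := by gcongr
    _ = 4 * K ^ 2 * m * Real.exp (-(m / 4)) * Real.exp (-(m / 4)) := by ring
    _ ≤ 1 * Real.exp (-(m / 4)) := mul_le_mul_of_nonneg_right a2 a3.le
    _ = _ := one_mul _

theorem pg_main {K E F r η x m : ℝ} (K1 : 1 ≤ K) (E1 : 1 ≤ E) (F0 : 0 ≤ F) (ex : F ≤ E)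
    (r0 : 1 ≤ K * r) (η0 : 0 ≤ η) (η1 : η ≤ 1 / (8 * K * E)) (hm : 4 * (8 * K * E) ≤ m)
    (x0 : 0 ≤ x) (x1 : x ≤ Real.exp (-(m / 4))) :
    (η + x) * F < r / 2 ∧ (η + x) * F ≤ 8 * K * E * (η + Real.exp (-(m / 4))) := by
  have K0 : 0 < K := by linarith
  have EK : E ≤ 8 * K * E := by nlinarith
  have e2 : Real.exp (-(m / 4)) ≤ 1 / (8 * K * E) := by
    rw [Real.exp_neg, one_div]
    refine inv_anti₀ (by positivity) ?_
    linarith [Real.add_one_le_exp (m / 4)]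
  constructor
  · have a1 : (η + x) * F ≤ (1 / (8 * K * E) + 1 / (8 * K * E)) * E :=
      mul_le_mul (by linarith) ex F0 (by positivity)
    have a2 : (1 / (8 * K * E) + 1 / (8 * K * E)) * E = 1 / (4 * K) := by
      field_simp
      ring
    have a3 : 1 / (4 * K) ≤ r / 4 := by
      rw [div_le_div_iff₀ (by positivity) (by norm_num)]
      linarith
    have a4 : 0 < 1 / (4 * K) := by positivity
    linarith
  · rw [mul_comm (8 * K * E)]
    exact mul_le_mul (by linarith) (ex.trans EK) F0 (by positivity)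

theorem Num.pg_m {K ς ε L : ℝ} {D : Md} (hn : Num K ς ε D) (L0 : 0 < L)
    (hς : ς < min 1 (1 / (K * L))) : 0 < ε ∧ 160 ≤ K * ε * D.m ∧ L ≤ D.m := by
  have ς0 := hn.ς0
  have K0 : 0 < K := by linarith [hn.K1]
  have ε0 : 0 < ε := by rw [hn.eq]; positivity
  have ες : ε ≤ ς := by
    rw [hn.eq]
    exact pow_le_of_le_one ς0.le (hς.le.trans (min_le_left _ _)) (by norm_num)
  have εL : ε * (K * L) ≤ 1 := by
    have := ες.trans (hς.le.trans (min_le_right _ _))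
    rwa [le_div_iff₀ (by positivity)] at this
  have nm : 40 * (D.n : ℝ) ≤ D.m := by exact_mod_cast hn.nm
  have mH : 160 * D.H ≤ D.m := by linarith [hn.HR, hn.Rn]
  have m1 : 160 ≤ K * ε * D.m := by
    have := mul_le_mul_of_nonneg_left mH (mul_pos K0 ε0).le
    linarith [hn.H0]
  have m0 : (0 : ℝ) ≤ D.m := Nat.cast_nonneg _
  refine ⟨ε0, m1, ?_⟩
  have a1 := mul_le_mul_of_nonneg_left m1 L0.le
  have a2 := mul_le_mul_of_nonneg_left εL m0
  linarith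

theorem Num.pg_N {K ς ε : ℝ} {D : Md} (hn : Num K ς ε D) (ε0 : 0 < ε) (m1 : 160 ≤ K * ε * D.m)
    {N : ℝ} (N0 : 0 ≤ N) (a1 : N ≤ D.hi D.M - D.lo 0) : 0 < D.r ∧ N ≤ K ^ 2 * D.m ∧
    Real.exp (4 * D.a / D.r * N) ≤ Real.exp (8 * K ^ 3) := by
  have K0 : 0 < K := by linarith [hn.K1]
  have m0 : (0 : ℝ) ≤ D.m := Nat.cast_nonneg _
  have NK : ε * N ≤ 2 * K := by
    have a2 := mul_le_mul_of_nonneg_left a1 ε0.le
    have a3 := mul_le_mul_of_nonneg_left (le_abs_self (D.hi D.M : ℝ)) ε0.le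
    have a4 := mul_le_mul_of_nonneg_left (neg_le_abs (D.lo 0 : ℝ)) ε0.le
    linarith [hn.len.1, hn.len.2]
  have r0 : 0 < D.r := by
    by_contra hc
    linarith [hn.r0, mul_nonneg K0.le (neg_nonneg.2 (not_lt.1 hc))]
  refine ⟨r0, ?_, ?_⟩
  · have b1 := mul_le_mul_of_nonneg_left m1 N0
    have b2 := mul_le_mul_of_nonneg_left NK (mul_nonneg K0.le m0)
    linarith [mul_nonneg (sq_nonneg K) m0]
  · rw [Real.exp_le_exp, div_mul_eq_mul_div, div_le_iff₀ r0]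
    have a1 := mul_le_mul_of_nonneg_right hn.aK N0
    have a2 := mul_le_mul_of_nonneg_left NK K0.le
    have a3 := mul_le_mul_of_nonneg_left hn.r0 (by positivity : 0 ≤ 8 * K ^ 2)
    linarith

theorem pg : S_PG := by
  intro K
  by_cases K1 : 1 ≤ K
  swap
  · exact ⟨1, le_rfl, 1, one_pos, fun ς ε D _ h => absurd h.num.K1 K1⟩
  obtain ⟨E, hE⟩ : ∃ E, E = Real.exp (8 * K ^ 3) := ⟨_, rfl⟩
  have E1 : 1 ≤ E := hE ▸ Real.one_le_exp (by positivity)
  have K0 : 0 < K := by linarith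
  have K2 : 1 ≤ 8 * K * E := by nlinarith
  have L0 : 0 < 128 * K ^ 2 + 4 * (8 * K * E) := by positivity
  refine ⟨8 * K * E, K2, min 1 (1 / (K * (128 * K ^ 2 + 4 * (8 * K * E)))), by positivity, ?_⟩
  intro ς ε D hς h j hj i i' h1 h2 h3 ζ t η hζ ht η0 η1
  have hn := h.num
  obtain ⟨ε0, m1, mL⟩ := hn.pg_m L0 hς
  have mA : 128 * K ^ 2 ≤ D.m := by linarith
  have mB : 4 * (8 * K * E) ≤ D.m := by linarith [sq_nonneg K]
  have mpos : 1 ≤ D.m := by
    have : (1 : ℝ) ≤ D.m := by linarith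
    exact_mod_cast this
  obtain ⟨N, hN⟩ : ∃ N, N = (i' - i).toNat := ⟨_, rfl⟩
  rw [← hN]
  have eN : i + N = i' := by omega
  have l0 : D.lo 0 ≤ i := (hn.pg_lo j hj).trans h1
  have l1 : i' ≤ D.hi D.M := h3.trans (hn.pg_hi (D.M - j) j (by omega))
  have N0 : (0 : ℝ) ≤ N := Nat.cast_nonneg _
  obtain ⟨r0, NK, ex⟩ := hn.pg_N ε0 m1 N0 (by
    have : (N : ℤ) ≤ D.hi D.M - D.lo 0 := by omega
    exact_mod_cast this)
  rw [← hE] at ex
  have orb : ∀ k ≤ N, D.T^[k] (D.Z (i, ζ)) = D.Z (((i + k : ℤ) : ℂ), ζ) :=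
    fun k hk => h.pg_orb l0 hζ k (by omega)
  have gp : ∀ k ≤ N, D.Gap (i + k) := fun k hk => ⟨j, hj, by omega, by omega⟩
  have df := pg_df K1 mA r0.le hn.r1 NK
  have p0 : 0 ≤ D.r * (1 / 2 : ℝ) ^ D.m := by positivity
  have M1 := pg_main K1 E1 (Real.exp_pos _).le ex hn.r0 η0 η1 mB
    (x := N * (2 * D.r * (1 / 2) ^ D.m)) (by positivity)
    (le_trans (mul_le_mul_of_nonneg_left (by linarith) N0) df)
  have M2 := pg_main K1 E1 (Real.exp_pos _).le ex hn.r0 η0 η1 mB (by positivity) df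
  have oN : D.T^[N] (D.Z (i, ζ)) = D.Z (i', ζ) := by rw [orb N le_rfl, eN]
  have ht' : ‖t‖ ≤ D.m := by linarith
  constructor
  · intro q hq
    have := gtf D.T (D.Z (i, ζ)) q t D.r D.a η D.m N
      (fun k hk => by rw [orb k hk]; exact (h.gap _ (gp k hk) ζ hζ).1) hn.am mpos ht' hq M1.1
    rw [oN] at this
    exact ⟨this.1, this.2.trans M1.2⟩
  · intro q hq
    have := gtb D.T D.T' (D.Z (i, ζ)) q t D.r D.a η D.m N
      (fun k hk => by
        rw [orb k hk]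
        obtain ⟨b1, b2, b3⟩ := h.gap _ (gp k hk) ζ hζ
        exact ⟨b1, b2, fun y hy => (b3 y (ball_subset_ball (by linarith) hy)).1⟩)
      hn.am mpos ht' (by rw [oN]; exact hq) M2.1
    exact ⟨this.1, this.2.trans M2.2⟩

end Vale.Agent.P097F.N
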