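import Vale.Agent.P097F.N.Defs

/-!
# P097F/N: the passage below an obstacle
-/

set_option linter.all false

noncomputable section

namespace Vale.Agent.P097F.N

open Filter Topology Set Metric Complex

namespace PsA

lemma sm {K ς : ℝ} (K1 : 1 ≤ K) (ς0 : 0 < ς) (h : 40000 * K ^ 7 * ς ≤ 1) (a b : ℕ) (ha : a ≤ 7)
    (hb : 1 ≤ b) : 40000 * (K ^ a * ς ^ b) ≤ 1 := by
  have k7 : 1 ≤ K ^ 7 := one_le_pow₀ K1
  have s1 : ς ≤ 1 := by nlinarith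
  have h1 : K ^ a ≤ K ^ 7 := pow_le_pow_right₀ K1 ha
  have h2 : ς ^ b ≤ ς := pow_le_of_le_one ς0.le s1 (by omega)
  calc 40000 * (K ^ a * ς ^ b) ≤ 40000 * (K ^ 7 * ς) := by gcongr
    _ ≤ 1 := by linarith

lemma two_pow (m : ℕ) : (m : ℝ) ^ 2 + 2 * m + 3 ≤ 3 * 2 ^ m := by
  induction m with
  | zero => norm_num
  | succ m ih =>
    push_cast
    rw [pow_succ (2 : ℝ) m]
    nlinarith [sq_nonneg (m : ℝ)]

lemma half_pow {m : ℕ} (h : 0 < m) : (1 / 2 : ℝ) ^ m ≤ 3 / (m : ℝ) ^ 2 := by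
  have m0 : (0 : ℝ) < m := by exact_mod_cast h
  rw [one_div, inv_pow, inv_eq_one_div, div_le_div_iff₀ (by positivity) (by positivity)]
  nlinarith [two_pow m]

lemma seg_le {a : ℂ} {s L ρ : ℝ} (s0 : 0 ≤ s) (sL : s ≤ L) (h1 : ‖a‖ ≤ ρ) (h2 : ‖a + L‖ ≤ ρ) :
    ‖a + s‖ ≤ ρ := by
  rcases eq_or_lt_of_le (s0.trans sL) with h | h
  · have : s = 0 := by linarith
    simpa [this] using h1
  · have := (convex_closedBall (0 : ℂ) ρ).add_smul_sub_mem (mem_closedBall_zero_iff.2 h1)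
      (mem_closedBall_zero_iff.2 h2) (t := s / L) ⟨by positivity, (div_le_one h).2 sL⟩
    rw [mem_closedBall_zero_iff, add_sub_cancel_left, real_smul, ← ofReal_mul,
      div_mul_cancel₀ _ h.ne'] at this
    exact this

/-- the sizes of a patch -/
structure Sz (K ϱ r σ e d e₁ : ℝ) (κ ε : ℂ) : Prop where
  K1 : 1 ≤ K
  k1 : 1 ≤ K * ‖κ‖
  k2 : ‖κ‖ ≤ K
  k3 : 1 ≤ K * ϱ
  k4 : ϱ ≤ 1
  r0 : 1 ≤ K * r
  r1 : r ≤ 1
  σ0 : 0 < σ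
  σ1 : σ ≤ ϱ / 8
  hd : ‖ε‖ + e ≤ ‖κ‖ * σ * d
  hdr : d < ϱ
  e0 : 0 ≤ e
  he : e < ϱ
  h1 : 2 * ‖κ‖ * ϱ * e + 3 * ‖κ‖ * d ^ 2 + e ≤ e₁

/-- the two clocks -/
def Gc (τ : ℂ × ℂ → ℂ) (J : ℂ) (q : ℂ × ℂ) : ℂ × ℂ := (τ q, q.2 - J)

variable {T Λ Ξ : ℂ × ℂ → ℂ × ℂ} {τ f : ℂ × ℂ → ℂ} {κ J ε : ℂ} {K ϱ r σ e d e₁ : ℝ}
  {p : ℂ × ℂ}

lemma Sz.κ0 (S : Sz K ϱ r σ e d e₁ κ ε) : 0 < ‖κ‖ :=
  (norm_nonneg κ).lt_of_ne fun h => by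
    have := S.k1
    rw [← h] at this
    linarith

lemma Sz.rp (S : Sz K ϱ r σ e d e₁ κ ε) : 0 < r := by
  by_contra h
  have := mul_nonpos_of_nonneg_of_nonpos (zero_le_one.trans S.K1) (not_lt.1 h)
  linarith [S.r0]

lemma Sz.ee (S : Sz K ϱ r σ e d e₁ κ ε) : e ≤ e₁ := by
  have h1 : 0 ≤ 2 * ‖κ‖ * ϱ * e := by
    have := S.e0
    have : 0 < ϱ := by linarith [S.σ0, S.σ1]
    positivity
  have h2 : 0 ≤ 3 * ‖κ‖ * d ^ 2 := by positivity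
  linarith [S.h1]

lemma ck_mem (k : Ck Λ Ξ J ϱ r p) {x : ℂ × ℂ} (hx : x ∈ ball p r) :
    Λ x ∈ ball ((0, J) : ℂ × ℂ) ϱ := by
  obtain ⟨a, b, c⟩ := k.mem x hx
  exact mem_bd.2 ⟨b, by linarith [norm_nonneg ((Λ x).2 - J)]⟩

lemma gc_an (C : Clk τ f κ J ϱ) (k : Ck Λ Ξ J ϱ r p) :
    DifferentiableOn ℂ (fun x => Gc τ J (Λ x)) (ball p r) :=
  (C.an.comp k.an.differentiableOn fun x hx =>
    ball_subset_ball (by linarith [C.r0]) (ck_mem k hx)).prodMk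
    (k.an.differentiableOn.snd.sub_const J)

lemma gc_bd (S : Sz K ϱ r σ e d e₁ κ ε) (C : Clk τ f κ J ϱ) (k : Ck Λ Ξ J ϱ r p) {x : ℂ × ℂ}
    (hx : x ∈ ball p r) : ‖Gc τ J (Λ x)‖ ≤ 2 * K := by
  obtain ⟨a, b, c⟩ := k.mem x hx
  have h := C.up (ball_subset_ball (by linarith [C.r0]) (ck_mem k hx))
  have h2 : ‖(Λ x).1‖ ^ 2 ≤ 1 := pow_le_one₀ (norm_nonneg _) (by linarith [S.k4])
  have h3 : ‖κ‖ * ‖(Λ x).1‖ ^ 2 ≤ K := (mul_le_of_le_one_right (norm_nonneg _) h2).trans S.k2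
  exact norm_prod_le_iff.2 ⟨by show ‖τ (Λ x)‖ ≤ _; linarith [S.K1],
    by show ‖(Λ x).2 - J‖ ≤ _; linarith [S.K1, S.k4]⟩

lemma gc_lip (S : Sz K ϱ r σ e d e₁ κ ε) (C : Clk τ f κ J ϱ) (k : Ck Λ Ξ J ϱ r p) {x y : ℂ × ℂ}
    (hx : ‖x - p‖ ≤ r / 2) (hy : ‖y - x‖ < r / 2) :
    ‖Gc τ J (Λ y) - Gc τ J (Λ x)‖ ≤ 8 * K ^ 2 * ‖y - x‖ := by
  have r0 := S.rp
  have sb : ball x (r / 2) ⊆ ball p r := ball_subset_ball' (by rw [dist_eq_norm]; linarith)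
  have := dist_le_div_mul_dist_of_mapsTo_ball (f := fun x => Gc τ J (Λ x)) (c := x) (z := y)
    (R₁ := r / 2) (R₂ := 4 * K) ((gc_an C k).mono sb) (fun z hz => by
      rw [mem_closedBall_iff_norm]
      linarith [norm_sub_le (Gc τ J (Λ z)) (Gc τ J (Λ x)), gc_bd S C k (sb hz),
        gc_bd S C k (sb (mem_ball_self (by linarith)))]) (mem_ball_iff_norm.2 hy)
  rw [dist_eq_norm, dist_eq_norm] at this
  refine this.trans (mul_le_mul_of_nonneg_right ?_ (norm_nonneg _))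
  rw [div_le_iff₀ (by linarith)]
  nlinarith [S.r0, S.K1]

/-- the clocks along a chart -/
lemma dr (S : Sz K ϱ r σ e d e₁ κ ε) (P : Patch T Λ Ξ τ f κ J ε ϱ σ e) (k : Ck Λ Ξ J ϱ r p)
    {a : ℝ} (h : Near T p r a) {m : ℕ} (hm : 216 * a * m ≤ r) (m2 : 2 ≤ m) (hε : ‖ε‖ * m ≤ K)
    {t : ℂ} (ht : ‖t‖ ≤ m / 2) :
    ‖Gc τ J (Λ (Ch T m t p)) - Gc τ J (Λ p) - (ε * t, 0)‖ ≤ e₁ * m / 2 + 20 * K ^ 2 / m := by
  have r0 := S.rp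
  have K1 := S.K1
  have m2' : (2 : ℝ) ≤ m := by exact_mod_cast m2
  have p0 : p ∈ ball p (r / 2) := mem_ball_self (by linarith)
  have cl : ∀ t : ℂ, ‖t‖ ≤ 8 * m → ‖Ch T m t p - p‖ ≤ r / 4 := fun t ht =>
    (h.bd_Ch hm p0 ht).trans (by linarith)
  have cm : ∀ t : ℂ, ‖t‖ ≤ 8 * m → Ch T m t p ∈ ball p r := fun t ht =>
    mem_ball_iff_norm.2 (by linarith [cl t ht])
  have hp : (1 / 2 : ℝ) ^ m ≤ 1 / 4 :=
    (pow_le_pow_of_le_one (by norm_num) (by norm_num) m2).trans (by norm_num)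
  have hp' := half_pow (show 0 < m by omega)
  have key := drift (D := fun t => Gc τ J (Λ (Ch T m t p)) - (ε * t, 0)) (t₀ := 0) (R := m)
    (M := 4 * K) (e := e₁ + 8 * K ^ 2 * (3 / (m : ℝ) ^ 2)) (by linarith)
    (DifferentiableOn.sub ((gc_an P.clk k).comp (f := fun t => Ch T m t p)
      (fun t _ => (h.an_t hm p0 t).differentiableAt.differentiableWithinAt) fun t ht =>
        cm t (by linarith [mem_ball_zero_iff.1 ht])) (by fun_prop))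
    (fun t ht => by
      have h1 := mem_ball_zero_iff.1 ht
      have h2 : ‖((ε * t, 0) : ℂ × ℂ)‖ ≤ 2 * K := norm_prod_le_iff.2
        ⟨by show ‖ε * t‖ ≤ _; rw [norm_mul]; nlinarith [norm_nonneg ε],
          by show ‖(0 : ℂ)‖ ≤ _; rw [norm_zero]; linarith⟩
      linarith [norm_sub_le (Gc τ J (Λ (Ch T m t p))) (ε * t, 0),
        gc_bd S P.clk k (cm t (by linarith))])
    (fun t ht => by
      have h1 := mem_ball_zero_iff.1 ht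
      have h2 : ‖t + 1‖ ≤ 8 * m := (norm_add_le _ _).trans (by rw [norm_one]; linarith)
      have x1 := cm t (by linarith)
      have df := h.defect hm (by omega) p0 (t := t) (by linarith)
      have l := gc_lip S P.clk k (x := Ch T m (t + 1) p) (y := T (Ch T m t p))
        (by linarith [cl _ h2]) (df.trans_lt (by nlinarith))
      have qa : Λ (Ch T m t p) ∈ An J ϱ σ := ⟨ck_mem k x1, S.σ1.trans_lt (k.mem _ x1).1⟩
      have j1 := P.stp.dJ _ qa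
      have j2 := P.stp.dη _ qa
      simp only [k.ri _ x1] at j1 j2
      have st := (P.clk.step qa.1 qa.2.le (mul_pos S.κ0 S.σ0) j1 j2 S.hd S.hdr S.he).2.2
      have g : ‖Gc τ J (Λ (T (Ch T m t p))) - Gc τ J (Λ (Ch T m t p)) - (ε, 0)‖ ≤ e₁ :=
        norm_prod_le_iff.2 ⟨st.trans S.h1, by
          refine le_trans (le_of_eq ?_) (j1.trans S.ee)
          congr 1
          simp [Gc]⟩
      have ee : Gc τ J (Λ (Ch T m (t + 1) p)) - (ε * (t + 1), 0) -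
          (Gc τ J (Λ (Ch T m t p)) - (ε * t, 0)) =
          (Gc τ J (Λ (T (Ch T m t p))) - Gc τ J (Λ (Ch T m t p)) - (ε, 0)) -
          (Gc τ J (Λ (T (Ch T m t p))) - Gc τ J (Λ (Ch T m (t + 1) p))) := by
        ext <;> simp <;> ring
      rw [ee]
      refine (norm_sub_le _ _).trans (add_le_add g (l.trans ?_))
      have : r * (1 / 2) ^ m ≤ 3 / (m : ℝ) ^ 2 :=
        (mul_le_of_le_one_left (by positivity) S.r1).trans hp'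
      gcongr
      exact df.trans this)
    t (mem_ball_zero_iff.2 (by linarith))
  have c0 : Ch T m 0 p = p := by simpa using Ch_nat T (Nat.zero_le m) p
  simp only [c0, mul_zero, sub_zero] at key
  rw [show ((0, 0) : ℂ × ℂ) = 0 from rfl, sub_zero, sub_right_comm] at key
  refine key.trans ?_
  have e10 : 0 ≤ e₁ := S.e0.trans S.ee
  calc (e₁ + 8 * K ^ 2 * (3 / (m : ℝ) ^ 2) + 4 * (4 * K) / (m : ℝ) ^ 2) * ‖t‖
      ≤ (e₁ + 8 * K ^ 2 * (3 / (m : ℝ) ^ 2) + 4 * (4 * K ^ 2) / (m : ℝ) ^ 2) * (m / 2) := by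
        have : K ≤ K ^ 2 := by nlinarith
        gcongr
    _ = e₁ * m / 2 + 20 * K ^ 2 / m := by
        field_simp
        ring

lemma orb (P : Patch T Λ Ξ τ f κ J ε ϱ σ e) {q : ℂ × ℂ} {N : ℕ}
    (h : ∀ j ≤ N, (fun q => Λ (T (Ξ q)))^[j] q ∈ An J ϱ σ) : ∀ j ≤ N,
    T^[j] (Ξ q) = Ξ ((fun q => Λ (T (Ξ q)))^[j] q) ∧ AnalyticAt ℂ (T^[j]) (Ξ q) := by
  intro j
  induction j with
  | zero => exact fun _ => ⟨rfl, analyticAt_id⟩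
  | succ j ih =>
    intro hj
    obtain ⟨a, b⟩ := ih (by omega)
    have m := h j (by omega)
    rw [Function.iterate_succ', Function.iterate_succ']
    refine ⟨?_, AnalyticAt.comp (by rw [a]; exact P.anT _ m) b⟩
    show T (T^[j] (Ξ q)) = Ξ (Λ (T (Ξ ((fun q => Λ (T (Ξ q)))^[j] q))))
    rw [a, P.cj _ m]

lemma nu {K k ϱ β : ℝ} (K1 : 1 ≤ K) (k1 : 1 ≤ K * k) (k2 : k ≤ K) (k3 : 1 ≤ K * ϱ) (k4 : ϱ ≤ 1)
    (b0 : 0 ≤ β) (n1 : 4000 * K ^ 4 * β ≤ 1) : 5 * β < ϱ / 2 ∧ 4 * β < k * ϱ ^ 2 / 4 ∧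
    5 * β + 2 * k * ϱ * (5 * β) < k * (ϱ / 8) ^ 2 / 2 ∧ 120 * K ^ 3 * β ≤ ϱ / 32 ∧
    5 * β ≤ 120 * K ^ 3 * β ∧
    ∀ x : ℝ, 0 ≤ x → k * (ϱ / 8) * x ≤ 5 * β + 2 * k * ϱ * (5 * β) → x ≤ 120 * K ^ 3 * β := by
  have K0 : 0 < K := by linarith
  have k0 : 0 < k := by nlinarith
  have ϱ0 : 0 < ϱ := by nlinarith
  have a1 : 1 ≤ K ^ 2 * (k * ϱ) := by nlinarith [mul_le_mul k1 k3 zero_le_one (by linarith)]
  have a2 : 1 ≤ K ^ 3 * (k * ϱ ^ 2) := by nlinarith [mul_le_mul a1 k3 zero_le_one (by linarith)]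
  have K3 : 1 ≤ K ^ 3 := one_le_pow₀ K1
  have a3 : 4000 * K * β ≤ k * ϱ ^ 2 := by
    refine le_of_mul_le_mul_left ?_ (pow_pos K0 3)
    nlinarith
  have a4 : 4000 * K ^ 3 * β ≤ ϱ := by
    refine le_of_mul_le_mul_left ?_ K0
    nlinarith
  have a5 : β ≤ K * β := by nlinarith
  have a6 : β ≤ K ^ 3 * β := by nlinarith
  have a7 : k * ϱ * β ≤ K * β := by
    have : k * ϱ ≤ K := by nlinarith
    gcongr
  have a8 : 0 < k * ϱ ^ 2 := by positivity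
  refine ⟨by linarith, by linarith, by nlinarith, by linarith, by linarith, fun x x0 hx => ?_⟩
  have a9 : k * ϱ * x ≤ 120 * K * β := by nlinarith
  have a10 : x ≤ K ^ 2 * (k * ϱ) * x := by nlinarith
  have a11 : K ^ 2 * (k * ϱ * x) ≤ K ^ 2 * (120 * K * β) := by gcongr
  nlinarith

/-- the orbit of one point near the chart -/
lemma one (S : Sz K ϱ r σ e d e₁ κ ε) (P : Patch T Λ Ξ τ f κ J ε ϱ σ e) (k : Ck Λ Ξ J ϱ r p)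
    {N : ℕ} {β lam : ℝ} {θ : ℂ} {x : ℂ × ℂ} (hx : x ∈ ball p r) (b0 : 0 ≤ β)
    (h : ‖τ (Λ x) - θ‖ ≤ 3 * β)
    (geo : ∀ j ≤ N, lam ≤ ‖θ + j * ε‖ ∧ ‖θ + j * ε‖ ≤ ‖κ‖ * ϱ ^ 2 / 2) (Ne : N * e₁ ≤ β)
    (n1 : 4000 * K ^ 4 * β ≤ 1) (n2 : 5 / 4 * (‖κ‖ * σ ^ 2) + 4 * β < lam) :
    (fun q => Λ (T (Ξ q)))^[N] (Λ x) ∈ An J ϱ σ ∧
      DifferentiableAt ℂ (fun q => Λ (T (Ξ q)))^[N] (Λ x) ∧
      ‖Gc τ J ((fun q => Λ (T (Ξ q)))^[N] (Λ x)) - Gc τ J (Λ x) - (N * ε, 0)‖ ≤ β ∧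
      T^[N] x = Ξ ((fun q => Λ (T (Ξ q)))^[N] (Λ x)) ∧ AnalyticAt ℂ (T^[N]) x := by
  obtain ⟨u1, u2, -⟩ := nu S.K1 S.k1 S.k2 S.k3 S.k4 b0 n1
  have Ne' : N * e ≤ β := (mul_le_mul_of_nonneg_left S.ee (Nat.cast_nonneg N)).trans Ne
  have ps := pass P.clk P.stp (mul_pos S.κ0 S.σ0) S.hd S.hdr S.e0 S.he S.h1 (N := N) (q := Λ x)
    (ball_subset_ball (by linarith [P.clk.r0]) (ck_mem k hx))
    (by linarith [(k.mem x hx).2.2]) fun j hj => by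
      obtain ⟨g1, g2⟩ := geo j hj
      have a := norm_sub_norm_le (θ + j * ε) (τ (Λ x) + j * ε)
      have b := norm_sub_norm_le (τ (Λ x) + j * ε) (θ + j * ε)
      rw [add_sub_add_right_eq_sub] at a b
      rw [norm_sub_rev] at a
      constructor <;> linarith
  obtain ⟨o1, o2⟩ := orb P (fun j hj => (ps j hj).1) N le_rfl
  rw [k.ri x hx] at o1 o2
  obtain ⟨p1, p2, p3, p4⟩ := ps N le_rfl
  refine ⟨p1, p2, norm_prod_le_iff.2 ⟨p3.trans Ne, ?_⟩, o1, o2⟩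
  refine le_trans (le_of_eq ?_) (p4.trans Ne')
  congr 1
  simp [Gc]

/-- one direction of the passage -/
lemma dirA (S : Sz K ϱ r σ e d e₁ κ ε) (P : Patch T Λ Ξ τ f κ J ε ϱ σ e) {p₁ p₂ : ℂ × ℂ}
    (k1 : Ck Λ Ξ J ϱ r p₁) (k2 : Ck Λ Ξ J ϱ r p₂)
    (lip : ∀ q ∈ An J ϱ (ϱ / 16), ∀ q' ∈ An J ϱ (ϱ / 16), ‖q - q'‖ ≤ ϱ / 32 →
      ‖Ξ q - Ξ q'‖ ≤ K * ‖q - q'‖)
    {A : Set ℂ} {c₁ c₂ : ℂ → ℂ × ℂ} {l : ℂ → ℂ} {N : ℕ} {β lam δ : ℝ} {θ : ℂ}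
    (hA : IsPreconnected A) (A0 : (0 : ℂ) ∈ A) (t1 : ContinuousOn c₁ A) (t2 : ContinuousOn c₂ A)
    (e1 : c₁ 0 = p₁) (e2 : c₂ 0 = p₂) (l0 : l 0 = 0) (b1 : ∀ t ∈ A, ‖c₁ t - p₁‖ ≤ r / 4)
    (b2 : ∀ t ∈ A, ‖c₂ t - p₂‖ ≤ r / 4) (hN : T^[N] p₁ = p₂)
    (d1 : ∀ t ∈ A, ‖Gc τ J (Λ (c₁ t)) - Gc τ J (Λ p₁) - (l t, 0)‖ ≤ β)
    (d2 : ∀ t ∈ A, ‖Gc τ J (Λ (c₂ t)) - Gc τ J (Λ p₂) - (l t, 0)‖ ≤ β)
    (δ0 : 0 < δ) (δr : δ ≤ r / 2) (δβ : 8 * K ^ 2 * δ ≤ β) (hθ : ‖τ (Λ p₁) - θ‖ ≤ β)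
    (geo : ∀ t ∈ A, ∀ j ≤ N, lam ≤ ‖θ + l t + j * ε‖ ∧ ‖θ + l t + j * ε‖ ≤ ‖κ‖ * ϱ ^ 2 / 2)
    (Ne : N * e₁ ≤ β) (n1 : 4000 * K ^ 4 * β ≤ 1) (n2 : 5 / 4 * (‖κ‖ * σ ^ 2) + 4 * β < lam) :
    ‖τ (Λ p₂) - (τ (Λ p₁) + N * ε)‖ ≤ β ∧ ∀ t ∈ A, ∀ q ∈ ball (c₁ t) δ,
      AnalyticAt ℂ (T^[N]) q ∧ ‖T^[N] q - c₂ t‖ ≤ 120 * K ^ 4 * β := by
  have r0 := S.rp
  have ϱ0 := P.clk.r0
  have b0 : 0 ≤ β := (norm_nonneg _).trans hθ
  obtain ⟨u1, -, u3, u4, u5, u6⟩ := nu S.K1 S.k1 S.k2 S.k3 S.k4 b0 n1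
  obtain ⟨Sm, eS⟩ : ∃ Sm : ℂ × ℂ → ℂ × ℂ, Sm = (fun q => Λ (T (Ξ q)))^[N] := ⟨_, rfl⟩
  have m2 : ∀ t ∈ A, c₂ t ∈ ball p₂ r := fun t ht => mem_ball_iff_norm.2 (by linarith [b2 t ht])
  have m1 : ∀ t ∈ A, ∀ w : ℂ × ℂ, ‖w‖ < δ → c₁ t + w ∈ ball p₁ r := fun t ht w hw => by
    rw [mem_ball_iff_norm, add_sub_right_comm]
    linarith [norm_add_le (c₁ t - p₁) w, b1 t ht]
  have lp : ∀ t ∈ A, ∀ w : ℂ × ℂ, ‖w‖ < δ →
      ‖Gc τ J (Λ (c₁ t + w)) - Gc τ J (Λ (c₁ t))‖ ≤ β := fun t ht w hw => by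
    have := gc_lip S P.clk k1 (x := c₁ t) (y := c₁ t + w) (by linarith [b1 t ht])
      (by rw [add_sub_cancel_left]; linarith)
    rw [add_sub_cancel_left] at this
    refine this.trans (le_trans ?_ δβ)
    gcongr
  have o : ∀ t ∈ A, ∀ w : ℂ × ℂ, ‖w‖ < δ → Sm (Λ (c₁ t + w)) ∈ An J ϱ σ ∧
      DifferentiableAt ℂ Sm (Λ (c₁ t + w)) ∧
      ‖Gc τ J (Sm (Λ (c₁ t + w))) - Gc τ J (Λ (c₁ t + w)) - (N * ε, 0)‖ ≤ β ∧
      T^[N] (c₁ t + w) = Ξ (Sm (Λ (c₁ t + w))) ∧ AnalyticAt ℂ (T^[N]) (c₁ t + w) := by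
    intro t ht w hw
    rw [eS]
    refine one S P k1 (θ := θ + l t) (m1 t ht w hw) b0 ?_ (geo t ht) Ne n1 n2
    have a1 : ‖τ (Λ (c₁ t + w)) - τ (Λ (c₁ t))‖ ≤ β := (norm_fst_le _).trans (lp t ht w hw)
    have a2 : ‖τ (Λ (c₁ t)) - τ (Λ p₁) - l t‖ ≤ β := (norm_fst_le _).trans (d1 t ht)
    have := norm_add₃_le (a := τ (Λ (c₁ t + w)) - τ (Λ (c₁ t)))
      (b := τ (Λ (c₁ t)) - τ (Λ p₁) - l t) (c := τ (Λ p₁) - θ)
    rw [show τ (Λ (c₁ t + w)) - τ (Λ (c₁ t)) + (τ (Λ (c₁ t)) - τ (Λ p₁) - l t) + (τ (Λ p₁) - θ) =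
      τ (Λ (c₁ t + w)) - (θ + l t) by ring] at this
    linarith
  obtain ⟨z1, -, z3, z4, -⟩ := o 0 A0 0 (by rwa [norm_zero])
  rw [add_zero, e1] at z1 z3 z4
  have z5 : Sm (Λ p₁) = Λ p₂ := by rw [← hN, z4, P.li _ z1]
  rw [z5] at z3
  have tot : ∀ t ∈ A, ∀ w : ℂ × ℂ, ‖w‖ < δ →
      ‖Gc τ J (Sm (Λ (c₁ t + w))) - Gc τ J (Λ (c₂ t))‖ ≤ 5 * β := fun t ht w hw => by
    have ee : Gc τ J (Sm (Λ (c₁ t + w))) - Gc τ J (Λ (c₂ t)) =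
        (Gc τ J (Sm (Λ (c₁ t + w))) - Gc τ J (Λ (c₁ t + w)) - (N * ε, 0)) +
        (Gc τ J (Λ (c₁ t + w)) - Gc τ J (Λ (c₁ t))) +
        (Gc τ J (Λ (c₁ t)) - Gc τ J (Λ p₁) - (l t, 0)) -
        (Gc τ J (Λ (c₂ t)) - Gc τ J (Λ p₂) - (l t, 0)) -
        (Gc τ J (Λ p₂) - Gc τ J (Λ p₁) - (N * ε, 0)) := by abel
    rw [ee]
    refine (norm_sub_le _ _).trans ((add_le_add ((norm_sub_le _ _).trans
      (add_le_add norm_add₃_le (d2 t ht))) z3).trans ?_)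
    linarith [(o t ht w hw).2.2.1, lp t ht w hw, d1 t ht]
  have tot2 : ∀ t ∈ A, ∀ w : ℂ × ℂ, ‖w‖ < δ →
      ‖(Sm (Λ (c₁ t + w))).2 - (Λ (c₂ t)).2‖ ≤ 5 * β := fun t ht w hw => by
    refine le_trans (le_of_eq ?_) ((norm_snd_le _).trans (tot t ht w hw))
    congr 1
    simp [Gc]
  have sg := sign P.clk (D := A ×ˢ ball (0 : ℂ × ℂ) δ) (hA.prod (convex_ball _ _).isPreconnected)
    (p := fun x => Λ (c₂ x.1)) (q := fun x => Sm (Λ (c₁ x.1 + x.2))) (s := ϱ / 8) (e := 5 * β)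
    (e' := 5 * β)
    (k2.an.continuousOn.comp (t2.comp continuousOn_fst fun x hx => hx.1) fun x hx => m2 _ hx.1)
    (fun x hx => ContinuousAt.comp_continuousWithinAt (g := Sm)
      (f := fun x : ℂ × ℂ × ℂ => Λ (c₁ x.1 + x.2))
      (o _ hx.1 _ (mem_ball_zero_iff.1 hx.2)).2.1.continuousAt
      ((k1.an.continuousOn.comp ((t1.comp continuousOn_fst fun x hx => hx.1).add continuousOn_snd)
        fun x hx => m1 _ hx.1 _ (mem_ball_zero_iff.1 hx.2)) x hx))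
    (by linarith) (by linarith) u3
    (fun x hx => ⟨ck_mem k2 (m2 _ hx.1), (o _ hx.1 _ (mem_ball_zero_iff.1 hx.2)).1.1,
      (k2.mem _ (m2 _ hx.1)).1.le, (norm_fst_le _).trans (tot _ hx.1 _ (mem_ball_zero_iff.1 hx.2)),
      tot2 _ hx.1 _ (mem_ball_zero_iff.1 hx.2)⟩)
    (x₀ := (0, 0)) ⟨A0, mem_ball_self δ0⟩ (by
      simp only [add_zero, e1, e2, z5, sub_self, norm_zero]
      positivity)
  refine ⟨?_, fun t ht q hq => ?_⟩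
  · refine le_trans (le_of_eq ?_) ((norm_fst_le _).trans z3)
    congr 1
    simp [Gc, sub_sub]
  · obtain ⟨w, rfl⟩ : ∃ w, q = c₁ t + w := ⟨q - c₁ t, by abel⟩
    have hw : ‖w‖ < δ := by simpa using hq
    obtain ⟨o1, -, -, o4, o5⟩ := o t ht w hw
    have s1 : ‖(Sm (Λ (c₁ t + w))).1 - (Λ (c₂ t)).1‖ ≤ 120 * K ^ 3 * β :=
      u6 _ (norm_nonneg _) (sg (t, w) ⟨ht, mem_ball_zero_iff.2 hw⟩)
    have s2 : ‖Sm (Λ (c₁ t + w)) - Λ (c₂ t)‖ ≤ 120 * K ^ 3 * β :=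
      norm_prod_le_iff.2 ⟨s1, (tot2 t ht w hw).trans u5⟩
    have s3 := (k2.mem _ (m2 t ht)).1
    have s4 := norm_sub_norm_le (Λ (c₂ t)).1 (Sm (Λ (c₁ t + w))).1
    rw [norm_sub_rev] at s4
    have := lip (Sm (Λ (c₁ t + w))) ⟨o1.1, by show _ < ‖(Sm (Λ (c₁ t + w))).1‖; linarith⟩ (Λ (c₂ t))
      ⟨ck_mem k2 (m2 t ht), by show _ < ‖(Λ (c₂ t)).1‖; linarith⟩ (s2.trans u4)
    rw [k2.ri _ (m2 t ht), ← o4] at this
    refine ⟨o5, this.trans ?_⟩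
    have K0 : 0 ≤ K := zero_le_one.trans S.K1
    calc K * ‖Sm (Λ (c₁ t + w)) - Λ (c₂ t)‖ ≤ K * (120 * K ^ 3 * β) := by gcongr
      _ = 120 * K ^ 4 * β := by ring

lemma sz {K ς ε : ℝ} {D : Md} (n : Num K ς ε D) (h : 40000 * K ^ 7 * ς ≤ 1) {c : ℕ} (hc : c < D.M)
    {ε' : ℂ} (he : ‖ε'‖ = ε) : Sz K (D.ϱ c) D.r (ς ^ 10) (K * ς ^ 240) (2 * K * ς ^ 210)
      (4 * K ^ 2 * ς ^ 240) (D.κ c) ε' := by
  obtain ⟨k1, k2, k3, k4⟩ := n.κ c hc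
  have K1 := n.K1
  have ς0 := n.ς0
  have K0 : 0 < K := by linarith
  have s := sm K1 ς0 h
  have ϱ0 : 0 < D.ϱ c := by nlinarith
  have p220 : 0 < ς ^ 220 := by positivity
  have p240 : 0 < K ^ 2 * ς ^ 240 := by positivity
  refine ⟨K1, k1, k2, k3, k4, n.r0, n.r1, by positivity, ?_, ?_, ?_, by positivity, ?_, ?_⟩
  · refine le_of_mul_le_mul_left ?_ K0
    have := s 1 10 (by norm_num) (by norm_num)
    rw [pow_one] at this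
    linarith
  · have a := s 1 20 (by norm_num) (by norm_num)
    rw [pow_one] at a
    rw [he, n.eq, show K * ς ^ 240 = K * ς ^ 20 * ς ^ 220 by ring,
      show ‖D.κ c‖ * ς ^ 10 * (2 * K * ς ^ 210) = 2 * (K * ‖D.κ c‖) * ς ^ 220 by ring]
    nlinarith
  · refine lt_of_mul_lt_mul_left ?_ K0.le
    have := s 2 210 (by norm_num) (by norm_num)
    rw [show K * (2 * K * ς ^ 210) = 2 * (K ^ 2 * ς ^ 210) by ring]
    linarith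
  · refine lt_of_mul_lt_mul_left ?_ K0.le
    have := s 2 240 (by norm_num) (by norm_num)
    rw [show K * (K * ς ^ 240) = K ^ 2 * ς ^ 240 by ring]
    linarith
  · have a := s 1 180 (by norm_num) (by norm_num)
    rw [pow_one] at a
    have b1 : 2 * ‖D.κ c‖ * D.ϱ c * (K * ς ^ 240) ≤ 2 * K * 1 * (K * ς ^ 240) := by gcongr
    have b2 : 3 * ‖D.κ c‖ * (2 * K * ς ^ 210) ^ 2 ≤ 3 * K * (2 * K * ς ^ 210) ^ 2 := by gcongr
    have b3 : 1 * (K * ς ^ 240) ≤ K * (K * ς ^ 240) := by gcongr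
    have b4 : 12 * (K * ς ^ 180) * (K ^ 2 * ς ^ 240) ≤ 1 * (K ^ 2 * ς ^ 240) := by
      gcongr
      linarith
    rw [show 3 * K * (2 * K * ς ^ 210) ^ 2 = 12 * (K * ς ^ 180) * (K ^ 2 * ς ^ 240) by ring] at b2
    linarith

lemma nums {K ς ε k m N : ℝ} (K1 : 1 ≤ K) (ς0 : 0 < ς) (h : 40000 * K ^ 7 * ς ≤ 1)
    (e : ε = ς ^ 220) (k2 : k ≤ K) (m1 : 160 ≤ K * (ε * m)) (m2 : ε * m ≤ K) (hN : ε * N ≤ K) :
    2 ≤ m ∧ 4 * K ^ 2 * ς ^ 240 * m / 2 + 20 * K ^ 2 / m ≤ 8 * K ^ 3 * ς ^ 20 ∧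
    N * (4 * K ^ 2 * ς ^ 240) ≤ 8 * K ^ 3 * ς ^ 20 ∧ K * ς ^ 20 ≤ 1 / 2 ∧ K * ς ^ 19 ≤ 1 ∧
    8 * K ^ 2 * ς ^ 20 ≤ 8 * K ^ 3 * ς ^ 20 ∧ 4000 * K ^ 4 * (8 * K ^ 3 * ς ^ 20) ≤ 1 ∧
    5 / 4 * (k * (ς ^ 10) ^ 2) + 4 * (8 * K ^ 3 * ς ^ 20) < ς ^ 19 ∧
    120 * K ^ 4 * (8 * K ^ 3 * ς ^ 20) ≤ ς := by
  have s := sm K1 ς0 h
  have K0 : 0 < K := by linarith
  have ε0 : 0 < ε := by rw [e]; positivity
  have s1 : ς ≤ 1 := by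
    have := s 0 1 (by norm_num) le_rfl
    norm_num at this
    linarith
  have a1 := s 1 220 (by norm_num) (by norm_num)
  have a2 := s 1 20 (by norm_num) (by norm_num)
  have a3 := s 1 19 (by norm_num) (by norm_num)
  have a4 := s 7 20 (by norm_num) (by norm_num)
  have a5 := s 7 19 (by norm_num) (by norm_num)
  have a6 := s 3 1 (by norm_num) (by norm_num)
  rw [pow_one] at a1 a2 a3 a6
  rw [← e] at a1
  have m0 : 0 < m := by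
    by_contra hm
    have := mul_nonpos_of_nonneg_of_nonpos K0.le
      (mul_nonpos_of_nonneg_of_nonpos ε0.le (not_lt.1 hm))
    linarith
  have u0 : 0 < ς ^ 20 := by positivity
  have w0 : 0 < K ^ 2 * ς ^ 20 := by positivity
  have εu : ε ≤ ς ^ 20 := e ▸ pow_le_pow_of_le_one ς0.le s1 (by norm_num)
  have e2 : ς ^ 240 = ς ^ 20 * ε := by rw [e]; ring
  have K23 : K ^ 2 ≤ K ^ 3 := pow_le_pow_right₀ K1 (by norm_num)
  have K13 : K ≤ K ^ 3 := by simpa using pow_le_pow_right₀ K1 (show 1 ≤ 3 by norm_num)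
  refine ⟨by nlinarith, ?_, ?_, by linarith, by linarith, by gcongr, ?_, ?_, ?_⟩
  · have b1 : 20 * K ^ 2 / m ≤ K ^ 3 * ε := by
      rw [div_le_iff₀ m0, show K ^ 3 * ε * m = K ^ 2 * (K * (ε * m)) by ring]
      nlinarith [sq_nonneg K]
    have b2 : K ^ 3 * ε ≤ K ^ 3 * ς ^ 20 := by gcongr
    have b3 : K ^ 2 * ς ^ 20 * (ε * m) ≤ K ^ 2 * ς ^ 20 * K := by gcongr
    have b4 : 0 < K ^ 3 * ς ^ 20 := by positivity
    rw [e2]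
    linarith
  · have b3 : K ^ 2 * ς ^ 20 * (ε * N) ≤ K ^ 2 * ς ^ 20 * K := by gcongr
    have b4 : 0 < K ^ 3 * ς ^ 20 := by positivity
    rw [e2]
    linarith
  · linarith
  · have b1 : k * ς ^ 20 ≤ K ^ 3 * ς ^ 20 := by gcongr; linarith
    have b2 : 40000 * (K ^ 3 * ς) * ς ^ 19 ≤ 1 * ς ^ 19 := by gcongr
    have b4 : 0 < K ^ 3 * ς ^ 20 := by positivity
    linarith
  · have b2 : 40000 * (K ^ 7 * ς ^ 19) * ς ≤ 1 * ς := by gcongr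
    have b4 : 0 < K ^ 7 * ς ^ 20 := by positivity
    linarith

lemma mono {K ς ε : ℝ} {D : Md} (n : Num K ς ε D) {c : ℕ} (hc : c < D.M) :
    D.lo 0 ≤ D.hi c ∧ D.lo (c + 1) ≤ D.hi D.M := by
  have a : ∀ j ≤ D.M, D.lo 0 ≤ D.lo j := by
    intro j
    induction j with
    | zero => exact fun _ => le_rfl
    | succ j ih =>
      exact fun hj => (ih (by omega)).trans ((n.lh j (by omega)).trans (n.hl j (by omega)).le)
  have b : ∀ j, c + 1 ≤ j → j ≤ D.M → D.lo (c + 1) ≤ D.hi j := by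
    intro j hj
    induction j, hj using Nat.le_induction with
    | base => exact n.lh _
    | succ j _ ih =>
      exact fun hj => (ih (by omega)).trans ((n.hl j (by omega)).le.trans (n.lh _ hj))
  exact ⟨(a c hc.le).trans (n.lh c hc.le), b _ hc le_rfl⟩

lemma ends {K ς ε : ℝ} {D : Md} (H : Mach K ς ε D) {c : ℕ} (hc : c < D.M) {ζ : ℂ}
    (hζ : ‖ζ‖ < D.R) : D.T^[D.N c] (D.Z (D.hi c, ζ)) = D.Z (D.lo (c + 1), ζ) ∧
    D.T'^[D.N c] (D.Z (D.lo (c + 1), ζ)) = D.Z (D.hi c, ζ) := by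
  obtain ⟨m1, m2⟩ := mono H.num hc
  have hl := H.num.hl c hc
  have eN : (D.N c : ℤ) = D.lo (c + 1) - D.hi c := Int.toNat_of_nonneg (by omega)
  have dp : ∀ i : ℤ, D.hi c ≤ i → i ≤ D.lo (c + 1) → D.T (D.Z (i, ζ)) = D.Z ((i + 1 : ℤ), ζ) ∧
      D.T' (D.Z ((i + 1 : ℤ), ζ)) = D.Z (i, ζ) := fun i a b => by
    have n0 : (0 : ℝ) ≤ D.n := Nat.cast_nonneg _
    have a' : (D.lo 0 : ℝ) ≤ i := by exact_mod_cast m1.trans a
    have b' : (i : ℝ) ≤ D.hi D.M := by exact_mod_cast b.trans m2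
    have := (H.deep i ζ ⟨by rw [intCast_re]; linarith, by rw [intCast_re]; linarith⟩
      (Or.inl ⟨hζ, by rw [intCast_im, abs_zero]; linarith⟩)).2.2
    push_cast
    exact this
  have f : ∀ j : ℕ, j ≤ D.N c → D.T^[j] (D.Z (D.hi c, ζ)) = D.Z ((D.hi c + j : ℤ), ζ) := by
    intro j
    induction j with
    | zero => exact fun _ => by simp
    | succ j ih =>
      intro hj
      rw [Function.iterate_succ_apply', ih (by omega), (dp _ (by omega) (by omega)).1,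
        Nat.cast_succ, add_assoc]
  have g : ∀ j : ℕ, j ≤ D.N c →
      D.T'^[j] (D.Z (D.lo (c + 1), ζ)) = D.Z ((D.lo (c + 1) - j : ℤ), ζ) := by
    intro j
    induction j with
    | zero => exact fun _ => by simp
    | succ j ih =>
      intro hj
      rw [Function.iterate_succ_apply', ih (by omega),
        show D.lo (c + 1) - j = D.lo (c + 1) - (j + 1 : ℕ) + 1 by omega,
        (dp _ (by omega) (by omega)).2]
  rw [f _ le_rfl, g _ le_rfl, eN, add_sub_cancel, sub_sub_cancel]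
  exact ⟨rfl, rfl⟩

end PsA

open PsA in
theorem psC : S_PS := by
  intro K
  by_cases K1 : 1 ≤ K
  swap
  · exact ⟨1, one_pos, fun ς ε D _ H => absurd H.num.K1 K1⟩
  have K0 : 0 < K := by linarith
  refine ⟨1 / (40000 * K ^ 7), by positivity, fun ς ε D hς H c hc ζ t₀ hζ ht₀ hi₀ => ?_⟩
  have n := H.num
  have ς0 := n.ς0
  have h : 40000 * K ^ 7 * ς ≤ 1 := by
    rw [lt_div_iff₀ (by positivity)] at hς
    linarith
  have ε0 : 0 < ε := by rw [n.eq]; positivity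
  have nε : ‖(ε : ℂ)‖ = ε := by rw [norm_real, Real.norm_of_nonneg ε0.le]
  have S := sz n h hc nε
  have S' := sz n h hc (ε' := -ε) (by rw [norm_neg, nε])
  obtain ⟨P, P'⟩ := H.pat c hc
  obtain ⟨k1, k2⟩ := H.ck c hc ζ hζ
  obtain ⟨g1, -, -, g4, g5⟩ := H.geo c hc ζ hζ
  obtain ⟨T1, T2⟩ := ends H hc hζ
  have nm : 40 * (D.n : ℝ) ≤ D.m := by exact_mod_cast n.nm
  have εm : 0 ≤ ε * D.m := by positivity
  have εn : 4 ≤ K * (ε * D.n) := by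
    have : K * (ε * (4 * D.H)) ≤ K * (ε * D.n) := by gcongr; exact n.HR.trans n.Rn
    linarith [n.H0]
  have εN : ε * D.N c ≤ K := by
    have a := norm_sub_le (D.τ₀ c ζ + ε * D.N c) (D.τ₀ c ζ)
    rw [add_sub_cancel_left, norm_mul, nε, Complex.norm_natCast] at a
    have b : D.ϱ c ^ 2 ≤ 1 := pow_le_one₀ P.clk.r0.le S.k4
    have := mul_le_of_le_one_right (norm_nonneg (D.κ c)) b
    linarith [S.k2]
  obtain ⟨u1, u2, u3, u4, u5, u6, u7, u8, u9⟩ := nums (m := D.m) K1 ς0 h n.eq S.k2 (by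
    have : K * (ε * (40 * D.n)) ≤ K * (ε * D.m) := by gcongr
    linarith) n.mK εN
  have m2 : 2 ≤ D.m := by exact_mod_cast u1
  obtain ⟨A, eA⟩ : ∃ A : Set ℂ,
      A = closedBall 0 (D.m / 2) ∩ {t | t.im ≤ (D.ν ε c ζ).im - ς ^ 19 / ε} := ⟨_, rfl⟩
  have hA : IsPreconnected A :=
    eA ▸ ((convex_closedBall _ _).inter (convex_halfSpace_im_le _)).isPreconnected
  have iA : ∀ t : ℂ, t ∈ A ↔ ‖t‖ ≤ D.m / 2 ∧ (D.τ₀ c ζ).im + ε * t.im ≤ -ς ^ 19 := fun t => by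
    rw [eA, mem_inter_iff, mem_closedBall_zero_iff, mem_setOf_eq, Md.ν, div_ofReal_im, neg_im,
      ← sub_div, le_div_iff₀ ε0]
    exact and_congr_right fun _ => ⟨fun h => by linarith, fun h => by linarith⟩
  have A0 : (0 : ℂ) ∈ A := (iA 0).2 ⟨by rw [norm_zero]; positivity, by
    have : ς ^ 19 ≤ ε * D.n := le_of_mul_le_mul_left (by linarith) K0
    rw [zero_im]
    linarith⟩
  have tA : t₀ ∈ A := eA ▸ ⟨mem_closedBall_zero_iff.2 ht₀, hi₀⟩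
  have geo : ∀ t ∈ A, ∀ s : ℝ, 0 ≤ s → s ≤ ε * D.N c → ς ^ 19 ≤ ‖D.τ₀ c ζ + ε * t + s‖ ∧
      ‖D.τ₀ c ζ + ε * t + s‖ ≤ ‖D.κ c‖ * D.ϱ c ^ 2 / 2 := fun t ht s s0 s1 => by
    obtain ⟨a, b⟩ := (iA t).1 ht
    constructor
    · refine le_trans ?_ ((neg_le_abs _).trans (abs_im_le_norm _))
      rw [add_im, add_im, im_ofReal_mul, ofReal_im]
      linarith
    · have := seg_le (a := D.τ₀ c ζ) (ρ := ‖D.κ c‖ * D.ϱ c ^ 2 / 2 - ε * D.m) s0 s1 (by linarith)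
        (by push_cast; linarith)
      have l := norm_add_le (D.τ₀ c ζ + s) (ε * t)
      rw [add_right_comm, norm_mul, nε] at l
      have : ε * ‖t‖ ≤ ε * (D.m / 2) := by gcongr
      linarith
  have ch : ∀ i, D.Gap i → Ck (D.Λ c) (D.Ξ c) (D.J c) (D.ϱ c) D.r (D.Z (i, ζ)) →
      ContinuousOn (D.Ct i ζ) A ∧ D.Ct i ζ 0 = D.Z (i, ζ) ∧
      (∀ t ∈ A, ‖D.Ct i ζ t - D.Z (i, ζ)‖ ≤ D.r / 4) ∧
      ∀ t ∈ A, ‖Gc (D.τ c) (D.J c) (D.Λ c (D.Ct i ζ t)) - Gc (D.τ c) (D.J c) (D.Λ c (D.Z (i, ζ))) -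
        (ε * t, 0)‖ ≤ 8 * K ^ 3 * ς ^ 20 := fun i hi k => by
    have N := (H.gap i hi ζ hζ).1
    have p0 : D.Z (i, ζ) ∈ ball (D.Z (i, ζ)) (D.r / 2) := mem_ball_self (by linarith [S.rp])
    refine ⟨fun t _ => (N.an_t n.am p0 t).continuousAt.continuousWithinAt,
      by simpa [Md.Ct] using Ch_nat D.T (Nat.zero_le D.m) (D.Z (i, ζ)), fun t ht => ?_,
      fun t ht => (dr S P k N n.am m2 (by rw [nε]; exact n.mK) ((iA t).1 ht).1).trans u2⟩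
    exact (N.bd_Ch n.am p0 (by linarith [((iA t).1 ht).1])).trans (by linarith [n.am])
  obtain ⟨c1, c2, c3, c4⟩ := ch (D.hi c) ⟨c, hc.le, n.lh c hc.le, le_rfl⟩ k1
  obtain ⟨d1, d2, d3, d4⟩ := ch (D.lo (c + 1)) ⟨c + 1, hc, le_rfl, n.lh _ hc⟩ k2
  have δr : ς ^ 20 ≤ D.r / 2 := le_of_mul_le_mul_left (by linarith [n.r0]) K0
  obtain ⟨f1, f2⟩ := dirA S P k1 k2 (H.lip c hc) (l := fun t => ε * t) (θ := D.τ₀ c ζ)
    (lam := ς ^ 19) hA A0 c1 d1 c2 d2 (mul_zero _) c3 d3 T1 c4 d4 (by positivity) δr u6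
    (by rw [Md.τ₀, sub_self, norm_zero]; positivity) (fun t ht j hj => by
      have := geo t ht (ε * j) (by positivity) (by gcongr)
      rwa [ofReal_mul, ofReal_natCast, mul_comm (ε : ℂ) j] at this) u3 u7 u8
  obtain ⟨-, f3⟩ := dirA S' P' k2 k1 (H.lip c hc) (l := fun t => ε * t)
    (θ := D.τ₀ c ζ + D.N c * ε) (lam := ς ^ 19) hA A0 d1 c1 d2 c2 (mul_zero _) d3 c3 T2 d4 c4
    (by positivity) δr u6 f1 (fun t ht j hj => by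
      have hj' : (j : ℝ) ≤ D.N c := by exact_mod_cast hj
      have := geo t ht (ε * (D.N c - j)) (mul_nonneg ε0.le (by linarith))
        (by gcongr; linarith [(Nat.cast_nonneg j : (0 : ℝ) ≤ j)])
      rwa [show D.τ₀ c ζ + ε * t + ((ε * (D.N c - j) : ℝ) : ℂ) =
        D.τ₀ c ζ + D.N c * ε + ε * t + j * -(ε : ℂ) by push_cast; ring] at this) u3 u7 u8
  exact ⟨fun q hq => ⟨(f2 _ tA q hq).1, (f2 _ tA q hq).2.trans u9⟩,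
    fun q hq => ⟨(f3 _ tA q hq).1, (f3 _ tA q hq).2.trans u9⟩⟩

end Vale.Agent.P097F.N
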