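import Vale.Agent.P097F.N.Nq
import Vale.Agent.P097F.N.Ps
import Vale.Agent.P097F.N.Pg
import Vale.Agent.P097F.N.Tub
import Vale.Agent.P097F.N.Levo
import Vale.Agent.P097F.N.Lin
import Vale.Agent.P097Q.SAll

/-!
# P097F/N: the blocks N and Q, closed forms
-/

namespace Vale.Agent.P097F.N

theorem tubC : S_TUB := tub P097Q.spec_EDGE

theorem levoC : S_LEVO := levo tubC

theorem nqC : Spec_NQ := nq psC pg tubC levoC lin P097Q.spec_SEAM

end Vale.Agent.P097F.N
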