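import Vale.Agent.P097F.N.NqSz

/-!
# P097F/N: stations and the box of the charts
-/

set_option linter.all false

noncomputable section

namespace Vale.Agent.P097F.N.Nq

open Filter Topology Set Metric Complex

/-- the stations: three in each gap -/
def st (D : Md) (μ : ℕ → ℤ) (i : ℕ) : ℤ :=
  if i % 3 = 0 then D.lo (i / 3) else if i % 3 = 1 then μ (i / 3) else D.hi (i / 3)

lemma st_0 (D : Md) (μ : ℕ → ℤ) (j : ℕ) : st D μ (3 * j) = D.lo j := by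
  rw [st, if_pos (by omega), show 3 * j / 3 = j by omega]

lemma st_1 (D : Md) (μ : ℕ → ℤ) (j : ℕ) : st D μ (3 * j + 1) = μ j := by
  rw [st, if_neg (by omega), if_pos (by omega), show (3 * j + 1) / 3 = j by omega]

lemma st_2 (D : Md) (μ : ℕ → ℤ) (j : ℕ) : st D μ (3 * j + 2) = D.hi j := by
  rw [st, if_neg (by omega), if_neg (by omega), show (3 * j + 2) / 3 = j by omega]

lemma st_2' (D : Md) (μ : ℕ → ℤ) (j : ℕ) : st D μ (3 * j + 1 + 1) = D.hi j := st_2 D μ j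

lemma st_3 (D : Md) (μ : ℕ → ℤ) (j : ℕ) : st D μ (3 * j + 2 + 1) = D.lo (j + 1) :=
  st_0 D μ (j + 1)

lemma par (i : ℕ) : ∃ j, i = 3 * j ∨ i = 3 * j + 1 ∨ i = 3 * j + 2 := ⟨i / 3, by omega⟩

/-- the middle stations lie in the gaps -/
def Mid (D : Md) (μ : ℕ → ℤ) : Prop := ∀ j ≤ D.M, D.lo j ≤ μ j ∧ μ j ≤ D.hi j

lemma tz_re (D : Md) (p : ℂ × ℂ) : (D.tz p).re = p.1.re - D.m₁ * p.2.im := by
  simp [Md.tz, sub_eq_add_neg]

lemma tz_im (D : Md) (p : ℂ × ℂ) : (D.tz p).im = p.1.im + (D.m₀ + D.m₁ * p.2.re) := by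
  simp [Md.tz]

lemma tz_an (D : Md) (p : ℂ × ℂ) : AnalyticAt ℂ D.tz p :=
  analyticAt_fst.add (analyticAt_const.mul (analyticAt_const.add (analyticAt_const.mul analyticAt_snd)))

/-- the box -/
def BB (y : ℝ) (D : Md) (p : ℂ × ℂ) : Prop :=
  |p.1.re| ≤ D.H / 2 + 2 ∧ |p.1.im| ≤ D.H + 2 ∧ ‖p.2‖ ≤ 3 * y ^ 210

/-- the machine with its sizes -/
structure Cx (K ς ε c y : ℝ) (D : Md) : Prop where
  ma : Mach K ς ε D
  sz : Sz K c y D.H
  hy : ς * y = 1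

namespace Cx

variable {K ς ε c y : ℝ} {D : Md} (X : Cx K ς ε c y D)
include X

lemma inv : ς = y⁻¹ := eq_inv_of_mul_eq_one_left X.hy

lemma e210 : ς ^ 10 / ε = y ^ 210 := by
  have := X.sz.y0
  rw [X.ma.num.eq, X.inv]
  field_simp

lemma e201 : ς ^ 19 / ε = y ^ 201 := by
  have := X.sz.y0
  rw [X.ma.num.eq, X.inv]
  field_simp

lemma e660 : 1 / ε ^ 3 = y ^ 660 := by
  have := X.sz.y0
  rw [X.ma.num.eq, X.inv]
  field_simp

lemma e220 : K / ε = K * y ^ 220 := by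
  have := X.sz.y0
  rw [X.ma.num.eq, X.inv]
  field_simp

lemma ε0 : 0 < ε := X.ma.num.eq ▸ pow_pos X.ma.num.ς0 _

lemma zle {t k : ℝ} : ε * t ≤ k * ς ^ 10 ↔ t ≤ k * y ^ 210 := by
  rw [← X.e210, ← mul_div_assoc, le_div_iff₀' X.ε0]

lemma st_le {μ : ℕ → ℤ} (hμ : Mid D μ) {i j : ℕ} (h : i ≤ j) (hj : j ≤ 3 * D.M + 2) :
    st D μ i ≤ st D μ j := by
  induction j, h using Nat.le_induction with
  | base => exact le_rfl
  | succ j _ ih =>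
    refine (ih (by omega)).trans ?_
    obtain ⟨l, rfl | rfl | rfl⟩ := par j
    · rw [st_0, st_1]
      exact (hμ l (by omega)).1
    · rw [st_1, st_2']
      exact (hμ l (by omega)).2
    · rw [st_2, st_3]
      exact (X.ma.num.hl l (by omega)).le

lemma st_gap {μ : ℕ → ℤ} (hμ : Mid D μ) {i : ℕ} (h : i ≤ 3 * D.M + 2) : D.Gap (st D μ i) := by
  obtain ⟨j, rfl | rfl | rfl⟩ := par i
  · rw [st_0]
    exact ⟨j, by omega, le_rfl, X.ma.num.lh j (by omega)⟩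
  · rw [st_1]
    exact ⟨j, by omega, hμ j (by omega)⟩
  · rw [st_2]
    exact ⟨j, by omega, X.ma.num.lh j (by omega), le_rfl⟩

lemma gap_st {i : ℤ} (h : D.Gap i) : ∃ μ, Mid D μ ∧ ∃ k ≤ 3 * D.M + 2, st D μ k = i := by
  obtain ⟨j, hj, h⟩ := h
  refine ⟨fun l => if l = j then i else D.lo l, fun l hl => ?_, 3 * j + 1, by omega, by simp [st_1]⟩
  by_cases e : l = j
  · simpa [e] using h
  · simpa [e] using X.ma.num.lh l hl

lemma rng {i : ℤ} (h : D.Gap i) : D.lo 0 ≤ i ∧ i ≤ D.hi D.M := by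
  obtain ⟨μ, hμ, k, hk, rfl⟩ := X.gap_st h
  have a := X.st_le hμ (i := 3 * 0) (j := k) (by omega) hk
  have b := X.st_le hμ hk le_rfl
  rw [st_0] at a
  rw [st_2] at b
  exact ⟨a, b⟩

lemma G0 : 1 / K ≤ D.G ∧ 0 < D.G :=
  have h := (div_le_iff₀' X.sz.K0).2 X.ma.num.G1
  ⟨h, (one_div_pos.2 X.sz.K0).trans_le h⟩

omit X in
lemma hor {i : ℤ} (h : D.lo 0 ≤ i ∧ i ≤ D.hi D.M) {t : ℂ} (ht : |t.re| ≤ 9 * D.n) :
    D.Hor (i + t) := by
  have a : (D.lo 0 : ℝ) ≤ i := by exact_mod_cast h.1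
  have b : (i : ℝ) ≤ D.hi D.M := by exact_mod_cast h.2
  have := abs_le.1 ht
  constructor <;> simp only [add_re, intCast_re] <;> linarith

lemma om {i : ℤ} (h : D.lo 0 ≤ i ∧ i ≤ D.hi D.M) : |D.ω * i| ≤ K ^ 2 := by
  have a : (D.lo 0 : ℝ) ≤ i := by exact_mod_cast h.1
  have b : (i : ℝ) ≤ D.hi D.M := by exact_mod_cast h.2
  obtain ⟨ω0, ω1, -⟩ := X.ma.num.ω0
  have e : ε * |(i : ℝ)| ≤ K := by
    rcases le_total 0 (i : ℝ) with k | k
    · refine le_trans (mul_le_mul_of_nonneg_left ?_ X.ε0.le) X.ma.num.len.2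
      rw [abs_of_nonneg k]
      exact b.trans (le_abs_self _)
    · refine le_trans (mul_le_mul_of_nonneg_left ?_ X.ε0.le) X.ma.num.len.1
      rw [abs_of_nonpos k]
      exact (neg_le_neg a).trans (neg_le_abs _)
  rw [abs_mul, abs_of_pos ω0]
  calc D.ω * |(i : ℝ)| ≤ K * ε * |(i : ℝ)| := by gcongr
    _ = K * (ε * |(i : ℝ)|) := by ring
    _ ≤ K * K := mul_le_mul_of_nonneg_left e X.sz.K0.le
    _ = K ^ 2 := by ring

lemma W1 : 1000 ≤ y ^ 210 ∧ 1000 * y ^ 210 ≤ y ^ 211 ∧ 1000 * y ^ 211 ≤ D.H ∧ 4 * D.H ≤ D.n ∧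
    40 * (D.n : ℝ) ≤ D.m :=
  ⟨by linarith [X.sz.py (k := 210) (by norm_num), X.sz.y3], X.sz.pw (by norm_num), X.sz.HW,
    X.ma.num.HR.trans X.ma.num.Rn, by exact_mod_cast X.ma.num.nm⟩

variable {p : ℂ × ℂ}

lemma m1 (hp : BB y D p) : |D.m₁ * p.2.re| ≤ 3 * y ^ 211 ∧ |D.m₁ * p.2.im| ≤ 3 * y ^ 211 := by
  have := X.sz.Kr
  have := X.sz.K0
  constructor <;> rw [abs_mul]
  · linarith [mul_le_mul X.ma.num.m1 ((abs_re_le_norm _).trans hp.2.2) (abs_nonneg _) this.le]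
  · linarith [mul_le_mul X.ma.num.m1 ((abs_im_le_norm _).trans hp.2.2) (abs_nonneg _) this.le]

lemma tz (hp : BB y D p) : |(D.tz p).re| ≤ D.n / 2 ∧ 0 ≤ (D.tz p).im ∧ ‖D.tz p‖ ≤ D.m / 2 := by
  obtain ⟨a1, a2, a3, a4, a5⟩ := X.W1
  obtain ⟨b1, b2⟩ := X.m1 hp
  obtain ⟨c1, c2⟩ := X.ma.num.m0
  have d1 := abs_le.1 hp.1
  have d2 := abs_le.1 hp.2.1
  rw [abs_le] at b1 b2
  have e1 : |(D.tz p).re| ≤ D.n / 2 := by
    rw [tz_re, abs_le]
    constructor <;> linarith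
  have e2 : |(D.tz p).im| ≤ 11 * D.n := by
    rw [tz_im, abs_le]
    constructor <;> linarith
  exact ⟨e1, by rw [tz_im]; linarith, by linarith [norm_le_abs_re_add_abs_im (D.tz p)]⟩

lemma zR (hp : BB y D p) : ‖p.2‖ < D.R := by
  obtain ⟨a1, a2, a3, a4, a5⟩ := X.W1
  linarith [hp.2.2, X.ma.num.HR]

lemma pH (hp : BB y D p) : ‖p‖ ≤ 2 * D.H := by
  obtain ⟨a1, a2, a3, a4, a5⟩ := X.W1
  rw [Prod.norm_def]
  exact max_le (by linarith [norm_le_abs_re_add_abs_im p.1, hp.1, hp.2.1]) (by linarith [hp.2.2])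

lemma chart {i : ℤ} (hi : D.Gap i) (hp : BB y D p) :
    AnalyticAt ℂ (D.C i) p ∧ ‖D.C i p‖ ≤ K + 1 := by
  have N := (X.ma.gap i hi p.2 (X.zR hp)).1
  have r0 : 0 < D.r := (mul_pos_iff_of_pos_left X.sz.K0).1 (one_pos.trans_le X.ma.num.r0)
  have hz : D.Z (i, p.2) ∈ ball (D.Z (i, p.2)) (D.r / 2) := mem_ball_self (by positivity)
  have dp := X.ma.deep i p.2 (by simpa using hor (X.rng hi) (t := 0) (by simp))
    (.inl ⟨X.zR hp, by simp⟩)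
  have an := (N.an_Ch X.ma.num.am (q := (D.tz p, D.Z (i, p.2))) hz).comp₂ (f := D.tz)
    (g := fun p : ℂ × ℂ => D.Z (i, p.2)) (tz_an D p)
    (dp.1.comp₂ (f := fun _ => (i : ℂ)) analyticAt_const analyticAt_snd)
  refine ⟨an, ?_⟩
  have := N.bd_Ch X.ma.num.am hz (t := D.tz p) ((X.tz hp).2.2.trans (by
    linarith [(Nat.cast_nonneg D.m : (0 : ℝ) ≤ D.m)]))
  have e := norm_le_norm_add_norm_sub' (D.C i p) (D.Z (i, p.2))
  have e' : ‖D.C i p - D.Z (i, p.2)‖ ≤ 54 * D.a * D.m := this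
  linarith [X.ma.num.am, X.ma.num.r1, dp.2.1]

lemma cone {i : ℤ} (hi : D.Gap i) (hp : BB y D p)
    (h : p.1.im ≤ -(D.ω * (i + (D.tz p).re) * p.2.im) - D.C₁ * |p.2.im| - y ^ 201) :
    AnalyticAt ℂ (D.Zi i) p ∧ ‖D.Zi i p - D.C i p‖ ≤ 2 * y ^ 660 := by
  obtain ⟨t1, t2, -⟩ := X.tz hp
  have n0 : (0 : ℝ) ≤ D.n := Nat.cast_nonneg _
  have := X.ma.cone (i + D.tz p) p.2 (hor (X.rng hi) (by linarith)) (X.zle.2 hp.2.2)
    (by simp only [add_im, intCast_im]; linarith) (by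
      simp only [X.e201, Md.top, add_im, intCast_im, add_re, intCast_re, tz_im]
      linarith)
  refine ⟨this.1.comp₂ (f := fun p => (i : ℂ) + D.tz p) (analyticAt_const.add (tz_an D p))
    analyticAt_snd, (norm_sub_le _ _).trans ?_⟩
  have e : ‖D.Zi i p‖ ≤ y ^ 660 := X.e660 ▸ this.2
  linarith [(X.chart hi hp).2, X.sz.py (k := 660) (by norm_num), X.sz.Ky, X.sz.K1]

/-- the slope of the cone at the point -/
lemma oms {i : ℤ} (hp : BB y D p) : |D.ω * (i + (D.tz p).re) - D.ω * i| ≤ D.ω * D.n := by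
  have ω0 := X.ma.num.ω0.1
  rw [mul_add, add_sub_cancel_left, abs_mul, abs_of_pos ω0]
  exact mul_le_mul_of_nonneg_left
    (by linarith [(X.tz hp).1, (Nat.cast_nonneg D.n : (0 : ℝ) ≤ D.n)]) ω0.le

/-- near the real leaves -/
lemma cone' {i : ℤ} (hi : D.Gap i) (hp : BB y D p) {f : ℝ} (hf : |f| ≤ K ^ 2) (h0 : |p.2.im| ≤ 40)
    (h : p.1.im ≤ f * p.2.im - 2 * y ^ 201) :
    AnalyticAt ℂ (D.Zi i) p ∧ ‖D.Zi i p - D.C i p‖ ≤ 2 * y ^ 660 := by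
  refine X.cone hi hp (h.trans ?_)
  have a := abs_le.1 ((X.oms (i := i) hp).trans X.ma.num.ω0.2.2)
  have b := abs_le.1 (X.om (X.rng hi))
  have e1 : |D.ω * (i + (D.tz p).re)| ≤ K ^ 2 + 1 := abs_le.2 ⟨by linarith, by linarith⟩
  have e2 := (le_abs_self _).trans ((abs_mul _ _).trans_le
    (mul_le_mul e1 h0 (abs_nonneg _) (by positivity)))
  have e3 := (le_abs_self _).trans ((abs_mul _ _).trans_le
    (mul_le_mul hf h0 (abs_nonneg _) (by positivity)))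
  have e4 := mul_le_mul X.ma.num.C1.2 h0 (abs_nonneg _) X.sz.K0.le
  linarith [X.sz.py (k := 201) (by norm_num), X.sz.yK, X.sz.K1, X.sz.K2, X.sz.K3]

lemma FLR : D.FL ≤ K ^ 2 ∧ -K ^ 2 ≤ D.FR := by
  have l := X.ma.num.lh
  have a := abs_le.1 (X.om (X.rng ⟨0, Nat.zero_le _, le_rfl, l 0 (Nat.zero_le _)⟩))
  have b := abs_le.1 (X.om (X.rng ⟨D.M, le_rfl, l _ le_rfl, le_rfl⟩))
  constructor <;> linarith [X.ma.num.FL.2, X.ma.num.FR.2, X.ma.num.C1.1,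
    mul_nonneg X.ma.num.ω0.1.le (Nat.cast_nonneg D.n)]

end Cx

end Vale.Agent.P097F.N.Nq
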