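import Vale.Agent.P097F.N.Defs

/-!
# P097F/N: the constants of the separation lemma for the machine
-/

set_option linter.all false

noncomputable section

namespace Vale.Agent.P097F.N

open Filter Topology Set Real

/-- the constants of the separation lemma -/
def par (c₀ K ς ε : ℝ) (D : Md) : P097Q.Par where
  σ := 2 * (16 * K ^ 2 + 1) * (ς ^ 10 / ε)
  ρ := ς ^ 10 / ε
  v := ς ^ 10 / ε / 2
  a := (1 / ς ^ 100 - 1) / (8 * (16 * K ^ 2 + 1) * (c₀ / 100 * (1 / K) * (ς ^ 10 / ε) / 16))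
  l₀ := 10 * (ς ^ 19 / ε)
  lam := 1 / ς ^ 100
  h := D.H - (16 * K ^ 2 + 1) * (ς ^ 10 / ε / 2 + 1)
  B := K / ε
  c := c₀ / 100
  d := 1 / K
  F := 16 * K ^ 2 + 1
  G := D.G
  Λ := c₀ / 100 * (1 / K) * (ς ^ 10 / ε) / 16
  n := 3 * D.M + 5

/-- the constants of the box -/
def mac (c₀ K ς ε : ℝ) (D : Md) : P097Q.Mac where
  w := D.H / 2
  H := D.H
  δ := 1 / K
  K := K / ε
  B₀ := 2 / ε ^ 3
  ls := 8 * (ς ^ 19 / ε)
  e := 4 * K / ς * exp (-(c₀ * D.H / 2))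
  FL := D.FL
  FR := D.FR

theorem ev_exp (A b : ℝ) (hb : 0 < b) (N : ℕ) :
    ∀ᶠ u in atTop, A * u ^ N * exp (-(b * u)) ≤ 1 := by
  have h1 : Tendsto (fun u : ℝ => b * u) atTop atTop := tendsto_id.const_mul_atTop hb
  have h2 := (tendsto_pow_mul_exp_neg_atTop_nhds_zero N).comp h1
  have h3 := h2.const_mul (A / b ^ N)
  rw [mul_zero] at h3
  filter_upwards [h3.eventually (ge_mem_nhds (zero_lt_one' ℝ))] with u hu
  have : A / b ^ N * ((b * u) ^ N * exp (-(b * u))) = A * u ^ N * exp (-(b * u)) := by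
    rw [mul_pow]; field_simp
  simpa [Function.comp, this] using hu

/-- from `u → ∞` to `ς < ς₀` -/
theorem ev_sm {p : ℝ → Prop} (h : ∀ᶠ u in atTop, p u) :
    ∃ ς₀ > 0, ∀ ς : ℝ, 0 < ς → ς < ς₀ → p (1 / ς) := by
  obtain ⟨a, ha⟩ := eventually_atTop.1 h
  refine ⟨1 / (|a| + 1), by positivity, fun ς h0 h1 => ha _ ?_⟩
  have : |a| + 1 < 1 / ς := by
    rw [lt_div_iff₀ h0]
    rw [lt_div_iff₀ (by positivity)] at h1
    linarith
  linarith [le_abs_self a]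

/-- the scales in terms of `u = 1 / ς` -/
theorem Num.sc {K ς ε : ℝ} {D : Md} (h : Num K ς ε D) :
    ς ^ 10 / ε = (1 / ς) ^ 210 ∧ ς ^ 19 / ε = (1 / ς) ^ 201 ∧ 1 / ε = (1 / ς) ^ 220 ∧
      1 / ς ^ 100 = (1 / ς) ^ 100 ∧ (1 / ς) ^ 220 ≤ K * D.H := by
  have h0 := h.ς0
  have h1 := h.H0
  rw [h.eq] at h1 ⊢
  refine ⟨by field_simp, by field_simp, by field_simp, by field_simp, ?_⟩
  rw [div_pow, one_pow, div_le_iff₀ (by positivity)]
  nlinarith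

/-- the hierarchy of the scales: `A ≤ 1 / ς`, `A lam ≤ l₁`, `A l₁ ≤ r₁`, `A r₁ ≤ H` -/
theorem scales (K A : ℝ) : ∃ ς₀ > 0, ∀ ς ε D, ς < ς₀ → Num K ς ε D →
    1 ≤ 1 / ς ∧ A ≤ 1 / ς ∧ A * (1 / ς) ≤ 1 / ς ^ 100 ∧ A * (1 / ς ^ 100) ≤ ς ^ 19 / ε ∧
      A * (ς ^ 19 / ε) ≤ ς ^ 10 / ε ∧ A * (ς ^ 10 / ε) ≤ D.H ∧ A * (ς ^ 10 / ε) ≤ 1 / ε := by
  obtain ⟨ς₀, h0, h⟩ := ev_sm (p := fun u => 1 ≤ u ∧ A ≤ u ∧ K ≤ u)
    ((eventually_ge_atTop 1).and ((eventually_ge_atTop A).and (eventually_ge_atTop K)))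
  refine ⟨ς₀, h0, fun ς ε D hς hN => ?_⟩
  obtain ⟨h1, hA, hK⟩ := h ς hN.ς0 hς
  obtain ⟨e1, e2, e3, e4, e5⟩ := hN.sc
  have K1 := hN.K1
  rw [e1, e2, e3, e4]
  generalize 1 / ς = u at *
  have key : ∀ i j : ℕ, i + 1 ≤ j → A * u ^ i ≤ u ^ j := fun i j hij =>
    calc A * u ^ i ≤ u * u ^ i := by gcongr
      _ = u ^ (i + 1) := by ring
      _ ≤ u ^ j := pow_le_pow_right₀ h1 hij
  refine ⟨h1, hA, by simpa using key 1 100 (by norm_num), key _ _ (by norm_num),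
    key _ _ (by norm_num), ?_, key _ _ (by norm_num)⟩
  have h2 : K * (A * u ^ 210) ≤ K * D.H :=
    calc K * (A * u ^ 210) ≤ K * u ^ 211 := by gcongr; exact key _ _ le_rfl
      _ ≤ u * u ^ 211 := by gcongr
      _ = u ^ 212 := by ring
      _ ≤ u ^ 220 := pow_le_pow_right₀ h1 (by norm_num)
      _ ≤ _ := e5
  exact le_of_mul_le_mul_left h2 (by linarith)

/-- exponentially small quantities: `A exp (-b / ς) ≤ ς ^ N` -/
theorem tiny (A b : ℝ) (hb : 0 < b) (N : ℕ) : ∃ ς₀ > 0, ∀ ς : ℝ, 0 < ς → ς < ς₀ →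
    ∀ x : ℝ, b * (1 / ς) ≤ x → A * (1 / ς) ^ N * exp (-x) ≤ 1 := by
  obtain ⟨ς₀, h0, h⟩ := ev_sm (ev_exp |A| b hb N)
  refine ⟨ς₀, h0, fun ς h1 h2 x hx => le_trans ?_ (h ς h1 h2)⟩
  have := le_abs_self A
  gcongr

theorem sinh_le {x : ℝ} (hx : x ≤ 4) : sinh x ≤ 41 := by
  have h1 : exp x ≤ exp 4 := exp_le_exp.2 hx
  have h2 : exp 4 = exp 1 ^ 4 := by rw [← exp_nat_mul]; norm_num
  have h3 : exp 1 ^ 4 ≤ 3 ^ 4 := by
    have := exp_one_lt_d9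
    have := exp_pos 1
    gcongr; linarith
  rw [sinh_eq]
  have := exp_pos (-x)
  linarith

/-- the hierarchy with the factor `F` -/
theorem hier {A K F u lam l r H : ℝ} (K1 : 1 ≤ K) (F1 : 1 ≤ F) (hA : 10 ^ 4 * (K * F) ≤ A)
    (u1 : 1 ≤ u) (a2 : A * u ≤ lam) (a3 : A * lam ≤ l) (a4 : A * l ≤ r) (a5 : A * r ≤ H) :
    10 ^ 4 * u ≤ lam ∧ 10 ^ 4 * lam ≤ l ∧ 10 ^ 4 * l ≤ r ∧ 10 ^ 4 * (F * r) ≤ H ∧ r ≤ F * r ∧
      F ≤ F * r := by
  have KF : F ≤ K * F := le_mul_of_one_le_left (by linarith) K1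
  have A1 : 10 ^ 4 ≤ A := by linarith
  have b2 : 10 ^ 4 * u ≤ lam := le_trans (by gcongr) a2
  have b3 : 10 ^ 4 * lam ≤ l := le_trans (by gcongr; linarith) a3
  have b4 : 10 ^ 4 * l ≤ r := le_trans (by gcongr; linarith) a4
  refine ⟨b2, b3, b4, le_trans ?_ a5, le_mul_of_one_le_left (by linarith) F1,
    le_mul_of_one_le_right (by linarith) (by linarith)⟩
  rw [← mul_assoc]
  gcongr <;> linarith

theorem par_aux {c₀ K F u lam l r H G A : ℝ} {M : ℕ} (hc : 0 < c₀) (hc1 : c₀ ≤ 1) (K1 : 1 ≤ K)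
    (F1 : 1 ≤ F) (MK : (M : ℝ) ≤ K) (hA : A * c₀ = 10 ^ 4 * K * F) (u1 : 1 ≤ u)
    (a2 : A * u ≤ lam) (a3 : A * lam ≤ l) (a4 : A * l ≤ r) (a5 : A * r ≤ H) (e1 : r = u ^ 210)
    (e2 : lam ^ 2 ≤ l) (t : ∀ x : ℝ, c₀ / 100 * u ≤ x →
      10 ^ 9 * K ^ 4 * F ^ 2 / c₀ * u ^ 640 * exp (-x) ≤ 1) :
    P097Q.Par.OK ⟨2 * F * r, r, r / 2, (lam - 1) / (8 * F * (c₀ / 100 * (1 / K) * r / 16)), 10 * l,
      lam, H - F * (r / 2 + 1), K * u ^ 220, c₀ / 100, 1 / K, F, G, c₀ / 100 * (1 / K) * r / 16,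
      3 * M + 5⟩ := by
  have hM : (0 : ℝ) ≤ M := Nat.cast_nonneg _
  have K0 : 0 < K := by linarith
  have F0 : 0 < F := by linarith
  have A0 : 0 < A := (mul_pos_iff_of_pos_right hc).1 (by rw [hA]; positivity)
  have AF : 10 ^ 4 * (K * F) ≤ A := by
    have := mul_le_of_le_one_right A0.le hc1
    linarith
  obtain ⟨b2, b3, b4, b5, Fr, Fr'⟩ := hier K1 F1 AF u1 a2 a3 a4 a5
  have d0 : 0 < 1 / K := by positivity
  have d1 : 1 / K ≤ 1 := by rw [div_le_one K0]; exact K1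
  have h3 : A * (c₀ * (1 / K)) = 10 ^ 4 * F := by rw [← mul_assoc, hA]; field_simp
  have n8 : ((3 * M + 5 : ℕ) : ℝ) ≤ 8 * K := by push_cast; linarith
  have n1 : (1 : ℝ) ≤ ((3 * M + 5 : ℕ) : ℝ) := by push_cast; linarith
  have dK : 1 / K * K = 1 := by field_simp
  generalize 1 / K = d at *
  have cd1 : c₀ * d ≤ 1 := mul_le_one₀ hc1 d0.le d1
  have cd0 : 0 < c₀ * d := by positivity
  have r0 : 0 < r := by linarith
  obtain ⟨Λ, hΛ⟩ : ∃ Λ, Λ = c₀ / 100 * d * r / 16 := ⟨_, rfl⟩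
  rw [← hΛ]
  have Λ0 : 0 < Λ := by rw [hΛ]; positivity
  have Λe : Λ = r * (c₀ * d) / 1600 := by rw [hΛ]; ring
  have Λr : 1600 * Λ ≤ r := by have := mul_le_of_le_one_right r0.le cd1; linarith
  have lΛ : lam ≤ Λ := by
    have h4 : A * l * (c₀ * d) ≤ r * (c₀ * d) := by gcongr
    have h5 : A * l * (c₀ * d) = 10 ^ 4 * (F * l) := by linear_combination l * h3
    have h6 : l ≤ F * l := le_mul_of_one_le_left (by linarith) F1
    linarith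
  obtain ⟨a, ha⟩ : ∃ a, a = (lam - 1) / (8 * F * Λ) := ⟨_, rfl⟩
  rw [← ha]
  have ea : 8 * F * a * Λ = lam - 1 := by rw [ha]; field_simp
  have a0 : 0 < a := by rw [ha]; exact div_pos (by linarith) (by positivity)
  have aF : 8 * F * a ≤ 1 := le_of_mul_le_mul_right (by linarith) Λ0
  have a1' : a ≤ 1 := by have := le_mul_of_one_le_left a0.le F1; linarith
  have alo : 1 ≤ F * r * a := by
    have h3 : F * a * (1600 * Λ) ≤ F * a * r := by gcongr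
    linarith
  have u0 : 0 < u := by linarith
  have E0 := exp_pos (-(c₀ / 100 * (lam - 1)))
  have t1 := t (c₀ / 100 * (lam - 1)) (by gcongr; linarith)
  clear t
  have sm2 : 10 ^ 5 * ((3 * M + 5 : ℕ) : ℝ) ^ 2 * (K * u ^ 220 * exp (-(c₀ / 100 * (lam - 1)))) ≤
      c₀ / 100 * d * a ^ 2 := by
    generalize exp (-(c₀ / 100 * (lam - 1))) = E at *
    have h3 : 1 ≤ (F * u ^ 210 * a) ^ 2 := by rw [← e1]; exact one_le_pow₀ alo
    calc 10 ^ 5 * ((3 * M + 5 : ℕ) : ℝ) ^ 2 * (K * u ^ 220 * E)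
        ≤ 10 ^ 5 * (8 * K) ^ 2 * (K * u ^ 220 * E) * (F * u ^ 210 * a) ^ 2 := by
          refine le_trans ?_ (le_mul_of_one_le_right (by positivity) h3)
          gcongr
      _ = (10 ^ 9 * K ^ 4 * F ^ 2 / c₀ * u ^ 640 * E) * (64 / 100 * (c₀ / 100 * d * a ^ 2)) := by
          have : d = 1 / K := by field_simp; exact dK
          rw [this]; field_simp; ring
      _ ≤ 1 * (1 * (c₀ / 100 * d * a ^ 2)) := by gcongr; norm_num
      _ = _ := by ring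
  have cda : c₀ * d * a ≤ 1 := mul_le_one₀ cd1 a0.le a1'
  refine ⟨a0, F1, aF, ?_, by positivity, d0, ?_, ?_, Λ0.le, ?_, ?_, le_rfl, ?_, ?_, ?_, ea.le, ?_,
    ?_, ?_, ?_, ?_, sm2⟩ <;> dsimp only
  · exact one_le_mul_of_one_le_of_one_le K1 (one_le_pow₀ u1)
  · linarith
  · linarith
  · linarith
  · linarith
  · rw [hΛ]; exact le_of_eq (by ring)
  · have h1 : 10 * Λ * (r / 2) = 10 / 32 * (c₀ / 100 * d * r ^ 2) := by rw [hΛ]; ring
    have h2 : 0 < c₀ / 100 * d * r ^ 2 := by positivity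
    linarith
  · linarith
  · have h3 : (lam + 1) ^ 2 ≤ r := by linarith [add_sq lam 1]
    calc Λ * (lam + 1) ^ 2 ≤ r * r := by gcongr; linarith
      _ = r ^ 2 := by ring
      _ ≤ (2 * F * r) ^ 2 := by gcongr; linarith
  · have h1 : Λ ≤ c₀ / 100 * r := by
      have := mul_le_of_le_one_right (mul_pos hc r0).le d1
      have : 0 < c₀ * r := by positivity
      rw [hΛ]; linarith
    have h2 : c₀ / 100 * (r + (2 * F * (r / 2) + 3)) ≤ c₀ / 100 * (H - F * (r / 2 + 1) - 10 * l) := by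
      gcongr; linarith
    linarith
  · linarith
  · omega
  · refine le_trans ?_ (sm2.trans ?_)
    · gcongr ?_ * _
      nlinarith only [n1]
    · have := mul_le_mul_of_nonneg_right cda a0.le
      linarith

theorem par_ok (c₀ K : ℝ) (hc : 0 < c₀) (hc1 : c₀ ≤ 1) : ∃ ς₀ > 0, ∀ ς ε D, ς < ς₀ →
    Num K ς ε D → (par c₀ K ς ε D).OK := by
  obtain ⟨s1, p1, h1⟩ := scales K (10 ^ 4 * K * (16 * K ^ 2 + 1) / c₀)
  obtain ⟨s2, p2, h2⟩ := tiny (10 ^ 9 * K ^ 4 * (16 * K ^ 2 + 1) ^ 2 / c₀) (c₀ / 100)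
    (by positivity) 640
  refine ⟨min s1 s2, lt_min p1 p2, fun ς ε D hς hN => ?_⟩
  obtain ⟨u1, a1, a2, a3, a4, a5, a6⟩ := h1 ς ε D (hς.trans_le (min_le_left _ _)) hN
  have t := h2 ς hN.ς0 (hς.trans_le (min_le_right _ _))
  obtain ⟨e1, e2, e3, e4, e5⟩ := hN.sc
  have eB : K / ε = K * (1 / ς) ^ 220 := by rw [← e3]; ring
  unfold par
  rw [eB]
  refine par_aux hc hc1 hN.K1 (by linarith [sq_nonneg K]) hN.MK (by field_simp) u1 a2 a3 a4 a5 e1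
    ?_ t
  rw [e4, e2, ← pow_mul]; exact pow_le_pow_right₀ u1 (by norm_num)

theorem Num.om {K ς ε : ℝ} {D : Md} (hN : Num K ς ε D) :
    |D.ω * D.lo 0| ≤ K ^ 2 ∧ |D.ω * D.hi D.M| ≤ K ^ 2 := by
  have K1 := hN.K1
  have key : ∀ x : ℝ, ε * |x| ≤ K → |D.ω * x| ≤ K ^ 2 := fun x hx => by
    rw [abs_mul, abs_of_pos hN.ω0.1]
    calc D.ω * |x| ≤ K * ε * |x| := by gcongr; exact hN.ω0.2.1
      _ = K * (ε * |x|) := by ring
      _ ≤ K * K := by gcongr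
      _ = K ^ 2 := by ring
  exact ⟨key _ hN.len.1, key _ hN.len.2⟩

theorem mac_ok (c₀ K : ℝ) (hc : 0 < c₀) (hc1 : c₀ ≤ 1) : ∃ ς₀ > 0, ∀ ς ε D, ς < ς₀ →
    Num K ς ε D → (mac c₀ K ς ε D).OK (par c₀ K ς ε D) := by
  obtain ⟨s1, p1, h1⟩ := scales K (10 ^ 4 * (K * (16 * K ^ 2 + 1)))
  obtain ⟨s2, p2, h2⟩ := tiny (24 * K ^ 2) (c₀ / 100) (by positivity) 660
  refine ⟨min s1 s2, lt_min p1 p2, fun ς ε D hς hN => ?_⟩
  obtain ⟨u1, a1, a2, a3, a4, a5, a6⟩ := h1 ς ε D (hς.trans_le (min_le_left _ _)) hN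
  have t := h2 ς hN.ς0 (hς.trans_le (min_le_right _ _))
  obtain ⟨e1, e2, e3, e4, e5⟩ := hN.sc
  have K1 := hN.K1
  have eB : K / ε = K * (1 / ς) ^ 220 := by rw [← e3]; ring
  have eB0 : 2 / ε ^ 3 = 2 * (1 / ς) ^ 660 := by
    rw [show 660 = 220 * 3 by rfl, pow_mul, ← e3]; ring
  have ee : 4 * K / ς = 4 * K * (1 / ς) := by ring
  have w1 := hN.om
  have F1 : 1 ≤ 16 * K ^ 2 + 1 := by linarith [sq_nonneg K]
  obtain ⟨b2, b3, b4, b5, Fr, Fr'⟩ := hier K1 F1 le_rfl u1 a2 a3 a4 a5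
  have wn : 0 ≤ D.ω * D.n := mul_nonneg hN.ω0.1.le (Nat.cast_nonneg _)
  have f1 : D.FL + 1 ≤ 16 * K ^ 2 + 1 := by
    linarith [hN.FL.2, hN.C1.1, (abs_le.1 w1.1).1, sq_nonneg K]
  have f2 : -(16 * K ^ 2 + 1) ≤ D.FR - 1 := by
    linarith [hN.FR.2, hN.C1.1, (abs_le.1 w1.2).2, sq_nonneg K]
  have g1 : 1 / K ≤ D.G := by rw [div_le_iff₀ (by linarith)]; linarith [hN.G1]
  have g2 := hN.FL.1
  have g3 := hN.FR.1
  unfold par mac
  rw [eB, eB0, ee]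
  clear a1 a2 a3 a4 a5 a6 e1 e2 e3 e4 e5 eB eB0 ee w1 h1 h2 hN hς p1 p2
  generalize 16 * K ^ 2 + 1 = F at *
  generalize ς ^ 10 / ε = r at *
  generalize ς ^ 19 / ε = l at *
  generalize 1 / ς ^ 100 = lam at *
  generalize 1 / ς = u at *
  have K0 : 0 < K := by linarith
  have u0 : 0 < u := by linarith
  have d1 : 1 / K ≤ 1 := by rw [div_le_one K0]; exact K1
  have p1 : ∀ k, 1 ≤ u ^ k := fun k => one_le_pow₀ u1
  have H0 : 0 < D.H := by linarith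
  have cH : c₀ / 100 * u ≤ c₀ * D.H / 4 := by
    have : c₀ * u ≤ c₀ * D.H := by gcongr; linarith
    linarith [mul_pos hc u0]
  have KK : K ≤ K ^ 2 := by nlinarith only [K1]
  refine ⟨?_, le_of_eq ?_, ?_, ?_, ?_, ?_, ?_, ?_, ?_, ?_, ?_, ⟨g2, ?_⟩, g3, ?_⟩ <;>
    dsimp only
  · linarith
  · ring
  · linarith
  · linarith
  · exact one_le_mul_of_one_le_of_one_le K1 (p1 _)
  · linarith [p1 660]
  · have t1 := t (c₀ / 100 * (8 * l)) (by gcongr; linarith)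
    have h0 : 0 < u ^ 660 * exp (-(c₀ / 100 * (8 * l))) := by positivity
    have := mul_le_mul_of_nonneg_right KK h0.le
    have := mul_pos K0 h0
    rw [lt_div_iff₀ K0]
    linarith
  · exact mul_le_of_le_one_right (by positivity) d1
  · have t1 := t (c₀ * D.H / 2) (by linarith [mul_pos hc H0])
    have h3 : K ^ 2 * (u * exp (-(c₀ * D.H / 2))) ≤ K ^ 2 * (u ^ 660 * exp (-(c₀ * D.H / 2))) := by
      gcongr; exact le_self_pow₀ u1 (by norm_num)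
    have : 0 < K ^ 2 * (u * exp (-(c₀ * D.H / 2))) := by positivity
    rw [lt_div_iff₀ K0]
    linarith
  · have t1 := t (c₀ * D.H / 4) cH
    have h3 : sinh (π * (D.H + F * (r / 2 + 1)) / (2 * (D.H / 2))) ≤ 41 := by
      apply sinh_le
      rw [div_le_iff₀ (by linarith)]
      calc π * (D.H + F * (r / 2 + 1)) ≤ 3.15 * (D.H + D.H / 10) := by
            gcongr
            · linarith
            · exact pi_lt_d2.le
            · linarith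
        _ ≤ _ := by linarith
    calc 6 * (K * u ^ 220) * (4 * K * u * exp (-(c₀ * D.H / 2)))
        = (24 * K ^ 2 * u ^ 221 * exp (-(c₀ * D.H / 4))) * exp (-(c₀ * D.H / 4)) := by
          rw [show -(c₀ * D.H / 2) = -(c₀ * D.H / 4) + -(c₀ * D.H / 4) by ring, exp_add]; ring
      _ ≤ (24 * K ^ 2 * u ^ 660 * exp (-(c₀ * D.H / 4))) * exp (-(c₀ * D.H / 4)) := by
          gcongr; norm_num
      _ ≤ 1 * exp (-(c₀ * D.H / 4)) := by gcongr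
      _ ≤ _ := by
          rw [one_mul, exp_le_exp, neg_le_neg_iff]
          calc _ ≤ c₀ / 100 * (D.H / 2) * 41 := by gcongr
            _ ≤ _ := by linarith [mul_pos hc H0]
  · linarith
  · linarith
  · linarith

/-- the weight on the half window -/
theorem wt_ge {c₀ K ς ε : ℝ} {D : Md} (hP : (par c₀ K ς ε D).OK) (p : ℂ × ℂ)
    (h1 : |p.1.re| ≤ ς ^ 10 / ε) (h2 : |p.2.re| ≤ ς ^ 10 / ε / 2) :
    exp (c₀ / (3200 * K) * (ς ^ 10 / ε)) ≤ P097Q.wt (par c₀ K ς ε D) p := by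
  have r1 : 1 ≤ ς ^ 10 / ε := hP.ρ1
  have F1 : 1 ≤ 16 * K ^ 2 + 1 := hP.F1
  have Λ0 : 0 ≤ c₀ / 100 * (1 / K) * (ς ^ 10 / ε) / 16 := hP.Λ0
  unfold P097Q.wt par
  dsimp only
  set r := ς ^ 10 / ε
  set F := 16 * K ^ 2 + 1
  have h3 : p.2.re ^ 2 / r ^ 2 ≤ 1 / 4 := by
    rw [div_le_iff₀ (by positivity)]
    have := sq_abs p.2.re
    have := abs_nonneg p.2.re
    nlinarith
  have h4 : p.1.re ^ 2 / (2 * F * r) ^ 2 ≤ 1 / 4 := by
    rw [div_le_iff₀ (by positivity)]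
    have := sq_abs p.1.re
    have := abs_nonneg p.1.re
    have : r ≤ F * r := by nlinarith
    nlinarith
  rw [exp_le_exp]
  calc c₀ / (3200 * K) * r = c₀ / 100 * (1 / K) * r / 16 * (1 / 2) := by ring
    _ ≤ _ := by gcongr; linarith

/-- a polynomial factor against the window exponent -/
theorem fin_ok (A b : ℝ) (hb : 0 < b) (N : ℕ) (K : ℝ) : ∃ ς₀ > 0, ∀ ς ε D, ς < ς₀ →
    Num K ς ε D → ∀ x, b * (1 / ς) ≤ x → A / ε ^ N * exp (-x) ≤ 1 := by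
  obtain ⟨s2, p2, h2⟩ := tiny A b hb (220 * N)
  refine ⟨s2, p2, fun ς ε D hς hN x hx => ?_⟩
  have := h2 ς hN.ς0 hς x hx
  rwa [pow_mul, ← hN.sc.2.2.1, one_div, inv_pow, ← div_eq_mul_inv] at this

end Vale.Agent.P097F.N
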