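import Vale.Agent.P097F.N.NqBox

/-!
# P097F/N: the machine gives the seam of the separation lemma
-/

set_option linter.all false

noncomputable section

namespace Vale.Agent.P097F.N.Nq

open Filter Topology Set Metric Complex Vale.Agent.P097Q

/-- the slopes; `F` is used at the passages without obstacle -/
def fs (ε : ℝ) (D : Md) (F : ℝ) (c : ℕ) : ℝ := if c % 3 = 2 then D.sl ε (c / 3) else F

/-- the number of steps -/
def ns (D : Md) (μ : ℕ → ℤ) (c : ℕ) : ℕ := (st D μ (c + 1) - st D μ c).toNat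

lemma fs_0 (ε : ℝ) (D : Md) (F : ℝ) (j : ℕ) : fs ε D F (3 * j) = F := by
  rw [fs, if_neg (by omega)]

lemma fs_1 (ε : ℝ) (D : Md) (F : ℝ) (j : ℕ) : fs ε D F (3 * j + 1) = F := by
  rw [fs, if_neg (by omega)]

lemma fs_2 (ε : ℝ) (D : Md) (F : ℝ) (j : ℕ) : fs ε D F (3 * j + 2) = D.sl ε j := by
  rw [fs, if_pos (by omega), show (3 * j + 2) / 3 = j by omega]

/-- the obstacles are linear -/
def Lin (K ς ε : ℝ) (D : Md) : Prop := ∀ c < D.M,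
  |D.sl ε c| ≤ 16 * K ^ 2 ∧ ∀ ζ : ℂ, ε * ‖ζ‖ ≤ 3 * ς ^ 10 →
    |(D.ν ε c ζ).im - (D.ν ε c ζ.re).im - D.sl ε c * ζ.im| ≤ ς ^ 19 / ε

namespace Cx

variable {K ς ε c y c₀ K' : ℝ} {D : Md} (X : Cx K ς ε c y D) {p : ℂ × ℂ}
include X

lemma bb (h : p ∈ MB (MM K c₀ y D.H D.FL D.FR) (PP K c y D.H D.G D.M)) :
    BB y D p ∧ |p.2.re| ≤ 2 * y ^ 210 := by
  obtain ⟨a1, a2, a3, a4, a5⟩ := X.W1
  obtain ⟨b1, b2, b3, b4, b5⟩ := h
  simp only [MM, PP] at b1 b2 b3 b4 b5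
  refine ⟨⟨by linarith, abs_le.2 ⟨by linarith, ?_⟩, ?_⟩, by linarith⟩
  · linarith [X.sz.Fr, X.sz.Fy, X.sz.py (k := 211) (by norm_num)]
  · linarith [norm_le_abs_re_add_abs_im p.2]

lemma tru {i : ℤ} (hi : D.Gap i) {f lo hi' : ℝ} (hf : |f| ≤ K ^ 2)
    (h1 : -(y ^ 210 / 2 + 1) ≤ lo) (h2 : hi' ≤ y ^ 210 / 2 + 1)
    (h : ∀ s t : ℝ, |s - D.ω * i| ≤ D.ω * D.n → lo < t → t < hi' →
      |t| ≤ 40 ∨ f * t ≤ -(s * t) - D.C₁ * |t|) :
    Tru (MM K c₀ y D.H D.FL D.FR) (PP K c y D.H D.G D.M) f lo hi' (D.Zi i) (D.C i) := by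
  intro p b1 b2 b3 b4 b5 b6
  simp only [MM, PP, tt] at b1 b2 b5 b6 ⊢
  have l0 := pow_pos X.sz.y0 201
  have e1 : |p.2.im| ≤ y ^ 210 / 2 + 1 := abs_le.2 ⟨by linarith, by linarith⟩
  have e2 := (le_abs_self _).trans ((abs_mul _ _).trans_le
    (mul_le_mul hf e1 (abs_nonneg _) (by positivity)))
  have hp : BB y D p := (X.bb (c₀ := c₀) ⟨by simp only [MM]; linarith, by
    simp only [PP, FF]
    nlinarith [pow_pos X.sz.y0 210, sq_nonneg K], by simp only [MM]; linarith,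
    by simp only [PP]; linarith, by simp only [PP]; linarith⟩).1
  rcases h _ _ (X.oms (i := i) hp) b3 b4 with k | k
  · exact (X.cone' hi hp hf k (by linarith)).imp_left AnalyticAt.differentiableAt
  · exact (X.cone hi hp (by linarith)).imp_left AnalyticAt.differentiableAt

lemma bot (h : p ∈ Bot (MM K c₀ y D.H D.FL D.FR) (PP K c y D.H D.G D.M)) :
    BB y D p ∧ (D.tz p).im + D.H / 2 ≤ D.m₀ - D.H / 4 := by
  obtain ⟨a1, a2, a3, a4, a5⟩ := X.W1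
  obtain ⟨b1, b2, b3, b4, b5⟩ := h
  simp only [MM, PP] at b1 b2 b3 b4 b5
  have hp : BB y D p := ⟨by linarith, abs_le.2 ⟨by linarith, by linarith⟩,
    by linarith [norm_le_abs_re_add_abs_im p.2]⟩
  exact ⟨hp, by rw [tz_im]; linarith [(abs_le.1 (X.m1 hp).1).2]⟩

lemma orbit {i : ℤ} (hi : D.lo 0 ≤ i) {t ζ : ℂ} (h1 : |t.re| ≤ 9 * D.n)
    (h2 : |t.im| ≤ D.m₀ - D.H / 4) (h3 : ‖ζ‖ ≤ 3 * y ^ 210) (N : ℕ) (hN : i + N ≤ D.hi D.M) :
    D.T^[N] (D.Z (i + t, ζ)) = D.Z ((i + N : ℤ) + t, ζ) ∧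
      D.T'^[N] (D.Z ((i + N : ℤ) + t, ζ)) = D.Z (i + t, ζ) := by
  induction N with
  | zero => simp
  | succ N ih =>
    obtain ⟨i1, i2⟩ := ih (by omega)
    obtain ⟨-, -, d1, d2⟩ := X.ma.deep ((i + N : ℤ) + t) ζ (hor ⟨by omega, by omega⟩ h1)
      (.inr ⟨X.zle.2 h3, by simpa using h2⟩)
    have e : ((i + (N + 1 : ℕ) : ℤ) : ℂ) + t = (i + N : ℤ) + t + 1 := by push_cast; ring
    rw [e, Function.iterate_succ_apply', i1, d1, Function.iterate_succ_apply, d2, i2]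
    exact ⟨rfl, rfl⟩

lemma pasg (hG : PasG K' D) (K1 : 1 ≤ K') (Ky : K' ≤ y) {l : ℕ} (hl : l ≤ D.M) {i i' : ℤ}
    (h1 : D.lo l ≤ i) (h2 : i ≤ i') (h3 : i' ≤ D.hi l) (hp : BB y D p) :
    (DifferentiableAt ℂ (D.T^[(i' - i).toNat]) (D.C i p) ∧
      ‖D.T^[(i' - i).toNat] (D.C i p) - D.C i' p‖ < 1 / K) ∧
    DifferentiableAt ℂ (D.T'^[(i' - i).toNat]) (D.C i' p) ∧
      ‖D.T'^[(i' - i).toNat] (D.C i' p) - D.C i p‖ < 1 / K := by
  obtain ⟨a1, a2, a3, a4, a5⟩ := X.W1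
  have s : K' * (0 + Real.exp (-(D.m / 4))) < 1 / K := by
    rw [zero_add]
    exact X.sz.small (p := 1) (by simpa using Ky)
      (by linarith [X.sz.py (k := 211) (by norm_num), X.sz.y0]) X.sz.dy (by norm_num)
  obtain ⟨g1, g2⟩ := hG l hl i i' h1 h2 h3 p.2 (D.tz p) 0 (X.zR hp) (X.tz hp).2.2 le_rfl
    (by positivity)
  obtain ⟨u1, u2⟩ := g1 (D.C i p) (by simp [Md.C])
  obtain ⟨v1, v2⟩ := g2 (D.C i' p) (by simp [Md.C])
  exact ⟨⟨u1.differentiableAt, u2.trans_lt s⟩, v1.differentiableAt, v2.trans_lt s⟩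

lemma pas (hO : PasO ς ε D) (hG : PasG K' D) (hL : LevO ς ε D) (hI : Lin K ς ε D) (K1 : 1 ≤ K')
    (Ky : K' ≤ y) {μ : ℕ → ℤ} (hμ : Mid D μ) {j : ℕ} (hj : j < 3 * D.M + 2) (F : ℝ)
    (h : p ∈ MB (MM K c₀ y D.H D.FL D.FR) (PP K c y D.H D.G D.M))
    (hl : 10 * y ^ 201 ≤ tt (fs ε D F j) p) :
    (DifferentiableAt ℂ (D.T^[ns D μ j]) (D.C (st D μ j) p) ∧
      ‖D.T^[ns D μ j] (D.C (st D μ j) p) - D.C (st D μ (j + 1)) p‖ < 1 / K) ∧
    DifferentiableAt ℂ (D.T'^[ns D μ j]) (D.C (st D μ (j + 1)) p) ∧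
      ‖D.T'^[ns D μ j] (D.C (st D μ (j + 1)) p) - D.C (st D μ j) p‖ < 1 / K := by
  obtain ⟨hp, hr⟩ := X.bb h
  obtain ⟨l, rfl | rfl | rfl⟩ := par j
  · simp only [ns, st_0, st_1]
    exact X.pasg hG K1 Ky (l := l) (by omega) le_rfl (hμ l (by omega)).1 (hμ l (by omega)).2 hp
  · simp only [ns, st_2', st_1]
    exact X.pasg hG K1 Ky (l := l) (by omega) (hμ l (by omega)).1 (hμ l (by omega)).2 le_rfl hp
  · have lM : l < D.M := by omega
    have ς0 := X.ma.num.ς0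
    have s : ς < 1 / K := by
      rw [lt_div_iff₀ X.sz.K0]
      nlinarith [X.hy, X.sz.Ky, X.sz.K1]
    have e1 := hL l lM p.2.re (X.zle.2 hr)
    have e2 := (abs_le.1 ((hI l lM).2 p.2 (X.zle.2 hp.2.2))).1
    rw [fs_2, tt] at hl
    obtain ⟨g1, g2⟩ := hO l lM p.2 (D.tz p) (X.zR hp) (X.tz hp).2.2 (by
      rw [tz_im]
      rw [X.e201] at e1 e2 ⊢
      linarith)
    simp only [ns, st_3, st_2]
    obtain ⟨u1, u2⟩ := g1 (D.C (D.hi l) p) (mem_ball_self (by positivity))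
    obtain ⟨v1, v2⟩ := g2 (D.C (D.lo (l + 1)) p) (mem_ball_self (by positivity))
    exact ⟨⟨u1.differentiableAt, u2.trans_lt s⟩, v1.differentiableAt, v2.trans_lt s⟩

omit X in
lemma alt (F : ℝ) (j : ℕ) : fs ε D F j = F ∨ ∃ l, j = 3 * l + 2 ∧ fs ε D F j = D.sl ε l := by
  obtain ⟨l, rfl | rfl | rfl⟩ := par j
  exacts [.inl (fs_0 _ _ _ _), .inl (fs_1 _ _ _ _), .inr ⟨l, rfl, fs_2 _ _ _ _⟩]

omit X in
lemma alt2 {j : ℕ} {x : ℝ} (h : x = fs ε D D.FL j ∨ x = fs ε D D.FR j) :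
    x = D.FL ∨ x = D.FR ∨ ∃ l, j = 3 * l + 2 ∧ x = D.sl ε l := by
  rcases h with rfl | rfl
  · exact (alt _ j).imp_right .inr
  · exact .inr (alt _ j)

lemma cen {j : ℕ} {x : ℝ} (h : x = fs ε D D.FL j ∨ x = fs ε D D.FR j) (hx : |x| < D.G) :
    ∃ l, j = 3 * l + 2 ∧ x = D.sl ε l := by
  rw [abs_lt] at hx
  rcases alt2 h with rfl | rfl | h
  · linarith [X.ma.num.FL.1, hx.2]
  · linarith [X.ma.num.FR.1, hx.1]
  · exact h

theorem seam (hO : PasO ς ε D) (hG : PasG K' D) (hT : Tub c₀ ς ε D) (hL : LevO ς ε D)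
    (hI : Lin K ς ε D) (K1 : 1 ≤ K') (Ky : K' ≤ y) (c0 : 0 ≤ c₀) {μ : ℕ → ℤ} (hμ : Mid D μ) :
    ∃ G, Seam (MM K c₀ y D.H D.FL D.FR) (PP K c y D.H D.G D.M) (3 * D.M + 2) (fs ε D D.FL)
      (fs ε D D.FR) (fun i => D.C (st D μ i)) G (fun i => D.Zi (st D μ i))
      (fun j => D.T^[ns D μ j]) fun j => D.T'^[ns D μ j] := by
  have gp : ∀ i ≤ 3 * D.M + 2, D.Gap (st D μ i) := fun i hi => X.st_gap hμ hi
  choose! G hG' using fun i (hi : i ≤ 3 * D.M + 2) => X.ma.inv (st D μ i) (gp i hi)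
  obtain ⟨a1, a2, a3, a4, a5⟩ := X.W1
  have a0 := X.sz.a0
  have a8 := X.sz.a3
  have K0 := X.sz.K0
  have G0 := X.G0.2
  have FL : |D.FL| ≤ K ^ 2 := abs_le.2 ⟨by nlinarith [X.ma.num.FL.1], X.FLR.1⟩
  have FR : |D.FR| ≤ K ^ 2 := abs_le.2 ⟨X.FLR.2, by nlinarith [X.ma.num.FR.1]⟩
  have dd : ∀ t : ℝ, 1 ≤ K * t → 1 / K ≤ t := fun t ht => (div_le_iff₀' K0).2 ht
  refine ⟨G, ?_, fun i hi p hp => ?_,
    fun j hj p hp hl => (X.pas hO hG hL hI K1 Ky hμ hj _ hp hl).1,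
    fun j hj p hp hl => (X.pas hO hG hL hI K1 Ky hμ hj _ hp hl).2, ?_, ?_, fun i hi => ?_,
    fun i hi p hp => ?_, fun j hj p hp => ?_, fun j hj => ?_, fun j hj x hx h => ?_,
    fun j hj j' hj' ne x x' hx hx' h => ?_⟩
  · simp only [PP]
    omega
  · have b := (X.bb hp).1
    refine ⟨(X.chart (gp i hi) b).1.differentiableAt, ?_⟩
    have := hG' i hi p (X.pH b)
    rw [X.e220] at this
    exact this
  · refine X.tru (gp 0 (by omega)) FL (by simp only [PP]; linarith) le_rfl fun s t h1 h2 h3 => ?_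
    simp only [PP] at h2
    rcases le_total t 0 with k | k
    · exact .inl (abs_le.2 ⟨by linarith, by linarith⟩)
    · rw [show st D μ 0 = D.lo 0 from st_0 D μ 0] at h1
      rw [abs_of_nonneg k]
      exact .inr (show D.FL * t ≤ _ by nlinarith [X.ma.num.FL.2, (abs_le.1 h1).2])
  · refine X.tru (gp _ le_rfl) FR le_rfl (by simp only [PP]; linarith) fun s t h1 h2 h3 => ?_
    simp only [PP] at h3
    rcases le_total 0 t with k | k
    · exact .inl (abs_le.2 ⟨by linarith, by linarith⟩)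
    · rw [st_2] at h1
      rw [abs_of_nonpos k]
      exact .inr (show D.FR * t ≤ _ by nlinarith [X.ma.num.FR.2, (abs_le.1 h1).1])
  · refine X.tru (gp i hi) (by simpa using sq_nonneg K) (by simp only [PP]; linarith)
      (by simp only [PP]; linarith) fun s t h1 h2 h3 => ?_
    simp only [PP] at h2 h3
    exact .inl (abs_le.2 ⟨by linarith, by linarith⟩)
  · obtain ⟨b, b1⟩ := X.bot hp
    obtain ⟨t1, t2, -⟩ := X.tz b
    obtain ⟨m1, m2⟩ := X.ma.num.m0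
    have := hT (st D μ i) (gp i hi) p.2 (D.tz p) (D.m₀ - D.H / 4) K (X.zle.2 b.2.2) X.sz.K1
      (by linarith) (by linarith) (fun s s1 s2 s3 => by
        have := X.ma.deep (st D μ i + s) p.2 (hor (X.rng (gp i hi)) (by linarith))
          (.inr ⟨X.zle.2 b.2.2, by simpa [abs_of_nonneg s2] using s3⟩)
        exact ⟨this.1, this.2.1⟩) t1 t2 (by linarith)
    refine this.trans ?_
    rw [X.inv, div_inv_eq_mul]
    simp only [MM]
    have := X.sz.y0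
    gcongr
    linarith
  · obtain ⟨b, b1⟩ := X.bot hp
    obtain ⟨t1, t2, -⟩ := X.tz b
    have e : st D μ j + (ns D μ j : ℕ) = st D μ (j + 1) := by
      have := X.st_le hμ (i := j) (j := j + 1) (by omega) hj
      unfold ns
      omega
    have := X.orbit (X.rng (gp j hj.le)).1 (t := D.tz p) (by linarith)
      (by rw [abs_of_nonneg t2]; linarith) b.2.2 (ns D μ j) (e ▸ (X.rng (gp (j + 1) hj)).2)
    rw [e] at this
    exact this
  · simp only [PP, FF]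
    have := X.sz.d1
    obtain ⟨l, rfl | rfl | rfl⟩ := par j
    · rw [fs_0, fs_0]
      constructor <;> nlinarith
    · rw [fs_1, fs_1]
      constructor <;> nlinarith
    · rw [fs_2, fs_2]
      constructor <;> linarith [(hI l (by omega)).1]
  · obtain ⟨l, rfl, rfl⟩ := X.cen hx h
    exact ⟨dd _ (X.ma.sep l (by omega)).1, dd _ (X.ma.sep l (by omega)).2.1⟩
  · obtain ⟨l, rfl, rfl⟩ := X.cen hx h
    obtain ⟨s1, s2, s3⟩ := X.ma.sep l (by omega)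
    rcases alt2 hx' with rfl | rfl | ⟨l', rfl, rfl⟩
    exacts [dd _ s1, dd _ s2, dd _ (s3 l' (by omega) (by omega))]

end Cx

end Vale.Agent.P097F.N.Nq
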