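import Vale.Agent.P097F.N.Defs

/-!
# P097F/N: the constants of the separation lemma (`y` is the inverse of `ς`)
-/

set_option linter.all false

noncomputable section

namespace Vale.Agent.P097F.N.Nq

open Real

/-- the sizes -/
structure Sz (K c y H : ℝ) : Prop where
  K1 : 1 ≤ K
  c0 : 0 < c
  c1 : c ≤ 1
  y1 : 1000 * K ^ 3 ≤ c * y
  ex : y ^ 2000 ≤ exp y
  H1 : y ^ 220 ≤ K * H

def FF (K : ℝ) : ℝ := 16 * K ^ 2 + 1

def LL (K c y : ℝ) : ℝ := c * (1 / K) * y ^ 210 / 16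

def PP (K c y H G : ℝ) (M : ℕ) : P097Q.Par where
  σ := 2 * FF K * y ^ 210
  ρ := y ^ 210
  v := y ^ 210 / 2
  a := (y ^ 100 - 1) / (8 * FF K * LL K c y)
  l₀ := 10 * y ^ 201
  lam := y ^ 100
  h := H - FF K * (y ^ 210 / 2 + 1)
  B := K * y ^ 220
  c := c
  d := 1 / K
  F := FF K
  G := G
  Λ := LL K c y
  n := 3 * M + 4

def MM (K c₀ y H FL FR : ℝ) : P097Q.Mac where
  w := H / 2
  H := H
  δ := 1 / K
  K := K * y ^ 220
  B₀ := 2 * y ^ 660
  ls := 8 * y ^ 201
  e := 4 * K * y * exp (-(c₀ * (H / 2)))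
  FL := FL
  FR := FR

namespace Sz

variable {K c y H : ℝ} (h : Sz K c y H)
include h

lemma K0 : 0 < K := by linarith [h.K1]

lemma K2 : K ≤ K ^ 2 := by nlinarith [h.K1]

lemma K3 : K ^ 2 ≤ K ^ 3 := by nlinarith [h.K1, h.K2]

lemma cy : 1000 ≤ c * y := by linarith [h.K1, h.K2, h.K3, h.y1]

lemma y0 : 0 < y := (mul_pos_iff_of_pos_left h.c0).1 (by linarith [h.cy])

lemma yK : 1000 * K ^ 3 ≤ y := h.y1.trans (mul_le_of_le_one_left h.y0.le h.c1)

lemma y3 : 1000 ≤ y := by linarith [h.K1, h.K2, h.K3, h.yK]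

lemma Ky : 1000 * K ≤ y := by linarith [h.K2, h.K3, h.yK]

lemma mono {k l : ℕ} (e : k ≤ l) : y ^ k ≤ y ^ l := pow_le_pow_right₀ (by linarith [h.y3]) e

lemma pw {k l : ℕ} (e : k < l) : 1000 * y ^ k ≤ y ^ l := by
  refine le_trans ?_ (h.mono e)
  rw [pow_succ, mul_comm]
  exact mul_le_mul_of_nonneg_left h.y3 (pow_pos h.y0 k).le

lemma py {k : ℕ} (e : 1 < k) : 1000 * y ≤ y ^ k := by simpa using h.pw e

lemma F1 : 1 ≤ FF K := by unfold FF; nlinarith

lemma Fy : 50 * FF K ≤ y := by unfold FF; linarith [h.K1, h.K2, h.K3, h.yK]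

lemma Fr : FF K * y ^ 210 ≤ y ^ 211 := by
  rw [pow_succ y 210, mul_comm]
  exact mul_le_mul_of_nonneg_left (by linarith [h.Fy, h.F1]) (pow_pos h.y0 _).le

lemma Kr : K * y ^ 210 ≤ y ^ 211 := by
  rw [pow_succ y 210, mul_comm]
  exact mul_le_mul_of_nonneg_left (by linarith [h.Ky, h.K1]) (pow_pos h.y0 _).le

lemma H2 : y ^ 219 ≤ H := by
  have h1 := h.H1
  have H0 : 0 < H := (mul_pos_iff_of_pos_left h.K0).1 ((pow_pos h.y0 _).trans_le h1)
  refine le_of_mul_le_mul_left ?_ h.y0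
  rw [← pow_succ']
  exact h1.trans (mul_le_mul_of_nonneg_right (by linarith [h.Ky, h.K1]) H0.le)

lemma HW : 1000 * y ^ 211 ≤ H := (h.pw (by norm_num)).trans h.H2

lemma d1 : 1 / K ≤ 1 := (div_le_one h.K0).2 h.K1

lemma dy : 1 ≤ 1 / K * y ^ 1 := by
  rw [pow_one, one_div, le_inv_mul_iff₀ h.K0]
  linarith [h.Ky, h.K1]

lemma cd : 16 ≤ c * (1 / K) * y := by
  rw [mul_right_comm, mul_one_div, le_div_iff₀ h.K0]
  linarith [h.K1, h.K2, h.K3, h.y1]

lemma L1 : LL K c y ≤ c * (y ^ 210 / 16) := by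
  unfold LL
  have := mul_le_mul_of_nonneg_left h.d1 (mul_pos h.c0 (pow_pos h.y0 210)).le
  linarith

lemma L1' : LL K c y ≤ y ^ 210 / 16 :=
  h.L1.trans (mul_le_of_le_one_left (by have := h.y0; positivity) h.c1)

lemma L2 : y ^ 209 ≤ LL K c y := by
  unfold LL
  have := mul_le_mul_of_nonneg_right h.cd (pow_pos h.y0 209).le
  rw [pow_succ' y 209]
  linarith

lemma L0 : 0 < LL K c y := (pow_pos h.y0 _).trans_le h.L2

/-- exponentials beat powers -/
lemma small {X Z t : ℝ} {p q : ℕ} (hX : X ≤ y ^ p) (ht : y ≤ t) (hZ : 1 ≤ Z * y ^ q)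
    (e : p + q < 2000) : X * exp (-t) < Z := by
  have y0 := h.y0
  refine lt_of_mul_lt_mul_right (lt_of_lt_of_le ?_ hZ) (pow_pos y0 q).le
  have e1 : y ^ (p + q) < exp t := by
    have := h.pw e
    have := h.ex.trans (exp_le_exp.2 ht)
    linarith [pow_pos y0 (p + q)]
  calc X * exp (-t) * y ^ q ≤ y ^ p * exp (-t) * y ^ q := by gcongr
    _ = y ^ (p + q) / exp t := by rw [exp_neg, pow_add]; ring
    _ < 1 := (div_lt_one (exp_pos t)).2 e1

lemma a1 : 1 ≤ (y ^ 100 - 1) / (8 * FF K * LL K c y) * y ^ 211 := by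
  have := h.F1
  have := h.L0
  have e := mul_le_mul_of_nonneg_left h.L1' (show 0 ≤ FF K by linarith)
  have := h.Fr
  have := h.py (k := 100) (by norm_num)
  have := h.y3
  rw [div_mul_eq_mul_div, le_div_iff₀ (by positivity)]
  nlinarith [pow_pos h.y0 211]

lemma a2 : 8 * FF K * ((y ^ 100 - 1) / (8 * FF K * LL K c y)) ≤ 1 := by
  have := h.F1
  have := h.L0
  rw [← mul_div_assoc, div_le_one (by positivity)]
  have := h.L2
  have := h.mono (k := 100) (l := 209) (by norm_num)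
  gcongr
  linarith

lemma a0 : 0 < (y ^ 100 - 1) / (8 * FF K * LL K c y) :=
  (mul_pos_iff_of_pos_right (pow_pos h.y0 _)).1 (one_pos.trans_le h.a1)

lemma a3 : (y ^ 100 - 1) / (8 * FF K * LL K c y) ≤ 1 / 8 := by
  nlinarith [h.a2, h.a0, h.F1]

lemma cl {k : ℕ} (e : 2 < k) : y ≤ c * (y ^ k - 1) := by
  have h1 := h.pw e
  have h2 := mul_le_mul_of_nonneg_right h.cy h.y0.le
  have h3 := h.py (k := 2) (by norm_num)
  have h4 : y ^ 2 ≤ y ^ k - 1 := by linarith [h.y3]
  nlinarith [mul_le_mul_of_nonneg_left h4 h.c0.le, h.y0]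

theorem pok {G : ℝ} {M : ℕ} (hM : (M : ℝ) ≤ K) : (PP K c y H G M).OK := by
  have y0 := h.y0
  have y3 := h.y3
  have K0 := h.K0
  have c0 := h.c0
  have F1 := h.F1
  have Fy := h.Fy
  have Fr := h.Fr
  have HW := h.HW
  have L0 := h.L0
  have L1 := h.L1
  have L1' := h.L1'
  have p1 := h.py (k := 100) (by norm_num)
  have p2 := h.pw (k := 100) (l := 201) (by norm_num)
  have p3 := h.pw (k := 201) (l := 210) (by norm_num)
  have p4 := h.pw (k := 210) (l := 211) (by norm_num)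
  have n1 : ((3 * M + 4 : ℕ) : ℝ) * 100 ≤ y := by
    push_cast
    linarith [h.Ky, h.K1]
  have n0 : (0 : ℝ) ≤ ((3 * M + 4 : ℕ) : ℝ) := Nat.cast_nonneg _
  have B1 : K * y ^ 220 ≤ y ^ 221 := by
    rw [pow_succ' y 220]
    gcongr
    linarith [h.Ky]
  have cd1 : c * (1 / K) ≤ 1 := mul_le_one₀ h.c1 (by positivity) h.d1
  constructor <;> simp only [PP]
  · exact h.a0
  · exact F1
  · exact h.a2
  · exact one_le_mul_of_one_le_of_one_le h.K1 (one_le_pow₀ (by linarith))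
  · exact c0
  · positivity
  · nlinarith [h.a0, h.a3]
  · linarith
  · exact L0.le
  · linarith
  · linarith
  · exact le_rfl
  · unfold LL
    linarith
  · unfold LL
    nlinarith [mul_pos (show 0 < c * (1 / K) by positivity) (pow_pos (pow_pos y0 210) 2)]
  · linarith
  · exact le_of_eq (by field_simp)
  · have e1 : (y ^ 100 + 1) ^ 2 ≤ 4 * y ^ 210 := by
      have : y ^ 200 ≤ y ^ 210 := h.mono (by norm_num)
      have e : y ^ 200 = (y ^ 100) ^ 2 := by ring
      nlinarith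
    have e2 : y ^ 210 ≤ 2 * FF K * y ^ 210 := by nlinarith [pow_pos y0 210]
    calc _ ≤ y ^ 210 / 16 * (4 * y ^ 210) := by gcongr
      _ ≤ (y ^ 210) ^ 2 := by nlinarith [pow_pos y0 210]
      _ ≤ _ := by gcongr
  · have : y ^ 210 / 16 + (2 * FF K * (y ^ 210 / 2) + 3) ≤
        H - FF K * (y ^ 210 / 2 + 1) - 10 * y ^ 201 := by linarith
    nlinarith [mul_le_mul_of_nonneg_left this c0.le]
  · linarith
  · omega
  · rw [← mul_assoc]
    refine (h.small (p := 222) ?_ (h.cl (by norm_num)) h.a1 (by norm_num)).le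
    rw [pow_succ' y 221]
    gcongr
    linarith
  · rw [← mul_assoc]
    refine (h.small (p := 224) (q := 423) ?_ (h.cl (by norm_num)) ?_ (by norm_num)).le
    · rw [show y ^ 224 = y ^ 3 * y ^ 221 by ring]
      gcongr
      nlinarith [pow_le_pow_left₀ (by positivity) n1 2, sq_nonneg y]
    · have e1 := one_le_pow₀ (n := 2) h.a1
      have e2 := h.cd
      calc (1 : ℝ) ≤ (c * (1 / K) * y) * (((y ^ 100 - 1) / (8 * FF K * LL K c y)) * y ^ 211) ^ 2 :=
            one_le_mul_of_one_le_of_one_le (by linarith) e1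
        _ = _ := by ring

theorem mok {c₀ G FL FR : ℝ} {M : ℕ} (hc : c * (2 * sinh 7) ≤ c₀) (G1 : 1 / K ≤ G)
    (hL : G ≤ FL ∧ FL ≤ K ^ 2) (hR : FR ≤ -G ∧ -K ^ 2 ≤ FR) :
    (MM K c₀ y H FL FR).OK (PP K c y H G M) := by
  have y0 := h.y0
  have y3 := h.y3
  have K0 := h.K0
  have c0 := h.c0
  have F1 := h.F1
  have Fy := h.Fy
  have Fr := h.Fr
  have HW := h.HW
  have d1 := h.d1
  have p1 := h.py (k := 201) (by norm_num)
  have p3 := h.pw (k := 201) (l := 210) (by norm_num)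
  have p4 := h.pw (k := 210) (l := 211) (by norm_num)
  have s7 : 7 ≤ sinh 7 := self_le_sinh_iff.2 (by norm_num)
  have cc : c ≤ c₀ := by nlinarith
  have cH : y ≤ c₀ * (H / 4) := by
    have := h.cl (k := 210) (by norm_num)
    nlinarith [mul_le_mul cc (show y ^ 210 - 1 ≤ H / 4 by linarith) (by linarith) (c0.le.trans cc)]
  have B1 : 1 ≤ K * y ^ 220 := one_le_mul_of_one_le_of_one_le h.K1 (one_le_pow₀ (by linarith))
  constructor <;> simp only [PP, MM]
  · linarith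
  · linarith
  · positivity
  · linarith
  · exact B1
  · linarith [one_le_pow₀ (n := 660) (show 1 ≤ y by linarith)]
  · refine h.small (p := 661) ?_ ?_ h.dy (by norm_num)
    · linarith [h.pw (k := 660) (l := 661) (by norm_num), pow_pos y0 660]
    · have := h.cl (k := 201) (by norm_num)
      nlinarith
  · exact mul_le_of_le_one_right (by positivity) d1
  · refine h.small (p := 2) ?_ (by linarith) h.dy (by norm_num)
    nlinarith [h.Ky]
  · have e1 : sinh (π * (H + FF K * (y ^ 210 / 2 + 1)) / (2 * (H / 2))) ≤ sinh 7 := by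
      rw [sinh_le_sinh, div_le_iff₀ (by linarith)]
      nlinarith [pi_le_four, pi_pos]
    have e2 : c * (H / 2) * sinh (π * (H + FF K * (y ^ 210 / 2 + 1)) / (2 * (H / 2))) ≤
        c₀ * (H / 4) := by
      refine (mul_le_mul_of_nonneg_left e1 (mul_nonneg c0.le (by linarith))).trans ?_
      nlinarith
    refine le_trans ?_ (exp_le_exp.2 (neg_le_neg e2))
    have e3 := h.small (X := 24 * K ^ 2 * y ^ 221) (Z := 1) (p := 222) (q := 0) (by
      rw [pow_succ' y 221]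
      gcongr
      linarith [h.K3, h.yK, sq_nonneg K]) cH (by simp) (by norm_num)
    have e4 : exp (-(c₀ * (H / 2))) = exp (-(c₀ * (H / 4))) * exp (-(c₀ * (H / 4))) := by
      rw [← exp_add]
      congr 1
      ring
    rw [e4]
    refine le_trans (le_of_eq (by ring)) (mul_le_of_le_one_left (exp_pos _).le e3.le)
  · exact G1
  · exact ⟨hL.1, by unfold FF; nlinarith [hL.2]⟩
  · exact ⟨hR.1, by unfold FF; nlinarith [hR.2]⟩

end Sz

end Vale.Agent.P097F.N.Nq
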