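import Vale.Agent.P097F.N.Ps

/-!
# P097F/N: the clocks at the two ends of a passage
-/

set_option linter.all false

noncomputable section

namespace Vale.Agent.P097F.N

open Filter Topology Set Metric Complex PsA

/-- both clocks `(τ, J)` along the two charts next to the obstacle `c` -/
def Clo (K ς ε : ℝ) (D : Md) : Prop := ∀ c < D.M, ∀ ζ t : ℂ, ‖ζ‖ < D.R → ‖t‖ ≤ D.m / 2 →
  (‖D.τ c (D.Λ c (D.Ct (D.hi c) ζ t)) - ε * (t - D.ν ε c ζ)‖ ≤ 8 * K ^ 3 * ς ^ 20 ∧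
    ‖(D.Λ c (D.Ct (D.hi c) ζ t)).2 - (D.Λ c (D.Z (D.hi c, ζ))).2‖ ≤ 8 * K ^ 3 * ς ^ 20) ∧
  ‖D.τ c (D.Λ c (D.Ct (D.lo (c + 1)) ζ t)) - ε * (t + D.N c - D.ν ε c ζ)‖ ≤ 16 * K ^ 3 * ς ^ 20 ∧
    ‖(D.Λ c (D.Ct (D.lo (c + 1)) ζ t)).2 - (D.Λ c (D.Z (D.hi c, ζ))).2‖ ≤ 16 * K ^ 3 * ς ^ 20

theorem clo {K ς ε : ℝ} {D : Md} (H : Mach K ς ε D) (h : 40000 * K ^ 7 * ς ≤ 1) : Clo K ς ε D := by
  intro c hc ζ t hζ ht
  have n := H.num
  have K1 := n.K1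
  have K0 : 0 < K := by linarith
  have ς0 := n.ς0
  have ε0 : 0 < ε := by rw [n.eq]; positivity
  have nε : ‖(ε : ℂ)‖ = ε := by rw [norm_real, Real.norm_of_nonneg ε0.le]
  have S := sz n h hc nε
  obtain ⟨P, -⟩ := H.pat c hc
  obtain ⟨k1, k2⟩ := H.ck c hc ζ hζ
  obtain ⟨g1, -, -, g4, g5⟩ := H.geo c hc ζ hζ
  obtain ⟨T1, -⟩ := ends H hc hζ
  have nm : 40 * (D.n : ℝ) ≤ D.m := by exact_mod_cast n.nm
  have εm : 0 ≤ ε * D.m := by positivity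
  have εn : 4 ≤ K * (ε * D.n) := by
    have : K * (ε * (4 * D.H)) ≤ K * (ε * D.n) := by gcongr; exact n.HR.trans n.Rn
    linarith [n.H0]
  have εN : ε * D.N c ≤ K := by
    have a := norm_sub_le (D.τ₀ c ζ + ε * D.N c) (D.τ₀ c ζ)
    rw [add_sub_cancel_left, norm_mul, nε, Complex.norm_natCast] at a
    have b : D.ϱ c ^ 2 ≤ 1 := pow_le_one₀ P.clk.r0.le S.k4
    have := mul_le_of_le_one_right (norm_nonneg (D.κ c)) b
    linarith [S.k2]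
  obtain ⟨u1, u2, u3, u4, u5, u6, u7, u8, u9⟩ := nums (m := D.m) K1 ς0 h n.eq S.k2 (by
    have : K * (ε * (40 * D.n)) ≤ K * (ε * D.m) := by gcongr
    linarith) n.mK εN
  have m2 : 2 ≤ D.m := by exact_mod_cast u1
  have d1 := (dr S P k1 (H.gap _ ⟨c, hc.le, n.lh c hc.le, le_rfl⟩ ζ hζ).1 n.am m2
    (by rw [nε]; exact n.mK) ht).trans u2
  have d2 := (dr S P k2 (H.gap _ ⟨c + 1, hc, le_rfl, n.lh _ hc⟩ ζ hζ).1 n.am m2
    (by rw [nε]; exact n.mK) ht).trans u2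
  obtain ⟨z1, -, z3, z4, -⟩ := one S P k1 (θ := D.τ₀ c ζ) (lam := ς ^ 19) (mem_ball_self S.rp)
    (by positivity) (by rw [Md.τ₀, sub_self, norm_zero]; positivity) (fun j hj => by
      constructor
      · refine le_trans ?_ ((neg_le_abs _).trans (abs_im_le_norm _))
        have : ς ^ 19 ≤ ε * D.n := le_of_mul_le_mul_left (by linarith) K0
        rw [add_im, im_mul_ofReal, natCast_im]
        linarith
      · have := seg_le (a := D.τ₀ c ζ) (ρ := ‖D.κ c‖ * D.ϱ c ^ 2 / 2) (s := ε * j)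
          (L := ε * D.N c) (by positivity) (by gcongr) (by linarith) (by push_cast; linarith)
        rwa [ofReal_mul, ofReal_natCast, mul_comm (ε : ℂ) j] at this) u3 u7 u8
  rw [show (fun q => D.Λ c (D.T (D.Ξ c q)))^[D.N c] (D.Λ c (D.Z (D.hi c, ζ))) =
    D.Λ c (D.Z (D.lo (c + 1), ζ)) by rw [← T1, z4, P.li _ z1]] at z3
  have d3 := norm_add_le_of_le d2 z3
  have εc : (ε : ℂ) ≠ 0 := ofReal_ne_zero.2 ε0.ne'
  refine ⟨⟨le_trans (le_of_eq ?_) ((norm_fst_le _).trans d1),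
    le_trans (le_of_eq ?_) ((norm_snd_le _).trans d1)⟩,
    le_trans (le_of_eq ?_) ((norm_fst_le _).trans (d3.trans_eq (by ring))),
    le_trans (le_of_eq ?_) ((norm_snd_le _).trans (d3.trans_eq (by ring)))⟩
  all_goals
    congr 1
    simp only [Gc, Md.ν, Md.τ₀, Md.Ct, Prod.fst_sub, Prod.snd_sub, Prod.fst_add, Prod.snd_add]
    try field_simp
    ring

end Vale.Agent.P097F.N
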