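import Vale.Agent.P097F.N.Patch
import Vale.Agent.P097EE.Defs

/-!
# P097F/N: the clock of the patch against the outer coordinates of the last layer
-/

set_option linter.all false

noncomputable section

namespace Vale.Agent.P097F.N

open Filter Topology Set Metric Complex Vale.Agent.P097D
open Vale.Agent.P097EE (acZ acF)

/-- the pair of vertices of a state -/
def prs (ε : ℂ) (p : ℂ × ℂ) : ℂ × ℂ := (p.1 - ε * p.2, p.1)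

theorem acF_prs (θ : ℂ → ℂ) (ε ρ z δ : ℂ) (p : ℂ × ℂ) : acF θ ρ z δ (prs ε p) =
    (2 * ((yd (gg θ ε) p).2 - δ) / ρ, (yd (gg θ ε) p).1 - z) := by
  simp only [acF, prs, yd, gg]
  congr 2
  ring

theorem acZ_prs (θ : ℂ → ℂ) (ε k z δ : ℂ) (p : ℂ × ℂ) : acZ θ k z δ (prs ε p) =
    (k * ((yd (gg θ ε) p).1 - z), 2 * ((yd (gg θ ε) p).2 - δ)) := by
  simp only [acZ, prs, yd, gg]
  congr 1
  ring

theorem gg_der (θ : ℂ → ℂ) (ε y : ℂ) : deriv (gg θ ε) y = ε * deriv (deriv θ) y :=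
  deriv_const_mul_field ε

theorem sin_sub_self {w : ℂ} (h : ‖w‖ ≤ 1) : ‖sin w - w‖ ≤ ‖w‖ ^ 2 := by
  have a := Complex.norm_exp_sub_one_sub_id_le (x := -w * I) (by simpa using h)
  have b := Complex.norm_exp_sub_one_sub_id_le (x := w * I) (by simpa using h)
  have e : sin w - w = ((exp (-w * I) - 1 - -w * I) - (exp (w * I) - 1 - w * I)) * I / 2 := by
    rw [Complex.sin]
    linear_combination (-w) * I_sq
  rw [e, norm_div, norm_mul, norm_I, Complex.norm_ofNat]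
  have := norm_sub_le (exp (-w * I) - 1 - -w * I) (exp (w * I) - 1 - w * I)
  simp only [norm_mul, norm_neg, norm_I, mul_one] at a b
  linarith

namespace Lev

variable {g : ℂ → ℂ} {Ξ : ℂ × ℂ → ℂ × ℂ} {P₀ : ℂ × ℂ} {J₀ κ : ℂ} {r s B : ℝ}
  (L : Lev g Ξ P₀ J₀ κ r s B)
include L

theorem m0 {Jc : ℂ} (hJ : ‖Jc - J₀‖ < r) : ((0, Jc) : ℂ × ℂ) ∈ ball ((0, J₀) : ℂ × ℂ) (2 * r) :=
  mem_bd.2 ⟨by simpa using L.r0, by linarith [L.r0]⟩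

theorem mq {Jc : ℂ} (hJ : ‖Jc - J₀‖ < r) {q : ℂ × ℂ} {σ : ℝ} (σr : σ ≤ r) (h1 : ‖q.1‖ ≤ σ)
    (h2 : ‖q.2 - Jc‖ ≤ σ) : q ∈ ball ((0, J₀) : ℂ × ℂ) (2 * r) ∧ ‖Ξ q - Ξ (0, Jc)‖ ≤ B * σ := by
  have m : q ∈ ball ((0, J₀) : ℂ × ℂ) (2 * r) := mem_bd.2 ⟨by linarith [L.r0], by
    linarith [norm_sub_le_norm_sub_add_norm_sub q.2 Jc J₀]⟩
  refine ⟨m, (L.lipΞ m (L.m0 hJ)).trans (mul_le_mul_of_nonneg_left ?_ (by linarith [L.B1]))⟩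
  rw [Prod.norm_def]
  exact max_le (by simpa using h1) h2

theorem φ_bd {P : ℂ × ℂ} (hP : P ∈ ball P₀ s) : ‖(deriv g P.1 * Dn P.2)⁻¹‖ ≤ 9 / 4 * B := by
  have a := L.lin P hP
  have b := norm_le_norm_sub_add (deriv g P.1 * Dn P.2)⁻¹ (2 * κ)
  rw [norm_mul, Complex.norm_ofNat] at b
  linarith [L.κB]

theorem φ_lip {P Pc : ℂ × ℂ} (hP : P ∈ ball P₀ s) (hc : Pc ∈ ball P₀ (s / 2)) :
    ‖(deriv g P.1 * Dn P.2)⁻¹ - (deriv g Pc.1 * Dn Pc.2)⁻¹‖ ≤ B / s * ‖P - Pc‖ := by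
  have s0 := L.s0
  have sub : ball Pc (s / 2) ⊆ ball P₀ s := ball_subset_ball' (by linarith [mem_ball.1 hc])
  have k : ‖κ‖ / s * ‖P - Pc‖ ≤ B / s * ‖P - Pc‖ := by gcongr; exact L.κB
  refine le_trans ?_ k
  by_cases h : P ∈ ball Pc (s / 2)
  · have := (tay (D := fun P : ℂ × ℂ => (deriv g P.1 * Dn P.2)⁻¹ - 2 * κ) (fun u hu => by
      have a := (mem_ball_prod.1 (ball_subset_ball (show s ≤ 2 * s by linarith) (sub hu))).1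
      exact (((((L.ag _ a).deriv.comp (f := fun u : ℂ × ℂ => u.1) analyticAt_fst).mul
        ((Dn_an _).comp (f := fun u : ℂ × ℂ => u.2) analyticAt_snd)).inv (L.ne (sub hu))).sub
        analyticAt_const).differentiableAt.differentiableWithinAt)
      (fun u hu => L.lin u (sub hu)) h).2.1
    rw [sub_sub_sub_cancel_right] at this
    exact this.trans_eq (by congr 1; field_simp; ring)
  · rw [mem_ball_iff_norm, not_lt] at h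
    have a := norm_sub_le_norm_sub_add_norm_sub (deriv g P.1 * Dn P.2)⁻¹ (2 * κ)
      (deriv g Pc.1 * Dn Pc.2)⁻¹
    rw [norm_sub_rev (2 * κ)] at a
    have b : ‖κ‖ / s * (s / 2) ≤ ‖κ‖ / s * ‖P - Pc‖ := by gcongr
    have c : ‖κ‖ / s * (s / 2) = ‖κ‖ / 2 := by field_simp
    linarith [L.lin P hP, L.lin Pc (sub (mem_ball_self (by linarith)))]

/-- the clock with a relative error -/
theorem rel {Jc : ℂ} (hJ : ‖Jc - J₀‖ < r) {q : ℂ × ℂ} {σ : ℝ} (σr : σ ≤ r) (h1 : ‖q.1‖ ≤ σ)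
    (h2 : ‖q.2 - Jc‖ ≤ σ) : ‖N.clk (fq g Ξ) q -
      q.1 ^ 2 * (deriv g (Ξ (0, Jc)).1 * Dn (Ξ (0, Jc)).2)⁻¹ / 2‖ ≤ B ^ 2 / s * σ ^ 3 := by
  obtain ⟨φ, hφ⟩ : ∃ φ, φ = (deriv g (Ξ (0, Jc)).1 * Dn (Ξ (0, Jc)).2)⁻¹ := ⟨_, rfl⟩
  have σ0 : 0 ≤ σ := (norm_nonneg _).trans h1
  have s0 := L.s0
  have B1 := L.B1
  have m : ∀ x ∈ closedBall (0 : ℂ) σ, _ := fun x hx =>
    L.mq hJ (q := (x, q.2)) σr (mem_closedBall_zero_iff.1 hx) h2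
  have := (convex_closedBall (0 : ℂ) σ).norm_image_sub_le_of_norm_hasDerivWithin_le
    (f := fun x => N.clk (fq g Ξ) (x, q.2) - x ^ 2 * φ / 2)
    (f' := fun x => fq g Ξ (x, q.2) - x * φ) (C := σ * (B / s * (B * σ)))
    (fun x hx => by
      have d := (L.clk.der _ (m x hx).1).sub ((((hasDerivAt_id x).pow 2).mul_const φ).div_const 2)
      refine (d.congr_deriv ?_).hasDerivWithinAt
      simp only [id, Nat.cast_ofNat, Nat.add_one_sub_one, pow_one]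
      ring)
    (fun x hx => by
      rw [fq, ← mul_sub, norm_mul, hφ]
      refine mul_le_mul (mem_closedBall_zero_iff.1 hx) ((L.φ_lip (L.mem' (m x hx).1).1
        (L.mem _ (L.m0 hJ)).1).trans ?_) (norm_nonneg _) σ0
      gcongr
      exact (m x hx).2)
    (mem_closedBall_self σ0) (mem_closedBall_zero_iff.2 h1)
  rw [← hφ]
  have z : N.clk (fq g Ξ) (0, q.2) = 0 := by simp [N.clk]
  simp only [z, ne_eq, OfNat.ofNat_ne_zero, not_false_eq_true, zero_pow, zero_mul, zero_div,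
    sub_zero] at this
  calc _ ≤ _ := this
    _ ≤ σ * (B / s * (B * σ)) * σ := by gcongr
    _ = _ := by ring

theorem fin {Jc : ℂ} (hJ : ‖Jc - J₀‖ < r) {q : ℂ × ℂ} {σ : ℝ} (σr : σ ≤ r) (h1 : ‖q.1‖ ≤ σ)
    (h2 : ‖q.2 - Jc‖ ≤ σ) {a b : ℂ} (hb : b ^ 2 = q.1 ^ 2)
    (h3 : ‖a - b‖ ≤ 6 * B ^ 4 / s ^ 2 * σ ^ 2) (h4 : ‖a‖ ≤ B ^ 3 * σ) (h5 : ‖b‖ ≤ 2 * B ^ 3 * σ) :
    ‖a ^ 2 * (deriv g (Ξ (0, Jc)).1 * Dn (Ξ (0, Jc)).2)⁻¹ / 2 - N.clk (fq g Ξ) q‖ ≤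
      22 * B ^ 8 / s ^ 2 * σ ^ 3 := by
  have k := L.rel hJ σr h1 h2
  have p := L.φ_bd (L.mem' (L.m0 hJ)).1
  generalize (deriv g (Ξ (0, Jc)).1 * Dn (Ξ (0, Jc)).2)⁻¹ = φ at *
  have σ0 : 0 ≤ σ := (norm_nonneg _).trans h1
  have s0 := L.s0
  have s1 := L.s1
  have B1 := L.B1
  have e : a ^ 2 * φ / 2 - N.clk (fq g Ξ) q =
      (a - b) * (a + b) * φ / 2 - (N.clk (fq g Ξ) q - q.1 ^ 2 * φ / 2) := by rw [← hb]; ring
  have a1 : ‖(a - b) * (a + b) * φ / 2‖ ≤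
      6 * B ^ 4 / s ^ 2 * σ ^ 2 * (B ^ 3 * σ + 2 * B ^ 3 * σ) * (9 / 4 * B) / 2 := by
    rw [norm_div, norm_mul, norm_mul, Complex.norm_ofNat]
    gcongr
    exact norm_add_le_of_le h4 h5
  have a2 : B ^ 2 / s * σ ^ 3 ≤ B ^ 8 / s ^ 2 * σ ^ 3 := by
    gcongr ?_ * _
    exact div_le_div₀ (by positivity) (pow_le_pow_right₀ B1 (by norm_num)) (by positivity)
      (by nlinarith)
  have a3 : 0 ≤ B ^ 8 / s ^ 2 * σ ^ 3 := by positivity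
  rw [e]
  refine (norm_sub_le_of_le a1 (k.trans a2)).trans ?_
  calc _ = 85 / 4 * (B ^ 8 / s ^ 2 * σ ^ 3) := by ring
    _ ≤ 22 * (B ^ 8 / s ^ 2 * σ ^ 3) := by gcongr; norm_num
    _ = _ := by ring

theorem near2 {Jc : ℂ} (hJ : ‖Jc - J₀‖ < r) {q : ℂ × ℂ}
    (hq : q ∈ ball ((0, J₀) : ℂ × ℂ) (2 * r)) :
    ‖(Ξ q).1 - (Ξ (0, Jc)).1‖ < s ∧ ‖(Ξ q).2 - (Ξ (0, Jc)).2‖ < s := by
  have a := mem_ball.1 (L.mem q hq).1
  have b := mem_ball.1 (L.mem _ (L.m0 hJ)).1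
  have c := dist_triangle_right (Ξ q) (Ξ (0, Jc)) P₀
  have d : Ξ q ∈ ball (Ξ (0, Jc)) s := mem_ball.2 (by linarith)
  exact ⟨mem_ball_iff_norm.1 (mem_ball_prod.1 d).1, mem_ball_iff_norm.1 (mem_ball_prod.1 d).2⟩

/-- a fold -/
theorem relF0 {Jc : ℂ} (hJ : ‖Jc - J₀‖ < r) {q : ℂ × ℂ} {σ : ℝ} (σr : σ ≤ r) (h1 : ‖q.1‖ ≤ σ)
    (h2 : ‖q.2 - Jc‖ ≤ σ) (hs : sin (Ξ (0, Jc)).2 = 0) :
    ‖(g (Ξ (0, Jc)).1 * ((Ξ q).2 - (Ξ (0, Jc)).2)) ^ 2 *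
      (deriv g (Ξ (0, Jc)).1 * Dn (Ξ (0, Jc)).2)⁻¹ / 2 - N.clk (fq g Ξ) q‖ ≤
      22 * B ^ 8 / s ^ 2 * σ ^ 3 := by
  obtain ⟨m, l⟩ := L.mq hJ σr h1 h2
  have l1 := (norm_fst_le (Ξ q - Ξ (0, Jc))).trans l
  have l2 := (norm_snd_le (Ξ q - Ξ (0, Jc))).trans l
  have n2 := (L.near2 hJ m).2
  obtain ⟨-, c1, -⟩ := L.mem' (L.m0 hJ)
  obtain ⟨-, q1, -, q3, -⟩ := L.mem' m
  have lg := L.lipg q1 c1
  rw [norm_sub_rev (Ξ (0, Jc)).1] at lg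
  have b1 := (L.bg _ c1).1
  have b2 := (L.bg _ q1).1
  simp only [Prod.fst_sub, Prod.snd_sub] at l1 l2
  obtain ⟨w, hw⟩ : ∃ w, w = (Ξ q).2 - (Ξ (0, Jc)).2 := ⟨_, rfl⟩
  have σ0 : 0 ≤ σ := (norm_nonneg _).trans h1
  have s0 := L.s0
  have s1 := L.s1
  have B1 := L.B1
  rw [← hw] at l2 n2 ⊢
  have w1 := sin_sub_self (n2.le.trans s1)
  have w2 : ‖sin w‖ ≤ 2 * ‖w‖ := by
    nlinarith [norm_le_norm_sub_add (sin w) w, norm_nonneg w]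
  have p23 : B ^ 2 ≤ B ^ 3 := pow_le_pow_right₀ B1 (by norm_num)
  refine L.fin hJ σr h1 h2 (b := g (Ξ q).1 * sin w) ?_ ?_ ?_ ?_
  · have e : (Ξ q).2 = (Ξ (0, Jc)).2 + w := by rw [hw]; ring
    have c := sin_sq_add_cos_sq (Ξ (0, Jc)).2
    rw [← q3, e, sin_add, hs] at *
    linear_combination (-(g (Ξ q).1 * sin w) ^ 2) * c
  · have e : g (Ξ (0, Jc)).1 * w - g (Ξ q).1 * sin w =
        (g (Ξ (0, Jc)).1 - g (Ξ q).1) * w - g (Ξ q).1 * (sin w - w) := by ring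
    rw [e]
    refine (norm_sub_le _ _).trans ?_
    rw [norm_mul, norm_mul]
    have a : B ^ 3 ≤ B ^ 4 / s ^ 2 := by
      rw [le_div_iff₀ (by positivity)]
      exact (mul_le_of_le_one_right (by positivity) (pow_le_one₀ s0.le s1)).trans
        (pow_le_pow_right₀ B1 (by norm_num))
    calc _ ≤ B * (B * σ) * (B * σ) + B * (B * σ) ^ 2 := by
          gcongr
          · exact lg.trans (by gcongr)
          · exact w1.trans (by gcongr)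
      _ = 2 * B ^ 3 * σ ^ 2 := by ring
      _ ≤ 6 * (B ^ 4 / s ^ 2) * σ ^ 2 := by gcongr; norm_num
      _ = _ := by ring
  · rw [norm_mul]
    calc _ ≤ B * (B * σ) := by gcongr
      _ = B ^ 2 * σ := by ring
      _ ≤ _ := by gcongr
  · rw [norm_mul]
    calc _ ≤ B * (2 * (B * σ)) := by gcongr; exact w2.trans (by gcongr)
      _ = 2 * B ^ 2 * σ := by ring
      _ ≤ _ := by gcongr

/-- a zero of the curve -/
theorem relZ0 {Jc : ℂ} (hJ : ‖Jc - J₀‖ < r) {q : ℂ × ℂ} {σ : ℝ} (σr : σ ≤ r) (h1 : ‖q.1‖ ≤ σ)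
    (h2 : ‖q.2 - Jc‖ ≤ σ) (hz : g (Ξ (0, Jc)).1 = 0) :
    ‖(deriv g (Ξ (0, Jc)).1 * sin (Ξ (0, Jc)).2 * ((Ξ q).1 - (Ξ (0, Jc)).1)) ^ 2 *
      (deriv g (Ξ (0, Jc)).1 * Dn (Ξ (0, Jc)).2)⁻¹ / 2 - N.clk (fq g Ξ) q‖ ≤
      22 * B ^ 8 / s ^ 2 * σ ^ 3 := by
  obtain ⟨m, l⟩ := L.mq hJ σr h1 h2
  have l1 := (norm_fst_le (Ξ q - Ξ (0, Jc))).trans l
  have l2 := (norm_snd_le (Ξ q - Ξ (0, Jc))).trans l
  obtain ⟨n1, n2⟩ := L.near2 hJ m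
  obtain ⟨-, c1, c2, -⟩ := L.mem' (L.m0 hJ)
  obtain ⟨-, q1, q2, q3, -⟩ := L.mem' m
  have σ0 : 0 ≤ σ := (norm_nonneg _).trans h1
  have s0 := L.s0
  have s1 := L.s1
  have B1 := L.B1
  have hc := mem_ball_prod.1 (L.mem _ (L.m0 hJ)).1
  have sub1 : ball (Ξ (0, Jc)).1 s ⊆ ball P₀.1 (2 * s) :=
    ball_subset_ball' (by linarith [mem_ball.1 hc.1])
  have sub2 : ball (Ξ (0, Jc)).2 s ⊆ ball P₀.2 (2 * s) :=
    ball_subset_ball' (by linarith [mem_ball.1 hc.2])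
  have t1 := (tay (D := g) (L.ag.mono sub1).differentiableOn (fun u hu => (L.bg u (sub1 hu)).1)
    (mem_ball_iff_norm.2 n1)).2.2
  have t2 := (tay (D := sin) differentiable_sin.differentiableOn
    (fun u hu => (L.bd u (sub2 hu)).2.2) (mem_ball_iff_norm.2 n2)).2.1
  have lg := L.lipg c1 q1
  have b1 := (L.bg _ c1).2
  have b2 := (L.bd _ c2).2.2
  have b3 := (L.bd _ q2).2.2
  simp only [Prod.fst_sub, Prod.snd_sub] at l1 l2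
  rw [fderiv_eq_smul_deriv, smul_eq_mul] at t1
  rw [hz, sub_zero] at t1 lg
  generalize (Ξ q).1 - (Ξ (0, Jc)).1 = x at *
  have lg2 : ‖g (Ξ q).1‖ ≤ B * (B * σ) := lg.trans (by gcongr)
  refine L.fin hJ σr h1 h2 (b := g (Ξ q).1 * sin (Ξ q).2) (by rw [q3]) ?_ ?_ ?_
  · have e : deriv g (Ξ (0, Jc)).1 * sin (Ξ (0, Jc)).2 * x - g (Ξ q).1 * sin (Ξ q).2 =
        -(sin (Ξ (0, Jc)).2 * (g (Ξ q).1 - x * deriv g (Ξ (0, Jc)).1) +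
          g (Ξ q).1 * (sin (Ξ q).2 - sin (Ξ (0, Jc)).2)) := by ring
    rw [e, norm_neg]
    refine (norm_add_le _ _).trans ?_
    rw [norm_mul, norm_mul]
    have a : 1 / s ≤ 1 / s ^ 2 := by gcongr; nlinarith
    calc _ ≤ B * (4 * B * (B * σ / s) ^ 2) + B * (B * σ) * (2 * B / s * (B * σ)) := by
          gcongr
          · exact t1.trans (by gcongr)
          · exact t2.trans (by gcongr)
      _ = B ^ 4 * σ ^ 2 * (4 * (1 / s ^ 2) + 2 * (1 / s)) := by ring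
      _ ≤ B ^ 4 * σ ^ 2 * (4 * (1 / s ^ 2) + 2 * (1 / s ^ 2)) := by gcongr
      _ = _ := by ring
  · rw [norm_mul, norm_mul]
    calc _ ≤ B * B * (B * σ) := by gcongr
      _ = _ := by ring
  · rw [norm_mul]
    calc _ ≤ B * (B * σ) * B := by gcongr
      _ = 1 * B ^ 3 * σ := by ring
      _ ≤ _ := by gcongr; norm_num

end Lev

variable {θ : ℂ → ℂ} {ε : ℂ} {Ξ : ℂ × ℂ → ℂ × ℂ} {P₀ : ℂ × ℂ} {J₀ κ Jc z δ : ℂ} {r s B σ : ℝ}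
  {p q : ℂ × ℂ}

/-- **the gate coordinates at a fold** -/
theorem relF (L : Lev (gg θ ε) Ξ P₀ J₀ κ r s B) (hJ : ‖Jc - J₀‖ < r) (hc : Ξ (0, Jc) = (z, δ))
    (hs : sin δ = 0) {ρ : ℂ} (hρ : ρ ^ 2 * deriv θ z ^ 2 = -48 * δ * deriv (deriv θ) z)
    (σr : σ ≤ r) (h1 : ‖q.1‖ ≤ σ) (h2 : ‖q.2 - Jc‖ ≤ σ) (hp : yd (gg θ ε) p = Ξ q) :
    ‖ε * (acF θ ρ z δ (prs ε p)).1 ^ 2 - clk (fq (gg θ ε) Ξ) q‖ ≤ 22 * B ^ 8 / s ^ 2 * σ ^ 3 ∧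
      ‖(acF θ ρ z δ (prs ε p)).2‖ ≤ 2 * B * σ := by
  have k := L.relF0 hJ σr h1 h2 (by rw [hc]; exact hs)
  have n := L.ne (L.mem' (L.m0 hJ)).1
  have l := (norm_fst_le _).trans (L.mq hJ σr h1 h2).2
  rw [hc] at k n l
  have d : Dn δ = -6 * δ := by
    have c := sin_sq_add_cos_sq δ
    simp only [Dn, SS, hs] at c ⊢
    linear_combination (-6 * δ) * c
  simp only [gg_der, d] at k n
  obtain ⟨n1, n2⟩ := mul_ne_zero_iff.1 n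
  obtain ⟨n3, n4⟩ := mul_ne_zero_iff.1 n1
  have n5 : δ ≠ 0 := (mul_ne_zero_iff.1 n2).2
  have ρ0 : ρ ≠ 0 := by
    rintro rfl
    simp [n4, n5] at hρ
  rw [acF_prs, hp]
  refine ⟨le_of_eq_of_le ?_ k, l.trans ?_⟩
  · congr 2
    simp only [gg]
    field_simp
    linear_combination (((Ξ q).2 - δ) ^ 2) * hρ
  · nlinarith [L.B1, (norm_nonneg _).trans h1]

/-- **the gate coordinates at a zero** -/
theorem relZ (L : Lev (gg θ ε) Ξ P₀ J₀ κ r s B) (hJ : ‖Jc - J₀‖ < r) (hc : Ξ (0, Jc) = (z, δ))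
    (hz : gg θ ε z = 0) {k : ℂ} (hk : 4 * δ * k ^ 2 = deriv (deriv θ) z)
    (σr : σ ≤ r) (h1 : ‖q.1‖ ≤ σ) (h2 : ‖q.2 - Jc‖ ≤ σ) (hp : yd (gg θ ε) p = Ξ q) :
    ‖ε * (acZ θ k z δ (prs ε p)).1 ^ 2 - clk (fq (gg θ ε) Ξ) q‖ ≤ 22 * B ^ 8 / s ^ 2 * σ ^ 3 ∧
      ‖(acZ θ k z δ (prs ε p)).2‖ ≤ 2 * B * σ := by
  have k1 := L.relZ0 hJ σr h1 h2 (by rw [hc]; exact hz)
  have n := L.ne (L.mem' (L.m0 hJ)).1
  have l := (norm_snd_le _).trans (L.mq hJ σr h1 h2).2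
  have a := (L.mem' (L.m0 hJ)).2.2.2.2.1
  rw [hc] at k1 n l a
  have d : Dn δ = 2 * δ * sin δ ^ 2 := by
    simp only [hz] at a
    rw [Dn]
    linear_combination (-cos δ / 4) * a
  simp only [gg_der, d, ← hk] at k1 n
  rw [acZ_prs, hp]
  refine ⟨le_of_eq_of_le ?_ k1, ?_⟩
  · congr 2
    simp only [ne_eq, mul_eq_zero, not_or, pow_eq_zero_iff two_ne_zero] at n
    obtain ⟨⟨n1, ⟨-, n2⟩, n3⟩, -, n4⟩ := n
    field_simp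
    ring
  · rw [norm_mul, Complex.norm_ofNat, mul_assoc]
    exact mul_le_mul_of_nonneg_left l (by norm_num)

end Vale.Agent.P097F.N
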