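import Vale.Agent.P097F.N.Inv
import Vale.Agent.P097Q.Defs

/-!
# P097F/N: one side of the chain of kicks (definitions and statements)

Step units `p = (z, ζ)`.  Stations `i = 0, …, J` in the order of application; `C i` is the chart,
`Z i` the true family, `G i` the inverse of the chart at the station `i`, `M i` the iterate of the
step map (forward or backward) from the station `i` to the station `i + 1`.  The kick `j` runs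
from the station `b j` to the station `b (j + 1)`.
-/

set_option linter.all false

noncomputable section

namespace Vale.Agent.P097F.N

open Filter Topology Set Metric Complex Vale.Agent.P097Q

/-- the large box -/
def Bx (P : Par) (H L : ℝ) : Set (ℂ × ℂ) :=
  {p | |p.1.re| ≤ L ∧ |p.1.im| ≤ H ∧ |p.2.re| < P.ρ + 1 ∧ |p.2.im| < P.v + 1}

/-- the part of the large box below the level of slope `f` -/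
def Rc (P : Par) (H L f l lo hi : ℝ) : Set (ℂ × ℂ) :=
  {p | |p.1.re| ≤ L ∧ -H ≤ p.1.im ∧ l ≤ tt f p ∧ |p.2.re| < P.ρ + 1 ∧ lo < p.2.im ∧ p.2.im < hi}

/-- the small box -/
def Mb (P : Par) : Set (ℂ × ℂ) :=
  {p | |p.1.re| < 2 * P.σ + 1 ∧ |p.1.im| ≤ P.h + P.F * (P.v + 1) ∧ |p.2.re| < P.ρ + 1 ∧
    |p.2.im| < P.v + 1}

/-- the constants of a side -/
structure Cst where
  H : ℝ
  L : ℝ
  l₁ : ℝ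
  κ₀ : ℝ
  κ₁ : ℝ
  B : ℝ
  η : ℝ
  τ : ℝ
  δ : ℝ
  K : ℝ
  J₀ : ℕ

structure Cst.OK (P : Par) (S : Cst) : Prop where
  l0 : 0 ≤ S.l₁
  k0 : 0 ≤ S.κ₀
  k1 : 0 ≤ S.κ₁
  k3 : S.κ₀ ≤ 3 * S.H
  η0 : 0 < S.η
  ηB : S.η ≤ S.B
  τ0 : 0 ≤ S.τ
  K0 : 0 ≤ S.K
  e0 : S.B * Real.exp (-(P.c * S.κ₀)) < S.η / 2
  e1 : S.B * Real.exp (-(P.c * S.κ₁)) < S.δ
  e2 : S.K * S.B * Real.exp (-(P.c * S.κ₁)) ≤ P.B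
  e3 : 2 * S.τ * (4 * S.B / S.η) ^ S.J₀ ≤ S.B * Real.exp (-(3 * P.c * S.H))
  ll : S.l₁ + (S.J₀ + 1) * S.κ₀ + S.κ₁ + 1 ≤ P.l₀
  H1 : P.F * (P.v + 1) + P.l₀ ≤ S.H / 2
  H2 : P.h + P.F * (P.v + 1) ≤ S.H
  H3 : 2 * P.σ + 1 ≤ S.H
  HL : 8 * S.H * (S.J₀ + 1) ≤ S.L

/-- the chart inverts on the small box -/
def Iv (P : Par) (δ K : ℝ) (C G : ℂ × ℂ → ℂ × ℂ) : Prop := ∀ p ∈ Mb P, ∀ y ∈ ball (C p) δ,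
  AnalyticAt ℂ G y ∧ C (G y) = y ∧ ‖G y - p‖ ≤ K * ‖y - C p‖

/-- a link from the chart `C` to the chart `C'` on the set `R` -/
def Lk (R : Set (ℂ × ℂ)) (η B : ℝ) (C M C' : ℂ × ℂ → ℂ × ℂ) : Prop :=
  ∀ p ∈ R, ∀ q ∈ ball (C p) η, AnalyticAt ℂ M q ∧ ‖M q - C' p‖ ≤ B

/-- the data of one side -/
structure Side (P : Par) (S : Cst) (J k : ℕ) (b : ℕ → ℕ) (f lo hi : ℕ → ℝ)
    (C Z M G : ℕ → ℂ × ℂ → ℂ × ℂ) : Prop where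
  JJ : J ≤ S.J₀
  k1 : 1 ≤ k
  b0 : b 0 = 0
  bk : b k = J
  mono : ∀ j < k, b j ≤ b (j + 1)
  fF : ∀ j < k, |f j| ≤ P.F
  win : ∀ j < k, -(P.v + 1) ≤ lo j ∧ lo j ≤ -(2 * P.a) ∧ 2 * P.a ≤ hi j ∧ hi j ≤ P.v + 1
  anC : ∀ i ≤ J, ∀ p ∈ Bx P S.H S.L, AnalyticAt ℂ (C i) p
  bot : ∀ i ≤ J, ∀ p ∈ Bx P S.H S.L, p.1.im = -S.H → ‖Z i p - C i p‖ ≤ S.τ
  tru : ∀ i ≤ J, ∀ p ∈ Rc P S.H S.L 0 S.l₁ (-(2 * P.a)) (2 * P.a),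
    AnalyticAt ℂ (Z i) p ∧ ‖Z i p - C i p‖ ≤ S.B
  st : ∀ p ∈ Rc P S.H S.L (f 0) S.l₁ (lo 0) (hi 0), AnalyticAt ℂ (Z 0) p ∧ ‖Z 0 p - C 0 p‖ ≤ S.B
  lnk : ∀ j < k, ∀ i, b j ≤ i → i < b (j + 1) →
    Lk (Rc P S.H S.L (f j) S.l₁ (lo j) (hi j)) S.η S.B (C i) (M i) (C (i + 1))
  dyn : ∀ i < J, ∀ p ∈ Bx P S.H S.L, p.1.im = -S.H → M i (Z i p) = Z (i + 1) p
  inv : ∀ j, 1 ≤ j → j ≤ k → Iv P S.δ S.K (C (b j)) (G (b j))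

/-- the composition of the links `i, …, i + n - 1` -/
def Mc (M : ℕ → ℂ × ℂ → ℂ × ℂ) (i : ℕ) : ℕ → ℂ × ℂ → ℂ × ℂ
  | 0, q => q
  | n + 1, q => M (i + n) (Mc M i n q)

/-- the state which arrives at the station `b (j + 1)` -/
def Sg (b : ℕ → ℕ) (C Z M : ℕ → ℂ × ℂ → ℂ × ℂ) (j : ℕ) (p : ℂ × ℂ) : ℂ × ℂ :=
  Mc M (b j) (b (j + 1) - b j) (if j = 0 then Z 0 p else C (b j) p)

/-- the kick `j` -/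
def Ak (b : ℕ → ℕ) (C Z M G : ℕ → ℂ × ℂ → ℂ × ℂ) (j : ℕ) (p : ℂ × ℂ) : ℂ × ℂ :=
  G (b (j + 1)) (Sg b C Z M j p) - p

/-- three lines on a rectangle -/
def S_THREE : Prop := ∀ (f : ℂ → ℂ × ℂ) (H x₀ y₁ B c : ℝ), 0 < H → 0 ≤ c → -H / 2 ≤ y₁ →
  y₁ ≤ H / 2 →
  (∀ z : ℂ, |z.re - x₀| ≤ 8 * H → -H ≤ z.im → z.im ≤ y₁ → DifferentiableAt ℂ f z ∧ ‖f z‖ ≤ B) →
  (∀ z : ℂ, |z.re - x₀| ≤ 8 * H → z.im = -H → ‖f z‖ ≤ B * Real.exp (-(3 * c * H))) →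
  ∀ z : ℂ, |z.re - x₀| ≤ H → -H ≤ z.im → z.im ≤ y₁ → ‖f z‖ ≤ B * Real.exp (-(c * (y₁ - z.im)))

/-- **one side** -/
def S_SIDE : Prop := ∀ (P : Par) (S : Cst) (J k : ℕ) (b : ℕ → ℕ) (f lo hi : ℕ → ℝ)
  (C Z M G : ℕ → ℂ × ℂ → ℂ × ℂ), P.OK → S.OK P → Side P S J k b f lo hi C Z M G →
  (∀ j < k, Kick P (f j) (lo j) (hi j) (Ak b C Z M G j) ∧ ∀ p ∈ Dom P (f j) (lo j) (hi j),
    C (b (j + 1)) (p + Ak b C Z M G j p) = Sg b C Z M j p) ∧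
  ∀ g : ℝ, |g| ≤ P.F → ∀ p ∈ Thin P g,
    comp (Ak b C Z M G) k p = G J (Z J p) ∧ C J (G J (Z J p)) = Z J p

/-! ## the charts of the true family -/

/-- the base point of the charts -/
def zb (S : Cst) : ℂ := -(S.L : ℂ) - S.H * I

/-- the chart at a station with the true family `Z` -/
def Cs (T : ℂ × ℂ → ℂ × ℂ) (m : ℕ) (S : Cst) (Z : ℂ × ℂ → ℂ × ℂ) (p : ℂ × ℂ) : ℂ × ℂ :=
  Ch T m (p.1 - zb S) (Z (zb S, p.2))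

/-- the deep band -/
def Dp (S : Cst) (R : ℝ) : Set (ℂ × ℂ) :=
  {p | |p.1.re| ≤ 2 * S.L ∧ |p.1.im + S.H| ≤ S.H / 2 ∧ ‖p.2‖ < R}

/-- a station: near identity step map, true family on the deep band -/
structure Sta (S : Cst) (R r a : ℝ) (m : ℕ) (T Z : ℂ × ℂ → ℂ × ℂ) : Prop where
  nr : ∀ ζ : ℂ, ‖ζ‖ < R → Near T (Z (zb S, ζ)) r a
  hm : 216 * a * m ≤ r
  H1 : 28 ≤ S.H
  HL : S.H ≤ S.L
  Lm : 4 * S.L ≤ m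
  an : ∀ p ∈ Dp S R, AnalyticAt ℂ Z p ∧ ‖Z p - Z (zb S, p.2)‖ ≤ r
  dyn : ∀ p ∈ Dp S R, (p.1 + 1, p.2) ∈ Dp S R → T (Z p) = Z (p.1 + 1, p.2)

/-- the chart: analytic, bounded, small defect, close to the true family on the deep line -/
def S_CHART : Prop := ∀ (S : Cst) (R r a : ℝ) (m : ℕ) (T Z : ℂ × ℂ → ℂ × ℂ),
  Sta S R r a m T Z → ∀ p : ℂ × ℂ, ‖p.2‖ < R → AnalyticAt ℂ (Cs T m S Z) p ∧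
  (‖p.1 - zb S‖ ≤ 8 * m → ‖Cs T m S Z p - Z (zb S, p.2)‖ ≤ r / 4) ∧
  (‖p.1 - zb S‖ ≤ 2 * m →
    ‖T (Cs T m S Z p) - Cs T m S Z (p.1 + 1, p.2)‖ ≤ r * (1 / 2) ^ m) ∧
  (|p.1.re| ≤ S.L → |p.1.im + S.H| ≤ S.H / 28 →
    ‖Z p - Cs T m S Z p‖ ≤ 4 * r * Real.exp (-(S.H / 28)))

/-- forward transport along an orbit -/
def S_GTF : Prop := ∀ (T : ℂ × ℂ → ℂ × ℂ) (p q : ℂ × ℂ) (t : ℂ) (r a η : ℝ) (m N : ℕ),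
  (∀ j ≤ N, Near T (T^[j] p) r a) → 216 * a * m ≤ r → 1 ≤ m → ‖t‖ ≤ m → ‖q - Ch T m t p‖ ≤ η →
  (η + N * (2 * r * (1 / 2) ^ m)) * Real.exp (4 * a / r * N) < r / 2 →
  AnalyticAt ℂ (T^[N]) q ∧ ‖T^[N] q - Ch T m t (T^[N] p)‖ ≤
    (η + N * (2 * r * (1 / 2) ^ m)) * Real.exp (4 * a / r * N)

/-- backward transport along an orbit -/
def S_GTB : Prop := ∀ (T T' : ℂ × ℂ → ℂ × ℂ) (p q : ℂ × ℂ) (t : ℂ) (r a η : ℝ) (m N : ℕ),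
  (∀ j ≤ N, Near T (T^[j] p) r a ∧ Near T' (T^[j] p) r a ∧
    ∀ y ∈ ball (T^[j] p) (r / 2), T' (T y) = y) → 216 * a * m ≤ r → 1 ≤ m → ‖t‖ ≤ m →
  ‖q - Ch T m t (T^[N] p)‖ ≤ η →
  (η + N * (4 * r * (1 / 2) ^ m)) * Real.exp (4 * a / r * N) < r / 2 →
  AnalyticAt ℂ (T'^[N]) q ∧ ‖T'^[N] q - Ch T m t p‖ ≤
    (η + N * (4 * r * (1 / 2) ^ m)) * Real.exp (4 * a / r * N)

/-- the inverse of a chart in the units `ε` -/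
def S_INV : Prop := ∀ (P : Par) (C : ℂ × ℂ → ℂ × ℂ) (ε w M B κ s : ℝ), 0 < ε → 0 < κ → 0 < s →
  0 < B → s ≤ w / 2 → 64 * B * M * s ≤ κ * w ^ 2 →
  (∀ p ∈ ball (0 : ℂ × ℂ) (w / ε), AnalyticAt ℂ C p ∧ ‖C p - C 0‖ ≤ M) →
  ‖fderiv ℂ C 0‖ ≤ B * ε → κ * ε ^ 2 ≤ ‖det2 (fderiv ℂ C 0)‖ →
  (∀ p ∈ Mb P, ε * ‖p‖ < s ∧ 8 * B * M * (ε * ‖p‖) ≤ κ * s * w) →
  ∃ G, Iv P (κ * s / (8 * B)) (4 * B / (κ * ε)) C G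

end Vale.Agent.P097F.N
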