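import Vale.Agent.P097F.N.StepA
import Vale.Agent.P097N.K

/-!
# P097F.N: the step lemma from the expansion of the kernels
-/

set_option linter.all false

noncomputable section

namespace Vale.Agent.P097F.N

open Filter Topology Set Metric Complex Vale.Agent.P097N

namespace StepA

theorem pr {a b x y : ℂ} {α β η B : ℝ} (ha : ‖a‖ ≤ α) (hb : ‖b‖ ≤ β) (hx : ‖x‖ ≤ η) (hy : ‖y‖ ≤ η)
    (hB : η ≤ B) : ‖(a + x) * (b + y) - a * b‖ ≤ (α + β + B) * η := by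
  rw [show (a + x) * (b + y) - a * b = a * y + b * x + x * y by ring]
  have η0 := (norm_nonneg _).trans hx
  have e1 := norm_mul_le_of_le ha hy
  have e2 := norm_mul_le_of_le hb hx
  have e3 := norm_mul_le_of_le (hx.trans hB) hy
  linarith [norm_add₃_le (a := a * y) (b := b * x) (c := x * y)]

/-- normal form of the expansion -/
theorem nf {k₀ k₁ c t A n m V W : ℂ} {C κ : ℝ} (c0 : c ≠ 0) (t0 : t ≠ 0) (hm : ‖m‖ ≤ κ)
    (κ1 : κ ≤ 1) (hV : ‖V‖ ≤ C) (hW : ‖W‖ ≤ C)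
    (h0 : ‖k₀ / c - t ^ 2 * (A + m * V)‖ ≤ C * κ ^ 2 * ‖t‖ ^ 2)
    (h1 : ‖k₁ / c - t * (n + m * W)‖ ≤ C * κ ^ 2 * ‖t‖) :
    ∃ e₀ e₁ : ℂ, ‖e₀‖ ≤ C * κ ^ 2 ∧ ‖e₁‖ ≤ C * κ ^ 2 ∧ ‖m * V + e₀‖ ≤ 2 * C * κ ∧
      ‖m * W + e₁‖ ≤ 2 * C * κ ∧ k₀ = c * t ^ 2 * (A + (m * V + e₀)) ∧
      k₁ = c * t * (n + (m * W + e₁)) := by
  have tp := norm_pos_iff.2 t0
  have κ0 := (norm_nonneg _).trans hm
  have C0 := (norm_nonneg _).trans hV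
  have a0 : ‖(k₀ / c - t ^ 2 * (A + m * V)) / t ^ 2‖ ≤ C * κ ^ 2 := by
    rw [norm_div, norm_pow, div_le_iff₀ (by positivity)]; exact h0
  have a1 : ‖(k₁ / c - t * (n + m * W)) / t‖ ≤ C * κ ^ 2 := by
    rw [norm_div, div_le_iff₀ tp]; exact h1
  have a2 : C * κ ^ 2 ≤ C * κ := by nlinarith [mul_nonneg C0 κ0]
  refine ⟨_, _, a0, a1, (norm_add_le _ _).trans ?_, (norm_add_le _ _).trans ?_, ?_, ?_⟩
  · linarith [norm_mul_le_of_le hm hV]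
  · linarith [norm_mul_le_of_le hm hW]
  · field_simp; ring
  · field_simp; ring

theorem aE {θ h Q : ℂ → ℂ} {c y s t : ℂ} {U : Set ℂ} (Cu : Cv θ h Q c U) (h0 : y ∈ U)
    (h1 : y + t ∈ U) (h2 : y - s ∈ U) : AnalyticAt ℂ
      (fun q : (ℂ × ℂ) × ℂ => EE θ h (q.1.1 - q.1.2) q.1.1 (q.1.1 + q.2)) ((y, s), t) := by
  have a1 := (sk θ h Q c U Cu).1 y h0 _ h1
  have a2 := (sk θ h Q c U Cu).1 y h0 _ h2
  have p0 : AnalyticAt ℂ (fun q : (ℂ × ℂ) × ℂ => q.1.1) ((y, s), t) :=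
    AnalyticAt.comp (g := Prod.fst) (f := Prod.fst) analyticAt_fst analyticAt_fst
  have p3 : AnalyticAt ℂ (fun q : (ℂ × ℂ) × ℂ => q.1.2) ((y, s), t) :=
    AnalyticAt.comp (g := Prod.snd) (f := Prod.fst) analyticAt_snd analyticAt_fst
  have p1 : AnalyticAt ℂ (fun q : (ℂ × ℂ) × ℂ => (q.1.1, q.1.1 + q.2)) ((y, s), t) :=
    p0.prod (p0.fun_add analyticAt_snd)
  have p2 : AnalyticAt ℂ (fun q : (ℂ × ℂ) × ℂ => (q.1.1, q.1.1 - q.1.2)) ((y, s), t) :=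
    p0.prod (p0.fun_sub p3)
  have b1 := a1.1.comp_of_eq p1 rfl
  have b2 := a1.2.1.comp_of_eq p1 rfl
  have b3 := a2.1.comp_of_eq p2 rfl
  have b4 := a2.2.1.comp_of_eq p2 rfl
  refine ((b1.fun_mul b4).fun_add (b3.fun_mul b2)).congr (Eventually.of_forall fun q => ?_)
  simp only [EE, Function.comp]

theorem nm {M B c₀ κ σ : ℝ} (M2 : 1 ≤ M ^ 2) (B1 : 1 ≤ B) (c1 : c₀ * (128 * M ^ 2 + 16 * B) = 1)
    (c2 : 0 < c₀) (σ0 : 0 < σ) (σ1 : σ ≤ 1) (hκ : κ ≤ c₀ ^ 2 * σ ^ 3) :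
    2 * c₀ * σ ≤ 1 ∧ 32 * (2 * M ^ 2) * (2 * c₀ * σ) ≤ σ ∧
      32 * (B * κ) ≤ 2 * c₀ * σ * σ ^ 2 ∧ c₀ * σ ≤ 1 := by
  have a0 : c₀ ≤ 1 / 4 := by nlinarith
  have a1 : 16 * B * c₀ ≤ 1 := by nlinarith
  have a4 : 128 * M ^ 2 * c₀ ≤ 1 := by nlinarith
  have a2 := mul_le_mul_of_nonneg_left hκ (show 0 ≤ 32 * B by linarith)
  have a3 := mul_le_mul_of_nonneg_left a1 (show 0 ≤ 2 * c₀ * σ ^ 3 by positivity)
  refine ⟨by nlinarith, by nlinarith, by nlinarith, by nlinarith⟩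

theorem b2 {τ : ℂ} (s : ℂ) (hτ : τ ∈ ball (1 : ℂ) 1) :
    ‖τ - 1‖ < 1 ∧ ‖τ‖ ≤ 2 ∧ τ ≠ 0 ∧ ‖s * τ‖ ≤ 2 * ‖s‖ := by
  rw [mem_ball, dist_eq_norm] at hτ
  have a1 : ‖τ‖ ≤ 2 := by
    have := norm_sub_norm_le τ 1
    rw [norm_one] at this
    linarith
  refine ⟨hτ, a1, fun e => by simp [e] at hτ, ?_⟩
  rw [norm_mul]; nlinarith [norm_nonneg s]

end StepA

open StepA

theorem step (X : S_EXP) : S_STEP := fun Λ => by
  obtain ⟨C, C1, hC⟩ := X Λ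
  obtain ⟨M, M1, hM⟩ := snc_bd Λ
  obtain ⟨B, hB⟩ : ∃ B : ℝ, B = 12 * C * (M ^ 2 + M + 2 * C) := ⟨_, rfl⟩
  have M2 : 1 ≤ M ^ 2 := one_le_pow₀ M1
  have B1 : 1 ≤ B := by nlinarith
  obtain ⟨c₀, hc₀⟩ : ∃ c₀ : ℝ, c₀ = 1 / (128 * M ^ 2 + 16 * B) := ⟨_, rfl⟩
  have c1 : c₀ * (128 * M ^ 2 + 16 * B) = 1 := by rw [hc₀]; field_simp
  have c2 : 0 < c₀ := by rw [hc₀]; positivity
  have c3 : c₀ ≤ 1 / 4 := by nlinarith
  refine ⟨c₀, (64 * M ^ 2 + 16) * B ^ 2 + 4 * B, c2, c3, by nlinarith, ?_⟩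
  intro θ h Q c U y s κ σ Cu s0 S σ0 σ1 hσ hκ
  obtain ⟨n1, n2, n3, n4⟩ := nm M2 B1 c1 c2 σ0 σ1 hκ
  have sp := norm_pos_iff.2 s0
  have c0 := Cu.c0
  have cs : c ^ 2 * s ^ 3 ≠ 0 := mul_ne_zero (pow_ne_zero _ c0) (pow_ne_zero _ s0)
  have yU : y ∈ U := S.sub (mem_closedBall_self (by positivity))
  have mU : ∀ t : ℂ, ‖t‖ ≤ 2 * ‖s‖ → y + t ∈ U := fun t ht =>
    S.sub (by simpa [mem_closedBall, dist_eq_norm] using ht)
  have hm : ∀ t : ℂ, ‖t‖ ≤ 2 * ‖s‖ → ‖t ^ 2 * deriv (deriv θ) y‖ ≤ κ := fun t ht => by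
    refine le_trans ?_ (S.g1 y (mem_closedBall_self (by positivity)))
    rw [norm_mul, norm_pow]; gcongr
  have κ0 : 0 ≤ κ := (norm_nonneg _).trans (hm 0 (by simp))
  have κ1 := S.k1
  have NF := fun t (t0 : t ≠ 0) (ht : ‖t‖ ≤ 2 * ‖s‖) =>
    have e := hC θ h Q c U y t _ κ Cu S ht
    nf c0 t0 (hm t ht) κ1 e.1 e.2.1 e.2.2.1 e.2.2.2
  obtain ⟨δ, hδ⟩ : ∃ δ, δ = s * deriv θ y / 2 := ⟨_, rfl⟩
  have hδ2 : s * deriv θ y = 2 * δ := by rw [hδ]; ring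
  have bδ : 4 * ‖δ‖ ≤ Λ := by
    have := S.g0
    rw [mul_assoc, ← norm_mul, hδ2, norm_mul, Complex.norm_two] at this
    linarith
  have δ0 := norm_nonneg δ
  have bs : ∀ τ : ℂ, ‖τ‖ ≤ 4 → ‖snc (δ * τ)‖ ≤ M := fun τ hτ => hM _ (by
    rw [norm_mul]; linarith [mul_le_mul_of_nonneg_left hτ δ0])
  have bA : ∀ τ : ℂ, ‖τ‖ ≤ 4 → ‖snc (δ * τ) ^ 2 / 2‖ ≤ M ^ 2 := fun τ hτ => by
    rw [norm_div, norm_pow, Complex.norm_two]
    have := pow_le_pow_left₀ (norm_nonneg _) (bs τ hτ) 2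
    linarith
  rw [← hδ] at hσ ⊢
  have S1 : snc δ ≠ 0 := norm_pos_iff.1 (σ0.trans_le hσ)
  obtain ⟨e₃, e₄, f3, f4, g3, g4, k3, k4⟩ := NF (-s) (neg_ne_zero.2 s0) (by rw [norm_neg]; linarith)
  rw [← sub_eq_add_neg, neg_mul, hδ2] at k3 k4
  rw [neg_mul, hδ2] at g3 g4
  rw [show -(2 * δ) / 2 = -δ by ring, snc_neg] at k3
  rw [snc_neg] at k4
  rw [neg_sq] at k3 k4 g3 g4
  obtain ⟨F, hF⟩ : ∃ F : (ℂ × ℂ) × ℂ → ℂ,
      F = fun q => EE θ h (q.1.1 - q.1.2) q.1.1 (q.1.1 + q.2) := ⟨_, rfl⟩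
  have aF : ∀ t : ℂ, ‖t‖ ≤ 2 * ‖s‖ → AnalyticAt ℂ F ((y, s), t) := fun t ht => hF ▸
    aE Cu yU (mU t ht) (by simpa [sub_eq_add_neg] using mU (-s) (by rw [norm_neg]; linarith))
  obtain ⟨H, hH⟩ : ∃ H : ℂ → ℂ, H = fun τ => τ * snc (δ * τ) * snc (δ * (τ - 1)) := ⟨_, rfl⟩
  have H1 : H 1 = snc δ := by simp [hH, snc_zero]
  have dH : Differentiable ℂ H := by
    have := snc_d
    rw [hH]; fun_prop
  obtain ⟨E, hE⟩ : ∃ E : ℂ → ℂ, E = fun τ => F ((y, s), s * τ) / (c ^ 2 * s ^ 3) := ⟨_, rfl⟩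
  have dE : DifferentiableOn ℂ E (ball 1 1) := fun τ hτ => by
    rw [hE]
    exact (((aF _ (b2 s hτ).2.2.2).comp_of_eq (f := fun τ : ℂ => ((y, s), s * τ)) (by fun_prop)
      rfl).differentiableAt.div_const _).differentiableWithinAt
  have η1 : 2 * C * κ ≤ 2 * C := mul_le_of_le_one_right (by positivity) κ1
  have bD : ∀ τ ∈ ball (1 : ℂ) 1, ‖E τ - H 1 * (τ - 1) * H τ / 2‖ ≤ B * κ := fun τ hτ => by
    obtain ⟨a1, a2, a3, a4⟩ := b2 s hτ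
    obtain ⟨e₁, e₂, -, -, g1, g2, k1, k2⟩ := NF (s * τ) (mul_ne_zero s0 a3) a4
    rw [show s * τ * deriv θ y = 2 * (δ * τ) by rw [hδ]; ring] at k1 k2 g1 g2
    rw [mul_div_cancel_left₀ _ two_ne_zero] at k1
    have p1 := pr (bA τ (by linarith)) (bs 2 (by norm_num)) g1 ((norm_neg _).trans_le g4) η1
    have p2 := pr (bA 1 (by norm_num)) ((norm_neg _).trans_le (bs (2 * τ) (by
      rw [norm_mul, Complex.norm_two]; linarith))) g3 g2 η1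
    have p3 := norm_mul_le_of_le (show ‖τ ^ 2‖ ≤ 2 ^ 2 by rw [norm_pow]; gcongr) p1
    have p4 := norm_mul_le_of_le a2 p2
    refine le_trans (le_of_eq (congrArg _ ?_)) ((norm_add_le_of_le p3 p4).trans
      (le_of_eq (by rw [hB]; ring)))
    rw [H1, hE, hF, hH]
    simp only [EE]
    rw [k1, k2, k3, k4, mul_one, mul_comm δ 2, show δ * (2 * τ) = 2 * (δ * τ) by ring, snc_two,
      snc_two]
    rw [sub_eq_iff_eq_add, div_eq_iff cs]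
    linear_combination (c ^ 2 * s ^ 3 * τ * snc δ * snc (δ * τ) / 2) * snc_sub δ τ
  have ρ0 : 0 < 2 * c₀ * σ := by positivity
  obtain ⟨τ, r1, r2, r3, r4, r5, r6⟩ := rt (H := H) (E := E) (M := 2 * M ^ 2) (ρ := 2 * c₀ * σ)
    (D := fun τ => E τ - H 1 * (τ - 1) * H τ / 2)
    dH.differentiableOn (dE.sub (by fun_prop)) (fun τ hτ => by
      obtain ⟨a1, a2, -, -⟩ := b2 s hτ
      rw [hH]
      exact (norm_mul_le_of_le (norm_mul_le_of_le a2 (bs τ (by linarith)))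
        (bs (τ - 1) (by linarith))).trans (le_of_eq (by ring))) bD (fun x => by ring) σ0 σ1
    (by rwa [H1]) ρ0 n1 n2 n3
  have ns : ∀ x : ℂ, ‖s * x - s‖ = ‖x - 1‖ * ‖s‖ := fun x => by
    rw [← norm_mul]; congr 1; ring
  have u0 : F ((y, s), s * τ) = 0 := by simpa [hE, cs, c0, s0] using r1
  have u1 : ∀ t, F ((y, s), t) = 0 → ‖t - s‖ < c₀ * σ * ‖s‖ → t = s * τ := fun t a1 a2 => by
    have e : s * (t / s) = t := by field_simp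
    rw [← e] at a1 a2 ⊢
    rw [ns] at a2
    rw [r4 (t / s) (by linarith [lt_of_mul_lt_mul_right a2 sp.le]) (by rw [hE]; simp only [a1]; simp)]
  have u2 : ‖s * τ - s‖ ≤ c₀ * σ * ‖s‖ / 4 := by
    rw [ns]; linarith [mul_le_mul_of_nonneg_right r2 sp.le]
  have u3 : 0 < c₀ * σ * ‖s‖ := by positivity
  have u4 : c₀ * σ * ‖s‖ ≤ ‖s‖ := mul_le_of_le_one_left sp.le n4
  have ex : nx θ h y s = s * τ := nx_eq ⟨by simpa [hF] using u0, fun t a1 a2 =>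
    u1 t (by simpa [hF] using a1) (by linarith)⟩
  have aF' : ∀ t ∈ ball s (c₀ * σ * ‖s‖), AnalyticAt ℂ F ((y, s), t) := fun t ht => aF t (by
    rw [mem_ball, dist_eq_norm] at ht
    linarith [norm_sub_norm_le t s])
  refine ⟨by simpa [hF, ex] using u0, fun t a1 a2 => ex ▸ u1 t (by simpa [hF] using a1) a2,
    ana (F := F) (m := Prod.snd) (p := (y, s)) continuousAt_snd u3 aF' u0 (by simp only; linarith)
      u1 (fun hd => r5 ?_) (fun q x a1 a2 => nx_eq ⟨by simpa [hF] using a1, fun t b1 b2 =>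
        a2 t (by simpa [hF] using b1) b2⟩), ?_, by rw [ex]; linarith, ?_⟩
  · rw [hE]
    exact ((hd.comp τ ((hasDerivAt_id' τ).const_mul s)).div_const _).congr_deriv (by simp)
  · rw [ex, ns]
    refine mul_le_mul_of_nonneg_right (r3.trans ?_) sp.le
    rw [← mul_assoc]
    gcongr
    exact le_add_of_nonneg_left (by positivity)
  obtain ⟨e₁, e₂, f1, f2, g1, g2, k1, k2⟩ := NF s s0 (by linarith)
  rw [hδ2] at k1 k2 g1 g2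
  rw [mul_div_cancel_left₀ _ two_ne_zero] at k1
  obtain ⟨μ, hμ⟩ : ∃ μ, μ = s ^ 2 * deriv (deriv θ) y := ⟨_, rfl⟩
  rw [← hμ] at k1 k2 k3 k4 g1 g2 g3 g4 ⊢
  have v1 : E 1 + snc δ ^ 2 / 2 * (μ * ps δ) = snc (δ * 1) ^ 2 / 2 * e₂ - snc (δ * 1) ^ 2 / 2 * e₄ +
      (snc (δ * 2) * e₁ - snc (δ * 2) * e₃) + ((μ * VV (-(2 * δ)) + e₃) * (μ * UU (2 * δ) + e₂) -
      (μ * VV (2 * δ) + e₁) * (μ * UU (-(2 * δ)) + e₄)) := by
    rw [hE, hF]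
    simp only [EE]
    rw [mul_one, k1, k2, k3, k4, mul_one, mul_comm δ 2, VV_neg, UU_neg]
    rw [← eq_sub_iff_add_eq, div_eq_iff cs]
    linear_combination (c ^ 2 * s ^ 3 * μ) * ps_eq S1
  have v2 : ‖E 1 + snc δ ^ 2 / 2 * (μ * ps δ)‖ ≤ B * κ ^ 2 := by
    have a1 := bA 1 (by norm_num)
    have a2 := bs 2 (by norm_num)
    rw [v1]
    refine (norm_add_le_of_le (norm_add_le_of_le (norm_sub_le_of_le (norm_mul_le_of_le a1 f2)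
      (norm_mul_le_of_le a1 f4)) (norm_sub_le_of_le (norm_mul_le_of_le a2 f1)
      (norm_mul_le_of_le a2 f3))) (norm_sub_le_of_le (norm_mul_le_of_le g3 g2)
      (norm_mul_le_of_le g1 g4))).trans ?_
    rw [hB]
    have : 0 ≤ C * κ ^ 2 * (10 * M ^ 2 + 10 * M + 16 * C) := by positivity
    linarith
  have v3 : ‖2 * (E 1 + snc δ ^ 2 / 2 * (μ * ps δ)) / snc δ ^ 2‖ ≤ 4 * B * κ ^ 2 / σ ^ 5 := by
    rw [norm_div, norm_mul, norm_pow, Complex.norm_two]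
    refine div_le_div₀ (by positivity) (by linarith [mul_nonneg (zero_le_one.trans B1) (sq_nonneg κ)])
      (by positivity) ?_
    exact (pow_le_pow_of_le_one σ0.le σ1 (by norm_num)).trans (pow_le_pow_left₀ σ0.le hσ 2)
  rw [ex, show s * τ - s - s * (μ * ps δ) = (τ - 1 + 2 * (E 1 - H 1 * (1 - 1) * H 1 / 2) / H 1 ^ 2 -
    2 * (E 1 + snc δ ^ 2 / 2 * (μ * ps δ)) / snc δ ^ 2) * s by rw [H1]; field_simp; ring, norm_mul]
  refine mul_le_mul_of_nonneg_right ((norm_sub_le_of_le r6 v3).trans (le_of_eq ?_)) sp.le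
  ring

end Vale.Agent.P097F.N
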