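import Vale.Agent.P097F.N.StepAll

/-!
# P097F.N: the sharp step lemma
-/

set_option linter.all false

noncomputable section

namespace Vale.Agent.P097F.N

open Filter Topology Set Metric Complex Vale.Agent.P097N

/-- the step, sharp form -/
def S_STEP2 : Prop := ∀ Λ : ℝ, ∃ c₀ C : ℝ, 0 < c₀ ∧ c₀ ≤ 1 / 4 ∧ 1 ≤ C ∧
  ∀ (θ h Q : ℂ → ℂ) (c : ℂ) (U : Set ℂ) (y s : ℂ) (κ σ : ℝ), Cv θ h Q c U → s ≠ 0 →
  Sc θ Q U y (2 * ‖s‖) Λ κ → 0 < σ → σ ≤ 1 → σ ≤ ‖snc (s * deriv θ y / 2)‖ → κ ≤ c₀ ^ 2 * σ ^ 2 →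
  EE θ h (y - s) y (y + nx θ h y s) = 0 ∧
  (∀ t, EE θ h (y - s) y (y + t) = 0 → ‖t - s‖ < c₀ * σ * ‖s‖ → t = nx θ h y s) ∧
  AnalyticAt ℂ (fun p : ℂ × ℂ => nx θ h p.1 p.2) (y, s) ∧
  ‖nx θ h y s - s‖ ≤ C * κ / σ * ‖s‖ ∧ ‖nx θ h y s - s‖ ≤ c₀ * σ / 2 * ‖s‖ ∧
  ‖nx θ h y s - s - s * (s ^ 2 * deriv (deriv θ) y * ps (s * deriv θ y / 2))‖ ≤
    C * κ ^ 2 / σ ^ 3 * ‖s‖

namespace StepA

theorem snc_bd2 (R : ℝ) : ∃ M : ℝ, 1 ≤ M ∧ ∀ z : ℂ, ‖z‖ ≤ R → ‖snc z‖ ≤ M ∧ ‖cos z‖ ≤ M := by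
  obtain ⟨M, M1, hM⟩ := snc_bd R
  obtain ⟨N, hN⟩ := (isCompact_closedBall (0 : ℂ) R).exists_bound_of_continuousOn
    Complex.continuous_cos.continuousOn
  exact ⟨max M N, M1.trans (le_max_left _ _), fun z hz => ⟨(hM z hz).trans (le_max_left _ _),
    (hN z (by simpa using hz)).trans (le_max_right _ _)⟩⟩

theorem nm2 {M B c₀ κ σ : ℝ} (M2 : 1 ≤ M ^ 2) (B1 : 1 ≤ B)
    (c1 : c₀ * (128 * M ^ 2 + 128 * B) = 1) (c2 : 0 < c₀) (σ0 : 0 < σ) (σ1 : σ ≤ 1)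
    (hκ : κ ≤ c₀ ^ 2 * σ ^ 2) :
    2 * c₀ * σ ≤ 1 ∧ 32 * (2 * M ^ 2) * (2 * c₀ * σ) ≤ σ ∧
      64 * (B * κ) ≤ 2 * c₀ * σ * σ ∧ c₀ * σ ≤ 1 ∧ 128 * (B * κ) ≤ σ ^ 2 ∧ κ ≤ σ := by
  have a0 : c₀ ≤ 1 / 4 := by nlinarith
  have a1 : 128 * B * c₀ ≤ 1 := by nlinarith
  have a4 : 128 * M ^ 2 * c₀ ≤ 1 := by nlinarith
  have a2 := mul_le_mul_of_nonneg_left hκ (show 0 ≤ 128 * B by linarith)
  have a3 := mul_le_mul_of_nonneg_left a1 (show 0 ≤ c₀ * σ ^ 2 by positivity)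
  have a5 : c₀ * σ ^ 2 ≤ σ ^ 2 := mul_le_of_le_one_left (by positivity) (by linarith)
  have a6 : c₀ ^ 2 * σ ^ 2 ≤ σ ^ 2 := mul_le_of_le_one_left (by positivity) (by nlinarith)
  have a7 : 0 < c₀ * σ ^ 2 := by positivity
  refine ⟨by nlinarith, by nlinarith, by nlinarith, by nlinarith, by nlinarith, by nlinarith⟩

theorem fo2 {S k μ V W e₁ e₂ e₃ e₄ : ℂ} {M C κ : ℝ} (hS : ‖S‖ ≤ M) (hk : ‖k‖ ≤ M) (M1 : 1 ≤ M)
    (C1 : 1 ≤ C) (κ0 : 0 ≤ κ) (κ1 : κ ≤ 1) (κS : κ ≤ ‖S‖) (f1 : ‖e₁‖ ≤ C * κ ^ 2)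
    (f2 : ‖e₂‖ ≤ C * κ ^ 2) (f3 : ‖e₃‖ ≤ C * κ ^ 2) (f4 : ‖e₄‖ ≤ C * κ ^ 2)
    (g1 : ‖μ * V + e₁‖ ≤ 2 * C * κ) (g2 : ‖μ * W + e₂‖ ≤ 2 * C * κ)
    (g3 : ‖μ * -V + e₃‖ ≤ 2 * C * κ) (g4 : ‖μ * -W + e₄‖ ≤ 2 * C * κ) :
    ‖(S ^ 2 / 2 + (μ * V + e₁)) * (S * k - (μ * -W + e₄)) +
      (S ^ 2 / 2 + (μ * -V + e₃)) * (-(S * k) + (μ * W + e₂))‖ ≤
      12 * C * (M ^ 2 + M + 2 * C) * κ * ‖S‖ ∧
    ‖(S ^ 2 / 2 + (μ * V + e₁)) * (S * k - (μ * -W + e₄)) +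
      (S ^ 2 / 2 + (μ * -V + e₃)) * (-(S * k) + (μ * W + e₂)) -
      μ * (S ^ 2 * W + 2 * (S * k) * V)‖ ≤ 12 * C * (M ^ 2 + M + 2 * C) * κ ^ 2 * ‖S‖ := by
  have S0 := norm_nonneg S
  have a1 : ‖S ^ 2 / 2‖ ≤ M * ‖S‖ := by
    rw [norm_div, norm_pow, Complex.norm_two]; nlinarith
  have a2 : ‖S * k‖ ≤ M * ‖S‖ := by rw [norm_mul]; nlinarith
  have a3 : ‖μ * W‖ ≤ 3 * C * κ := by
    have := norm_sub_le_of_le g2 f2
    rw [add_sub_cancel_right] at this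
    nlinarith [mul_nonneg (zero_le_one.trans C1) κ0]
  have a4 : ‖μ * W * e₃ + μ * W * e₁ + ((μ * -V + e₃) * e₂ - (μ * V + e₁) * e₄)‖ ≤
      10 * C ^ 2 * κ ^ 2 * ‖S‖ := by
    refine (norm_add_le_of_le (norm_add_le_of_le (norm_mul_le_of_le a3 f3)
      (norm_mul_le_of_le a3 f1)) (norm_sub_le_of_le (norm_mul_le_of_le g3 f2)
      (norm_mul_le_of_le g1 f4))).trans ?_
    linarith [mul_le_mul_of_nonneg_left κS (show 0 ≤ 10 * C ^ 2 * κ ^ 2 by positivity)]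
  have a5 : 10 * C ^ 2 * κ ^ 2 * ‖S‖ ≤ 10 * C ^ 2 * κ * ‖S‖ := by
    have := mul_le_mul_of_nonneg_left κ1 (show 0 ≤ 10 * C ^ 2 * κ * ‖S‖ by positivity)
    linarith
  constructor
  · refine le_trans (le_of_eq (congrArg _ (by ring))) ((norm_add_le_of_le (norm_add_le_of_le
      (norm_sub_le_of_le (norm_mul_le_of_le a1 g2) (norm_mul_le_of_le a1 g4))
      (norm_sub_le_of_le (norm_mul_le_of_le a2 g1) (norm_mul_le_of_le a2 g3))) a4).trans ?_)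
    have : 0 ≤ C * κ * ‖S‖ * (12 * M ^ 2 + 4 * M + 14 * C) := by positivity
    linarith
  · refine le_trans (le_of_eq (congrArg _ (by ring))) ((norm_add_le_of_le (norm_add_le_of_le
      (norm_sub_le_of_le (norm_mul_le_of_le a1 f2) (norm_mul_le_of_le a1 f4))
      (norm_sub_le_of_le (norm_mul_le_of_le a2 f1) (norm_mul_le_of_le a2 f3))) a4).trans ?_)
    have : 0 ≤ C * κ ^ 2 * ‖S‖ * (12 * M ^ 2 + 8 * M + 14 * C) := by positivity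
    linarith

/-- the root of `S (τ - 1) H τ / 2 + D τ` near `1` -/
theorem rt2 {H D E : ℂ → ℂ} {M η σ ρ : ℝ} (dH : DifferentiableOn ℂ H (ball 1 1))
    (dD : DifferentiableOn ℂ D (ball 1 1)) (bH : ∀ x ∈ ball (1 : ℂ) 1, ‖H x‖ ≤ M)
    (bD : ∀ x ∈ ball (1 : ℂ) 1, ‖D x‖ ≤ η) (hE : ∀ x, E x = H 1 * (x - 1) * H x / 2 + D x)
    (σ0 : 0 < σ) (σ1 : σ ≤ 1) (hσ : σ ≤ ‖H 1‖) (ρ0 : 0 < ρ) (ρ1 : ρ ≤ 1) (h1 : 32 * M * ρ ≤ σ)
    (h2 : 64 * η ≤ ρ * σ) (h3 : 128 * η ≤ σ ^ 2) (b1 : ‖D 1‖ ≤ η * ‖H 1‖) :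
    ∃ t, E t = 0 ∧ ‖t - 1‖ ≤ ρ / 8 ∧ ‖t - 1‖ ≤ 4 * η / σ ∧
      (∀ t', ‖t' - 1‖ < ρ / 2 → E t' = 0 → t' = t) ∧ ¬ HasDerivAt E 0 t ∧
      ‖t - 1 + 2 * D 1 / H 1 ^ 2‖ ≤ (32 * M + 16) * η ^ 2 / σ ^ 3 := by
  have S0 : 0 < ‖H 1‖ := σ0.trans_le hσ
  have S1 : H 1 ≠ 0 := norm_pos_iff.1 S0
  have M0 : 0 ≤ M := (norm_nonneg _).trans (bH 1 (mem_ball_self one_pos))
  have η0 : 0 ≤ η := (norm_nonneg _).trans (bD 1 (mem_ball_self one_pos))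
  have sb : ball (1 : ℂ) ρ ⊆ ball 1 1 := ball_subset_ball ρ1
  have q1 : ∀ x ∈ ball (1 : ℂ) 1, ‖(x - 1) * (H x - H 1) / H 1‖ ≤ 2 * M * ‖x - 1‖ ^ 2 / σ :=
    fun x hx => by
      rw [norm_div, norm_mul]
      refine div_le_div₀ (by positivity) ?_ σ0 hσ
      nlinarith [mul_le_mul_of_nonneg_left (sch dH bH hx) (norm_nonneg (x - 1))]
  have q2 : ∀ (u : ℂ) (b : ℝ), ‖u‖ ≤ b → ‖2 * u / H 1 ^ 2‖ ≤ 2 * b / σ ^ 2 := fun u b hb => by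
    rw [norm_div, norm_mul, norm_pow, Complex.norm_two]
    exact div_le_div₀ (by linarith [norm_nonneg u]) (by linarith) (by positivity)
      (pow_le_pow_left₀ σ0.le hσ 2)
  have q3 : ‖2 * D 1 / H 1 ^ 2‖ ≤ 2 * η / σ := by
    rw [norm_div, norm_mul, norm_pow, Complex.norm_two, div_le_div_iff₀ (by positivity) σ0]
    nlinarith [mul_le_mul b1 hσ σ0.le (by positivity)]
  set ψ : ℂ → ℂ := fun x => (x - 1) * (H x - H 1) / H 1 + 2 * D x / H 1 ^ 2 with hψ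
  have dψ : DifferentiableOn ℂ ψ (ball 1 ρ) :=
    ((((differentiableOn_id.sub_const 1).mul (dH.sub_const _)).div_const _).add
      ((dD.const_mul 2).div_const _)).mono sb
  have bψ : ∀ x ∈ ball (1 : ℂ) ρ, ‖ψ x‖ ≤ ρ / 8 := fun x hx => by
    have a1 := q1 x (sb hx)
    have a0 : ‖x - 1‖ ≤ ρ := by simpa [dist_eq_norm] using (mem_ball.1 hx).le
    have a2 := q2 _ _ ((sch dD bD (sb hx)).trans (mul_le_mul_of_nonneg_left a0 (by positivity)))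
    have a3 : ‖x - 1‖ ^ 2 ≤ ρ ^ 2 :=
      pow_le_pow_left₀ (norm_nonneg _) (by simpa [dist_eq_norm] using (mem_ball.1 hx).le) 2
    have a4 : 2 * M * ‖x - 1‖ ^ 2 / σ ≤ ρ / 16 := by
      rw [div_le_iff₀ σ0]; nlinarith [mul_le_mul_of_nonneg_left a3 M0]
    have a5 : 2 * η / σ ≤ ρ / 32 := by
      rw [div_le_iff₀ σ0]; linarith
    have a6 : 2 * (2 * η * ρ) / σ ^ 2 ≤ ρ / 32 := by
      rw [div_le_iff₀ (by positivity)]; nlinarith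
    have a7 : ψ x = (x - 1) * (H x - H 1) / H 1 + 2 * (D x - D 1) / H 1 ^ 2 +
        2 * D 1 / H 1 ^ 2 := by simp only [hψ]; ring
    rw [a7]
    exact norm_add₃_le.trans (by linarith)
  have eψ : ∀ x, ψ x + (x - 1) = 2 * E x / H 1 ^ 2 := fun x => by
    rw [hE, hψ]; field_simp; ring
  obtain ⟨t, e1, e2, e3, e4⟩ := P097N.Root.fix ρ0 dψ bψ
  have e5 : ‖t - 1‖ ≤ 4 * η / σ := by
    have : ψ 1 = 2 * D 1 / H 1 ^ 2 := by simp [hψ]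
    rw [this] at e3
    have : 4 * η / σ = 2 * (2 * η / σ) := by ring
    linarith
  have tm : t ∈ ball (1 : ℂ) (ρ / 2) := by rw [mem_ball, dist_eq_norm]; linarith
  have tm1 : t ∈ ball (1 : ℂ) 1 := ball_subset_ball (by linarith) tm
  refine ⟨t, ?_, e2, e5, fun t' a1 a2 => e4 t' a1 (by rw [eψ, a2]; simp), fun hd => ?_, ?_⟩
  · rw [eψ] at e1
    simpa [S1] using e1
  · have k := P097N.Root.der ρ0 dψ bψ tm
    have k1 : HasDerivAt ψ (-1) t := by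
      have : ψ = fun x => 2 * E x / H 1 ^ 2 - (x - 1) := funext fun x => by rw [← eψ]; ring
      rw [this]
      exact (((hd.const_mul 2).div_const _).sub ((hasDerivAt_id' t).sub_const 1)).congr_deriv
        (by simp)
    rw [k1.deriv] at k
    norm_num at k
  · have : t - 1 + 2 * D 1 / H 1 ^ 2 =
        -((t - 1) * (H t - H 1) / H 1 + 2 * (D t - D 1) / H 1 ^ 2) := by
      simp only [hψ] at e1
      linear_combination e1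
    rw [this, norm_neg]
    have a1 := q1 t tm1
    have a2 := q2 _ _ ((sch dD bD tm1).trans (mul_le_mul_of_nonneg_left e5 (by positivity)))
    have a3 : 2 * M * ‖t - 1‖ ^ 2 / σ ≤ 2 * M * (4 * η / σ) ^ 2 / σ := by gcongr
    have a5 : (32 * M + 16) * η ^ 2 / σ ^ 3 =
        2 * M * (4 * η / σ) ^ 2 / σ + 2 * (2 * η * (4 * η / σ)) / σ ^ 2 := by field_simp; ring
    exact (norm_add_le _ _).trans (by linarith)

end StepA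

open StepA

theorem sstep2 : S_STEP2 := fun Λ => by
  obtain ⟨C, C1, hC⟩ := sexp Λ
  obtain ⟨M, M1, hM'⟩ := snc_bd2 Λ
  have hM := fun z hz => (hM' z hz).1
  obtain ⟨B, hB⟩ : ∃ B : ℝ, B = 12 * C * (M ^ 2 + M + 2 * C) := ⟨_, rfl⟩
  have M2 : 1 ≤ M ^ 2 := one_le_pow₀ M1
  have B1 : 1 ≤ B := by nlinarith
  obtain ⟨c₀, hc₀⟩ : ∃ c₀ : ℝ, c₀ = 1 / (128 * M ^ 2 + 128 * B) := ⟨_, rfl⟩
  have c1 : c₀ * (128 * M ^ 2 + 128 * B) = 1 := by rw [hc₀]; field_simp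
  have c2 : 0 < c₀ := by rw [hc₀]; positivity
  have c3 : c₀ ≤ 1 / 4 := by nlinarith
  refine ⟨c₀, (64 * M ^ 2 + 16) * B ^ 2 + 4 * B, c2, c3, by nlinarith, ?_⟩
  intro θ h Q c U y s κ σ Cu s0 S σ0 σ1 hσ hκ
  obtain ⟨n1, n2, n3, n4, n5, n6⟩ := nm2 M2 B1 c1 c2 σ0 σ1 hκ
  have sp := norm_pos_iff.2 s0
  have c0 := Cu.c0
  have cs : c ^ 2 * s ^ 3 ≠ 0 := mul_ne_zero (pow_ne_zero _ c0) (pow_ne_zero _ s0)
  have yU : y ∈ U := S.sub (mem_closedBall_self (by positivity))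
  have mU : ∀ t : ℂ, ‖t‖ ≤ 2 * ‖s‖ → y + t ∈ U := fun t ht =>
    S.sub (by simpa [mem_closedBall, dist_eq_norm] using ht)
  have hm : ∀ t : ℂ, ‖t‖ ≤ 2 * ‖s‖ → ‖t ^ 2 * deriv (deriv θ) y‖ ≤ κ := fun t ht => by
    refine le_trans ?_ (S.g1 y (mem_closedBall_self (by positivity)))
    rw [norm_mul, norm_pow]; gcongr
  have κ0 : 0 ≤ κ := (norm_nonneg _).trans (hm 0 (by simp))
  have κ1 := S.k1
  have NF := fun t (t0 : t ≠ 0) (ht : ‖t‖ ≤ 2 * ‖s‖) =>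
    have e := hC θ h Q c U y t _ κ Cu S ht
    nf c0 t0 (hm t ht) κ1 e.1 e.2.1 e.2.2.1 e.2.2.2
  obtain ⟨δ, hδ⟩ : ∃ δ, δ = s * deriv θ y / 2 := ⟨_, rfl⟩
  have hδ2 : s * deriv θ y = 2 * δ := by rw [hδ]; ring
  have bδ : 4 * ‖δ‖ ≤ Λ := by
    have := S.g0
    rw [mul_assoc, ← norm_mul, hδ2, norm_mul, Complex.norm_two] at this
    linarith
  have δ0 := norm_nonneg δ
  have bs : ∀ τ : ℂ, ‖τ‖ ≤ 4 → ‖snc (δ * τ)‖ ≤ M := fun τ hτ => hM _ (by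
    rw [norm_mul]; linarith [mul_le_mul_of_nonneg_left hτ δ0])
  have bA : ∀ τ : ℂ, ‖τ‖ ≤ 4 → ‖snc (δ * τ) ^ 2 / 2‖ ≤ M ^ 2 := fun τ hτ => by
    rw [norm_div, norm_pow, Complex.norm_two]
    have := pow_le_pow_left₀ (norm_nonneg _) (bs τ hτ) 2
    linarith
  rw [← hδ] at hσ ⊢
  have S1 : snc δ ≠ 0 := norm_pos_iff.1 (σ0.trans_le hσ)
  obtain ⟨e₃, e₄, f3, f4, g3, g4, k3, k4⟩ := NF (-s) (neg_ne_zero.2 s0) (by rw [norm_neg]; linarith)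
  rw [← sub_eq_add_neg, neg_mul, hδ2] at k3 k4
  rw [neg_mul, hδ2] at g3 g4
  rw [show -(2 * δ) / 2 = -δ by ring, snc_neg] at k3
  rw [snc_neg] at k4
  rw [neg_sq] at k3 k4 g3 g4
  obtain ⟨F, hF⟩ : ∃ F : (ℂ × ℂ) × ℂ → ℂ,
      F = fun q => EE θ h (q.1.1 - q.1.2) q.1.1 (q.1.1 + q.2) := ⟨_, rfl⟩
  have aF : ∀ t : ℂ, ‖t‖ ≤ 2 * ‖s‖ → AnalyticAt ℂ F ((y, s), t) := fun t ht => hF ▸
    aE Cu yU (mU t ht) (by simpa [sub_eq_add_neg] using mU (-s) (by rw [norm_neg]; linarith))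
  obtain ⟨H, hH⟩ : ∃ H : ℂ → ℂ, H = fun τ => τ * snc (δ * τ) * snc (δ * (τ - 1)) := ⟨_, rfl⟩
  have H1 : H 1 = snc δ := by simp [hH, snc_zero]
  have dH : Differentiable ℂ H := by
    have := snc_d
    rw [hH]; fun_prop
  obtain ⟨E, hE⟩ : ∃ E : ℂ → ℂ, E = fun τ => F ((y, s), s * τ) / (c ^ 2 * s ^ 3) := ⟨_, rfl⟩
  have dE : DifferentiableOn ℂ E (ball 1 1) := fun τ hτ => by
    rw [hE]
    exact (((aF _ (b2 s hτ).2.2.2).comp_of_eq (f := fun τ : ℂ => ((y, s), s * τ)) (by fun_prop)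
      rfl).differentiableAt.div_const _).differentiableWithinAt
  have η1 : 2 * C * κ ≤ 2 * C := mul_le_of_le_one_right (by positivity) κ1
  have bD : ∀ τ ∈ ball (1 : ℂ) 1, ‖E τ - H 1 * (τ - 1) * H τ / 2‖ ≤ B * κ := fun τ hτ => by
    obtain ⟨a1, a2, a3, a4⟩ := b2 s hτ
    obtain ⟨e₁, e₂, -, -, g1, g2, k1, k2⟩ := NF (s * τ) (mul_ne_zero s0 a3) a4
    rw [show s * τ * deriv θ y = 2 * (δ * τ) by rw [hδ]; ring] at k1 k2 g1 g2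
    rw [mul_div_cancel_left₀ _ two_ne_zero] at k1
    have p1 := pr (bA τ (by linarith)) (bs 2 (by norm_num)) g1 ((norm_neg _).trans_le g4) η1
    have p2 := pr (bA 1 (by norm_num)) ((norm_neg _).trans_le (bs (2 * τ) (by
      rw [norm_mul, Complex.norm_two]; linarith))) g3 g2 η1
    have p3 := norm_mul_le_of_le (show ‖τ ^ 2‖ ≤ 2 ^ 2 by rw [norm_pow]; gcongr) p1
    have p4 := norm_mul_le_of_le a2 p2
    refine le_trans (le_of_eq (congrArg _ ?_)) ((norm_add_le_of_le p3 p4).trans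
      (le_of_eq (by rw [hB]; ring)))
    rw [H1, hE, hF, hH]
    simp only [EE]
    rw [k1, k2, k3, k4, mul_one, mul_comm δ 2, show δ * (2 * τ) = 2 * (δ * τ) by ring, snc_two,
      snc_two]
    rw [sub_eq_iff_eq_add, div_eq_iff cs]
    linear_combination (c ^ 2 * s ^ 3 * τ * snc δ * snc (δ * τ) / 2) * snc_sub δ τ
  obtain ⟨e₁, e₂, f1, f2, g1, g2, k1, k2⟩ := NF s s0 (by linarith)
  rw [hδ2] at k1 k2 g1 g2
  rw [mul_div_cancel_left₀ _ two_ne_zero] at k1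
  obtain ⟨μ, hμ⟩ : ∃ μ, μ = s ^ 2 * deriv (deriv θ) y := ⟨_, rfl⟩
  rw [← hμ] at k1 k2 k3 k4 g1 g2 g3 g4 ⊢
  have v0 : E 1 = (snc δ ^ 2 / 2 + (μ * VV (2 * δ) + e₁)) *
      (snc δ * cos δ - (μ * UU (-(2 * δ)) + e₄)) + (snc δ ^ 2 / 2 + (μ * VV (-(2 * δ)) + e₃)) *
      (-(snc δ * cos δ) + (μ * UU (2 * δ) + e₂)) := by
    rw [hE, hF]
    simp only [EE]
    rw [mul_one, k1, k2, k3, k4, div_eq_iff cs, snc_two]
    ring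
  rw [VV_neg, UU_neg] at v0
  rw [VV_neg] at g3
  rw [UU_neg] at g4
  have v1 := fo2 (hM' δ (by linarith)).1 (hM' δ (by linarith)).2 M1 C1 κ0 κ1 (n6.trans hσ)
    f1 f2 f3 f4 g1 g2 g3 g4
  rw [← v0, ← hB] at v1
  have v2 : ‖E 1 + snc δ ^ 2 / 2 * (μ * ps δ)‖ ≤ B * κ ^ 2 * ‖snc δ‖ := by
    refine le_trans (le_of_eq (congrArg _ ?_)) v1.2
    have := ps_eq S1
    rw [snc_two] at this
    linear_combination μ * this
  have ρ0 : 0 < 2 * c₀ * σ := by positivity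
  obtain ⟨τ, r1, r2, r3, r4, r5, r6⟩ := rt2 (H := H) (E := E) (M := 2 * M ^ 2) (ρ := 2 * c₀ * σ)
    (D := fun τ => E τ - H 1 * (τ - 1) * H τ / 2)
    dH.differentiableOn (dE.sub (by fun_prop)) (fun τ hτ => by
      obtain ⟨a1, a2, -, -⟩ := b2 s hτ
      rw [hH]
      exact (norm_mul_le_of_le (norm_mul_le_of_le a2 (bs τ (by linarith)))
        (bs (τ - 1) (by linarith))).trans (le_of_eq (by ring))) bD (fun x => by ring) σ0 σ1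
    (by rwa [H1]) ρ0 n1 n2 n3 n5 (by simpa [H1] using v1.1)
  have ns : ∀ x : ℂ, ‖s * x - s‖ = ‖x - 1‖ * ‖s‖ := fun x => by
    rw [← norm_mul]; congr 1; ring
  have u0 : F ((y, s), s * τ) = 0 := by simpa [hE, cs, c0, s0] using r1
  have u1 : ∀ t, F ((y, s), t) = 0 → ‖t - s‖ < c₀ * σ * ‖s‖ → t = s * τ := fun t a1 a2 => by
    have e : s * (t / s) = t := by field_simp
    rw [← e] at a1 a2 ⊢
    rw [ns] at a2
    rw [r4 (t / s) (by linarith [lt_of_mul_lt_mul_right a2 sp.le]) (by rw [hE]; simp only [a1]; simp)]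
  have u2 : ‖s * τ - s‖ ≤ c₀ * σ * ‖s‖ / 4 := by
    rw [ns]; linarith [mul_le_mul_of_nonneg_right r2 sp.le]
  have u3 : 0 < c₀ * σ * ‖s‖ := by positivity
  have u4 : c₀ * σ * ‖s‖ ≤ ‖s‖ := mul_le_of_le_one_left sp.le n4
  have ex : nx θ h y s = s * τ := nx_eq ⟨by simpa [hF] using u0, fun t a1 a2 =>
    u1 t (by simpa [hF] using a1) (by linarith)⟩
  have aF' : ∀ t ∈ ball s (c₀ * σ * ‖s‖), AnalyticAt ℂ F ((y, s), t) := fun t ht => aF t (by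
    rw [mem_ball, dist_eq_norm] at ht
    linarith [norm_sub_norm_le t s])
  refine ⟨by simpa [hF, ex] using u0, fun t a1 a2 => ex ▸ u1 t (by simpa [hF] using a1) a2,
    ana (F := F) (m := Prod.snd) (p := (y, s)) continuousAt_snd u3 aF' u0 (by simp only; linarith)
      u1 (fun hd => r5 ?_) (fun q x a1 a2 => nx_eq ⟨by simpa [hF] using a1, fun t b1 b2 =>
        a2 t (by simpa [hF] using b1) b2⟩), ?_, by rw [ex]; linarith, ?_⟩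
  · rw [hE]
    exact ((hd.comp τ ((hasDerivAt_id' τ).const_mul s)).div_const _).congr_deriv (by simp)
  · rw [ex, ns]
    refine mul_le_mul_of_nonneg_right (r3.trans ?_) sp.le
    rw [← mul_assoc]
    gcongr
    exact le_add_of_nonneg_left (by positivity)
  have v3 : ‖2 * (E 1 + snc δ ^ 2 / 2 * (μ * ps δ)) / snc δ ^ 2‖ ≤ 4 * B * κ ^ 2 / σ ^ 3 := by
    have S0 := norm_pos_iff.2 S1
    rw [norm_div, norm_mul, norm_pow, Complex.norm_two, div_le_div_iff₀ (by positivity)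
      (by positivity)]
    have a1 : σ ^ 3 ≤ ‖snc δ‖ := (pow_le_of_le_one σ0.le σ1 (by norm_num)).trans hσ
    have a2 := mul_le_mul v2 a1 (by positivity) (by positivity)
    have a3 : 0 ≤ B * κ ^ 2 * ‖snc δ‖ ^ 2 := by positivity
    linarith
  rw [ex, show s * τ - s - s * (μ * ps δ) = (τ - 1 + 2 * (E 1 - H 1 * (1 - 1) * H 1 / 2) / H 1 ^ 2 -
    2 * (E 1 + snc δ ^ 2 / 2 * (μ * ps δ)) / snc δ ^ 2) * s by rw [H1]; field_simp; ring, norm_mul]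
  refine mul_le_mul_of_nonneg_right ((norm_sub_le_of_le r6 v3).trans (le_of_eq ?_)) sp.le
  ring

end Vale.Agent.P097F.N
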