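import Vale.Agent.P097N.Defs

/-!
# P097F.N: the step map in pair coordinates (definitions and statements)

A state is `(y, s)`: the vertex `y` and the previous vertex `y - s`.  The next vertex is
`y + nx θ h y s`.  Everything is scale invariant: `Ω = s θ'(y)` is twice the half angle and
`μ = s ^ 2 θ''(y)` is the small parameter.
-/

set_option linter.all false

noncomputable section

namespace Vale.Agent.P097F.N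

open Filter Topology Set Metric Complex Vale.Agent.P097N

/-- `sin z / z` -/
def snc (z : ℂ) : ℂ := dslope sin 0 z

/-- first order term of `kk` -/
def VV (Ω : ℂ) : ℂ := sin Ω / (2 * Ω ^ 2) + (1 + 2 * cos Ω) / Ω ^ 3 - 3 * sin Ω / Ω ^ 4

/-- first order term of `k1` -/
def UU (Ω : ℂ) : ℂ := -cos Ω / (2 * Ω) + 2 * sin Ω / Ω ^ 2 - 3 * (1 - cos Ω) / Ω ^ 3

/-- first order term of the relative change of the step -/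
def ps (δ : ℂ) : ℂ := (3 * (sin δ - δ * cos δ) - δ ^ 2 * sin δ) / (2 * δ ^ 3 * sin δ)

/-- the scale condition at `y` for steps of length at most `a` -/
structure Sc (θ Q : ℂ → ℂ) (U : Set ℂ) (y : ℂ) (a Λ κ : ℝ) : Prop where
  sub : closedBall y a ⊆ U
  g0 : a * ‖deriv θ y‖ ≤ Λ
  g1 : ∀ z ∈ closedBall y a, a ^ 2 * ‖deriv (deriv θ) z‖ ≤ κ
  q : ∀ z ∈ closedBall y a, a ^ 2 * ‖Q z‖ ≤ κ ^ 2
  k1 : κ ≤ 1

/-- `t` is the root of the law which is nearest to `s` -/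
def Nr (θ h : ℂ → ℂ) (y s t : ℂ) : Prop := EE θ h (y - s) y (y + t) = 0 ∧
  ∀ t', EE θ h (y - s) y (y + t') = 0 → ‖t' - s‖ ≤ ‖t - s‖ → t' = t

open Classical in
/-- the next step -/
def nx (θ h : ℂ → ℂ) (y s : ℂ) : ℂ := if H : ∃ t, Nr θ h y s t then H.choose else s

/-- the step map in units `ε`: the state `(Y, v)` has the previous vertex `Y - ε v` -/
def TT (θ h : ℂ → ℂ) (ε : ℂ) (p : ℂ × ℂ) : ℂ × ℂ :=
  (p.1 + nx θ h p.1 (ε * p.2), nx θ h p.1 (ε * p.2) / ε)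

/-- the expansion of the two kernels -/
def S_EXP : Prop := ∀ Λ : ℝ, ∃ C : ℝ, 1 ≤ C ∧ ∀ (θ h Q : ℂ → ℂ) (c : ℂ) (U : Set ℂ) (y s : ℂ)
  (a κ : ℝ), Cv θ h Q c U → Sc θ Q U y a Λ κ → ‖s‖ ≤ a →
  ‖VV (s * deriv θ y)‖ ≤ C ∧ ‖UU (s * deriv θ y)‖ ≤ C ∧
  ‖kk θ h y (y + s) / c - s ^ 2 * (snc (s * deriv θ y / 2) ^ 2 / 2 +
    s ^ 2 * deriv (deriv θ) y * VV (s * deriv θ y))‖ ≤ C * κ ^ 2 * ‖s‖ ^ 2 ∧
  ‖k1 θ h y (y + s) / c - s * (-snc (s * deriv θ y) +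
    s ^ 2 * deriv (deriv θ) y * UU (s * deriv θ y))‖ ≤ C * κ ^ 2 * ‖s‖

/-- the step: existence, uniqueness, analyticity, size, first order term -/
def S_STEP : Prop := ∀ Λ : ℝ, ∃ c₀ C : ℝ, 0 < c₀ ∧ c₀ ≤ 1 / 4 ∧ 1 ≤ C ∧
  ∀ (θ h Q : ℂ → ℂ) (c : ℂ) (U : Set ℂ) (y s : ℂ) (κ σ : ℝ), Cv θ h Q c U → s ≠ 0 →
  Sc θ Q U y (2 * ‖s‖) Λ κ → 0 < σ → σ ≤ 1 → σ ≤ ‖snc (s * deriv θ y / 2)‖ → κ ≤ c₀ ^ 2 * σ ^ 3 →
  EE θ h (y - s) y (y + nx θ h y s) = 0 ∧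
  (∀ t, EE θ h (y - s) y (y + t) = 0 → ‖t - s‖ < c₀ * σ * ‖s‖ → t = nx θ h y s) ∧
  AnalyticAt ℂ (fun p : ℂ × ℂ => nx θ h p.1 p.2) (y, s) ∧
  ‖nx θ h y s - s‖ ≤ C * κ / σ ^ 2 * ‖s‖ ∧ ‖nx θ h y s - s‖ ≤ c₀ * σ / 2 * ‖s‖ ∧
  ‖nx θ h y s - s - s * (s ^ 2 * deriv (deriv θ) y * ps (s * deriv θ y / 2))‖ ≤
    C * κ ^ 2 / σ ^ 5 * ‖s‖

end Vale.Agent.P097F.N
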