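import Vale.Agent.P097F.N.Dync
import Vale.Agent.P097F.L.Cone

/-!
# P097F/N: the wedge: the limit family is the model family; bounds up to the top
-/

set_option linter.all false

noncomputable section

namespace Vale.Agent.P097F.N

open Filter Topology Set Metric Complex Vale.Agent.P097D

/-- the top of the wedge over the step `W` -/
def tw (K C v H b : ℝ) (W : ℂ) : ℝ := H - b * (W.re - v) - K * (W.re - v) ^ 2 - C * |W.im|

theorem tw_cont (K C v H b : ℝ) : Continuous (tw K C v H b) := by unfold tw; fun_prop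

theorem mem_wd {a L T ρ K C v H b : ℝ} {q : ℂ × ℂ} : q ∈ Wd a L T ρ K C v H b ↔
    ‖q.1 - v‖ < ρ ∧ |q.2.re - a| < L ∧ -T < q.2.im ∧ q.2.im < tw K C v H b q.1 := by
  simp only [Wd, tw, mem_setOf_eq, mem_ball, dist_eq_norm]

theorem wd_un (a L T ρ K C v H b : ℝ) :
    Wd a L T ρ K C v H b = P097F.L.Un (ball (v : ℂ) ρ) (a - L) (a + L) (-T) (tw K C v H b) := by
  ext q
  simp only [Wd, P097F.L.Un, D.Rc, tw, mem_setOf_eq, abs_lt]
  constructor
  · rintro ⟨h1, ⟨h2, h3⟩, h4, h5⟩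
    exact ⟨h1, by linarith, by linarith, h4, h5⟩
  · rintro ⟨h1, h2, h3, h4, h5⟩
    exact ⟨h1, ⟨by linarith, by linarith⟩, h4, h5⟩

theorem tw_ge {K C v H b ρ : ℝ} (K0 : 0 ≤ K) (bC : |b| ≤ C) {W : ℂ} (h : ‖W - v‖ ≤ ρ) :
    H - 2 * C * ρ - K * ρ ^ 2 ≤ tw K C v H b W ∧ tw K C v H b W ≤ H + C * ρ := by
  have C0 : 0 ≤ C := (abs_nonneg b).trans bC
  have a1 : |W.re - v| ≤ ρ := by simpa using (abs_re_le_norm (W - v)).trans h
  have a2 : |W.im| ≤ ρ := by simpa using (abs_im_le_norm (W - v)).trans h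
  have a3 : |b * (W.re - v)| ≤ C * ρ := by
    rw [abs_mul]; exact mul_le_mul bC a1 (abs_nonneg _) C0
  have a4 : (W.re - v) ^ 2 ≤ ρ ^ 2 := sq_le_sq' (abs_le.1 a1).1 (abs_le.1 a1).2
  have a5 := mul_le_mul_of_nonneg_left a4 K0
  have a6 := mul_le_mul_of_nonneg_left a2 C0
  have a7 := mul_nonneg K0 (sq_nonneg (W.re - v))
  have a8 := mul_nonneg C0 (abs_nonneg W.im)
  rw [abs_le] at a3
  unfold tw
  constructor <;> linarith

variable {𝒰 : Ultrafilter ℕ} {ε : ℕ → ℝ} {θ h : ℕ → ℂ → ℂ} {U : ℕ → Set ℂ} {a L T ρ K C : ℝ}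
  {v H b : ℕ → ℝ} {W H₀ b₀ : ℝ} {F : ℕ → ℂ × ℂ → ℂ} {F₀ : ℂ × ℂ → ℂ}

theorem loc_b (S : Loc 𝒰 ε θ h U a L T ρ K C v H b W H₀ b₀ F F₀) : |b₀| ≤ C :=
  le_of_tendsto' S.lb.abs S.bC

/-- on the wedge the limit family is the maximal model family -/
theorem wom {E : D.Dat} {Y : ℂ × ℂ → ℂ} (M : D.Mx E Y) (hα : E.α = a - L) (hβ : E.β = a + L)
    (hb : E.b₁ = E.b₀ + 1) (L0 : 0 < L)
    (S : Loc 𝒰 ε θ h U a L (-E.b₀) ρ K C v H b W H₀ b₀ F F₀) (sU : ball (W : ℂ) ρ ⊆ E.U)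
    (e : EqOn F₀ E.A (ball (W : ℂ) ρ ×ˢ D.Rc E.α E.β E.b₀ E.b₁)) :
    D.Fam E.g F₀ (Wd a L (-E.b₀) ρ K C W H₀ b₀) ∧
      ∀ p ∈ Wd a L (-E.b₀) ρ K C W H₀ b₀, p ∈ E.Om ∧ Y p = F₀ p := by
  have hi : ∀ w ∈ ball (W : ℂ) ρ, E.b₁ < tw K C W H₀ b₀ w := fun w hw => by
    have := (tw_ge (H := H₀) S.K0 (loc_b S) (mem_ball_iff_norm.1 hw).le).1
    have := S.hi
    linarith
  have eq : Wd a L (-E.b₀) ρ K C W H₀ b₀ =
      P097F.L.Un (ball (W : ℂ) ρ) E.α E.β E.b₀ (tw K C W H₀ b₀) := by rw [wd_un, neg_neg, hα, hβ]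
  have ob : IsOpen (ball (W : ℂ) ρ ×ˢ D.Rc E.α E.β E.b₀ E.b₁) := isOpen_ball.prod (D.rc_open _ _ _ _)
  have m : ((W : ℂ), (⟨a, E.b₀ + 1 / 2⟩ : ℂ)) ∈ ball (W : ℂ) ρ ×ˢ D.Rc E.α E.β E.b₀ E.b₁ :=
    ⟨mem_ball_self S.ρ0, by simp only [hα]; linarith, by simp only [hβ]; linarith,
      by simp only; linarith, by simp only [hb]; linarith⟩
  have Fm : D.Fam E.g F₀ (Wd a L (-E.b₀) ρ K C W H₀ b₀) := by
    refine P097F.L.famB M.ok.ang ob (M.ok.fam.mono (prod_mono sU Subset.rfl)) ?_ S.an S.lo m ?_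
      (eventuallyEq_of_mem (ob.mem_nhds m) e)
    · rw [eq]
      exact P097F.L.un_conn (convex_ball _ _).isPreconnected M.ok.lt fun w hw => (hi w hw).le
    · rw [eq]
      exact ⟨m.1, m.2.1, m.2.2.1, m.2.2.2.1, m.2.2.2.2.trans (hi _ m.1)⟩
  refine ⟨Fm, ?_⟩
  rw [eq] at Fm ⊢
  exact P097F.L.cone_om M isOpen_ball sU (tw_cont ..).continuousOn hi le_rfl le_rfl Fm
    fun w hw x hx => e (mk_mem_prod hw hx)

/-- a closed part of the wedge -/
def Wk (a L T ρ K C v H b μ : ℝ) : Set (ℂ × ℂ) := {q | ‖q.1 - v‖ ≤ ρ ∧ |q.2.re - a| ≤ L ∧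
  -T ≤ q.2.im ∧ q.2.im ≤ tw K C v H b q.1 - μ}

theorem wk_cpt (a L T ρ C v H b μ : ℝ) {K : ℝ} (K0 : 0 ≤ K) (bC : |b| ≤ C) :
    IsCompact (Wk a L T ρ K C v H b μ) := by
  have tc := tw_cont K C v H b
  refine Metric.isCompact_of_isClosed_isBounded ?_ ?_
  · simp only [Wk, setOf_and]
    refine IsClosed.inter ?_ (IsClosed.inter ?_ (IsClosed.inter ?_ ?_))
    all_goals
      apply isClosed_le <;> fun_prop
  · refine (isBounded_closedBall (x := ((v : ℂ), (a : ℂ)))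
      (r := ρ + L + (|T| + |H + C * ρ - μ|))).subset fun q ⟨h1, h2, h3, h4⟩ => ?_
    have := (tw_ge (H := H) K0 bC h1).2
    have n : ‖q.2 - a‖ ≤ |q.2.re - a| + |q.2.im| := by
      simpa using norm_le_abs_re_add_abs_im (q.2 - a)
    have i : |q.2.im| ≤ |T| + |H + C * ρ - μ| := abs_le.2 ⟨by
      linarith [le_abs_self T, abs_nonneg (H + C * ρ - μ)], by
      linarith [le_abs_self (H + C * ρ - μ), abs_nonneg T]⟩
    rw [mem_closedBall, Prod.dist_eq, max_le_iff, dist_eq_norm, dist_eq_norm]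
    have := norm_nonneg (q.1 - v)
    have := abs_nonneg (q.2.re - a)
    have := abs_nonneg q.2.im
    constructor <;> simp only <;> linarith

theorem wk_sub {a L T ρ K C v H b μ L' T' ρ' : ℝ} (h1 : ρ' < ρ) (h2 : L' < L) (h3 : T' < T)
    (h4 : 0 < μ) : Wk a L' T' ρ' K C v H b μ ⊆ Wd a L T ρ K C v H b := fun q ⟨a1, a2, a3, a4⟩ =>
  mem_wd.2 ⟨by linarith, by linarith, by linarith, by linarith⟩

/-- the tops converge uniformly on bounded sets -/
theorem tw_lim (S : Loc 𝒰 ε θ h U a L T ρ K C v H b W H₀ b₀ F F₀) {η : ℝ} (η0 : 0 < η) :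
    ∀ᶠ n in (𝒰 : Filter ℕ), |v n - W| < η ∧ ∀ w : ℂ, ‖w - W‖ ≤ ρ →
      |tw K C (v n) (H n) (b n) w - tw K C W H₀ b₀ w| < η := by
  refine (Metric.tendsto_nhds.1 S.lv η η0).and ?_
  have := ev_cpt 𝒰 (isCompact_closedBall (W : ℂ) ρ) (P := fun n w =>
    |tw K C (v n) (H n) (b n) w - tw K C W H₀ b₀ w| < η) fun q _ u _ hu => by
    have r := (Complex.continuous_re.tendsto q).comp hu
    have i := ((Complex.continuous_im.tendsto q).comp hu).abs
    have t1 : Tendsto (fun n => tw K C (v n) (H n) (b n) (u n)) 𝒰 (𝓝 (tw K C W H₀ b₀ q)) :=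
      ((S.lH.sub (S.lb.mul (r.sub S.lv))).sub (((r.sub S.lv).pow 2).const_mul K)).sub
        (i.const_mul C)
    have t2 := (t1.sub (((tw_cont K C W H₀ b₀).tendsto q).comp hu)).abs
    rw [sub_self, abs_zero] at t2
    exact t2.eventually (gt_mem_nhds η0)
  exact this.mono fun n k w hw => k w (mem_closedBall_iff_norm.2 hw)

/-- a uniform bound on a compact part of the wedge -/
theorem wk_bd (S : Loc 𝒰 ε θ h U a L T ρ K C v H b W H₀ b₀ F F₀) {Kc : Set (ℂ × ℂ)}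
    (hK : IsCompact Kc) (sub : Kc ⊆ Wd a L T ρ K C W H₀ b₀) :
    ∃ B, 1 ≤ B ∧ ∀ᶠ n in (𝒰 : Filter ℕ), ∀ q ∈ Kc, ‖F n q‖ ≤ B := by
  obtain ⟨B, hB⟩ := hK.exists_bound_of_continuousOn (S.an.continuousOn.mono sub)
  refine ⟨|B| + 1, by linarith [abs_nonneg B], ev_cpt 𝒰 hK fun q hq u _ hu => ?_⟩
  exact ((S.cc q (sub hq) u hu).norm.eventually
    (gt_mem_nhds (by linarith [hB q hq, le_abs_self B]))).mono fun n k => k.le

/-- a function with values in the lower half plane near the boundary of a disc -/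
theorem car {f : ℂ → ℂ} {c z : ℂ} {R B d : ℝ} (hf : DifferentiableOn ℂ f (ball c R))
    (lo : ∀ x ∈ ball c R, (f x).im < 0) (hB : ‖f c‖ ≤ B) (d0 : 0 < d) (hz : ‖z - c‖ ≤ R - d) :
    ‖f z‖ ≤ 2 * R * (1 + B) / d := by
  have n0 := norm_nonneg (z - c)
  have B0 := (norm_nonneg _).trans hB
  have m : ∀ x ∈ ball (0 : ℂ) R, c + x ∈ ball c R := fun x hx => by simpa using hx
  have := Complex.borelCaratheodory (f := fun x => -I * f (c + x)) (M := 1) (R := R) (z := z - c)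
    one_pos ((hf.comp (by fun_prop) m).const_mul _)
    (fun x hx => by simpa using (lo _ (m x hx)).le.trans zero_le_one) (by linarith)
    (mem_ball_zero_iff.2 (by linarith))
  simp only [add_sub_cancel, add_zero, norm_mul, norm_neg, norm_I, one_mul] at this
  rw [← add_div] at this
  refine this.trans (div_le_div₀ (by nlinarith) ?_ d0 (by linarith))
  nlinarith [mul_le_mul hB (show R + ‖z - c‖ ≤ 2 * R by linarith) (by linarith) B0]

/-- **the bound up to the top** -/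
theorem wtop (S : Loc 𝒰 ε θ h U a L T ρ K C v H b W H₀ b₀ F F₀) (hU : ∀ j, U j ⊆ Lo 0) {μ : ℝ}
    (μ0 : 0 < μ) (μ1 : μ ≤ 1) : ∃ B, 1 ≤ B ∧ ∀ᶠ n in (𝒰 : Filter ℕ), ∀ (q : ℂ × ℂ) (d : ℝ),
      0 < d → d ≤ 1 → q ∈ Wk a (L - μ) (T - μ) (ρ / 2) K C (v n) (H n) (b n) d →
      AnalyticAt ℂ (F n) q ∧ ‖F n q‖ ≤ B / d := by
  have ρ0 := S.ρ0
  obtain ⟨B, B1, hB⟩ := wk_bd S (wk_cpt a (L - μ) (T - μ) (3 * ρ / 4) C W H₀ b₀ (μ / 4) S.K0
    (loc_b S)) (wk_sub (by linarith) (by linarith) (by linarith) (by linarith))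
  refine ⟨1 + B, by linarith, ?_⟩
  filter_upwards [hB, tw_lim S (lt_min (by linarith : 0 < μ / 4) (by linarith : 0 < ρ / 4)), S.tr]
    with n k1 ⟨k2, k3⟩ k4 q d d0 d1 ⟨a1, a2, a3, a4⟩
  have e1 : ‖q.1 - W‖ ≤ 3 * ρ / 4 := by
    have := norm_sub_le_norm_sub_add_norm_sub q.1 (v n) W
    rw [← Complex.ofReal_sub, Complex.norm_real, Real.norm_eq_abs] at this
    linarith [min_le_right (μ / 4) (ρ / 4)]
  have e2 := abs_lt.1 ((k3 q.1 (by linarith)).trans_le (min_le_left _ _))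
  refine ⟨k4.an q (mem_wd.2 ⟨by linarith, by linarith, by linarith, by linarith⟩), ?_⟩
  rcases le_total q.2.im (tw K C (v n) (H n) (b n) q.1 - μ / 2) with i | i
  · refine (k1 q ⟨e1, a2, a3, by linarith⟩).trans ?_
    rw [le_div_iff₀ d0]
    nlinarith
  · have e3 := (tw_ge (H := H₀) S.K0 (loc_b S) (show ‖q.1 - W‖ ≤ ρ by linarith)).1
    have e4 := S.hi
    set t := tw K C (v n) (H n) (b n) q.1 with ht
    let c : ℂ := ⟨q.2.re, t - μ / 2⟩
    have m : ∀ x ∈ ball c (μ / 2), (q.1, x) ∈ Wd a L T ρ K C (v n) (H n) (b n) := fun x hx => by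
      have n1 := abs_lt.1 ((abs_re_le_norm (x - c)).trans_lt (mem_ball_iff_norm.1 hx))
      have n2 := abs_lt.1 ((abs_im_le_norm (x - c)).trans_lt (mem_ball_iff_norm.1 hx))
      simp only [sub_re, sub_im, c] at n1 n2
      rw [abs_le] at a2
      exact mem_wd.2 ⟨by simp only; linarith, abs_lt.2 ⟨by simp only; linarith,
        by simp only; linarith⟩, by simp only; linarith, by simp only; linarith⟩
    have nn : ‖q.2 - c‖ ≤ μ / 2 - d := by
      refine (norm_le_abs_re_add_abs_im _).trans ?_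
      simp only [sub_re, sub_im, c, sub_self, abs_zero, zero_add]
      rw [abs_of_nonneg (by linarith)]
      linarith
    have := car (f := fun x => F n (q.1, x)) (B := B) (fun x hx =>
      (P097F.L.an_sl (k4.an _ (m x hx))).differentiableAt.differentiableWithinAt)
      (fun x hx => hU n (k4.mem (m x hx)))
      (k1 (q.1, c) ⟨e1, a2, by simp only [c]; linarith, by simp only [c]; linarith⟩) d0 nn
    refine this.trans (div_le_div_of_nonneg_right ?_ d0.le)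
    nlinarith

end Vale.Agent.P097F.N
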