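import Vale.Agent.P097F.N.Wb
import Vale.Agent.P097Mo.Bridge

/-!
# P097F/N: the true states on parts of the wedge (cone, deep band, gaps)
-/

set_option linter.all false

noncomputable section

namespace Vale.Agent.P097F.N

open Filter Topology Set Metric Complex Vale.Agent.P097D Vale.Agent.P097Mo
open Vale.Agent.P097N (EE)

/-- the cone in step units lies under the top of the wedge; `t = ε s` -/
theorem topalg {K C v H b h₀ l Λ : ℝ} {w t x₀ : ℂ} (v0 : 0 < v) (K0 : 0 ≤ K) (C0 : 0 ≤ C)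
    (h0 : 0 ≤ h₀) (l0 : 0 ≤ l) (hx : x₀.im = H - h₀) (hw : ‖w‖ ≤ v / 2) (hΛ : |t.re| ≤ Λ)
    (ht : t.im ≤ h₀ / v - (b / v + h₀ / v ^ 2) * w.re - t.re / v * w.im - C / v * |w.im| - l) :
    (x₀ + t * (v + w)).im ≤
      tw K C v H b (v + w) - (l * v / 2 - (K + (|b| + h₀ / v + Λ + C) / v) * ‖w‖ ^ 2) := by
  have p1 := abs_re_le_norm w
  have q1 := abs_im_le_norm w
  have n0 := norm_nonneg w
  have vp : v / 2 ≤ v + w.re := by linarith [(abs_le.1 (p1.trans hw)).1]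
  have k1 := mul_le_mul_of_nonneg_right ht (show 0 ≤ v + w.re by linarith)
  have e1 : (h₀ / v - (b / v + h₀ / v ^ 2) * w.re - t.re / v * w.im - C / v * |w.im| - l) *
      (v + w.re) = h₀ - b * w.re - t.re * w.im - C * |w.im| - l * (v + w.re) -
        ((b + h₀ / v) * w.re * w.re + t.re * w.im * w.re + C * |w.im| * w.re) / v := by
    field_simp; ring
  have k2 : |(b + h₀ / v) * w.re * w.re + t.re * w.im * w.re + C * |w.im| * w.re| ≤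
      (|b| + h₀ / v + Λ + C) * ‖w‖ ^ 2 := by
    have a1 : |b + h₀ / v| ≤ |b| + h₀ / v :=
      (abs_add_le _ _).trans (by rw [abs_of_nonneg (by positivity : 0 ≤ h₀ / v)])
    have Λ0 := (abs_nonneg _).trans hΛ
    refine (abs_add_three _ _ _).trans ?_
    simp only [abs_mul, abs_abs, abs_of_nonneg C0]
    calc _ ≤ (|b| + h₀ / v) * ‖w‖ * ‖w‖ + Λ * ‖w‖ * ‖w‖ + C * ‖w‖ * ‖w‖ := by gcongr
      _ = _ := by ring
  have k3 := div_le_div_of_nonneg_right (neg_le_of_abs_le k2) v0.le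
  have k4 : K * w.re ^ 2 ≤ K * ‖w‖ ^ 2 := by
    rw [← sq_abs w.re]; gcongr
  have k5 := mul_le_mul_of_nonneg_left vp l0
  have e2 : (K + (|b| + h₀ / v + Λ + C) / v) * ‖w‖ ^ 2 =
      K * ‖w‖ ^ 2 + (|b| + h₀ / v + Λ + C) * ‖w‖ ^ 2 / v := by ring
  rw [neg_div] at k3
  simp only [tw, add_im, mul_im, add_re, ofReal_re, ofReal_im, zero_add, add_sub_cancel_left, hx, e2]
  rw [e1] at k1
  linarith

variable {𝒰 : Ultrafilter ℕ} {ε : ℕ → ℝ} {θ h Q : ℕ → ℂ → ℂ} {c : ℕ → ℂ} {U : ℕ → Set ℂ}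
  {a L T ρ K C : ℝ} {v H b : ℕ → ℝ} {W H₀ b₀ : ℝ} {F : ℕ → ℂ × ℂ → ℂ} {F₀ : ℂ × ℂ → ℂ}
  {g : ℂ → ℂ}

theorem zt_an {e : ℂ} {f : ℂ × ℂ → ℂ} {q : ℂ × ℂ} (h1 : AnalyticAt ℂ f q)
    (h2 : AnalyticAt ℂ f (q.1, q.2 - e * q.1)) : AnalyticAt ℂ (Zt e f) q :=
  h1.prod ((h1.sub (AnalyticAt.comp (g := f) (f := fun q : ℂ × ℂ => (q.1, q.2 - e * q.1)) h2
    (analyticAt_fst.prod (analyticAt_snd.sub (analyticAt_const.mul analyticAt_fst))))).div_const)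

theorem wk_sh {a L T ρ K C v H b d μ d' e : ℝ} {q : ℂ × ℂ} (hq : q ∈ Wk a L T ρ K C v H b d)
    (h1 : |e| * ‖q.1‖ ≤ μ) (h2 : |e| * |q.1.im| ≤ d - d') :
    (q.1, q.2 + e * q.1) ∈ Wk a (L + μ) (T + μ) ρ K C v H b d' := by
  obtain ⟨a1, a2, a3, a4⟩ := hq
  have r1 : |e * q.1.re| ≤ μ := by
    rw [abs_mul]; exact (mul_le_mul_of_nonneg_left (abs_re_le_norm _) (abs_nonneg _)).trans h1
  have r2 : |e * q.1.im| ≤ μ := by
    rw [abs_mul]; exact (mul_le_mul_of_nonneg_left (abs_im_le_norm _) (abs_nonneg _)).trans h1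
  rw [← abs_mul] at h2
  rw [abs_le] at a2 r1 r2 h2
  refine ⟨a1, abs_le.2 ⟨?_, ?_⟩, ?_, ?_⟩ <;>
    simp only [add_re, add_im, re_ofReal_mul, im_ofReal_mul] <;> linarith

theorem eps_sm (s : Seq 𝒰 (fun j => (ε j : ℂ)) θ h Q c U g (Lo 0))
    (S : Loc 𝒰 ε θ h U a L T ρ K C v H b W H₀ b₀ F F₀) {μ : ℝ} (μ0 : 0 < μ) :
    ∀ᶠ n in (𝒰 : Filter ℕ), ∀ w : ℂ, ‖w - v n‖ ≤ ρ → |ε n| * ‖w‖ ≤ μ := by
  have t : Tendsto (fun n => |ε n| * (ρ + |v n|)) 𝒰 (𝓝 (0 * (ρ + |W|))) :=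
    Tendsto.mul (by simpa using s.el.norm) (S.lv.abs.const_add ρ)
  rw [zero_mul] at t
  filter_upwards [t.eventually (gt_mem_nhds μ0)] with n k w hw
  have := norm_le_norm_sub_add w (v n)
  rw [Complex.norm_real, Real.norm_eq_abs] at this
  exact (mul_le_mul_of_nonneg_left (by linarith) (abs_nonneg _)).trans k.le

/-- the state up to the top -/
theorem coneS (s : Seq 𝒰 (fun j => (ε j : ℂ)) θ h Q c U g (Lo 0)) (e0 : ∀ j, 0 < ε j)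
    (S : Loc 𝒰 ε θ h U a L T ρ K C v H b W H₀ b₀ F F₀) (hU : ∀ j, U j ⊆ Lo 0) :
    ∃ B, 1 ≤ B ∧ ∀ᶠ n in (𝒰 : Filter ℕ), ∀ (q : ℂ × ℂ) (d : ℝ), 0 < d → d ≤ 1 →
      ε n * |q.1.im| ≤ d / 2 → q ∈ Wk a (L - 1 / 4) (T - 1 / 4) (ρ / 2) K C (v n) (H n) (b n) d →
      AnalyticAt ℂ (Zt (ε n) (F n)) q ∧ ‖Zt (ε n) (F n) q‖ ≤ B / (d * ε n) := by
  obtain ⟨B, B1, hB⟩ := wtop S hU (μ := 1 / 8) (by norm_num) (by norm_num)
  have e1 : ∀ᶠ n in (𝒰 : Filter ℕ), ε n ≤ 1 := by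
    have : Tendsto (fun n => |ε n|) 𝒰 (𝓝 0) := by simpa using s.el.norm
    exact (this.eventually (gt_mem_nhds one_pos)).mono fun n k => (le_abs_self _).trans k.le
  refine ⟨3 * B, by linarith, ?_⟩
  filter_upwards [hB, eps_sm s S (μ := 1 / 8) (by norm_num), e1] with n k1 k2 k3 q d d0 d1 hd hq
  have e := e0 n
  have m1 := wk_sh (e := -ε n) (μ := 1 / 8) (d' := d / 2) hq
    (by rw [abs_neg]; exact k2 _ (by linarith [hq.1, S.ρ0])) (by rw [abs_neg, abs_of_pos e]; linarith)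
  have m2 : q ∈ Wk a (L - 1 / 8) (T - 1 / 8) (ρ / 2) K C (v n) (H n) (b n) d :=
    ⟨hq.1, by linarith [hq.2.1], by linarith [hq.2.2.1], hq.2.2.2⟩
  rw [show L - 1 / 4 + 1 / 8 = L - 1 / 8 by ring, show T - 1 / 4 + 1 / 8 = T - 1 / 8 by ring,
    ofReal_neg, neg_mul, ← sub_eq_add_neg] at m1
  obtain ⟨a1, b1⟩ := k1 _ _ (by linarith) (by linarith) m1
  obtain ⟨a2, b2⟩ := k1 _ _ d0 d1 m2
  refine ⟨zt_an a2 a1, ?_⟩
  have B0 : 0 ≤ B / d := by positivity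
  have e2 : 3 * B / (d * ε n) = 3 * (B / d) / ε n := by field_simp
  have e3 : B / (d / 2) = 2 * (B / d) := by field_simp
  rw [e2, Zt, stt, Prod.norm_mk, max_le_iff, norm_div, Complex.norm_real, Real.norm_of_nonneg e.le]
  constructor
  · rw [le_div_iff₀ e]
    nlinarith [norm_nonneg (F n q)]
  · gcongr
    linarith [norm_sub_le (F n q) (F n (q.1, q.2 - ε n * q.1))]

/-- the sharp cone: the three vertices are in the wedge -/
theorem shpS (s : Seq 𝒰 (fun j => (ε j : ℂ)) θ h Q c U g (Lo 0)) (e0 : ∀ j, 0 < ε j)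
    (S : Loc 𝒰 ε θ h U a L T ρ K C v H b W H₀ b₀ F F₀) :
    ∀ᶠ n in (𝒰 : Filter ℕ), ∀ (q : ℂ × ℂ) (d : ℝ), 0 < d → ε n * |q.1.im| ≤ d / 2 →
      q ∈ Wk a (L - 1 / 4) (T - 1 / 4) (ρ / 2) K C (v n) (H n) (b n) d →
      AnalyticAt ℂ (Zt (ε n) (F n)) q ∧ F n (q.1, q.2 - ε n * q.1) ∈ U n ∧ F n q ∈ U n ∧
        EE (θ n) (h n) (F n (q.1, q.2 - ε n * q.1)) (F n q) (F n (q.1, q.2 + ε n * q.1)) = 0 := by
  filter_upwards [S.tr, eps_sm s S (μ := 1 / 8) (by norm_num)] with n k1 k2 q d d0 hd hq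
  have e := e0 n
  have ρ0 := S.ρ0
  have m1 := wk_sub (L := L) (T := T) (ρ := ρ) (by linarith) (by linarith) (by linarith)
    (by linarith) (wk_sh (e := -ε n) (μ := 1 / 8) (d' := d / 2) hq
    (by rw [abs_neg]; exact k2 _ (by linarith [hq.1])) (by rw [abs_neg, abs_of_pos e]; linarith))
  have m2 := wk_sub (L := L) (T := T) (ρ := ρ) (by linarith) (by linarith) (by linarith) d0 hq
  have m3 := wk_sub (L := L) (T := T) (ρ := ρ) (by linarith) (by linarith) (by linarith)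
    (by linarith) (wk_sh (e := ε n) (μ := 1 / 8) (d' := d / 2) hq
    (k2 _ (by linarith [hq.1])) (by rw [abs_of_pos e]; linarith))
  rw [ofReal_neg, neg_mul, ← sub_eq_add_neg] at m1
  exact ⟨zt_an (k1.an _ m2) (k1.an _ m1), k1.mem m1, k1.mem m2, k1.law q.1 q.2 m1 m2 m3⟩

/-- closed parts of the wedges lie in a closed part of the limit wedge -/
theorem wk_ev (S : Loc 𝒰 ε θ h U a L T ρ K C v H b W H₀ b₀ F F₀) {d : ℝ} (d0 : 0 < d)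
    (L' T' : ℝ) : ∀ᶠ n in (𝒰 : Filter ℕ), Wk a L' T' (ρ / 2) K C (v n) (H n) (b n) d ⊆
      Wk a L' T' (3 * ρ / 4) K C W H₀ b₀ (d / 2) := by
  have ρ0 := S.ρ0
  filter_upwards [tw_lim S (lt_min (by linarith : 0 < d / 2) (by linarith : 0 < ρ / 4))]
    with n ⟨k2, k3⟩ q ⟨a1, a2, a3, a4⟩
  have e1 : ‖q.1 - W‖ ≤ 3 * ρ / 4 := by
    have := norm_sub_le_norm_sub_add_norm_sub q.1 (v n) W
    rw [← Complex.ofReal_sub, Complex.norm_real, Real.norm_eq_abs] at this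
    linarith [min_le_right (d / 2) (ρ / 4)]
  have e2 := abs_lt.1 ((k3 q.1 (by linarith)).trans_le (min_le_left _ _))
  exact ⟨e1, a2, a3, by linarith⟩

/-- the deep part: the true states follow the step maps -/
theorem deepS (s : Seq 𝒰 (fun j => (ε j : ℂ)) θ h Q c U g (Lo 0)) (z : NZ g (Lo 0))
    (S : Loc 𝒰 ε θ h U a L T ρ K C v H b W H₀ b₀ F F₀)
    (Fm : D.Fam g F₀ (Wd a L T ρ K C W H₀ b₀)) (ne : ∀ w ∈ ball (W : ℂ) ρ, w ≠ 0)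
    {Kc : Set (ℂ × ℂ)} (hK : IsCompact Kc) (sub : Kc ⊆ Wd a L T ρ K C W H₀ b₀) :
    ∃ B, ∀ᶠ n in (𝒰 : Filter ℕ), ∀ q ∈ Kc, AnalyticAt ℂ (Zt (ε n) (F n)) q ∧
      ‖Zt (ε n) (F n) q‖ ≤ B ∧
      TT (θ n) (h n) (ε n) (Zt (ε n) (F n) q) = Zt (ε n) (F n) (q.1, q.2 + ε n * q.1) ∧
      TB (θ n) (h n) (ε n) (Zt (ε n) (F n) q) = Zt (ε n) (F n) (q.1, q.2 - ε n * q.1) := by
  have tf := tf_of S
  obtain ⟨B, hB⟩ := hK.exists_bound_of_continuousOn ((z0_an tf.an₀ tf.op).continuousOn.mono sub)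
  refine ⟨B + 1, ?_⟩
  filter_upwards [tf.zu s.e0 s.el hK sub one_pos, tf.dyn s z hK sub fun q hq =>
    (jac s.dg tf.op Fm (sub hq) (ne _ (sub hq).1)).2.1] with n k1 k2 q hq
  refine ⟨(k1 q hq).1, ?_, k2 q hq⟩
  linarith [norm_le_norm_sub_add (Zt (ε n) (F n) q) (Z0 F₀ q), (k1 q hq).2, hB q hq]

/-- the gaps: the radius does not depend on the depth of the base points -/
theorem gapS (s : Seq 𝒰 (fun j => (ε j : ℂ)) θ h Q c U g (Lo 0)) (e0 : ∀ j, 0 < ε j)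
    (z : NZ g (Lo 0)) (S : Loc 𝒰 ε θ h U a L T ρ K C v H b W H₀ b₀ F F₀) {O : Set (ℂ × ℂ)}
    {Y : ℂ × ℂ → ℂ} (oO : IsOpen O) (Fm : D.Fam g Y O) (ne : ∀ q ∈ O, q.1 ≠ 0)
    (eq : ∀ q ∈ Wd a L T ρ K C W H₀ b₀, Y q = F₀ q) {Kg : Set (ℂ × ℂ)} (hG : IsCompact Kg)
    (sG : Kg ⊆ O) : ∃ r₀ A τ : ℝ, 0 < r₀ ∧ r₀ ≤ 1 ∧ 1 ≤ A ∧ 0 < τ ∧ ∀ Kc : Set (ℂ × ℂ),
      IsCompact Kc → Kc ⊆ Wd a L T ρ K C W H₀ b₀ → ∀ᶠ n in (𝒰 : Filter ℕ), ∀ q ∈ Kc, q ∈ Kg →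
      ∀ r a' : ℝ, r ≤ r₀ → A * ε n ≤ a' →
        Near (TT (θ n) (h n) (ε n)) (Zt (ε n) (F n) q) r a' ∧
        Near (TB (θ n) (h n) (ε n)) (Zt (ε n) (F n) q) r a' ∧
        (∀ y ∈ ball (Zt (ε n) (F n) q) r, TB (θ n) (h n) (ε n) (TT (θ n) (h n) (ε n) y) = y ∧
          TT (θ n) (h n) (ε n) (TB (θ n) (h n) (ε n) y) = y) ∧
        (Zt (ε n) (F n) q).1.im + r ≤ -τ := by
  have cZ : ContinuousOn (Z0 Y) Kg := (z0_an Fm.an oO).continuousOn.mono sG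
  obtain ⟨r, ρ', K', c', C', σ, r0, -, -, -, C1, σ0, σ1, -, hF⟩ := fon foC s z (hG.image_of_continuousOn cZ)
    (by rintro _ ⟨q, hq, rfl⟩; exact (jac s.dg oO Fm (sG hq) (ne q (sG hq))).2.1)
  obtain ⟨τ, τ0, hτ⟩ : ∃ τ > 0, ∀ q ∈ Kg, (Y q).im ≤ -τ := by
    rcases Kg.eq_empty_or_nonempty with rfl | hn
    · exact ⟨1, one_pos, fun _ h => h.elim⟩
    · obtain ⟨q, hq, m⟩ := hG.exists_isMaxOn hn (f := fun q => (Y q).im)
        (Complex.continuous_im.comp_continuousOn (Fm.an.continuousOn.mono sG))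
      exact ⟨-(Y q).im, by linarith [Fm.lo q (sG hq)], fun p hp => by simpa using m hp⟩
  have σ5 : σ ^ 5 ≤ 1 := pow_le_one₀ σ0.le σ1
  refine ⟨min (min (r / 2) (τ / 3)) 1, C' / σ ^ 5, τ / 3, by positivity, min_le_right _ _,
    by rw [le_div_iff₀ (by positivity)]; linarith, by positivity, fun Kc hK sub => ?_⟩
  have tf := tf_of S
  filter_upwards [hF, tf.zu s.e0 s.el hK sub (lt_min (by positivity : 0 < r / 2)
    (by positivity : 0 < τ / 3))] with n k1 k2 q hq hg r' a' h1 h2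
  have e : Z0 F₀ q = Z0 Y q := by
    have : F₀ =ᶠ[𝓝 q] Y := eventuallyEq_of_mem (tf.op.mem_nhds (sub hq)) fun p hp => (eq p hp).symm
    simp only [Z0, this.self_of_nhds, D.vv_congr this]
  have n1 := (k2 q hq).2
  rw [e] at n1
  have h3 := h1.trans ((min_le_left _ _).trans (min_le_left _ _))
  have h4 := h1.trans ((min_le_left _ _).trans (min_le_right _ _))
  have fo := fun y (hy : y ∈ ball (Zt (ε n) (F n) q) r') => (k1 y (ball_cth (mem_image_of_mem (Z0 Y) hg)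
    (n1.le.trans (min_le_left _ _)) (by linarith) hy)).2
  obtain ⟨N1, N2⟩ := near_of (s.e0 n) (by linarith) σ0 fo
  have ea : C' * ‖(ε n : ℂ)‖ / σ ^ 5 ≤ a' := by
    rw [Complex.norm_real, Real.norm_of_nonneg (e0 n).le]
    exact (le_of_eq (by ring)).trans h2
  refine ⟨⟨N1.a0.trans_le ea, N1.an, fun p hp => (N1.bd p hp).trans ea⟩,
    ⟨N2.a0.trans_le ea, N2.an, fun p hp => (N2.bd p hp).trans ea⟩,
    fun y hy => ⟨(fo y hy).BT, (fo y hy).TB'⟩, ?_⟩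
  have i1 := (abs_im_le_norm _).trans ((norm_fst_le _).trans (n1.le.trans (min_le_right _ _)))
  have i2 := hτ q hg
  simp only [Prod.fst_sub, sub_im, Z0] at i1
  linarith [(abs_le.1 i1).2]

end Vale.Agent.P097F.N
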